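import Mathlib

/-!
# S0069: relabelling lemma (pentagon of a hub in the complement of a facet)
-/

set_option autoImplicit false

namespace Crest.Agent.S69

open Finset

namespace Relabel

open scoped Classical in
theorem four {W : Finset (Fin 10)} (hW : W.card = 4) (E : Fin 10 → Prop)
    (h : ∀ x ∈ W, ∀ y ∈ W, ∀ z ∈ W, x ≠ y → x ≠ z → y ≠ z →
      (E x ∨ E y ∨ E z) ∧ ¬ (E x ∧ E y ∧ E z)) :
    (W.filter E).card = 2 := by
  have hsum : (W.filter E).card + (W.filter (fun x => ¬ E x)).card = 4 := by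
    rw [← hW]; exact card_filter_add_card_filter_not (s := W) E
  by_contra hne
  rcases Nat.lt_or_gt_of_ne hne with h1 | h1
  · have h2 : 2 < (W.filter (fun x => ¬ E x)).card := by omega
    obtain ⟨x, hx, y, hy, z, hz, hxy, hxz, hyz⟩ := two_lt_card.mp h2
    rw [mem_filter] at hx hy hz
    rcases (h x hx.1 y hy.1 z hz.1 hxy hxz hyz).1 with h | h | h
    · exact hx.2 h
    · exact hy.2 h
    · exact hz.2 h
  · obtain ⟨x, hx, y, hy, z, hz, hxy, hxz, hyz⟩ := two_lt_card.mp h1
    rw [mem_filter] at hx hy hz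
    exact (h x hx.1 y hy.1 z hz.1 hxy hxz hyz).2 ⟨hx.2, hy.2, hz.2⟩

open scoped Classical in
/-- a two-regular graph on five points is a pentagon, starting from any point -/
theorem pentagon {U : Finset (Fin 10)} (hU : U.card = 5) (E : Fin 10 → Fin 10 → Prop)
    (hs : ∀ a b, E a b → E b a)
    (hd : ∀ v ∈ U, ((U.erase v).filter (E v)).card = 2) {v4 : Fin 10} (h4 : v4 ∈ U) :
    ∃ v5 v6 v7 v8 : Fin 10, U = {v4, v5, v6, v7, v8} ∧
      E v4 v5 ∧ E v5 v6 ∧ E v6 v7 ∧ E v7 v8 ∧ E v8 v4 := by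
  obtain ⟨v5, v8, h58, hD4⟩ := card_eq_two.mp (hd v4 h4)
  have m5 : v5 ∈ (U.erase v4).filter (E v4) := by rw [hD4]; simp
  have m8 : v8 ∈ (U.erase v4).filter (E v4) := by rw [hD4]; simp
  rw [mem_filter, mem_erase] at m5 m8
  obtain ⟨⟨h54, h5⟩, E45⟩ := m5
  obtain ⟨⟨h84, h8⟩, E48⟩ := m8
  -- neighbours of v5
  have n4 : v4 ∈ (U.erase v5).filter (E v5) := by
    rw [mem_filter, mem_erase]; exact ⟨⟨Ne.symm h54, h4⟩, hs _ _ E45⟩
  obtain ⟨v6, m6, h64⟩ : ∃ v6 ∈ (U.erase v5).filter (E v5), v6 ≠ v4 :=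
    exists_mem_ne (by rw [hd v5 h5]; norm_num) v4
  have hD5 : (U.erase v5).filter (E v5) = {v4, v6} := by
    symm
    apply eq_of_subset_of_card_le
    · intro x hx
      simp only [mem_insert, mem_singleton] at hx
      rcases hx with rfl | rfl
      · exact n4
      · exact m6
    · rw [hd v5 h5, card_pair (Ne.symm h64)]
  rw [mem_filter, mem_erase] at m6
  obtain ⟨⟨h65, h6⟩, E56⟩ := m6
  -- an element outside `{v4, v5, a, b}` is not adjacent to `v4` nor `v5`
  have no4 : ∀ r ∈ U, r ≠ v4 → r ≠ v5 → r ≠ v8 → ¬ E r v4 := by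
    intro r hr h1 h2 h3 h
    have : r ∈ (U.erase v4).filter (E v4) := by
      rw [mem_filter, mem_erase]; exact ⟨⟨h1, hr⟩, hs _ _ h⟩
    rw [hD4] at this
    simp only [mem_insert, mem_singleton] at this
    tauto
  have no5 : ∀ r ∈ U, r ≠ v5 → r ≠ v4 → r ≠ v6 → ¬ E r v5 := by
    intro r hr h1 h2 h3 h
    have : r ∈ (U.erase v5).filter (E v5) := by
      rw [mem_filter, mem_erase]; exact ⟨⟨h1, hr⟩, hs _ _ h⟩
    rw [hD5] at this
    simp only [mem_insert, mem_singleton] at this
    tauto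
  have h68 : v6 ≠ v8 := by
    intro h68
    subst h68
    -- the triangle v4 v5 v6 closes up
    have hsub3 : ({v4, v5, v6} : Finset (Fin 10)) ⊆ U := by
      intro x hx
      simp only [mem_insert, mem_singleton] at hx
      rcases hx with rfl | rfl | rfl <;> assumption
    have hc3 : ({v4, v5, v6} : Finset (Fin 10)).card = 3 :=
      card_eq_three.mpr ⟨v4, v5, v6, Ne.symm h54, Ne.symm h84, h58, rfl⟩
    have hrest : (U \ {v4, v5, v6}).card = 2 := by
      rw [card_sdiff_of_subset hsub3, hU, hc3]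
    obtain ⟨r, s, hrs, hEq⟩ := card_eq_two.mp hrest
    have hr : r ∈ U \ {v4, v5, v6} := by rw [hEq]; simp
    simp only [mem_sdiff, mem_insert, mem_singleton, not_or] at hr
    have hD6 : (U.erase v6).filter (E v6) = {v4, v5} := by
      symm
      apply eq_of_subset_of_card_le
      · intro x hx
        simp only [mem_insert, mem_singleton] at hx
        rw [mem_filter, mem_erase]
        rcases hx with rfl | rfl
        · exact ⟨⟨Ne.symm h84, h4⟩, hs _ _ E48⟩
        · exact ⟨⟨h58, h5⟩, hs _ _ E56⟩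
      · rw [hd v6 h6, card_pair (Ne.symm h54)]
    have hsubr : (U.erase r).filter (E r) ⊆ {s} := by
      intro x hx
      rw [mem_filter, mem_erase] at hx
      obtain ⟨⟨hxr, hxU⟩, hE⟩ := hx
      by_contra hxs
      rw [mem_singleton] at hxs
      by_cases hx3 : x ∈ ({v4, v5, v6} : Finset (Fin 10))
      · simp only [mem_insert, mem_singleton] at hx3
        rcases hx3 with rfl | rfl | rfl
        · exact no4 r hr.1 hr.2.1 hr.2.2.1 hr.2.2.2 hE
        · exact no5 r hr.1 hr.2.2.1 hr.2.1 hr.2.2.2 hE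
        · have : r ∈ (U.erase x).filter (E x) := by
            rw [mem_filter, mem_erase]; exact ⟨⟨hr.2.2.2, hr.1⟩, hs _ _ hE⟩
          rw [hD6] at this
          simp only [mem_insert, mem_singleton] at this
          tauto
      · have : x ∈ U \ {v4, v5, v6} := mem_sdiff.mpr ⟨hxU, hx3⟩
        rw [hEq] at this
        simp only [mem_insert, mem_singleton] at this
        tauto
    have := card_le_card hsubr
    rw [hd r hr.1, card_singleton] at this
    omega
  -- the fifth point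
  have hsub4 : ({v4, v5, v6, v8} : Finset (Fin 10)) ⊆ U := by
    intro x hx
    simp only [mem_insert, mem_singleton] at hx
    rcases hx with rfl | rfl | rfl | rfl <;> assumption
  have hc4 : ({v4, v5, v6, v8} : Finset (Fin 10)).card = 4 := by
    rw [card_insert_of_notMem, card_eq_three.mpr ⟨v5, v6, v8, Ne.symm h65, h58, h68, rfl⟩]
    simp only [mem_insert, mem_singleton, not_or]
    exact ⟨Ne.symm h54, Ne.symm h64, Ne.symm h84⟩
  have hrest : (U \ {v4, v5, v6, v8}).card = 1 := by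
    rw [card_sdiff_of_subset hsub4, hU, hc4]
  obtain ⟨v7, hEq⟩ := card_eq_one.mp hrest
  have m7 : v7 ∈ U \ {v4, v5, v6, v8} := by rw [hEq]; simp
  simp only [mem_sdiff, mem_insert, mem_singleton, not_or] at m7
  obtain ⟨h7, h74, h75, h76, h78⟩ := m7
  have hUeq : U = {v4, v5, v6, v7, v8} := by
    ext x
    constructor
    · intro hx
      by_cases hx4 : x ∈ ({v4, v5, v6, v8} : Finset (Fin 10))
      · simp only [mem_insert, mem_singleton] at hx4 ⊢
        tauto
      · have : x ∈ U \ {v4, v5, v6, v8} := mem_sdiff.mpr ⟨hx, hx4⟩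
        rw [hEq, mem_singleton] at this
        simp [this]
    · intro hx
      simp only [mem_insert, mem_singleton] at hx
      rcases hx with rfl | rfl | rfl | rfl | rfl <;> assumption
  have hD7 : (U.erase v7).filter (E v7) = {v6, v8} := by
    apply eq_of_subset_of_card_le
    · intro x hx
      rw [mem_filter, mem_erase] at hx
      obtain ⟨⟨hx7, hxU⟩, hE⟩ := hx
      rw [hUeq] at hxU
      simp only [mem_insert, mem_singleton] at hxU ⊢
      rcases hxU with rfl | rfl | rfl | rfl | rfl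
      · exact absurd hE (no4 v7 h7 h74 h75 h78)
      · exact absurd hE (no5 v7 h7 h75 h74 h76)
      · exact Or.inl rfl
      · exact absurd rfl hx7
      · exact Or.inr rfl
    · rw [hd v7 h7, card_pair h68]
  have m6' : v6 ∈ (U.erase v7).filter (E v7) := by rw [hD7]; simp
  have m8' : v8 ∈ (U.erase v7).filter (E v7) := by rw [hD7]; simp
  rw [mem_filter] at m6' m8'
  exact ⟨v5, v6, v7, v8, hUeq, E45, E56, hs _ _ m6'.2, m8'.2, hs _ _ E48⟩

end Relabel

open Relabel

/-- **Relabelling lemma.** -/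
theorem relabel (R : Finset (Fin 10) → Prop) (S : Finset (Fin 10)) (hS : S.card = 4)
    {l hub : Fin 10} (hl : l ∈ S) (hhub : hub ∈ Sᶜ)
    (h4 : ∀ a ∈ Sᶜ, ∀ b ∈ Sᶜ, a ≠ b → ∀ x ∈ Sᶜ \ {a, b}, ∀ y ∈ Sᶜ \ {a, b}, ∀ z ∈ Sᶜ \ {a, b},
      x ≠ y → x ≠ z → y ≠ z →
      (R {a, b, x} ∨ R {a, b, y} ∨ R {a, b, z}) ∧ ¬ (R {a, b, x} ∧ R {a, b, y} ∧ R {a, b, z})) :
    ∃ e : Equiv.Perm (Fin 10), e 3 = l ∧ e 9 = hub ∧ S = {e 0, e 1, e 2, e 3} ∧
      R {e 9, e 4, e 5} ∧ R {e 9, e 5, e 6} ∧ R {e 9, e 6, e 7} ∧ R {e 9, e 7, e 8} ∧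
      R {e 9, e 8, e 4} := by
  classical
  have hT : (Sᶜ : Finset (Fin 10)).card = 6 := by rw [card_compl, Fintype.card_fin, hS]
  have hU : (Sᶜ.erase hub).card = 5 := by rw [card_erase_of_mem hhub, hT]
  obtain ⟨v4, hv4⟩ : (Sᶜ.erase hub).Nonempty := card_pos.mp (by omega)
  obtain ⟨v5, v6, v7, v8, hUeq, E45, E56, E67, E78, E84⟩ := pentagon hU (fun a b => R {hub, a, b})
    (fun a b h => by
      rwa [show ({hub, b, a} : Finset (Fin 10)) = {hub, a, b} by rw [Finset.pair_comm b a]])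
    (by
      intro v hv
      have hvh : v ≠ hub := (mem_erase.mp hv).1
      have hvT : v ∈ Sᶜ := (mem_erase.mp hv).2
      have hEq : (Sᶜ.erase hub).erase v = Sᶜ \ {hub, v} := by
        ext x
        simp only [mem_erase, mem_sdiff, mem_insert, mem_singleton, not_or]
        tauto
      refine four ?_ _ ?_
      · rw [card_erase_of_mem hv, hU]
      · rw [hEq]
        exact h4 hub hhub v hvT (Ne.symm hvh)) hv4
  have h3 : (S.erase l).card = 3 := by rw [card_erase_of_mem hl, hS]
  obtain ⟨s0, s1, s2, -, -, -, hSeq⟩ := card_eq_three.mp h3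
  have hS' : S = {s0, s1, s2, l} := by
    rw [← insert_erase hl, hSeq]
    ext x
    simp only [mem_insert, mem_singleton]
    tauto
  let f : Fin 10 → Fin 10 := ![s0, s1, s2, l, v4, v5, v6, v7, v8, hub]
  have hsurj : Function.Surjective f := by
    intro x
    by_cases hx : x ∈ S
    · rw [hS'] at hx
      simp only [mem_insert, mem_singleton] at hx
      rcases hx with rfl | rfl | rfl | rfl
      · exact ⟨0, rfl⟩
      · exact ⟨1, rfl⟩
      · exact ⟨2, rfl⟩
      · exact ⟨3, rfl⟩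
    · by_cases hxh : x = hub
      · exact ⟨9, hxh.symm⟩
      · have : x ∈ Sᶜ.erase hub := mem_erase.mpr ⟨hxh, mem_compl.mpr hx⟩
        rw [hUeq] at this
        simp only [mem_insert, mem_singleton] at this
        rcases this with rfl | rfl | rfl | rfl | rfl
        · exact ⟨4, rfl⟩
        · exact ⟨5, rfl⟩
        · exact ⟨6, rfl⟩
        · exact ⟨7, rfl⟩
        · exact ⟨8, rfl⟩
  have hbij : Function.Bijective f := Finite.surjective_iff_bijective.mp hsurj
  refine ⟨Equiv.ofBijective f hbij, rfl, rfl, hS', E45, E56, E67, E78, E84⟩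

end Crest.Agent.S69
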