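import Crest.Agent.S69.EndDataA
import Crest.Agent.S69.EndDataB
import Crest.Agent.S69.Relabel

set_option autoImplicit false

/-!
# S0069: the finite end game, conclusion
-/
namespace Crest.Agent.S69.EndSat

theorem refA {R F : Finset (Fin 10) → Prop} (H : Hyp R F) (h0 : F (fs 15)) (h2 : F (fs 519))
    (h1 : R (fs 560) ∧ R (fs 608) ∧ R (fs 704) ∧ R (fs 896) ∧ R (fs 784)) : False := by
  -- in certificate A there is no `ns` input
  have hok : ∀ x : Inp, (∀ t a b ma mb, x ≠ .ns t a b ma mb) → okI x = true →
      Sat (fun m => R (fs m)) (fun m => F (fs m)) (clauseOf x) := by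
    intro x hx h
    exact ok_sound H h0 h1 x h ⟨fun _ _ => h2, fun t a b ma mb e => absurd e (hx t a b ma mb)⟩
  have hns : ∀ x ∈ inpA, ∀ t a b ma mb, x ≠ .ns t a b ma mb := by
    have hb : inpA.all (fun x => match x with | .ns _ _ _ _ _ => false | _ => true) = true := by
      decide +kernel
    intro x hx t a b ma mb e
    have := List.all_eq_true.1 hb x hx
    rw [e] at this
    simp at this
  have hin : ∀ (xs : List Inp), (∀ x ∈ xs, ∀ t a b ma mb, x ≠ .ns t a b ma mb) →
      ∀ i, chkInps trA i xs = true → ∀ j, i ≤ j → j < i + xs.length →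
        Sat (fun m => R (fs m)) (fun m => F (fs m)) (look trA j) := by
    intro xs
    induction xs with
    | nil => intro _ i _ j h1 h2; simp at h2; omega
    | cons x xs ih =>
      intro hns i h j h1 h2
      rw [chkInps, Bool.and_eq_true, Bool.and_eq_true] at h
      obtain ⟨⟨ha, hb⟩, hc⟩ := h
      rcases Nat.eq_or_lt_of_le h1 with h1 | h1
      · rw [← h1, leq_spec _ _ hb]; exact hok x (hns x (by simp)) ha
      · exact ih (fun y hy => hns y (by simp [hy])) (i + 1) hc j h1 (by simp at h2; omega)
  have h3 := chkSteps_sound (fun m => R (fs m)) (fun m => F (fs m)) trA stA 276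
    (fun j hj => hin inpA hns 0 chkA1 j (by omega) (by rw [lenA1]; omega)) chkA2
  have h4 := h3 410 (by rw [lenA2]; omega)
  rw [leq_spec _ _ chkA3] at h4
  obtain ⟨l, hl, _⟩ := h4
  simp at hl

theorem refB {R F : Finset (Fin 10) → Prop} (H : Hyp R F) (h0 : F (fs 15))
    (h1 : R (fs 560) ∧ R (fs 608) ∧ R (fs 704) ∧ R (fs 896) ∧ R (fs 784))
    (hns : ∀ (t : Finset (Fin 10)) x y, t.card = 3 → x ∉ t → y ∉ t → x ≠ y →
      ¬ F (insert x t) ∨ ¬ F (insert y t)) : False := by
  have hok : ∀ x : Inp, (∀ S, x ≠ .u2 S) → okI x = true →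
      Sat (fun m => R (fs m)) (fun m => F (fs m)) (clauseOf x) := by
    intro x hx h
    exact ok_sound H h0 h1 x h ⟨fun S e => absurd e (hx S), fun _ _ _ _ _ _ => hns⟩
  have hu : ∀ x ∈ inpB, ∀ S, x ≠ .u2 S := by
    have hb : inpB.all (fun x => match x with | .u2 _ => false | _ => true) = true := by
      decide +kernel
    intro x hx S e
    have := List.all_eq_true.1 hb x hx
    rw [e] at this
    simp at this
  have hin : ∀ (xs : List Inp), (∀ x ∈ xs, ∀ S, x ≠ .u2 S) →
      ∀ i, chkInps trB i xs = true → ∀ j, i ≤ j → j < i + xs.length →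
        Sat (fun m => R (fs m)) (fun m => F (fs m)) (look trB j) := by
    intro xs
    induction xs with
    | nil => intro _ i _ j h1 h2; simp at h2; omega
    | cons x xs ih =>
      intro hns i h j h1 h2
      rw [chkInps, Bool.and_eq_true, Bool.and_eq_true] at h
      obtain ⟨⟨ha, hb⟩, hc⟩ := h
      rcases Nat.eq_or_lt_of_le h1 with h1 | h1
      · rw [← h1, leq_spec _ _ hb]; exact hok x (hns x (by simp)) ha
      · exact ih (fun y hy => hns y (by simp [hy])) (i + 1) hc j h1 (by simp at h2; omega)
  have h3 := chkSteps_sound (fun m => R (fs m)) (fun m => F (fs m)) trB stB 988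
    (fun j hj => hin inpB hu 0 chkB1 j (by omega) (by rw [lenB1]; omega)) chkB2
  have h4 := h3 1252 (by rw [lenB2]; omega)
  rw [leq_spec _ _ chkB3] at h4
  obtain ⟨l, hl, _⟩ := h4
  simp at hl

theorem map3 (e : Equiv.Perm (Fin 10)) (a b c : Fin 10) :
    Finset.map e.toEmbedding {a, b, c} = {e a, e b, e c} := by
  simp [Finset.map_insert]

theorem Hyp.map {R F : Finset (Fin 10) → Prop} (H : Hyp R F) (e : Equiv.Perm (Fin 10)) :
    Hyp (fun s => R (s.map e.toEmbedding)) (fun s => F (s.map e.toEmbedding)) := by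
  have hc : ∀ S : Finset (Fin 10), (Sᶜ).map e.toEmbedding = (S.map e.toEmbedding)ᶜ := by
    intro S; ext i; simp [Finset.mem_map_equiv]
  have hd : ∀ S t : Finset (Fin 10), (S \ t).map e.toEmbedding =
      (S.map e.toEmbedding) \ (t.map e.toEmbedding) := by
    intro S t; ext i; simp [Finset.mem_map_equiv]
  have hm : ∀ (S : Finset (Fin 10)) a, a ∉ S → e a ∉ S.map e.toEmbedding := by
    intro S a h; simpa [Finset.mem_map_equiv] using h
  refine ⟨?_, ?_, ?_, ?_⟩
  · intro S hS hF t ht h3
    exact H.h2 _ (by rw [Finset.card_map]; exact hS) hF _ (Finset.map_subset_map.2 ht)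
      (by rw [Finset.card_map]; exact h3)
  · intro S hS hF t ht h3
    have := H.h3 _ (by rw [Finset.card_map]; exact hS) hF (t.map e.toEmbedding)
      (by rw [← hc]; exact Finset.map_subset_map.2 ht) (by rw [Finset.card_map]; exact h3)
    rw [← hc, ← hd] at this
    exact this
  · intro S hS hF a b x y z ha hb hx hy hz h1 h2 h3 h4 h5 h6 h7 h8 h9 h10
    simp only [map3]
    exact H.h4 _ (by rw [Finset.card_map]; exact hS) hF (e a) (e b) (e x) (e y) (e z)
      (hm _ _ ha) (hm _ _ hb) (hm _ _ hx) (hm _ _ hy) (hm _ _ hz)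
      (e.injective.ne h1) (e.injective.ne h2) (e.injective.ne h3) (e.injective.ne h4)
      (e.injective.ne h5) (e.injective.ne h6) (e.injective.ne h7) (e.injective.ne h8)
      (e.injective.ne h9) (e.injective.ne h10)
  · intro S hS hF t ht h3 hR
    obtain ⟨s, hs, hFs⟩ := H.h5 _ (by rw [Finset.card_map]; exact hS) hF (t.map e.toEmbedding)
      (by rw [← hc]; exact Finset.map_subset_map.2 ht) (by rw [Finset.card_map]; exact h3) hR
    refine ⟨e.symm s, ?_, ?_⟩
    · simpa [Finset.mem_map_equiv] using hs
    · rw [Finset.map_insert]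
      simpa using hFs

theorem endsat (R F : Finset (Fin 10) → Prop)
    (ex : ∃ s : Finset (Fin 10), s.card = 4 ∧ F s)
    (sub : ∀ s : Finset (Fin 10), s.card = 4 → F s → ∀ t ⊆ s, t.card = 3 → R t)
    (comp : ∀ s : Finset (Fin 10), s.card = 4 → F s → ∀ t ⊆ sᶜ, t.card = 3 →
      (R t ↔ ¬ R (sᶜ \ t)))
    (deg : ∀ s : Finset (Fin 10), s.card = 4 → F s → ∀ a ∈ sᶜ, ∀ b ∈ sᶜ, a ≠ b →
      (open scoped Classical in ((sᶜ \ {a, b}).filter (fun k => R {a, b, k})).card) = 2)
    (ext : ∀ s : Finset (Fin 10), s.card = 4 → F s → ∀ t ⊆ sᶜ, t.card = 3 → R t →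
      ∃ m ∉ t, F (insert m t)) : False := by
  classical
  have H : Hyp R F := by
    refine ⟨sub, comp, ?_, ext⟩
    intro S hS hF a b x y z ha hb hx hy hz h1 h2 h3 h4 h5 h6 h7 h8 h9 h10
    have hdeg := deg S hS hF a (by simpa using ha) b (by simpa using hb) h1
    have hU : (Sᶜ \ {a, b}).card = 4 := by
      rw [Finset.card_sdiff_of_subset, Finset.card_compl, hS, Finset.card_pair h1]
      · rfl
      · intro i hi
        simp only [Finset.mem_insert, Finset.mem_singleton] at hi
        rcases hi with rfl | rfl <;> simpa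
    have hxyz : ({x, y, z} : Finset (Fin 10)).card = 3 := by
      rw [Finset.card_insert_of_notMem, Finset.card_pair h10]
      simp [h8, h9]
    have hsub : ({x, y, z} : Finset (Fin 10)) ⊆ Sᶜ \ {a, b} := by
      intro i hi
      simp only [Finset.mem_insert, Finset.mem_singleton] at hi
      rcases hi with rfl | rfl | rfl
      · simp [hx, h2.symm, h5.symm]
      · simp [hy, h3.symm, h6.symm]
      · simp [hz, h4.symm, h7.symm]
    constructor
    · by_contra hcon
      push Not at hcon
      have h11 : (Sᶜ \ {a, b}).filter (fun k => R {a, b, k}) ⊆ (Sᶜ \ {a, b}) \ {x, y, z} := by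
        intro i hi
        rw [Finset.mem_filter] at hi
        rw [Finset.mem_sdiff]
        refine ⟨hi.1, ?_⟩
        intro h
        simp only [Finset.mem_insert, Finset.mem_singleton] at h
        rcases h with h | h | h
        · rw [h] at hi; exact hcon.1 hi.2
        · rw [h] at hi; exact hcon.2.1 hi.2
        · rw [h] at hi; exact hcon.2.2 hi.2
      have := Finset.card_le_card h11
      rw [Finset.card_sdiff_of_subset hsub, hU, hxyz] at this
      have h12 : 2 ≤ 4 - 3 := by
        refine le_trans (le_of_eq ?_) this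
        rw [← hdeg]
      omega
    · rintro ⟨r1, r2, r3⟩
      have h11 : ({x, y, z} : Finset (Fin 10)) ⊆ (Sᶜ \ {a, b}).filter (fun k => R {a, b, k}) := by
        intro i hi
        rw [Finset.mem_filter]
        refine ⟨hsub hi, ?_⟩
        simp only [Finset.mem_insert, Finset.mem_singleton] at hi
        rcases hi with h | h | h
        · rw [h]; exact r1
        · rw [h]; exact r2
        · rw [h]; exact r3
      have := Finset.card_le_card h11
      rw [hxyz] at this
      have h12 : 3 ≤ 2 := by
        refine le_trans this (le_of_eq ?_)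
        rw [← hdeg]
      omega
  have f15 : fs 15 = {0, 1, 2, 3} := by decide
  have f519 : fs 519 = {0, 1, 2, 9} := by decide
  have f560 : fs 560 = {9, 4, 5} := by decide
  have f608 : fs 608 = {9, 5, 6} := by decide
  have f704 : fs 704 = {9, 6, 7} := by decide
  have f896 : fs 896 = {9, 7, 8} := by decide
  have f784 : fs 784 = {9, 8, 4} := by decide
  have main : ∀ S : Finset (Fin 10), S.card = 4 → F S → ∀ l ∈ S, ∀ hub ∈ Sᶜ,
      ∃ e : Equiv.Perm (Fin 10), e 3 = l ∧ e 9 = hub ∧ S = {e 0, e 1, e 2, e 3} ∧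
      R {e 9, e 4, e 5} ∧ R {e 9, e 5, e 6} ∧ R {e 9, e 6, e 7} ∧ R {e 9, e 7, e 8} ∧
      R {e 9, e 8, e 4} := by
    intro S hS hF l hl hub hhub
    refine relabel R S hS hl hhub ?_
    intro a ha b hb hab x hx y hy z hz hxy hxz hyz
    rw [Finset.mem_sdiff, Finset.mem_insert, Finset.mem_singleton] at hx hy hz
    rw [Finset.mem_compl] at ha hb
    have hx1 := hx.1; have hy1 := hy.1; have hz1 := hz.1
    rw [Finset.mem_compl] at hx1 hy1 hz1
    have hx2 := hx.2; have hy2 := hy.2; have hz2 := hz.2
    push Not at hx2 hy2 hz2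
    exact H.h4 S hS hF a b x y z ha hb hx1 hy1 hz1 hab (Ne.symm hx2.1) (Ne.symm hy2.1)
      (Ne.symm hz2.1) (Ne.symm hx2.2) (Ne.symm hy2.2) (Ne.symm hz2.2) hxy hxz hyz
  by_cases hadj : ∃ (t : Finset (Fin 10)) (x y : Fin 10), t.card = 3 ∧ x ∉ t ∧ y ∉ t ∧ x ≠ y ∧
      F (insert x t) ∧ F (insert y t)
  · obtain ⟨t, x, y, ht, hx, hy, hxy, hFx, hFy⟩ := hadj
    have hS : (insert x t).card = 4 := by rw [Finset.card_insert_of_notMem hx, ht]
    obtain ⟨e, e3, e9, hSe, r1, r2, r3, r4, r5⟩ := main (insert x t) hS hFx x (by simp) y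
      (by simp [hy, hxy.symm])
    refine refA (H.map e) ?_ ?_ ?_
    · show F ((fs 15).map e.toEmbedding)
      rw [f15]
      convert hFx using 1
      rw [hSe]
      simp [Finset.map_insert]
    · show F ((fs 519).map e.toEmbedding)
      rw [f519]
      convert hFy using 1
      have ht' : t = {e 0, e 1, e 2} := by
        have h1 : t = (insert x t).erase x := by rw [Finset.erase_insert hx]
        rw [h1, hSe, ← e3]
        ext i
        simp only [Finset.mem_erase, Finset.mem_insert, Finset.mem_singleton]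
        constructor
        · rintro ⟨h, h' | h' | h' | h'⟩
          · exact Or.inl h'
          · exact Or.inr (Or.inl h')
          · exact Or.inr (Or.inr h')
          · exact absurd h' h
        · rintro (h | h | h)
          · exact ⟨by rw [h]; exact e.injective.ne (by decide), Or.inl h⟩
          · exact ⟨by rw [h]; exact e.injective.ne (by decide), Or.inr (Or.inl h)⟩
          · exact ⟨by rw [h]; exact e.injective.ne (by decide), Or.inr (Or.inr (Or.inl h))⟩
      rw [ht', ← e9]
      ext i
      simp only [Finset.map_insert, Finset.map_singleton, Equiv.coe_toEmbedding, Finset.mem_insert,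
        Finset.mem_singleton]
      tauto
    · show R ((fs 560).map e.toEmbedding) ∧ R ((fs 608).map e.toEmbedding) ∧
        R ((fs 704).map e.toEmbedding) ∧ R ((fs 896).map e.toEmbedding) ∧
        R ((fs 784).map e.toEmbedding)
      rw [f560, f608, f704, f896, f784, map3, map3, map3, map3, map3]
      exact ⟨r1, r2, r3, r4, r5⟩
  · obtain ⟨S, hS, hF⟩ := ex
    obtain ⟨l, hl⟩ := Finset.card_pos.1 (by rw [hS]; norm_num : 0 < S.card)
    obtain ⟨hub, hhub⟩ := Finset.card_pos.1 (by rw [Finset.card_compl, hS]; decide : 0 < (Sᶜ).card)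
    obtain ⟨e, e3, e9, hSe, r1, r2, r3, r4, r5⟩ := main S hS hF l hl hub hhub
    refine refB (H.map e) ?_ ?_ ?_
    · show F ((fs 15).map e.toEmbedding)
      rw [f15]
      convert hF using 1
      rw [hSe]
      simp [Finset.map_insert]
    · show R ((fs 560).map e.toEmbedding) ∧ R ((fs 608).map e.toEmbedding) ∧
        R ((fs 704).map e.toEmbedding) ∧ R ((fs 896).map e.toEmbedding) ∧
        R ((fs 784).map e.toEmbedding)
      rw [f560, f608, f704, f896, f784, map3, map3, map3, map3, map3]
      exact ⟨r1, r2, r3, r4, r5⟩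
    · intro t x y ht hx hy hxy
      by_contra hcon
      push Not at hcon
      apply hadj
      refine ⟨t.map e.toEmbedding, e x, e y, by rw [Finset.card_map]; exact ht,
        by simpa [Finset.mem_map_equiv] using hx, by simpa [Finset.mem_map_equiv] using hy,
        e.injective.ne hxy, ?_, ?_⟩
      · have := hcon.1
        rw [Finset.map_insert] at this
        exact this
      · have := hcon.2
        rw [Finset.map_insert] at this
        exact this

end Crest.Agent.S69.EndSat
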