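import Crest.Agent.BU.Basic

set_option autoImplicit false

/-!
# Colour cochains and their coboundary
-/
namespace Crest.Agent.S69

open Crest.Agent.BU

variable {U : Type*} {C : Type*}

namespace ChiA

/-! ## general facts on coboundaries -/

theorem cbd_nil (q : List U → ZMod 2) : cbd q [] = 0 := by simp [cbd, bdL]

theorem cbd_cons (q : List U → ZMod 2) (v : U) (l : List U) :
    cbd q (v :: l) = q l + cbd (fun m => q (v :: m)) l := by
  simp only [cbd, bdL, map_add, ev_sg, ev_cons]

theorem cbd_zero (l : List U) : cbd (fun _ => (0 : ZMod 2)) l = 0 := by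
  induction l with
  | nil => exact cbd_nil _
  | cons v l ih => rw [cbd_cons, ih, add_zero]

theorem cbd_congr {q q' : List U → ZMod 2} (h : ∀ l, q l = q' l) (l : List U) :
    cbd q l = cbd q' l := by
  have : q = q' := funext h
  rw [this]

theorem cbd_add (q q' : List U → ZMod 2) (l : List U) :
    cbd (fun m => q m + q' m) l = cbd q l + cbd q' l := by
  unfold cbd; exact ev_add_fun q q' _

theorem cbd_const_mul (a : ZMod 2) (q : List U → ZMod 2) (l : List U) :
    cbd (fun m => a * q m) l = a * cbd q l := by
  unfold cbd; exact ev_const_mul a q _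

/-- evaluation of a coboundary on a cycle -/
theorem ev_cbd_cycle {Z : Ch U} (hZ : bd Z = 0) (q : List U → ZMod 2) : ev (cbd q) Z = 0 := by
  rw [← ev_bd, hZ, map_zero]

theorem ev_sum_fun {ι : Type*} (s : Finset ι) (q : ι → List U → ZMod 2) (c : Ch U) :
    ev (fun l => ∑ i ∈ s, q i l) c = ∑ i ∈ s, ev (q i) c := by
  classical
  induction s using Finset.induction_on with
  | empty =>
    simp only [Finset.sum_empty]
    exact ev_eq_zero (P := fun _ => True) (fun _ _ => rfl) (by
      rw [supp, Finsupp.mem_supported]; intro x _; trivial)
  | insert i s hi ih =>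
    simp only [Finset.sum_insert hi]
    rw [ev_add_fun, ih]


end ChiA

open ChiA

variable [DecidableEq C]

/-! ## colour cochains -/

/-- the indicator of the lists with colour set `P` and without repeated colours -/
def chi (g : U → C) (P : Finset C) (l : List U) : ZMod 2 :=
  if (l.map g).toFinset = P ∧ l.length = P.card then 1 else 0

theorem chi_nil (g : U → C) (P : Finset C) : chi g P [] = if P = ∅ then 1 else 0 := by
  unfold chi
  by_cases h : P = ∅
  · subst h; simp
  · rw [if_neg h, if_neg]
    rintro ⟨h1, -⟩
    exact h (by simpa using h1.symm)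

theorem length_ge_card (g : U → C) (l : List U) : (l.map g).toFinset.card ≤ l.length := by
  have := List.toFinset_card_le (l.map g)
  simpa using this

theorem chi_cons (g : U → C) (P : Finset C) (v : U) (l : List U) :
    chi g P (v :: l) = if g v ∈ P then chi g (P.erase (g v)) l else 0 := by
  unfold chi
  by_cases hv : g v ∈ P
  · rw [if_pos hv]
    have hc : 0 < P.card := Finset.card_pos.2 ⟨_, hv⟩
    congr 1
    apply propext
    constructor
    · rintro ⟨h1, h2⟩
      simp only [List.map_cons, List.toFinset_cons, List.length_cons] at h1 h2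
      have hlen : l.length = (P.erase (g v)).card := by rw [Finset.card_erase_of_mem hv]; omega
      refine ⟨?_, hlen⟩
      have hnot : g v ∉ (l.map g).toFinset := by
        intro hmem
        rw [Finset.insert_eq_of_mem hmem] at h1
        have := length_ge_card g l
        rw [h1] at this; omega
      rw [← h1, Finset.erase_insert hnot]
    · rintro ⟨h1, h2⟩
      simp only [List.map_cons, List.toFinset_cons, List.length_cons]
      rw [h1, Finset.insert_erase hv]
      refine ⟨rfl, ?_⟩
      rw [h2, Finset.card_erase_of_mem hv]; omega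
  · rw [if_neg hv, if_neg]
    rintro ⟨h1, -⟩
    apply hv
    rw [← h1]; simp

/-- coboundary of a colour cochain -/
theorem cbd_chi [Fintype C] (g : U → C) (P : Finset C) (l : List U) :
    cbd (chi g P) l = ∑ m ∈ Pᶜ, chi g (insert m P) l := by
  induction l generalizing P with
  | nil =>
    rw [cbd_nil]
    symm
    apply Finset.sum_eq_zero
    intro m _
    rw [chi_nil, if_neg (Finset.insert_ne_empty m P)]
  | cons v l ih =>
    rw [cbd_cons, cbd_congr (fun m => chi_cons g P v m) l]
    by_cases hv : g v ∈ P
    · simp only [if_pos hv]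
      rw [ih]
      have h1 : (P.erase (g v))ᶜ = insert (g v) Pᶜ := by
        ext x; by_cases hx : x = g v
        · subst hx; simp
        · simp [hx]
      have h2 : g v ∉ Pᶜ := by simpa using hv
      rw [h1, Finset.sum_insert h2, Finset.insert_erase hv, ← add_assoc, add_self2, zero_add]
      refine Finset.sum_congr rfl fun m hm => ?_
      have hm' : m ∉ P := by simpa using hm
      have hne : g v ≠ m := fun h => hm' (h ▸ hv)
      rw [chi_cons, if_pos (Finset.mem_insert_of_mem hv), Finset.erase_insert_of_ne hne.symm]
    · simp only [if_neg hv]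
      rw [cbd_zero, add_zero]
      have h2 : g v ∈ Pᶜ := by simpa using hv
      rw [Finset.sum_eq_single_of_mem (g v) h2]
      · rw [chi_cons, if_pos (Finset.mem_insert_self _ _), Finset.erase_insert hv]
      · intro m _ hne
        rw [chi_cons, if_neg]
        intro hmem
        rcases Finset.mem_insert.1 hmem with h | h
        · exact hne h.symm
        · exact hv h

/-- `chi` only depends on the colours -/
theorem chi_map {U' : Type*} (g : U → C) (φ : U' → U) (P : Finset C) (l : List U') :
    chi g P (l.map φ) = chi (fun x => g (φ x)) P l := by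
  unfold chi
  simp [List.map_map, Function.comp_def]

theorem chi_congr {g g' : U → C} {l : List U} (h : ∀ v ∈ l, g v = g' v) (P : Finset C) :
    chi g P l = chi g' P l := by
  unfold chi
  have : l.map g = l.map g' := List.map_congr_left h
  rw [this]

/-- an even colouring gives an even cochain -/
theorem chi_even {g : U → C} {T : U → U} {l : List U} (h : ∀ v ∈ l, g (T v) = g v)
    (P : Finset C) : chi g P (l.map T) = chi g P l := by
  rw [chi_map]
  exact chi_congr h P

theorem chi_eq_one {g : U → C} {P : Finset C} {l : List U} (h1 : (l.map g).toFinset = P)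
    (h2 : l.length = P.card) : chi g P l = 1 := if_pos ⟨h1, h2⟩

theorem chi_ne_zero {g : U → C} {P : Finset C} {l : List U} (h : chi g P l ≠ 0) :
    (l.map g).toFinset = P ∧ l.length = P.card := by
  by_contra hc
  exact h (if_neg hc)

/-- every colour of `P` occurs in a list with `chi g P l ≠ 0`, and no other colour -/
theorem chi_mem {g : U → C} {P : Finset C} {l : List U} (h : chi g P l ≠ 0) (k : C) :
    k ∈ P ↔ ∃ v ∈ l, g v = k := by
  rw [← (chi_ne_zero h).1]; simp

theorem chi_card_ne {g : U → C} {P : Finset C} {l : List U} (h : l.length ≠ P.card) :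
    chi g P l = 0 := if_neg (fun hc => h hc.2)

theorem chi_nodup {g : U → C} {P : Finset C} {l : List U} (h : chi g P l ≠ 0) :
    (l.map g).Nodup := by
  obtain ⟨h1, h2⟩ := chi_ne_zero h
  rw [← Multiset.coe_nodup, ← Multiset.toFinset_card_eq_card_iff_nodup]
  have e : ((l.map g : List C) : Multiset C).toFinset = (l.map g).toFinset := rfl
  rw [e, h1, Multiset.coe_card, List.length_map, h2]

theorem cbd_chi_apply [Fintype C] (g : U → C) (P : Finset C) (c : Ch U) :
    ev (chi g P) (bd c) = ∑ m ∈ Pᶜ, ev (chi g (insert m P)) c := by
  rw [ev_bd, ev_congr_fun (cbd_chi g P), ev_sum_fun]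

end Crest.Agent.S69
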