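import Mathlib

set_option autoImplicit false

/-!
# S0069: common definitions
-/
namespace Crest.Agent.S69

open scoped RealInnerProductSpace

abbrev E4 := EuclideanSpace ℝ (Fin 4)
abbrev E3 := EuclideanSpace ℝ (Fin 3)

/-- an even colouring in which equal colours are uniformly non-orthogonal -/
structure Col (c : E4 → Fin 10) (d : ℝ) : Prop where
  even : ∀ x, c (-x) = c x
  pos : 0 < d
  sep : ∀ x y, ‖x‖ = 1 → ‖y‖ = 1 → c x = c y → d ≤ |⟪x, y⟫|

/-- all colours of `s` occur within distance `ε` of `x` -/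
def Near (c : E4 → Fin 10) (ε : ℝ) (x : E4) (s : Finset (Fin 10)) : Prop :=
  ∀ k ∈ s, ∃ p : E4, ‖p‖ = 1 ∧ ‖x - p‖ ≤ ε ∧ c p = k

/-- realised colour sets -/
def Real (c : E4 → Fin 10) (ε : ℝ) (s : Finset (Fin 10)) : Prop :=
  ∃ x : E4, ‖x‖ = 1 ∧ Near c ε x s

end Crest.Agent.S69
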