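import Crest.Agent.S69.Defs

set_option autoImplicit false

namespace Crest.Agent.S69

open scoped RealInnerProductSpace

theorem near_mono {c : EuclideanSpace ℝ (Fin 4) → Fin 10} {ε ε' : ℝ}
    {x : EuclideanSpace ℝ (Fin 4)} {s s' : Finset (Fin 10)} (h : Near c ε x s) (hε : ε ≤ ε')
    (hs : s' ⊆ s) : Near c ε' x s' := by
  intro a ha
  obtain ⟨p, hp, hxp, hc⟩ := h a (hs ha)
  exact ⟨p, hp, hxp.trans hε, hc⟩

theorem near_union {c : EuclideanSpace ℝ (Fin 4) → Fin 10} {ε : ℝ}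
    {x : EuclideanSpace ℝ (Fin 4)} {s s' : Finset (Fin 10)} (h : Near c ε x s)
    (h' : Near c ε x s') : Near c ε x (s ∪ s') := by
  intro a ha
  rcases Finset.mem_union.1 ha with ha | ha
  · exact h a ha
  · exact h' a ha

theorem near_move {c : EuclideanSpace ℝ (Fin 4) → Fin 10} {ε η : ℝ}
    {x y : EuclideanSpace ℝ (Fin 4)} {s : Finset (Fin 10)} (h : Near c ε x s)
    (hxy : ‖y - x‖ ≤ η) : Near c (ε + η) y s := by
  intro a ha
  obtain ⟨p, hp, hxp, hc⟩ := h a ha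
  refine ⟨p, hp, ?_, hc⟩
  have : y - p = (y - x) + (x - p) := by abel
  rw [this]
  exact (norm_add_le _ _).trans (by linarith)

theorem near_neg {c : EuclideanSpace ℝ (Fin 4) → Fin 10} (hc : ∀ x, c (-x) = c x) {ε : ℝ}
    {x : EuclideanSpace ℝ (Fin 4)} {s : Finset (Fin 10)} (h : Near c ε x s) :
    Near c ε (-x) s := by
  intro a ha
  obtain ⟨p, hp, hxp, hcp⟩ := h a ha
  refine ⟨-p, by simpa using hp, ?_, by rw [hc, hcp]⟩
  rw [← neg_sub', norm_neg]
  simpa using hxp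

theorem near_singleton {c : EuclideanSpace ℝ (Fin 4) → Fin 10} {x : EuclideanSpace ℝ (Fin 4)}
    (hx : ‖x‖ = 1) {ε : ℝ} (hε : 0 ≤ ε) : Near c ε x {c x} := by
  intro a ha
  rw [Finset.mem_singleton] at ha
  exact ⟨x, hx, by simpa using hε, ha.symm⟩

theorem exists_orth (x y z : EuclideanSpace ℝ (Fin 4)) :
    ∃ u : EuclideanSpace ℝ (Fin 4), ‖u‖ = 1 ∧ ⟪x, u⟫ = 0 ∧ ⟪y, u⟫ = 0 ∧ ⟪z, u⟫ = 0 := by
  set S : Submodule ℝ (EuclideanSpace ℝ (Fin 4)) := Submodule.span ℝ (Set.range ![x, y, z])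
    with hS
  have h1 : Module.finrank ℝ S ≤ 3 := by
    have := finrank_range_le_card (R := ℝ) ![x, y, z]
    simpa [Set.finrank] using this
  have h2 : Module.finrank ℝ S + Module.finrank ℝ Sᗮ = 4 := by
    have := Submodule.finrank_add_finrank_orthogonal S
    simpa using this
  have h3 : 0 < Module.finrank ℝ Sᗮ := by omega
  haveI : Nontrivial Sᗮ := Module.finrank_pos_iff.1 h3
  obtain ⟨v, hv⟩ := exists_ne (0 : Sᗮ)
  have hv0 : (v : EuclideanSpace ℝ (Fin 4)) ≠ 0 := by simpa using hv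
  have hn : ‖(v : EuclideanSpace ℝ (Fin 4))‖ ≠ 0 := by simpa using hv0
  have hor : ∀ w ∈ S, ⟪w, (v : EuclideanSpace ℝ (Fin 4))⟫ = 0 := fun w hw =>
    (Submodule.mem_orthogonal S v).1 v.2 w hw
  have hm : ∀ i, ⟪![x, y, z] i, (v : EuclideanSpace ℝ (Fin 4))⟫ = 0 := fun i =>
    hor _ (Submodule.subset_span ⟨i, rfl⟩)
  refine ⟨‖(v : EuclideanSpace ℝ (Fin 4))‖⁻¹ • v, ?_, ?_, ?_, ?_⟩
  · rw [norm_smul, norm_inv, norm_norm, inv_mul_cancel₀ hn]
  · have := hm 0
    simp only [Matrix.cons_val_zero] at this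
    rw [inner_smul_right, this, mul_zero]
  · have := hm 1
    simp only [Matrix.cons_val_one, Matrix.cons_val_zero] at this
    rw [inner_smul_right, this, mul_zero]
  · have := hm 2
    simp only [Matrix.cons_val] at this
    rw [inner_smul_right, this, mul_zero]

/-- a point almost orthogonal to `x` has none of the colours near `x` -/
theorem color_notin {c : EuclideanSpace ℝ (Fin 4) → Fin 10} {d : ℝ}
    (hd : ∀ x y, ‖x‖ = 1 → ‖y‖ = 1 → c x = c y → d ≤ |⟪x, y⟫|) {ε η : ℝ} (hε : ε + η < d)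
    {x z : EuclideanSpace ℝ (Fin 4)} (hz : ‖z‖ = 1) (hxz : |⟪x, z⟫| ≤ η)
    {s : Finset (Fin 10)} (h : Near c ε x s) : c z ∉ s := by
  intro hm
  obtain ⟨p, hp, hxp, hcp⟩ := h _ hm
  have h1 := hd p z hp hz hcp
  have h2 : ⟪p, z⟫ = ⟪x, z⟫ - ⟪x - p, z⟫ := by rw [inner_sub_left]; ring
  have h3 : |⟪x - p, z⟫| ≤ ‖x - p‖ * ‖z‖ := abs_real_inner_le_norm _ _
  rw [hz, mul_one] at h3
  have h4 : |⟪p, z⟫| ≤ |⟪x, z⟫| + |⟪x - p, z⟫| := by rw [h2]; exact abs_sub _ _
  linarith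

/-- No three points see all the colours. -/
theorem K {c : EuclideanSpace ℝ (Fin 4) → Fin 10} {d : ℝ}
    (hd : ∀ x y, ‖x‖ = 1 → ‖y‖ = 1 → c x = c y → d ≤ |⟪x, y⟫|) {ε : ℝ} (hε : ε < d)
    {x y z : EuclideanSpace ℝ (Fin 4)} {s t r : Finset (Fin 10)}
    (hx : Near c ε x s) (hy : Near c ε y t) (hz : Near c ε z r) : s ∪ t ∪ r ≠ Finset.univ := by
  intro h
  obtain ⟨u, hu, hxu, hyu, hzu⟩ := exists_orth x y z
  have hm : c u ∈ s ∪ t ∪ r := by rw [h]; exact Finset.mem_univ _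
  have hε' : ε + 0 < d := by linarith
  rcases Finset.mem_union.1 hm with hm | hm
  · rcases Finset.mem_union.1 hm with hm | hm
    · exact color_notin hd hε' hu (by rw [hxu, abs_zero]) hx hm
    · exact color_notin hd hε' hu (by rw [hyu, abs_zero]) hy hm
  · exact color_notin hd hε' hu (by rw [hzu, abs_zero]) hz hm

theorem walk {α : Type*} (f : ℕ → α) (a : α) (N : ℕ) (h0 : f 0 = a) (hN : f N ≠ a) :
    ∃ i < N, f i = a ∧ f (i + 1) ≠ a := by
  by_contra h
  push Not at h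
  have : ∀ i ≤ N, f i = a := by
    intro i
    induction i with
    | zero => intro _; exact h0
    | succ i ih => intro hi; exact h i (by omega) (ih (by omega))
  exact hN (this N le_rfl)

theorem norm_circle {u v : EuclideanSpace ℝ (Fin 4)} (hu : ‖u‖ = 1) (hv : ‖v‖ = 1)
    (huv : ⟪u, v⟫ = 0) (θ : ℝ) : ‖Real.cos θ • u + Real.sin θ • v‖ = 1 := by
  have h : ‖Real.cos θ • u + Real.sin θ • v‖ ^ 2 = 1 := by
    rw [← real_inner_self_eq_norm_sq]
    simp only [inner_add_left, inner_add_right, inner_smul_left, inner_smul_right,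
      real_inner_self_eq_norm_sq, hu, hv, huv, real_inner_comm v u]
    have : ⟪v, u⟫ = 0 := by rw [real_inner_comm]; exact huv
    simp only [this, conj_trivial]
    have := Real.cos_sq_add_sin_sq θ
    linear_combination this
  have h2 : (0 : ℝ) ≤ ‖Real.cos θ • u + Real.sin θ • v‖ := norm_nonneg _
  nlinarith

/-- The circle orthogonal to `x`, `y` carries at least three colours. -/
theorem circle {c : EuclideanSpace ℝ (Fin 4) → Fin 10} {d : ℝ}
    (hd : ∀ x y, ‖x‖ = 1 → ‖y‖ = 1 → c x = c y → d ≤ |⟪x, y⟫|) {ε : ℝ} (h0 : 0 < ε)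
    (hε : ε < d) {x y : EuclideanSpace ℝ (Fin 4)} {s t : Finset (Fin 10)}
    (hx : Near c ε x s) (hy : Near c ε y t) : (s ∪ t).card ≤ 7 := by
  by_contra hcard
  push Not at hcard
  obtain ⟨u, hu, hxu, hyu, -⟩ := exists_orth x y 0
  obtain ⟨v, hv, hxv, hyv, huv⟩ := exists_orth x y u
  set γ : ℝ → EuclideanSpace ℝ (Fin 4) := fun θ => Real.cos θ • u + Real.sin θ • v with hγ
  have hγ1 : ∀ θ, ‖γ θ‖ = 1 := norm_circle hu hv huv
  have hγx : ∀ θ, ⟪x, γ θ⟫ = 0 := fun θ => by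
    simp [hγ, inner_add_right, inner_smul_right, hxu, hxv]
  have hγy : ∀ θ, ⟪y, γ θ⟫ = 0 := fun θ => by
    simp [hγ, inner_add_right, inner_smul_right, hyu, hyv]
  have hε' : ε + 0 < d := by linarith
  have hnot : ∀ θ, c (γ θ) ∉ s ∪ t := by
    intro θ hm
    rcases Finset.mem_union.1 hm with hm | hm
    · exact color_notin hd hε' (hγ1 θ) (by rw [hγx, abs_zero]) hx hm
    · exact color_notin hd hε' (hγ1 θ) (by rw [hγy, abs_zero]) hy hm
  have hne : c (γ 0) ≠ c (γ (Real.pi / 2)) := by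
    intro h
    have := hd _ _ (hγ1 0) (hγ1 (Real.pi / 2)) h
    simp [hγ, huv] at this
    linarith
  -- fine subdivision
  have hcont : Continuous γ := by
    simp only [hγ]
    fun_prop
  have huc := (isCompact_Icc (a := (0:ℝ)) (b := Real.pi / 2)).uniformContinuousOn_of_continuous
    hcont.continuousOn
  rw [Metric.uniformContinuousOn_iff] at huc
  obtain ⟨δ, hδ, hδ'⟩ := huc ε h0
  obtain ⟨N, hN⟩ := exists_nat_gt (Real.pi / 2 / δ)
  have hpi : 0 < Real.pi / 2 := by positivity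
  have hN0 : (0 : ℝ) < N := lt_trans (by positivity) hN
  have hNpos : 0 < N := by exact_mod_cast hN0
  obtain ⟨i, hi, hi1, hi2⟩ := walk (fun i => c (γ (Real.pi / 2 * (i / N)))) (c (γ 0)) N
    (by simp) (by
      have : Real.pi / 2 * ((N : ℝ) / N) = Real.pi / 2 := by
        rw [div_self hN0.ne', mul_one]
      simp only [this]
      exact hne.symm)
  set θ := Real.pi / 2 * ((i : ℝ) / N)
  set θ' := Real.pi / 2 * (((i + 1 : ℕ) : ℝ) / N)
  have hiN : (i : ℝ) ≤ N := by exact_mod_cast hi.le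
  have hiN' : ((i + 1 : ℕ) : ℝ) ≤ N := by exact_mod_cast hi
  have hmem : ∀ j : ℝ, 0 ≤ j → j ≤ N → Real.pi / 2 * (j / N) ∈ Set.Icc (0:ℝ) (Real.pi / 2) := by
    intro j hj hj'
    constructor
    · positivity
    · have : j / N ≤ 1 := by rw [div_le_one hN0]; exact hj'
      nlinarith
  have hdist : dist (γ θ) (γ θ') < ε := by
    apply hδ' θ (hmem _ (by positivity) hiN) θ' (hmem _ (by positivity) hiN')
    rw [Real.dist_eq]
    have : θ - θ' = -(Real.pi / 2 / N) := by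
      simp only [θ, θ']
      push_cast
      field_simp
      ring
    rw [this, abs_neg, abs_of_pos (by positivity), div_lt_iff₀ hN0]
    rw [div_lt_iff₀ hδ] at hN
    linarith
  have hz : Near c ε (γ θ) {c (γ θ), c (γ θ')} := by
    intro a ha
    rcases Finset.mem_insert.1 ha with ha | ha
    · exact ⟨γ θ, hγ1 _, by simpa using h0.le, ha.symm⟩
    · rw [Finset.mem_singleton] at ha
      exact ⟨γ θ', hγ1 _, by rw [← dist_eq_norm]; exact hdist.le, ha.symm⟩
  apply K hd hε hx hy hz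
  apply Finset.eq_univ_of_card
  have hcc : c (γ θ) ≠ c (γ θ') := by
    rw [hi1]
    exact fun h => hi2 h.symm
  have hdisj : Disjoint (s ∪ t) {c (γ θ), c (γ θ')} := by
    rw [Finset.disjoint_right]
    intro a ha
    rcases Finset.mem_insert.1 ha with ha | ha
    · rw [ha]; exact hnot _
    · rw [Finset.mem_singleton] at ha
      rw [ha]; exact hnot _
  have h1 := Finset.card_union_of_disjoint hdisj
  rw [Finset.card_pair hcc] at h1
  have h2 : (s ∪ t ∪ {c (γ θ), c (γ θ')}).card ≤ 10 := by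
    simpa using Finset.card_le_univ (s ∪ t ∪ {c (γ θ), c (γ θ')})
  simp only [Fintype.card_fin]
  omega

end Crest.Agent.S69
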