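import Crest.Agent.BU.Euclid

set_option autoImplicit false

/-!
# Existence of points with many colours (Lusternik–Schnirelmann type)
-/
namespace Crest.Agent.S69
open Crest.Agent.BU
open scoped RealInnerProductSpace

universe u
variable {E : Type u} [NormedAddCommGroup E] [InnerProductSpace ℝ E] {κ : Type*}

/-- colours seen within distance `r` of `x`, by unit vectors of the subspace `S` -/
def Tc (c : E → κ) (S : Submodule ℝ E) (r : ℝ) (x : E) : Set κ :=
  {i | ∃ y ∈ S, ‖y‖ = 1 ∧ dist x y < r ∧ c y = i}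

theorem Tc_mono (c : E → κ) (S : Submodule ℝ E) {r r' : ℝ} {x x' : E}
    (h : r + dist x' x ≤ r') : Tc c S r x ⊆ Tc c S r' x' := by
  rintro i ⟨y, hy, h1, h2, h3⟩
  exact ⟨y, hy, h1, by have := dist_triangle x' x y; linarith, h3⟩

theorem Tc_neg (c : E → κ) (hce : ∀ x, c (-x) = c x) (S : Submodule ℝ E) (r : ℝ) (x : E) :
    Tc c S r (-x) = Tc c S r x := by
  ext i
  constructor
  · rintro ⟨y, hy, h1, h2, h3⟩
    exact ⟨-y, S.neg_mem hy, by rwa [norm_neg], by rw [← dist_neg_neg, neg_neg]; exact h2,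
      by rw [hce, h3]⟩
  · rintro ⟨y, hy, h1, h2, h3⟩
    exact ⟨-y, S.neg_mem hy, by rwa [norm_neg], by rw [dist_neg_neg]; exact h2, by rw [hce, h3]⟩

open Classical in
/-- representative of a colour -/
noncomputable def rep (c : E → κ) (S : Submodule ℝ E) (i : κ) : E :=
  if h : ∃ y ∈ S, ‖y‖ = 1 ∧ c y = i then h.choose else 0

theorem rep_spec (c : E → κ) (S : Submodule ℝ E) {i : κ} (h : ∃ y ∈ S, ‖y‖ = 1 ∧ c y = i) :
    ‖rep c S i‖ = 1 ∧ c (rep c S i) = i := by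
  classical
  rw [rep, dif_pos h]
  exact h.choose_spec.2

open Classical in
/-- the colour used for the sign: some fixed choice depending only on the set -/
noncomputable def pick [Inhabited κ] (T : Set κ) : κ := if h : T.Nonempty then h.choose else default

theorem pick_mem [Inhabited κ] {T : Set κ} (h : T.Nonempty) : pick T ∈ T := by
  classical
  rw [pick, dif_pos h]; exact h.choose_spec

open Classical in
/-- the odd sign function at scale `r` -/
noncomputable def sgn [Inhabited κ] (c : E → κ) (S : Submodule ℝ E) (r : ℝ) (x : E) : ZMod 2 :=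
  if 0 < ⟪x, rep c S (pick (Tc c S r x))⟫ then 1 else 0

/-- basic separation: `x` unit, colour `i` within `r` of `x` -/
theorem inner_rep (c : E → κ) (S : Submodule ℝ E) {d : ℝ}
    (hc : ∀ x ∈ S, ∀ y ∈ S, ‖x‖ = 1 → ‖y‖ = 1 → c x = c y → d ≤ |⟪x, y⟫|)
    (hrep : ∀ i, (∃ y ∈ S, ‖y‖ = 1 ∧ c y = i) → rep c S i ∈ S)
    {r : ℝ} {x : E} {i : κ} (hi : i ∈ Tc c S r x) : d - r < |⟪x, rep c S i⟫| := by
  obtain ⟨y, hy, h1, h2, h3⟩ := hi
  have hex : ∃ y ∈ S, ‖y‖ = 1 ∧ c y = i := ⟨y, hy, h1, h3⟩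
  obtain ⟨e1, e2⟩ := rep_spec c S hex
  have h4 := hc y hy _ (hrep i hex) h1 e1 (by rw [h3, e2])
  have h5 : ⟪y, rep c S i⟫ = ⟪x, rep c S i⟫ + ⟪y - x, rep c S i⟫ := by
    rw [← inner_add_left]; congr 1; abel
  have h6 : |⟪y - x, rep c S i⟫| ≤ dist x y := by
    have := abs_real_inner_le_norm (y - x) (rep c S i)
    rw [e1, mul_one] at this
    rw [dist_comm, dist_eq_norm]; exact this
  have h7 : |⟪y, rep c S i⟫| ≤ |⟪x, rep c S i⟫| + |⟪y - x, rep c S i⟫| := by
    rw [h5]; exact abs_add_le _ _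
  linarith

theorem exists_point [Finite κ] [Inhabited κ] {m : ℕ} (b : Fin (m + 1) → E) (hb : Orthonormal ℝ b)
    (c : E → κ) (hce : ∀ x, c (-x) = c x) {d : ℝ} (hd : 0 < d)
    (hc : ∀ x ∈ Submodule.span ℝ (Set.range b), ∀ y ∈ Submodule.span ℝ (Set.range b),
      ‖x‖ = 1 → ‖y‖ = 1 → c x = c y → d ≤ |⟪x, y⟫|) {ρ : ℝ} (hρ : 0 < ρ) :
    ∃ x ∈ Submodule.span ℝ (Set.range b), ‖x‖ = 1 ∧
      m + 1 ≤ (Tc c (Submodule.span ℝ (Set.range b)) ρ x).ncard := by
  classical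
  set S := Submodule.span ℝ (Set.range b) with hS
  obtain ⟨e, he, heρ, hed⟩ : ∃ e : ℝ, 0 < e ∧ (m + 2) * e ≤ ρ ∧ (m + 2) * e ≤ d := by
    refine ⟨min ρ d / (m + 2), by positivity, ?_, ?_⟩
    · rw [mul_div_cancel₀ _ (by positivity : (m : ℝ) + 2 ≠ 0)]; exact min_le_left _ _
    · rw [mul_div_cancel₀ _ (by positivity : (m : ℝ) + 2 ≠ 0)]; exact min_le_right _ _
  have hrep : ∀ i, (∃ y ∈ S, ‖y‖ = 1 ∧ c y = i) → rep c S i ∈ S := by
    intro i hex
    rw [rep, dif_pos hex]; exact hex.choose_spec.1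
  have hself : ∀ r : ℝ, 0 < r → ∀ x ∈ S, ‖x‖ = 1 → c x ∈ Tc c S r x := by
    intro r hr x hx hx1
    exact ⟨x, hx, hx1, by rw [dist_self]; exact hr, rfl⟩
  have hjr : ∀ j : ℕ, j < m → ((j : ℝ) + 1) * e ≤ d - e := by
    intro j hj
    have : (j : ℝ) + 1 ≤ m := by exact_mod_cast hj
    nlinarith
  -- the odd functions
  let as : List (E → ZMod 2) := (List.range m).map (fun j : ℕ => sgn c S (((j : ℝ) + 1) * e))
  have hodd : ∀ a ∈ as, ∀ x, ‖x‖ = 1 → x ∈ S → a (-x) = a x + 1 := by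
    intro a ha x hx1 hxS
    obtain ⟨j, hj, rfl⟩ := List.mem_map.1 ha
    have hj := List.mem_range.1 hj
    have hr : 0 < ((j : ℝ) + 1) * e := by positivity
    have hmem := pick_mem (T := Tc c S (((j : ℝ) + 1) * e) x) ⟨_, hself _ hr x hxS hx1⟩
    have h1 := inner_rep c S hc hrep hmem
    have h2 := hjr j hj
    have h3 : 0 < |⟪x, rep c S (pick (Tc c S (((j : ℝ) + 1) * e) x))⟫| := by linarith
    have h4 := abs_pos.1 h3
    simp only [sgn, Tc_neg c hce, inner_neg_left, Left.neg_pos_iff]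
    rcases lt_or_gt_of_ne h4 with h | h
    · rw [if_pos h, if_neg (not_lt.2 h.le), zero_add]
    · rw [if_neg (not_lt.2 h.le), if_pos h]; decide
  obtain ⟨l, hl1, hl2, hl3⟩ := exists_rainbow b hb he as (by simp [as]) hodd
  have hlS : ∀ x ∈ l, x ∈ S ∧ ‖x‖ = 1 := fun x hx => ⟨(hl2.1 x hx).2, (hl2.1 x hx).1⟩
  -- if `T` at scale `(j+1)e` is constant on `l` then the factor vanishes
  have hnc : ∀ j, j < m → ∃ x ∈ l, ∃ y ∈ l,
      Tc c S (((j : ℝ) + 1) * e) x ≠ Tc c S (((j : ℝ) + 1) * e) y := by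
    intro j hj
    by_contra hcon
    push Not at hcon
    apply hl3
    refine wprod_eq_zero as l (sgn c S (((j : ℝ) + 1) * e))
      (List.mem_map.2 ⟨j, List.mem_range.2 hj, rfl⟩) ?_ (by simp [as, hl1])
    intro x hx y hy
    have hxy := hcon x hx y hy
    obtain ⟨hxS, hx1⟩ := hlS x hx
    obtain ⟨hyS, hy1⟩ := hlS y hy
    have hr : 0 < ((j : ℝ) + 1) * e := by positivity
    have hmem := pick_mem (T := Tc c S (((j : ℝ) + 1) * e) x) ⟨_, hself _ hr x hxS hx1⟩
    have h1 := inner_rep c S hc hrep hmem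
    have h2 := hjr j hj
    have hex : ∃ z ∈ S, ‖z‖ = 1 ∧ c z = pick (Tc c S (((j : ℝ) + 1) * e) x) := by
      obtain ⟨z, a1, a2, _, a4⟩ := hmem
      exact ⟨z, a1, a2, a4⟩
    obtain ⟨e1, -⟩ := rep_spec c S hex
    simp only [sgn, ← hxy]
    set q := rep c S (pick (Tc c S (((j : ℝ) + 1) * e) x)) with hq
    have h3 : |⟪x, q⟫ - ⟪y, q⟫| ≤ dist x y := by
      rw [← inner_sub_left, dist_eq_norm]
      have := abs_real_inner_le_norm (x - y) q
      rwa [e1, mul_one] at this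
    have h4 := hl2.2 x hx y hy
    have h5 := abs_lt.1 (lt_of_le_of_lt h3 h4)
    rcases lt_or_ge ⟪x, q⟫ 0 with h | h
    · rw [abs_of_neg h] at h1
      rw [if_neg (by linarith), if_neg (by linarith)]
    · rw [abs_of_nonneg h] at h1
      rw [if_pos (by linarith), if_pos (by linarith)]
  -- growth of the number of colours
  have hgrow : ∀ j, j ≤ m → ∀ x ∈ l, j + 1 ≤ (Tc c S (((j : ℝ) + 1) * e) x).ncard := by
    intro j
    induction j with
    | zero =>
      intro _ x hx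
      obtain ⟨hxS, hx1⟩ := hlS x hx
      have : (Tc c S ((((0 : ℕ) : ℝ) + 1) * e) x).Nonempty :=
        ⟨_, hself _ (by positivity) x hxS hx1⟩
      have := (Set.ncard_pos (Set.toFinite _)).2 this
      omega
    | succ j ih =>
      intro hj z hz
      obtain ⟨x, hx, y, hy, hne⟩ := hnc j (by omega)
      have ih := ih (by omega)
      have hsub : ∀ w ∈ l, Tc c S (((j : ℝ) + 1) * e) w ⊆ Tc c S ((((j + 1 : ℕ) : ℝ) + 1) * e) z := by
        intro w hw
        refine Tc_mono c S ?_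
        have := hl2.2 z hz w hw
        push_cast
        nlinarith
      have h1 := hsub x hx
      have h2 := hsub y hy
      by_contra hlt
      push Not at hlt
      have h3 : Tc c S (((j : ℝ) + 1) * e) x = Tc c S ((((j + 1 : ℕ) : ℝ) + 1) * e) z :=
        Set.eq_of_subset_of_ncard_le h1 (by have := ih x hx; omega) (Set.toFinite _)
      have h4 : Tc c S (((j : ℝ) + 1) * e) y = Tc c S ((((j + 1 : ℕ) : ℝ) + 1) * e) z :=
        Set.eq_of_subset_of_ncard_le h2 (by have := ih y hy; omega) (Set.toFinite _)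
      exact hne (h3.trans h4.symm)
  obtain ⟨x, hx⟩ : ∃ x, x ∈ l := by
    cases l with
    | nil => simp at hl1
    | cons x l => exact ⟨x, by simp⟩
  refine ⟨x, (hlS x hx).1, (hlS x hx).2, (hgrow m le_rfl x hx).trans ?_⟩
  refine Set.ncard_le_ncard (Tc_mono c S ?_) (Set.toFinite _)
  rw [dist_self]
  nlinarith

/-- **Existence of a facet**: some unit vector of `ℝ⁴` has four colours within `ρ`. -/
theorem exists_facet (c : EuclideanSpace ℝ (Fin 4) → Fin 10) (hce : ∀ x, c (-x) = c x) {d : ℝ}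
    (hd : 0 < d)
    (hc : ∀ x y, ‖x‖ = 1 → ‖y‖ = 1 → c x = c y → d ≤ |⟪x, y⟫|) {ρ : ℝ} (hρ : 0 < ρ) :
    ∃ s : Finset (Fin 10), s.card = 4 ∧ ∃ x : EuclideanSpace ℝ (Fin 4), ‖x‖ = 1 ∧
      ∀ k ∈ s, ∃ p : EuclideanSpace ℝ (Fin 4), ‖p‖ = 1 ∧ ‖x - p‖ ≤ ρ ∧ c p = k := by
  classical
  obtain ⟨x, _, hx1, hx2⟩ := exists_point (m := 3) (EuclideanSpace.basisFun (Fin 4) ℝ)
    (EuclideanSpace.basisFun (Fin 4) ℝ).orthonormal c hce hd (fun x _ y _ => hc x y) hρ
  set T := Tc c (Submodule.span ℝ (Set.range (EuclideanSpace.basisFun (Fin 4) ℝ))) ρ x with hT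
  have h4 : 4 ≤ (Set.toFinite T).toFinset.card := by
    rw [← Set.ncard_eq_toFinset_card T]; exact hx2
  obtain ⟨s, hs, hs4⟩ := Finset.exists_subset_card_eq h4
  refine ⟨s, hs4, x, hx1, fun k hk => ?_⟩
  have hk' : k ∈ T := by simpa using hs hk
  obtain ⟨y, _, h1, h2, h3⟩ := hk'
  exact ⟨y, h1, by rw [← dist_eq_norm]; exact h2.le, h3⟩

end Crest.Agent.S69
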