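import Mathlib

set_option autoImplicit false

namespace Crest.Agent.S69

open scoped RealInnerProductSpace

/-- Quaternion frame: `fr x v = v * x` for the imaginary quaternion v ∈ ℝ³ and x ∈ ℝ⁴. -/
noncomputable def fr (x : EuclideanSpace ℝ (Fin 4)) (v : EuclideanSpace ℝ (Fin 3)) :
    EuclideanSpace ℝ (Fin 4) :=
  WithLp.toLp 2 ![-(v 0 * x 1) - v 1 * x 2 - v 2 * x 3,
    v 0 * x 0 + v 1 * x 3 - v 2 * x 2,
    v 1 * x 0 + v 2 * x 1 - v 0 * x 3,
    v 2 * x 0 + v 0 * x 2 - v 1 * x 1]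

theorem frInner4 (x y : EuclideanSpace ℝ (Fin 4)) :
    ⟪x, y⟫ = x 0 * y 0 + x 1 * y 1 + x 2 * y 2 + x 3 * y 3 := by
  rw [PiLp.inner_apply]
  simp [Fin.sum_univ_four]
  ring

theorem frInner3 (x y : EuclideanSpace ℝ (Fin 3)) :
    ⟪x, y⟫ = x 0 * y 0 + x 1 * y 1 + x 2 * y 2 := by
  rw [PiLp.inner_apply]
  simp [Fin.sum_univ_three]
  ring

theorem fr_inner (x : EuclideanSpace ℝ (Fin 4)) (v w : EuclideanSpace ℝ (Fin 3)) :
    ⟪fr x v, fr x w⟫ = ‖x‖ ^ 2 * ⟪v, w⟫ := by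
  rw [← real_inner_self_eq_norm_sq, frInner4, frInner4, frInner3]
  simp [fr]
  ring

theorem fr_inner_base (x : EuclideanSpace ℝ (Fin 4)) (v : EuclideanSpace ℝ (Fin 3)) :
    ⟪fr x v, x⟫ = 0 := by
  rw [frInner4]
  simp [fr]
  ring

theorem norm_fr (x : EuclideanSpace ℝ (Fin 4)) (v : EuclideanSpace ℝ (Fin 3)) :
    ‖fr x v‖ = ‖x‖ * ‖v‖ := by
  have h := fr_inner x v v
  rw [real_inner_self_eq_norm_sq, real_inner_self_eq_norm_sq, ← mul_pow] at h
  exact (sq_eq_sq₀ (norm_nonneg _) (by positivity)).mp h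

theorem fr_neg_left (x : EuclideanSpace ℝ (Fin 4)) (v : EuclideanSpace ℝ (Fin 3)) :
    fr (-x) v = -fr x v := by
  ext i; fin_cases i <;> simp [fr] <;> ring

theorem fr_neg_right (x : EuclideanSpace ℝ (Fin 4)) (v : EuclideanSpace ℝ (Fin 3)) :
    fr x (-v) = -fr x v := by
  ext i; fin_cases i <;> simp [fr] <;> ring

theorem fr_sub_left (x y : EuclideanSpace ℝ (Fin 4)) (v : EuclideanSpace ℝ (Fin 3)) :
    fr (x - y) v = fr x v - fr y v := by
  ext i; fin_cases i <;> simp [fr] <;> ring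

theorem fr_sub_right (x : EuclideanSpace ℝ (Fin 4)) (v w : EuclideanSpace ℝ (Fin 3)) :
    fr x (v - w) = fr x v - fr x w := by
  ext i; fin_cases i <;> simp [fr] <;> ring

theorem fr_sub_norm (x y : EuclideanSpace ℝ (Fin 4)) (v w : EuclideanSpace ℝ (Fin 3)) :
    ‖fr x v - fr y w‖ ≤ ‖x - y‖ * ‖v‖ + ‖y‖ * ‖v - w‖ := by
  have : fr x v - fr y w = fr (x - y) v + fr y (v - w) := by
    rw [fr_sub_left, fr_sub_right]; abel
  rw [this]
  refine (norm_add_le _ _).trans ?_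
  rw [norm_fr, norm_fr]

/-- Every unit vector orthogonal to the unit vector `x` is `fr x v` for a unit vector `v`. -/
theorem exists_fr (x y : EuclideanSpace ℝ (Fin 4)) (hx : ‖x‖ = 1) (h : ⟪y, x⟫ = 0) :
    ∃ v : EuclideanSpace ℝ (Fin 3), ‖v‖ = ‖y‖ ∧ fr x v = y := by
  have h1 : x 0 * x 0 + x 1 * x 1 + x 2 * x 2 + x 3 * x 3 = 1 := by
    rw [← frInner4, real_inner_self_eq_norm_sq, hx]; norm_num
  rw [frInner4] at h
  -- v = y * conj x
  have key : fr x (WithLp.toLp 2 ![-(y 0 * x 1) + y 1 * x 0 - y 2 * x 3 + y 3 * x 2,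
      -(y 0 * x 2) + y 1 * x 3 + y 2 * x 0 - y 3 * x 1,
      -(y 0 * x 3) - y 1 * x 2 + y 2 * x 1 + y 3 * x 0]) = y := by
    ext i; fin_cases i <;> simp [fr]
    · linear_combination (y 0) * h1 - (x 0) * h
    · linear_combination (y 1) * h1 - (x 1) * h
    · linear_combination (y 2) * h1 - (x 2) * h
    · linear_combination (y 3) * h1 - (x 3) * h
  refine ⟨_, ?_, key⟩
  have := norm_fr x (WithLp.toLp 2 ![-(y 0 * x 1) + y 1 * x 0 - y 2 * x 3 + y 3 * x 2,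
      -(y 0 * x 2) + y 1 * x 3 + y 2 * x 0 - y 3 * x 1,
      -(y 0 * x 3) - y 1 * x 2 + y 2 * x 1 + y 3 * x 0])
  rw [key, hx, one_mul] at this
  exact this.symm

end Crest.Agent.S69
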