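import Crest.Agent.S69.Geo
import Crest.Agent.S69.Facet
import Crest.Agent.S69.Frame

set_option autoImplicit false

namespace Crest.Agent.S69

open scoped RealInnerProductSpace

variable {c : E4 → Fin 10} {d e : ℝ}

theorem real_mono {e' : ℝ} {s s' : Finset (Fin 10)} (h : Real c e s) (he : e ≤ e')
    (hs : s' ⊆ s) : Real c e' s' := by
  obtain ⟨x, hx, hn⟩ := h
  exact ⟨x, hx, near_mono hn he hs⟩

/-- three realised sets never cover all the colours -/
theorem real_K (hc : Col c d) (he : e < d) {s t r : Finset (Fin 10)}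
    (hs : Real c e s) (ht : Real c e t) (hr : Real c e r) : s ∪ t ∪ r ≠ Finset.univ := by
  obtain ⟨x, _, hx⟩ := hs
  obtain ⟨y, _, hy⟩ := ht
  obtain ⟨z, _, hz⟩ := hr
  exact K hc.sep he hx hy hz

theorem not_both (hc : Col c d) (he : e < d) {s t : Finset (Fin 10)}
    (hs : Real c e s) (ht : Real c e t) (hr : Real c e (sᶜ \ t)) : False := by
  apply real_K hc he hs ht hr
  ext i
  simp only [Finset.mem_union, Finset.mem_sdiff, Finset.mem_compl, Finset.mem_univ, iff_true]
  tauto

theorem real_union_card (hc : Col c d) (he0 : 0 < e) (he : e < d) {s t : Finset (Fin 10)}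
    (hs : Real c e s) (ht : Real c e t) : (s ∪ t).card ≤ 7 := by
  obtain ⟨x, _, hx⟩ := hs
  obtain ⟨y, _, hy⟩ := ht
  exact circle hc.sep he0 he hx hy

/-- two realised 4-sets always meet -/
theorem facets_meet (hc : Col c d) (he0 : 0 < e) (he : e < d) {s t : Finset (Fin 10)}
    (hs : Real c e s) (ht : Real c e t) (h4 : s.card = 4) (h4' : t.card = 4) :
    ¬ Disjoint s t := by
  intro h
  have := real_union_card hc he0 he hs ht
  rw [Finset.card_union_of_disjoint h] at this
  omega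

/-- colours near two almost orthogonal points are disjoint -/
theorem near_disjoint (hc : Col c d) {η : ℝ} (he : 2 * e + η < d) {x y : E4}
    {s t : Finset (Fin 10)} (hx : Near c e x s) (hy : Near c e y t) (hx1 : ‖x‖ = 1)
    (hxy : |⟪x, y⟫| ≤ η) : Disjoint s t := by
  rw [Finset.disjoint_left]
  intro k hs ht
  obtain ⟨q, hq, hyq, rfl⟩ := hy k ht
  have h2 : ⟪x, q⟫ = ⟪x, y⟫ - ⟪x, y - q⟫ := by rw [inner_sub_right]; ring
  have h3 : |⟪x, y - q⟫| ≤ ‖x‖ * ‖y - q‖ := abs_real_inner_le_norm _ _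
  rw [hx1, one_mul] at h3
  have h4 : |⟪x, q⟫| ≤ |⟪x, y⟫| + |⟪x, y - q⟫| := by rw [h2]; exact abs_sub _ _
  exact color_notin hc.sep (η := e + η) (by linarith) hq (by linarith) hx hs

/-- near `x^⊥`, `x` a 4-fold point, at most three colours come together -/
theorem card_perp_le (hc : Col c d) {η : ℝ} (he0 : 0 < e) (he : 2 * e + η < d) (hη : 0 ≤ η)
    {x y : E4} {s t : Finset (Fin 10)} (hx : Near c e x s) (h4 : s.card = 4)
    (hy : Near c e y t) (hx1 : ‖x‖ = 1) (hxy : |⟪x, y⟫| ≤ η) : t.card ≤ 3 := by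
  have h1 := near_disjoint hc he hx hy hx1 hxy
  have h2 := circle hc.sep he0 (by linarith) hx hy
  rw [Finset.card_union_of_disjoint h1] at h2
  omega

/-- orthonormal frame of `x^⊥` -/
theorem frame_orthonormal {x : E4} (hx : ‖x‖ = 1) :
    Orthonormal ℝ (fun i : Fin 3 => fr x (EuclideanSpace.basisFun (Fin 3) ℝ i)) := by
  have h := (EuclideanSpace.basisFun (Fin 3) ℝ).orthonormal
  rw [orthonormal_iff_ite] at h ⊢
  intro i j
  rw [fr_inner, hx, h i j]
  norm_num

theorem frame_span_perp {x : E4} {y : E4}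
    (hy : y ∈ Submodule.span ℝ (Set.range
      (fun i : Fin 3 => fr x (EuclideanSpace.basisFun (Fin 3) ℝ i)))) : ⟪x, y⟫ = 0 := by
  induction hy using Submodule.span_induction with
  | mem y hy =>
    obtain ⟨i, rfl⟩ := hy
    rw [real_inner_comm]
    exact fr_inner_base _ _
  | zero => simp
  | add a b _ _ ha hb => rw [inner_add_right, ha, hb, add_zero]
  | smul r a _ ha => rw [inner_smul_right, ha, mul_zero]

/-- `x^⊥` has a triple point -/
theorem exists_triple_perp (hc : Col c d) (he0 : 0 < e) {x : E4} (hx : ‖x‖ = 1) :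
    ∃ y : E4, ‖y‖ = 1 ∧ ⟪x, y⟫ = 0 ∧ ∃ t : Finset (Fin 10), t.card = 3 ∧ Near c e y t := by
  classical
  set b : Fin 3 → E4 := fun i : Fin 3 => fr x (EuclideanSpace.basisFun (Fin 3) ℝ i) with hb
  obtain ⟨y, hyS, hy1, hcard⟩ := exists_point (m := 2) b (frame_orthonormal hx) c hc.even hc.pos
    (fun x _ y _ => hc.sep x y) he0
  set T := Tc c (Submodule.span ℝ (Set.range b)) e y with hT
  have h4 : 3 ≤ (Set.toFinite T).toFinset.card := by
    rw [← Set.ncard_eq_toFinset_card T]; exact hcard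
  obtain ⟨s, hs, hs4⟩ := Finset.exists_subset_card_eq h4
  refine ⟨y, hy1, frame_span_perp hyS, s, hs4, fun k hk => ?_⟩
  have hk' := hs hk
  rw [Set.Finite.mem_toFinset] at hk'
  obtain ⟨p, hp, h1, h2, h3⟩ := hk'
  refine ⟨p, h1, ?_, h3⟩
  rw [← dist_eq_norm]
  exact h2.le

/-- at most four colours come together -/
theorem near_card_le (hc : Col c d) (he0 : 0 < e) (he : 2 * e < d) {x : E4} (hx : ‖x‖ = 1)
    {s : Finset (Fin 10)} (hs : Near c e x s) : s.card ≤ 4 := by
  obtain ⟨y, hy, hxy, t, ht, hyt⟩ := exists_triple_perp hc he0 hx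
  have h1 := near_disjoint hc (η := 0) (by linarith) hs hyt hx (by rw [hxy, abs_zero])
  have h2 := circle hc.sep he0 (by linarith) hs hyt
  rw [Finset.card_union_of_disjoint h1] at h2
  omega

theorem real_card_le (hc : Col c d) (he0 : 0 < e) (he : 2 * e < d)
    {s : Finset (Fin 10)} (hs : Real c e s) : s.card ≤ 4 := by
  obtain ⟨x, hx, hn⟩ := hs
  exact near_card_le hc he0 he hx hn

end Crest.Agent.S69
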