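import Crest.Agent.S69.Cap
import Crest.Agent.S69.Chi
import Crest.Agent.S69.Geo
import Crest.Agent.S69.GeoCor
import Crest.Agent.S69.Defs

set_option autoImplicit false

/-!
# Adjacency: two different facets share a triple
-/
namespace Crest.Agent.S69.Adj
open Crest.Agent.BU
open scoped RealInnerProductSpace

/-- colours on the sphere -/
def col (c : E4 → Fin 10) (v : S3) : Fin 10 := c v

theorem col_neg {c : E4 → Fin 10} (hc : ∀ x, c (-x) = c x) (v : S3) : col c (-v) = col c v := by
  simp [col, hc]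

theorem chi_evenL {c : E4 → Fin 10} (hc : ∀ x, c (-x) = c x) (P : Finset (Fin 10)) :
    EvenL (chi (col c) P) := by
  intro l
  unfold chi
  have : (l.map Neg.neg).map (col c) = l.map (col c) := by
    rw [List.map_map]
    exact List.map_congr_left (fun v _ => col_neg hc v)
  rw [this, List.length_map]

theorem real_of_chi {c : E4 → Fin 10} {e : ℝ} {l : List S3} (hl : ∀ v ∈ l, ∀ w ∈ l, dist v w < e)
    {σ : Finset (Fin 10)} (hσ : σ.Nonempty) (h : chi (col c) σ l ≠ 0) : Real c e σ := by
  have h1 : (l.map (col c)).toFinset = σ := by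
    by_contra hne
    exact h (by rw [chi, if_neg (fun h' => hne h'.1)])
  obtain ⟨k, hk⟩ := hσ
  have hk' := hk
  rw [← h1, List.mem_toFinset, List.mem_map] at hk'
  obtain ⟨v, hv, _⟩ := hk'
  refine ⟨v, S3.norm v, fun j hj => ?_⟩
  rw [← h1, List.mem_toFinset, List.mem_map] at hj
  obtain ⟨w, hw, hwj⟩ := hj
  refine ⟨w, S3.norm w, ?_, hwj⟩
  rw [← dist_eq_norm]
  exact (hl v hv w hw).le

theorem wcup_add' {V : Type*} (a a' : V → ZMod 2) (q : List V → ZMod 2) (l : List V) :
    wcup (fun v => a v + a' v) q l = wcup a q l + wcup a' q l := by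
  match l with
  | [] => simp [wcup]
  | [v] => simp [wcup]
  | (v :: v' :: l) => simp only [wcup]; ring

/-- `N(x, u)` vanishes when a colour near `x` belongs to `u` -/
theorem N_eq_zero {c : E4 → Fin 10} {d : ℝ} (hc : Col c d) {e ρ : ℝ} (hed : ρ + e ≤ d) {k : ℕ}
    {X : Set S3} {z : Ch S3} (hz : Fund k e X z) {x : S3} {S : Finset (Fin 10)}
    (hx : Near c ρ x S) {u : Finset (Fin 10)} {i : Fin 10} (hi : i ∈ u) (hiS : i ∈ S) :
    ev (wcup (s x) (chi (col c) u)) z = 0 := by
  refine ev_eq_zero (fun l hl => ?_) hz.mem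
  obtain ⟨-, h2, -⟩ := hl
  match l, h2 with
  | [], _ => rfl
  | [v], _ => rfl
  | (v :: v' :: l), h2 =>
    rw [wcup]
    by_cases hne : s x v = s x v'
    · rw [hne, add_self2, zero_mul]
    · have hchi : chi (col c) u (v' :: l) = 0 := by
        rw [chi, if_neg]
        rintro ⟨h1, -⟩
        rw [← h1, List.mem_toFinset, List.mem_map] at hi
        obtain ⟨w, hw, hwi⟩ := hi
        have hw' : w ∈ v :: v' :: l := List.mem_cons_of_mem _ hw
        have hnear := near_of_s_ne hne (h2 v (by simp) w hw') (h2 v' (by simp) w hw')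
        obtain ⟨p, hp1, hp2, hp3⟩ := hx i hiS
        have h3 := hc.sep p w hp1 (S3.norm w) (by rw [hp3]; exact hwi.symm)
        have h4 : ⟪p, (w : E4)⟫ = ⟪(x : E4), (w : E4)⟫ - ⟪(x : E4) - p, (w : E4)⟫ := by
          rw [inner_sub_left]; ring
        have h5 : |⟪(x : E4) - p, (w : E4)⟫| ≤ ‖(x : E4) - p‖ := by
          have := abs_real_inner_le_norm ((x : E4) - p) (w : E4)
          rwa [S3.norm w, mul_one] at this
        have h6 : |⟪p, (w : E4)⟫| ≤ |⟪(x : E4), (w : E4)⟫| + |⟪(x : E4) - p, (w : E4)⟫| := by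
          rw [h4]; exact abs_sub _ _
        linarith
      rw [hchi, mul_zero]

/-- the difference formula -/
theorem N_add {c : E4 → Fin 10} (hce : ∀ x, c (-x) = c x) {e : ℝ} {k : ℕ} (hk : 0 < k)
    {X : Set S3} {z : Ch S3} (hz : Fund k e X z) (x x' : S3) (u : Finset (Fin 10)) :
    ev (wcup (s x) (chi (col c) u)) z + ev (wcup (s x') (chi (col c) u)) z =
      ∑ m ∈ uᶜ, ev (acup (fun v => s x v + s x' v) (chi (col c) (insert m u))) z := by
  rw [← ev_add_fun, ev_congr_fun (fun l => (wcup_add' (s x) (s x') (chi (col c) u) l).symm),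
    hz.even_wcup hk (b := fun v => s x v + s x' v) (fun v => by
      simp only [s_odd x v, s_odd x' v]
      have := add_self2 (1 : ZMod 2)
      linear_combination this) (chi_evenL hce u)]
  have h1 : ∀ l, acup (fun v => s x v + s x' v) (cbd (chi (col c) u)) l =
      ∑ m ∈ uᶜ, acup (fun v => s x v + s x' v) (chi (col c) (insert m u)) l := by
    intro l
    match l with
    | [] => simp [acup]
    | (v :: l) => simp only [acup]; rw [cbd_chi, Finset.mul_sum]
  rw [ev_congr_fun h1, ChiA.ev_sum_fun]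

theorem f_eq_zero {c : E4 → Fin 10} {e ρ : ℝ} (heρ : e ≤ ρ) {k : ℕ} {X : Set S3} {z : Ch S3}
    (hz : Fund k e X z)
    (b : S3 → ZMod 2) {σ : Finset (Fin 10)} (hσ : σ.Nonempty) (h : ¬ Real c ρ σ) :
    ev (acup b (chi (col c) σ)) z = 0 := by
  refine ev_eq_zero (fun l hl => ?_) hz.mem
  match l, hl with
  | [], _ => rfl
  | (v :: l), hl =>
    rw [acup]
    by_cases h0 : chi (col c) σ (v :: l) = 0
    · rw [h0, mul_zero]
    · exact absurd (real_mono (real_of_chi hl.2.1 hσ h0) heρ (Finset.Subset.refl _)) h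

/-- **Adjacency.** Two different facets share a triple. -/
theorem adj {c : E4 → Fin 10} {d : ℝ} (hc : Col c d) {e ρ : ℝ} (he : 0 < e) (heρ : e ≤ ρ)
    (hed : ρ + e ≤ d)
    {z : Ch S3} (hz : Fund 3 e ∅ z) {x : S3} {S : Finset (Fin 10)} (hS : S.card = 4)
    (hx : Near c ρ x S) {t : Finset (Fin 10)} (ht : t.card = 3) (htS : Disjoint t S)
    (hN : ev (wcup (s x) (chi (col c) t)) z = 1) :
    ∃ (u : Finset (Fin 10)) (k l : Fin 10), u.card = 3 ∧ k ∉ u ∧ l ∉ u ∧ k ≠ l ∧
      Real c ρ (insert k u) ∧ Real c ρ (insert l u) := by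
  by_contra hno
  push Not at hno
  -- two distinct elements of `t`
  obtain ⟨i0, i1, i2, h01, h02, h12, rfl⟩ := Finset.card_eq_three.1 ht
  set t : Finset (Fin 10) := {i0, i1, i2} with ht'
  -- a point of colour `i0`
  obtain ⟨x2, hx2⟩ : ∃ x2 : S3, col c x2 = i0 := by
    by_contra hcon
    push Not at hcon
    have : ev (wcup (s x) (chi (col c) t)) z = 0 := by
      refine ev_eq_zero (P := fun _ => True) (fun l _ => ?_) (by
        rw [supp, Finsupp.mem_supported]; intro x _; trivial)
      match l with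
      | [] => rfl
      | [v] => rfl
      | (v :: v' :: l) =>
        rw [wcup]
        have : chi (col c) t (v' :: l) = 0 := by
          rw [chi, if_neg]
          rintro ⟨h1, -⟩
          have h2 : i0 ∈ ((v' :: l).map (col c)).toFinset := by rw [h1, ht']; simp
          rw [List.mem_toFinset, List.mem_map] at h2
          obtain ⟨w, _, hw⟩ := h2
          exact hcon w hw
        rw [this, mul_zero]
    rw [this] at hN
    exact absurd hN (by decide)
  have hnear2 : Near c ρ (x2 : E4) {i0} := by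
    intro j hj
    rw [Finset.mem_singleton] at hj
    exact ⟨x2, S3.norm x2, by rw [sub_self, norm_zero]; linarith, by rw [hj]; exact hx2⟩
  have hzero2 : ∀ u : Finset (Fin 10), i0 ∈ u → ev (wcup (s x2) (chi (col c) u)) z = 0 :=
    fun u hu => N_eq_zero hc hed hz hnear2 hu (by simp)
  set b : S3 → ZMod 2 := fun v => s x v + s x2 v with hb
  have hsum1 := N_add hc.even (by norm_num : 0 < 3) hz x x2 t
  rw [hN, hzero2 t (by simp [ht']), add_zero] at hsum1
  -- there is a facet containing `t`
  obtain ⟨m, hm, hfm⟩ : ∃ m ∈ tᶜ, ev (acup b (chi (col c) (insert m t))) z ≠ 0 := by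
    by_contra hcon
    push Not at hcon
    rw [Finset.sum_eq_zero (fun m hm => hcon m hm)] at hsum1
    exact absurd hsum1 (by decide)
  have hm' : m ∉ t := by simpa using hm
  have hreal : Real c ρ (insert m t) := by
    by_contra h
    exact hfm (f_eq_zero heρ hz b (Finset.insert_nonempty m t) h)
  have huniq : ∀ (u : Finset (Fin 10)) (k : Fin 10), u.card = 3 → k ∉ u → Real c ρ (insert k u) →
      ∀ l ∈ uᶜ, l ≠ k → ev (acup b (chi (col c) (insert l u))) z = 0 := by
    intro u k hu hk hr l hl hlk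
    exact f_eq_zero heρ hz b (Finset.insert_nonempty l u)
      (hno u k l hu hk (by simpa using hl) hlk.symm hr)
  have hval : ev (acup b (chi (col c) (insert m t))) z = 1 := by
    rw [hsum1]
    symm
    exact Finset.sum_eq_single_of_mem m hm (fun l hl hlm => huniq t m ht hm' hreal l hl hlm)
  -- the second triple
  have hi1 : i1 ∈ t := by simp [ht']
  have hmi1 : m ≠ i1 := fun h => hm' (h ▸ hi1)
  set t2 : Finset (Fin 10) := insert m (t.erase i1) with ht2
  have hmE : m ∉ t.erase i1 := fun h => hm' (Finset.mem_of_mem_erase h)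
  have ht2c : t2.card = 3 := by
    rw [ht2, Finset.card_insert_of_notMem hmE, Finset.card_erase_of_mem hi1, ht]
  have hi1t2 : i1 ∉ t2 := by
    rw [ht2]; simp [hmi1.symm]
  have hins : insert i1 t2 = insert m t := by
    rw [ht2, Finset.insert_comm, Finset.insert_erase hi1]
  have hi0t2 : i0 ∈ t2 := by
    rw [ht2]
    exact Finset.mem_insert_of_mem (Finset.mem_erase.2 ⟨h01, by simp [ht']⟩)
  have hsum2 := N_add hc.even (by norm_num : 0 < 3) hz x x2 t2
  rw [hzero2 t2 hi0t2, add_zero] at hsum2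
  have hsum2' : ∑ m' ∈ t2ᶜ, ev (acup b (chi (col c) (insert m' t2))) z = 1 := by
    rw [Finset.sum_eq_single_of_mem i1 (by simpa using hi1t2)
      (fun l hl hlm => huniq t2 i1 ht2c hi1t2 (by rw [hins]; exact hreal) l hl hlm), hins]
    exact hval
  rw [hsum2'] at hsum2
  by_cases hmS : m ∈ S
  · rw [N_eq_zero hc hed hz hx (u := t2) (i := m) (by simp [ht2]) hmS] at hsum2
    exact absurd hsum2 (by decide)
  · refine facets_meet hc (e := ρ) (by linarith) (by linarith) (s := insert m t) (t := S) hreal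
      ⟨x, S3.norm x, hx⟩ (by rw [Finset.card_insert_of_notMem hm', ht]) hS ?_
    rw [Finset.disjoint_insert_left]
    exact ⟨hmS, htS⟩

end Crest.Agent.S69.Adj
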