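import Crest.Agent.BU.Euclid

set_option autoImplicit false

/-!
# Cap products with 0-cochains and fundamental chains on `S³`
-/
namespace Crest.Agent.S69
open Crest.Agent.BU
open scoped RealInnerProductSpace

universe u

section generic
variable {V : Type u}

/-- cap product with the coboundary of a 0-cochain -/
noncomputable def capL (a : V → ZMod 2) : List V → Ch V
  | (v :: v' :: l) => (a v + a v') • sg (v' :: l)
  | _ => 0

noncomputable def cap (a : V → ZMod 2) : Ch V →ₗ[ZMod 2] Ch V := lift (capL a)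

theorem ev_cap (a : V → ZMod 2) (G : List V → ZMod 2) (z : Ch V) :
    ev G (cap a z) = ev (wcup a G) z := by
  have := hom_ext (f := ev G ∘ₗ cap a) (g := ev (wcup a G)) (fun l => by
    match l with
    | [] => simp [cap, capL, wcup]
    | [v] => simp [cap, capL, wcup]
    | (v :: v' :: l) => simp [cap, capL, wcup]) z
  simpa using this

theorem cap_mem {P : List V → Prop} {Q : List V → Prop} (a : V → ZMod 2)
    (h : ∀ v v' l, P (v :: v' :: l) → a v ≠ a v' → Q (v' :: l)) {z : Ch V} (hz : z ∈ supp P) :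
    cap a z ∈ supp Q := by
  refine lift_mem (fun l hl => ?_) hz
  rw [cap, lift_sg]
  match l, hl with
  | [], _ => exact Submodule.zero_mem _
  | [v], _ => exact Submodule.zero_mem _
  | (v :: v' :: l), hl =>
    rw [capL]
    by_cases e : a v = a v'
    · rw [e, add_self2, zero_smul]; exact Submodule.zero_mem _
    · exact Submodule.smul_mem _ _ (sg_mem (h v v' l hl e))

end generic

/-- the unit sphere of `ℝ⁴` -/
abbrev S3 := Metric.sphere (0 : EuclideanSpace ℝ (Fin 4)) 1

def Odd (a : S3 → ZMod 2) : Prop := ∀ v, a (-v) = a v + 1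
def Even0 (a : S3 → ZMod 2) : Prop := ∀ v, a (-v) = a v
def EvenL (G : List S3 → ZMod 2) : Prop := ∀ l, G (l.map Neg.neg) = G l

theorem S3.norm (v : S3) : ‖(v : EuclideanSpace ℝ (Fin 4))‖ = 1 := by
  simp

theorem S3.ne_neg (v : S3) : v ≠ -v := by
  intro h
  have h1 : (v : EuclideanSpace ℝ (Fin 4)) = -v := by
    have := congrArg Subtype.val h
    simpa using this
  have h2 : (v : EuclideanSpace ℝ (Fin 4)) = 0 := by
    have h3 : (2 : ℝ) • (v : EuclideanSpace ℝ (Fin 4)) = 0 := by
      rw [two_smul]; nth_rewrite 2 [h1]; exact add_neg_cancel _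
    exact (smul_eq_zero.1 h3).resolve_left two_ne_zero
  have h3 := S3.norm v
  rw [h2, norm_zero] at h3
  exact zero_ne_one h3

/-- pairs of antipodal points -/
def anti : Setoid S3 where
  r v w := v = w ∨ v = -w
  iseqv := ⟨fun _ => Or.inl rfl, fun {v w} h => by
    rcases h with rfl | rfl
    · exact Or.inl rfl
    · exact Or.inr (neg_neg w).symm, fun {u v w} h h' => by
    rcases h with rfl | rfl <;> rcases h' with rfl | rfl
    · exact Or.inl rfl
    · exact Or.inr rfl
    · exact Or.inr rfl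
    · exact Or.inl (neg_neg w)⟩

open Classical in
/-- some odd function -/
noncomputable def tie (v : S3) : ZMod 2 := if v = (Quotient.mk anti v).out then 1 else 0

theorem tie_odd : Odd tie := by
  intro v
  have h1 : Quotient.mk anti (-v) = Quotient.mk anti v := Quotient.sound (Or.inr rfl)
  have h2 : (Quotient.mk anti v).out = v ∨ (Quotient.mk anti v).out = -v :=
    Quotient.exact (Quotient.out_eq (Quotient.mk anti v))
  unfold tie
  rw [h1]
  have h3 := S3.ne_neg v
  rcases h2 with h | h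
  · rw [h, if_neg (fun h' => h3 h'.symm), if_pos rfl]; decide
  · rw [h, if_pos rfl, if_neg h3]; decide

open Classical in
/-- the (tie-broken) sign of `⟪x, ·⟫` -/
noncomputable def s (x : S3) (v : S3) : ZMod 2 :=
  if (0 : ℝ) < ⟪(x : EuclideanSpace ℝ (Fin 4)), (v : EuclideanSpace ℝ (Fin 4))⟫ then 1
  else if ⟪(x : EuclideanSpace ℝ (Fin 4)), (v : EuclideanSpace ℝ (Fin 4))⟫ < (0 : ℝ) then 0
  else tie v

theorem s_pos {x v : S3}
    (h : (0 : ℝ) < ⟪(x : EuclideanSpace ℝ (Fin 4)), (v : EuclideanSpace ℝ (Fin 4))⟫) :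
    s x v = 1 := by rw [s, if_pos h]

theorem s_neg {x v : S3}
    (h : ⟪(x : EuclideanSpace ℝ (Fin 4)), (v : EuclideanSpace ℝ (Fin 4))⟫ < (0 : ℝ)) :
    s x v = 0 := by rw [s, if_neg h.not_gt, if_pos h]

theorem s_odd (x : S3) : Odd (s x) := by
  intro v
  have e : ⟪(x : EuclideanSpace ℝ (Fin 4)), ((-v : S3) : EuclideanSpace ℝ (Fin 4))⟫ =
      -⟪(x : EuclideanSpace ℝ (Fin 4)), (v : EuclideanSpace ℝ (Fin 4))⟫ := by
    have : ((-v : S3) : EuclideanSpace ℝ (Fin 4)) = -(v : EuclideanSpace ℝ (Fin 4)) := rfl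
    rw [this, inner_neg_right]
  rcases lt_trichotomy (0 : ℝ) ⟪(x : EuclideanSpace ℝ (Fin 4)), (v : EuclideanSpace ℝ (Fin 4))⟫
    with h | h | h
  · rw [s_pos h, s_neg (by rw [e]; linarith)]; decide
  · unfold s
    rw [e, ← h]; simp [tie_odd v]
  · rw [s_neg h, s_pos (by rw [e]; linarith)]; decide

/-- if the sign changes along a small edge then everything nearby is near `x^⊥` -/
theorem near_of_s_ne {x v v' w : S3} {e : ℝ} (h : s x v ≠ s x v') (h1 : dist v w < e)
    (h2 : dist v' w < e) :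
    |⟪(x : EuclideanSpace ℝ (Fin 4)), (w : EuclideanSpace ℝ (Fin 4))⟫| < e := by
  have key : ∀ v : S3, dist v w < e →
      |⟪(x : EuclideanSpace ℝ (Fin 4)), (v : EuclideanSpace ℝ (Fin 4))⟫ -
        ⟪(x : EuclideanSpace ℝ (Fin 4)), (w : EuclideanSpace ℝ (Fin 4))⟫| < e := by
    intro v hv
    rw [← inner_sub_right]
    have := abs_real_inner_le_norm (x : EuclideanSpace ℝ (Fin 4))
      ((v : EuclideanSpace ℝ (Fin 4)) - (w : EuclideanSpace ℝ (Fin 4)))
    rw [S3.norm x, one_mul, ← dist_eq_norm] at this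
    exact lt_of_le_of_lt this hv
  have k1 := abs_lt.1 (key v h1)
  have k2 := abs_lt.1 (key v' h2)
  set A := ⟪(x : EuclideanSpace ℝ (Fin 4)), (v : EuclideanSpace ℝ (Fin 4))⟫ with hA
  set B := ⟪(x : EuclideanSpace ℝ (Fin 4)), (v' : EuclideanSpace ℝ (Fin 4))⟫ with hB
  rw [abs_lt]
  rcases lt_or_ge 0 A with hA0 | hA0
  · have hB0 : B ≤ 0 := by
      by_contra hc
      push Not at hc
      exact h (by rw [s_pos hA0, s_pos hc])
    constructor <;> linarith
  · rcases lt_or_ge 0 B with hB0 | hB0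
    · constructor <;> linarith
    · -- both nonpositive, different signs: at least one is zero
      have : A = 0 ∨ B = 0 := by
        by_contra hc
        push Not at hc
        exact h (by rw [s_neg (lt_of_le_of_ne hA0 hc.1), s_neg (lt_of_le_of_ne hB0 hc.2)])
      rcases this with h0 | h0
      · constructor <;> linarith
      · constructor <;> linarith

theorem EvenL.wcup {a : S3 → ZMod 2} {G : List S3 → ZMod 2} (hG : EvenL G)
    (ha : Odd a ∨ Even0 a) : EvenL (BU.wcup a G) := by
  intro l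
  match l with
  | [] => rfl
  | [v] => rfl
  | (v :: v' :: l) =>
    have h1 := hG (v' :: l)
    simp only [List.map_cons] at h1 ⊢
    simp only [BU.wcup, h1]
    rcases ha with ha | ha
    · rw [ha v, ha v']
      have := add_self2 (1 : ZMod 2)
      linear_combination (G (v' :: l)) * this
    · rw [ha v, ha v']

theorem EvenL.acup {a : S3 → ZMod 2} {G : List S3 → ZMod 2} (hG : EvenL G)
    (ha : Even0 a) : EvenL (BU.acup a G) := by
  intro l
  match l with
  | [] => rfl
  | (v :: l) =>
    have h1 := hG (v :: l)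
    simp only [List.map_cons] at h1 ⊢
    simp only [BU.acup, h1, ha v]

theorem EvenL.wprod {as : List (S3 → ZMod 2)} (has : ∀ a ∈ as, Odd a ∨ Even0 a) :
    EvenL (BU.wprod as) := by
  induction as with
  | nil => intro l; rfl
  | cons a as ih =>
    exact (ih (fun a ha => has a (by simp [ha]))).wcup (has a (by simp))

theorem EvenL.cbd {G : List S3 → ZMod 2} (hG : EvenL G) : EvenL (BU.cbd G) := by
  intro l
  rw [BU.cbd, bdL_map, ev_mp, BU.cbd]
  exact ev_congr_fun (fun l => hG l) _

/-- fundamental chains -/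
structure Fund (k : ℕ) (e : ℝ) (X : Set S3) (z : Ch S3) : Prop where
  stokes : 0 < k → ∀ G : List S3 → ZMod 2, EvenL G → ev (BU.cbd G) z = 0
  cup : ∀ as : List (S3 → ZMod 2), as.length = k → (∀ a ∈ as, Odd a) → ev (BU.wprod as) z = 1
  mem : z ∈ supp (fun l : List S3 => l.length = k + 1 ∧ (∀ v ∈ l, ∀ w ∈ l, dist v w < e) ∧
    ∀ x ∈ X, ∀ v ∈ l,
      |⟪(x : EuclideanSpace ℝ (Fin 4)), (v : EuclideanSpace ℝ (Fin 4))⟫| < e)

theorem Fund.cap {k : ℕ} {e : ℝ} {X : Set S3} {z : Ch S3} (h : Fund (k + 1) e X z) (x : S3) :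
    Fund k e (insert x X) (cap (s x) z) := by
  refine ⟨fun hk G hG => ?_, fun as has hodd => ?_, ?_⟩
  · rw [ev_cap]
    have h1 : ev (BU.wcup (s x) (BU.cbd G)) z = ev (BU.cbd (BU.wcup (s x) G)) z := by
      refine ev_congr (fun l hl => ?_) h.mem
      obtain ⟨hl, -, -⟩ := hl
      match l, hl with
      | (v :: v' :: v'' :: l), _ => rw [cbd_wcup]
      | [v, v'], hl => simp at hl; omega
      | [v], hl => simp at hl
      | [], hl => simp at hl
    rw [h1]
    exact h.stokes (Nat.succ_pos k) _ (hG.wcup (Or.inl (s_odd x)))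
  · rw [ev_cap]
    exact h.cup (s x :: as) (by simp [has]) (by
      intro a ha
      rcases List.mem_cons.1 ha with rfl | ha
      · exact s_odd x
      · exact hodd a ha)
  · refine cap_mem (s x) (fun v v' l hl hne => ?_) h.mem
    obtain ⟨h1, h2, h3⟩ := hl
    refine ⟨by simpa using h1, fun a ha b hb => h2 a (by
      simp only [List.mem_cons] at ha ⊢; tauto) b (by
      simp only [List.mem_cons] at hb ⊢; tauto), ?_⟩
    intro y hy w hw
    rcases Set.mem_insert_iff.1 hy with rfl | hy
    · exact near_of_s_ne hne (h2 v (by simp) w (by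
        simp only [List.mem_cons] at hw ⊢; tauto)) (h2 v' (by simp) w (by
        simp only [List.mem_cons] at hw ⊢; tauto))
    · exact h3 y hy w (by simp only [List.mem_cons] at hw ⊢; tauto)

/-- the Leibniz rule on a fundamental chain for an even 0-cochain -/
theorem Fund.even_wcup {k : ℕ} {e : ℝ} {X : Set S3} {z : Ch S3} (h : Fund k e X z) (hk : 0 < k)
    {b : S3 → ZMod 2} (hb : Even0 b) {G : List S3 → ZMod 2} (hG : EvenL G) :
    ev (BU.wcup b G) z = ev (BU.acup b (BU.cbd G)) z := by
  have h1 := h.stokes hk (BU.acup b G) (hG.acup hb)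
  have h2 : ev (BU.cbd (BU.acup b G)) z =
      ev (fun l => BU.wcup b G l + BU.acup b (BU.cbd G) l) z := by
    refine ev_congr (fun l hl => ?_) h.mem
    obtain ⟨hl, -, -⟩ := hl
    match l, hl with
    | (v :: v' :: l), _ => exact cbd_acup b G v v' l
    | [v], hl => simp at hl; omega
    | [], hl => simp at hl
  rw [h2, ev_add_fun] at h1
  have h3 := add_self2 (ev (BU.acup b (BU.cbd G)) z)
  linear_combination h1 - h3

theorem mp_congr {V W : Type*} {P : List V → Prop} {f g : V → W} {c : Ch V} (hc : c ∈ supp P)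
    (h : ∀ l, P l → l.map f = l.map g) : mp f c = mp g c := by
  have := lift_mem (S := (⊥ : Submodule (ZMod 2) (Ch W))) (f := mp f + mp g) (P := P)
    (fun l hl => by
      simp only [LinearMap.add_apply, mp_sg, h l hl, add_self]
      exact Submodule.zero_mem _) hc
  apply eq_of_add_self
  simpa using this

open Classical in
/-- retraction to the sphere -/
noncomputable def toS (p : S3) (x : EuclideanSpace ℝ (Fin 4)) : S3 :=
  if h : ‖x‖ = 1 then ⟨x, by simpa using h⟩ else p

theorem toS_eq (p : S3) {x : EuclideanSpace ℝ (Fin 4)} (h : ‖x‖ = 1) :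
    toS p x = ⟨x, by simpa using h⟩ := by
  classical
  rw [toS, dif_pos h]

/-- **the fundamental chain of `S³`** -/
theorem exists_fund {e : ℝ} (he : 0 < e) : ∃ z, Fund 3 e ∅ z := by
  set b := EuclideanSpace.basisFun (Fin 4) ℝ with hb
  obtain ⟨p, h, h0, hbd, hs⟩ := sphere_chains b b.orthonormal (by norm_num : 0 < 4) he
  let q : S3 := ⟨EuclideanSpace.single 0 1, by simp⟩
  have hs' : ∀ k, k < 4 → h k ∈ supp (fun l => l.length = k + 1 ∧ (∀ x ∈ l, ‖x‖ = 1) ∧
      ∀ x ∈ l, ∀ y ∈ l, dist x y < e) := by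
    intro k hk
    exact supp_mono (fun l hl => ⟨hl.1, fun x hx => (hl.2.2.1 x hx).1, hl.2.2.2⟩) (hs k hk)
  have hmem : ∀ k, k < 4 → mp (toS q) (h k) ∈ supp (fun l => l.length = k + 1 ∧
      (∀ v ∈ l, ∀ w ∈ l, dist v w < e)) := by
    intro k hk
    refine lift_mem (fun l hl => ?_) (hs' k hk)
    rw [mp_sg]
    refine sg_mem ⟨by simp [hl.1], ?_⟩
    intro v hv w hw
    obtain ⟨x, hx, rfl⟩ := List.mem_map.1 hv
    obtain ⟨y, hy, rfl⟩ := List.mem_map.1 hw
    rw [toS_eq q (hl.2.1 x hx), toS_eq q (hl.2.1 y hy)]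
    exact hl.2.2 x hx y hy
  have hbd' : ∀ k, k < 4 → bd (mp (toS q) (h (k + 1))) =
      mp (toS q) (h k) + mp Neg.neg (mp (toS q) (h k)) := by
    intro k hk
    rw [bd_mp, hbd, map_add, mp_mp, mp_mp]
    congr 1
    refine mp_congr (hs' k hk) (fun l hl => ?_)
    refine List.map_congr_left (fun x hx => ?_)
    have h1 := hl.2.1 x hx
    rw [toS_eq q h1, toS_eq q (by rwa [norm_neg])]
    rfl
  refine ⟨mp (toS q) (h 3), fun _ G hG => ?_, fun as has hodd => ?_, ?_⟩
  · rw [← ev_bd, hbd' 2 (by norm_num), map_add, ev_mp G Neg.neg, ev_congr_fun (fun l => hG l)]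
    exact add_self2 _
  · have := cup_formula (T := (Neg.neg : S3 → S3)) (h := fun k => mp (toS q) (h k))
      (fun _ => True) (fun _ _ _ => trivial) as (toS q p) (by simp [h0])
      (fun k hk => hbd' k (by omega)) (fun k hk => supp_mono (fun l hl => ⟨hl.1, trivial⟩)
        (hmem k (by omega)))
      (fun a ha l _ x _ => hodd a ha x)
    rwa [has] at this
  · exact supp_mono (fun l hl => ⟨hl.1, hl.2, by simp⟩) (hmem 3 (by norm_num))

end Crest.Agent.S69
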