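import Mathlib

set_option autoImplicit false

/-!
# Sign functions for the double cochain calculus (S0069)
`tau` odd, `s0` symmetric bi-odd (sign of the inner product), `gg` bi-odd and antisymmetric
(sign of a 2x2 minor); `exists_plane`, `exists_line`.
-/
namespace Crest.Agent.S69.Det

open scoped RealInnerProductSpace

noncomputable section
open Classical

/-! ## tie breaking -/

section Tie
variable {E : Type*} [AddCommGroup E] [Module ℝ E]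

omit [Module ℝ E] in
theorem ne_neg_of_two {v : E} (h2 : (2 : ℤ) • v ≠ 0) : v ≠ -v := by
  intro h; apply h2; rw [two_zsmul]; nth_rw 2 [h]; exact add_neg_cancel v

theorem ne_neg {v : E} (hv : v ≠ 0) : v ≠ -v := by
  apply ne_neg_of_two
  intro h
  have h3 : (2 : ℝ) • v = 0 := by rw [two_smul, ← two_zsmul]; exact h
  rcases smul_eq_zero.1 h3 with h4 | h4
  · norm_num at h4
  · exact hv h4


def tau (v : E) : ZMod 2 := if WellOrderingRel v (-v) then 0 else 1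

theorem tau_neg {v : E} (hv : v ≠ 0) : tau (-v) = tau v + 1 := by
  have hne : v ≠ -v := ne_neg hv
  unfold tau
  rw [neg_neg]
  rcases trichotomous_of WellOrderingRel v (-v) with h | h | h
  · have h' : ¬ WellOrderingRel (-v) v := fun h' => asymm h h'
    rw [if_pos h, if_neg h']; rfl
  · exact absurd h hne
  · have h' : ¬ WellOrderingRel v (-v) := fun h' => asymm h h'
    rw [if_pos h, if_neg h']; rfl

def rep (v : E) : E := if tau v = 0 then v else -v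

theorem rep_neg (v : E) : rep (-v) = rep v := by
  by_cases hv : v = 0
  · subst hv; simp
  have h := tau_neg hv
  unfold rep
  rw [h]
  have h2 : ∀ z : ZMod 2, (z = 0 ∧ z + 1 ≠ 0) ∨ (z ≠ 0 ∧ z + 1 = 0) := by decide
  rcases h2 (tau v) with ⟨h3, h4⟩ | ⟨h3, h4⟩
  · rw [if_neg h4, if_pos h3, neg_neg]
  · rw [if_pos h4, if_neg h3]

omit [Module ℝ E] in
theorem rep_eq {v u : E} (h : rep v = rep u) : v = u ∨ v = -u := by
  unfold rep at h
  split_ifs at h with h1 h2 h2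
  · exact Or.inl h
  · exact Or.inr h
  · exact Or.inr (by rw [← h, neg_neg])
  · exact Or.inl (neg_injective h)

def ord (v u : E) : ZMod 2 := if WellOrderingRel (rep v) (rep u) then 0 else 1

theorem ord_neg_left (v u : E) : ord (-v) u = ord v u := by unfold ord; rw [rep_neg]
theorem ord_neg_right (v u : E) : ord v (-u) = ord v u := by unfold ord; rw [rep_neg]

omit [Module ℝ E] in
theorem ord_swap {v u : E} (h1 : v ≠ u) (h2 : v ≠ -u) : ord u v = ord v u + 1 := by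
  have hne : rep v ≠ rep u := fun h => (rep_eq h).elim h1 h2
  unfold ord
  rcases trichotomous_of WellOrderingRel (rep v) (rep u) with h | h | h
  · have h' : ¬ WellOrderingRel (rep u) (rep v) := fun h' => asymm h h'
    rw [if_pos h, if_neg h']; rfl
  · exact absurd h hne
  · have h' : ¬ WellOrderingRel (rep v) (rep u) := fun h' => asymm h h'
    rw [if_pos h, if_neg h']; rfl

end Tie

/-- sign of a real number, as an element of `ZMod 2`, with a tie break -/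
def sg2 (r : ℝ) (t : ZMod 2) : ZMod 2 := if 0 < r then 0 else if r < 0 then 1 else t

theorem sg2_neg (r : ℝ) (t : ZMod 2) : sg2 (-r) (t + 1) = sg2 r t + 1 := by
  unfold sg2
  rcases lt_trichotomy r 0 with h | h | h
  · rw [if_pos (by linarith : 0 < -r), if_neg (by linarith : ¬ 0 < r), if_pos h]; rfl
  · subst h; simp
  · rw [if_neg (by linarith : ¬ 0 < -r), if_pos (by linarith : -r < 0), if_pos h]; rfl

/-- the sign does not change under a perturbation smaller than the value -/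
theorem sg2_congr {r r' : ℝ} (t t' : ZMod 2) (h : |r - r'| < |r|) : sg2 r t = sg2 r' t' := by
  unfold sg2
  rcases lt_trichotomy r 0 with h1 | h1 | h1
  · rw [abs_of_neg h1] at h
    have := (abs_lt.1 h).1
    have h2 : r' < 0 := by linarith
    rw [if_neg (by linarith : ¬ 0 < r), if_pos h1, if_neg (by linarith : ¬ 0 < r'), if_pos h2]
  · subst h1; simp at h; exact absurd h (not_lt.2 (abs_nonneg _))
  · rw [abs_of_pos h1] at h
    have := (abs_lt.1 h).2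
    rw [if_pos h1, if_pos (by linarith : 0 < r')]

section Inner
variable {E : Type*} [NormedAddCommGroup E] [InnerProductSpace ℝ E]

/-! ## sign of the inner product -/

def s0 (v u : E) : ZMod 2 := sg2 ⟪v, u⟫ (tau v + tau u)

theorem s0_comm (v u : E) : s0 v u = s0 u v := by
  unfold s0; rw [real_inner_comm, add_comm]

theorem s0_neg_left {v : E} (u : E) (hv : v ≠ 0) : s0 (-v) u = s0 v u + 1 := by
  unfold s0
  rw [inner_neg_left, tau_neg hv, ← sg2_neg]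
  congr 1; ring

theorem s0_neg_right (v : E) {u : E} (hu : u ≠ 0) : s0 v (-u) = s0 v u + 1 := by
  rw [s0_comm, s0_neg_left _ hu, s0_comm]

theorem abs_inner_sub_le {v v' u u' : E} (hu : ‖u‖ = 1) (hv' : ‖v'‖ = 1) :
    |⟪v, u⟫ - ⟪v', u'⟫| ≤ ‖v - v'‖ + ‖u - u'‖ := by
  have e : ⟪v, u⟫ - ⟪v', u'⟫ = ⟪v - v', u⟫ + ⟪v', u - u'⟫ := by
    rw [inner_sub_left, inner_sub_right]; ring
  rw [e]
  calc |⟪v - v', u⟫ + ⟪v', u - u'⟫| ≤ |⟪v - v', u⟫| + |⟪v', u - u'⟫| := abs_add_le _ _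
    _ ≤ ‖v - v'‖ * ‖u‖ + ‖v'‖ * ‖u - u'‖ :=
        add_le_add (abs_real_inner_le_norm _ _) (abs_real_inner_le_norm _ _)
    _ = ‖v - v'‖ + ‖u - u'‖ := by rw [hu, hv']; ring

theorem s0_near {v v' u u' : E} (hu : ‖u‖ = 1) (hv' : ‖v'‖ = 1) (h : s0 v u ≠ s0 v' u') :
    |⟪v, u⟫| ≤ ‖v - v'‖ + ‖u - u'‖ := by
  by_contra h1
  exact h (sg2_congr _ _ (lt_of_le_of_lt (abs_inner_sub_le hu hv') (not_le.1 h1)))

/-! ## sign of a minor -/

def mn (b b' v u : E) : ℝ := ⟪b, v⟫ * ⟪b', u⟫ - ⟪b', v⟫ * ⟪b, u⟫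

def gg (b b' v u : E) : ZMod 2 := sg2 (mn b b' v u) (tau v + tau u + ord v u)

theorem gg_neg_left (b b' : E) {v : E} (u : E) (hv : v ≠ 0) :
    gg b b' (-v) u = gg b b' v u + 1 := by
  unfold gg
  rw [tau_neg hv, ord_neg_left, ← sg2_neg]
  congr 1
  · unfold mn; rw [inner_neg_right, inner_neg_right]; ring
  · ring

theorem gg_neg_right (b b' v : E) {u : E} (hu : u ≠ 0) :
    gg b b' v (-u) = gg b b' v u + 1 := by
  unfold gg
  rw [tau_neg hu, ord_neg_right, ← sg2_neg]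
  congr 1
  · unfold mn; rw [inner_neg_right, inner_neg_right]; ring
  · ring

theorem gg_swap (b b' : E) {v u : E} (h1 : v ≠ u) (h2 : v ≠ -u) :
    gg b b' u v = gg b b' v u + 1 := by
  unfold gg
  rw [ord_swap h1 h2, ← sg2_neg]
  congr 1
  · unfold mn; ring
  · ring

theorem abs_inner_le_of_norm {b v : E} (hb : ‖b‖ = 1) : |⟪b, v⟫| ≤ ‖v‖ := by
  have := abs_real_inner_le_norm b v
  rwa [hb, one_mul] at this

theorem abs_mn_sub_le {b b' v v' u u' : E} (hb : ‖b‖ = 1) (hb' : ‖b'‖ = 1) (hu : ‖u‖ = 1)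
    (hv' : ‖v'‖ = 1) :
    |mn b b' v u - mn b b' v' u'| ≤ 2 * (‖v - v'‖ + ‖u - u'‖) := by
  have e : mn b b' v u - mn b b' v' u' =
      (⟪b, v - v'⟫ * ⟪b', u⟫ + ⟪b, v'⟫ * ⟪b', u - u'⟫) -
      (⟪b', v - v'⟫ * ⟪b, u⟫ + ⟪b', v'⟫ * ⟪b, u - u'⟫) := by
    unfold mn; simp only [inner_sub_right]; ring
  have hp : ∀ {x y z w : ℝ} (_ : |x| ≤ z) (_ : |y| ≤ w) , |x * y| ≤ z * w := by
    intro x y z w h1 h2
    rw [abs_mul]
    exact mul_le_mul h1 h2 (abs_nonneg _) ((abs_nonneg _).trans h1)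
  have h1 : |⟪b, v - v'⟫ * ⟪b', u⟫| ≤ ‖v - v'‖ * 1 :=
    hp (abs_inner_le_of_norm hb) (hu ▸ abs_inner_le_of_norm hb')
  have h2 : |⟪b, v'⟫ * ⟪b', u - u'⟫| ≤ 1 * ‖u - u'‖ :=
    hp (hv' ▸ abs_inner_le_of_norm hb) (abs_inner_le_of_norm hb')
  have h3 : |⟪b', v - v'⟫ * ⟪b, u⟫| ≤ ‖v - v'‖ * 1 :=
    hp (abs_inner_le_of_norm hb') (hu ▸ abs_inner_le_of_norm hb)
  have h4 : |⟪b', v'⟫ * ⟪b, u - u'⟫| ≤ 1 * ‖u - u'‖ :=
    hp (hv' ▸ abs_inner_le_of_norm hb') (abs_inner_le_of_norm hb)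
  rw [e]
  have h5 := abs_sub (⟪b, v - v'⟫ * ⟪b', u⟫ + ⟪b, v'⟫ * ⟪b', u - u'⟫)
    (⟪b', v - v'⟫ * ⟪b, u⟫ + ⟪b', v'⟫ * ⟪b, u - u'⟫)
  have h6 := abs_add_le (⟪b, v - v'⟫ * ⟪b', u⟫) (⟪b, v'⟫ * ⟪b', u - u'⟫)
  have h7 := abs_add_le (⟪b', v - v'⟫ * ⟪b, u⟫) (⟪b', v'⟫ * ⟪b, u - u'⟫)
  linarith

theorem gg_congr {b b' v v' u u' : E} (hb : ‖b‖ = 1) (hb' : ‖b'‖ = 1) (hu : ‖u‖ = 1)
    (hv' : ‖v'‖ = 1) (h : 2 * (‖v - v'‖ + ‖u - u'‖) < |mn b b' v u|) :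
    gg b b' v u = gg b b' v' u' :=
  sg2_congr _ _ (lt_of_le_of_lt (abs_mn_sub_le hb hb' hu hv') h)

end Inner

/-! ## the two existence statements -/

local notation "E4" => EuclideanSpace ℝ (Fin 4)

theorem near_orth_ne {v u : E4} (hv : ‖v‖ = 1) (h : |⟪v, u⟫| ≤ 1 / 10) : v ≠ u ∧ v ≠ -u := by
  constructor
  · intro h1
    subst h1
    rw [real_inner_self_eq_norm_sq, hv] at h
    norm_num at h
  · intro h1
    have : u = -v := by rw [h1, neg_neg]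
    subst this
    rw [inner_neg_right, real_inner_self_eq_norm_sq, hv] at h
    norm_num at h

/-- a basis beginning with a given unit vector -/
theorem exists_basis1 (x : E4) (hx : ‖x‖ = 1) :
    ∃ b : OrthonormalBasis (Fin 4) ℝ E4, b 0 = x := by
  have hv : Orthonormal ℝ (({0} : Set (Fin 4)).domRestrict (fun _ => x)) := by
    constructor
    · intro i; exact hx
    · rintro ⟨i, hi⟩ ⟨j, hj⟩ hij
      exact absurd (Subtype.ext (hi.trans hj.symm)) hij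
  obtain ⟨b, hb⟩ := hv.exists_orthonormalBasis_extension_of_card_eq (by simp)
  exact ⟨b, hb 0 rfl⟩

/-- a basis whose first two vectors span a plane containing `x, y` -/
theorem exists_basis2 (x y : E4) (hx : ‖x‖ = 1) (hy : ‖y‖ = 1) (hxy : |⟪x, y⟫| ≤ 1 / 10) :
    ∃ b : OrthonormalBasis (Fin 4) ℝ E4, b 0 = x ∧
      ∀ v : E4, |⟪b 1, v⟫| ≤ 12 / 11 * (|⟪y, v⟫| + 1 / 10 * |⟪x, v⟫|) := by
  have hsq : ⟪x, y⟫ ^ 2 ≤ 1 / 100 := by
    have := sq_le_sq' (abs_le.1 hxy).1 (abs_le.1 hxy).2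
    norm_num at this ⊢; exact this
  set z := y - ⟪x, y⟫ • x with hz
  have hz2 : ‖z‖ ^ 2 = 1 - ⟪x, y⟫ ^ 2 := by
    rw [hz, norm_sub_sq_real, hy, norm_smul, hx, inner_smul_right, real_inner_comm]
    simp only [Real.norm_eq_abs, mul_one, sq_abs]; ring
  have hzl : (11 / 12 : ℝ) ≤ ‖z‖ := by
    by_contra h
    have h1 : ‖z‖ ^ 2 < (11 / 12) ^ 2 := by
      apply pow_lt_pow_left₀ (not_le.1 h) (norm_nonneg _) (by norm_num)
    nlinarith
  have hzp : 0 < ‖z‖ := by linarith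
  have hxz : ⟪x, z⟫ = 0 := by
    rw [hz, inner_sub_right, inner_smul_right, real_inner_self_eq_norm_sq, hx]; ring
  set w : E4 := ‖z‖⁻¹ • z with hw
  have hwn : ‖w‖ = 1 := by
    rw [hw, norm_smul, norm_inv, norm_norm, inv_mul_cancel₀ hzp.ne']
  have hxw : ⟪x, w⟫ = 0 := by rw [hw, inner_smul_right, hxz, mul_zero]
  have hv : Orthonormal ℝ (({0, 1} : Set (Fin 4)).domRestrict
      (fun i => if i = 0 then x else w)) := by
    constructor
    · rintro ⟨i, hi⟩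
      simp only [Set.domRestrict_apply]
      split_ifs <;> assumption
    · rintro ⟨i, hi⟩ ⟨j, hj⟩ hij
      simp only [Set.domRestrict_apply]
      rcases hi with rfl | rfl <;> rcases hj with rfl | rfl
      · exact absurd rfl hij
      · simpa using hxw
      · simpa [real_inner_comm] using hxw
      · exact absurd rfl hij
  obtain ⟨b, hb⟩ := hv.exists_orthonormalBasis_extension_of_card_eq (by simp)
  refine ⟨b, by simpa using hb 0 (by simp), fun v => ?_⟩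
  have hb1 : b 1 = w := by simpa using hb 1 (by simp)
  have hinv : ‖z‖⁻¹ ≤ 12 / 11 := by
    rw [inv_le_comm₀ hzp (by norm_num)]; norm_num at hzl ⊢; exact hzl
  rw [hb1, hw, inner_smul_left]
  simp only [conj_trivial]
  rw [abs_mul, abs_of_nonneg (inv_nonneg.2 hzp.le)]
  apply mul_le_mul hinv _ (abs_nonneg _) (by norm_num)
  rw [hz, inner_sub_left, inner_smul_left]
  simp only [conj_trivial]
  calc |⟪y, v⟫ - ⟪x, y⟫ * ⟪x, v⟫| ≤ |⟪y, v⟫| + |⟪x, y⟫ * ⟪x, v⟫| := abs_sub _ _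
    _ = |⟪y, v⟫| + |⟪x, y⟫| * |⟪x, v⟫| := by rw [abs_mul]
    _ ≤ |⟪y, v⟫| + 1 / 10 * |⟪x, v⟫| := by gcongr

theorem fine_bound {b b' v v' u u' : E4} (hb : ‖b‖ = 1) (hb' : ‖b'‖ = 1) (hu : ‖u‖ = 1)
    (hv' : ‖v'‖ = 1) (h1 : dist v v' ≤ 1 / 20) (h2 : dist u u' ≤ 1 / 20)
    (h : (1 / 5 : ℝ) < |mn b b' v u|) : gg b b' v u = gg b b' v' u' := by
  apply gg_congr hb hb' hu hv'
  rw [dist_eq_norm] at h1 h2
  linarith

/-- **the three functions of the plane lemma** -/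
theorem exists_plane (x : E4) (hx : ‖x‖ = 1) : ∃ g : Fin 3 → E4 → E4 → ZMod 2,
    (∀ j (v u : E4), v ≠ 0 → g j (-v) u = g j v u + 1) ∧
    (∀ j (v u : E4), u ≠ 0 → g j v (-u) = g j v u + 1) ∧
    (∀ j (v u : E4), ‖v‖ = 1 → |⟪v, u⟫| ≤ 1 / 10 → g j u v = g j v u + 1) ∧
    (∀ s t : List E4,
      (∀ v ∈ s, ‖v‖ = 1 ∧ |⟪x, v⟫| ≤ 1 / 10) → (∀ u ∈ t, ‖u‖ = 1 ∧ |⟪x, u⟫| ≤ 1 / 10) →
      (∀ v ∈ s, ∀ v' ∈ s, dist v v' ≤ 1 / 20) → (∀ u ∈ t, ∀ u' ∈ t, dist u u' ≤ 1 / 20) →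
      (∀ v ∈ s, ∀ u ∈ t, |⟪v, u⟫| ≤ 1 / 10) →
      ∃ j, ∀ v ∈ s, ∀ v' ∈ s, ∀ u ∈ t, ∀ u' ∈ t, g j v u = g j v' u') := by
  obtain ⟨b, hb⟩ := exists_basis1 x hx
  have hbn : ∀ i, ‖b i‖ = 1 := fun i => b.orthonormal.1 i
  refine ⟨![gg (b 1) (b 2), gg (b 2) (b 3), gg (b 3) (b 1)], ?_, ?_, ?_, ?_⟩
  · intro j v u hv
    fin_cases j
    · exact gg_neg_left _ _ _ hv
    · exact gg_neg_left _ _ _ hv
    · exact gg_neg_left _ _ _ hv
  · intro j v u hu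
    fin_cases j
    · exact gg_neg_right _ _ _ hu
    · exact gg_neg_right _ _ _ hu
    · exact gg_neg_right _ _ _ hu
  · intro j v u hv h
    obtain ⟨h1, h2⟩ := near_orth_ne hv h
    fin_cases j
    · exact gg_swap _ _ h1 h2
    · exact gg_swap _ _ h1 h2
    · exact gg_swap _ _ h1 h2
  · intro s t hs ht hss htt hst
    by_cases hne : s = [] ∨ t = []
    · refine ⟨0, ?_⟩
      rcases hne with rfl | rfl
      · intro v hv; simp at hv
      · intro v hv v' hv' u hu; simp at hu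
    · push Not at hne
      obtain ⟨v0, hv0⟩ := List.exists_mem_of_ne_nil s hne.1
      obtain ⟨u0, hu0⟩ := List.exists_mem_of_ne_nil t hne.2
      -- it suffices to bound the minor at (v0,u0) below
      have key : ∀ i j : Fin 4, (1 / 5 : ℝ) < |mn (b i) (b j) v0 u0| →
          ∀ v ∈ s, ∀ v' ∈ s, ∀ u ∈ t, ∀ u' ∈ t,
            gg (b i) (b j) v u = gg (b i) (b j) v' u' := by
        intro i j h v hv v' hv' u hu u' hu'
        have e1 := fine_bound (hbn i) (hbn j) (ht u0 hu0).1 (hs v hv).1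
          (hss v0 hv0 v hv) (htt u0 hu0 u hu) h
        have e2 := fine_bound (hbn i) (hbn j) (ht u0 hu0).1 (hs v' hv').1
          (hss v0 hv0 v' hv') (htt u0 hu0 u' hu') h
        rw [← e1, ← e2]
      -- Parseval
      have p1 := b.sum_sq_inner_right v0
      have p2 := b.sum_sq_inner_right u0
      have p3 := b.sum_inner_mul_inner v0 u0
      simp only [Fin.sum_univ_four] at p1 p2 p3
      rw [(hs v0 hv0).1] at p1
      rw [(ht u0 hu0).1] at p2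
      rw [real_inner_comm (b 0) v0, real_inner_comm (b 1) v0, real_inner_comm (b 2) v0,
        real_inner_comm (b 3) v0] at p3
      have q1 := (hs v0 hv0).2
      have q2 := (ht u0 hu0).2
      have q3 := hst v0 hv0 u0 hu0
      rw [← hb] at q1 q2
      rw [← p3] at q3
      set a0 := ⟪b 0, v0⟫
      set a1 := ⟪b 1, v0⟫
      set a2 := ⟪b 2, v0⟫
      set a3 := ⟪b 3, v0⟫
      set c0 := ⟪b 0, u0⟫
      set c1 := ⟪b 1, u0⟫
      set c2 := ⟪b 2, u0⟫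
      set c3 := ⟪b 3, u0⟫
      by_contra hcon
      push Not at hcon
      have r1 : |mn (b 1) (b 2) v0 u0| ≤ 1 / 5 := by
        by_contra h
        obtain ⟨v, hv, v', hv', u, hu, u', hu', h'⟩ := hcon 0
        exact h' (key 1 2 (not_le.1 h) v hv v' hv' u hu u' hu')
      have r2 : |mn (b 2) (b 3) v0 u0| ≤ 1 / 5 := by
        by_contra h
        obtain ⟨v, hv, v', hv', u, hu, u', hu', h'⟩ := hcon 1
        exact h' (key 2 3 (not_le.1 h) v hv v' hv' u hu u' hu')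
      have r3 : |mn (b 3) (b 1) v0 u0| ≤ 1 / 5 := by
        by_contra h
        obtain ⟨v, hv, v', hv', u, hu, u', hu', h'⟩ := hcon 2
        exact h' (key 3 1 (not_le.1 h) v hv v' hv' u hu u' hu')
      have s1 : (a1 * c2 - a2 * c1) ^ 2 ≤ (1 / 5) ^ 2 := sq_le_sq' (abs_le.1 r1).1 (abs_le.1 r1).2
      have s2 : (a2 * c3 - a3 * c2) ^ 2 ≤ (1 / 5) ^ 2 := sq_le_sq' (abs_le.1 r2).1 (abs_le.1 r2).2
      have s3 : (a3 * c1 - a1 * c3) ^ 2 ≤ (1 / 5) ^ 2 := sq_le_sq' (abs_le.1 r3).1 (abs_le.1 r3).2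
      have t1 : a0 ^ 2 ≤ (1 / 10) ^ 2 := sq_le_sq' (abs_le.1 q1).1 (abs_le.1 q1).2
      have t2 : c0 ^ 2 ≤ (1 / 10) ^ 2 := sq_le_sq' (abs_le.1 q2).1 (abs_le.1 q2).2
      have t3 : |a0 * c0| ≤ 1 / 100 := by
        rw [abs_mul]
        calc |a0| * |c0| ≤ 1 / 10 * (1 / 10) := by gcongr
          _ = 1 / 100 := by norm_num
      have t4 : |a1 * c1 + a2 * c2 + a3 * c3| ≤ 11 / 100 := by
        have e : a1 * c1 + a2 * c2 + a3 * c3 =
          (a0 * c0 + a1 * c1 + a2 * c2 + a3 * c3) - a0 * c0 := by ring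
        rw [e]
        refine (abs_sub _ _).trans ?_
        linarith
      have t5 : (a1 * c1 + a2 * c2 + a3 * c3) ^ 2 ≤ (11 / 100) ^ 2 :=
        sq_le_sq' (abs_le.1 t4).1 (abs_le.1 t4).2
      have lag : (a1 ^ 2 + a2 ^ 2 + a3 ^ 2) * (c1 ^ 2 + c2 ^ 2 + c3 ^ 2) =
        (a1 * c1 + a2 * c2 + a3 * c3) ^ 2 + (a1 * c2 - a2 * c1) ^ 2 + (a2 * c3 - a3 * c2) ^ 2
        + (a3 * c1 - a1 * c3) ^ 2 := by ring
      have n1 : (99 / 100 : ℝ) ≤ a1 ^ 2 + a2 ^ 2 + a3 ^ 2 := by linarith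
      have n2 : (99 / 100 : ℝ) ≤ c1 ^ 2 + c2 ^ 2 + c3 ^ 2 := by linarith
      have n3 : (99 / 100 : ℝ) * (99 / 100) ≤
          (a1 ^ 2 + a2 ^ 2 + a3 ^ 2) * (c1 ^ 2 + c2 ^ 2 + c3 ^ 2) :=
        mul_le_mul n1 n2 (by norm_num) (by linarith)
      linarith

/-- **the function of the line lemma** -/
theorem exists_line (x y : E4) (hx : ‖x‖ = 1) (hy : ‖y‖ = 1) (hxy : |⟪x, y⟫| ≤ 1 / 10) :
    ∃ g : E4 → E4 → ZMod 2,
    (∀ (v u : E4), v ≠ 0 → g (-v) u = g v u + 1) ∧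
    (∀ (v u : E4), u ≠ 0 → g v (-u) = g v u + 1) ∧
    (∀ (v u : E4), ‖v‖ = 1 → |⟪v, u⟫| ≤ 1 / 10 → g u v = g v u + 1) ∧
    (∀ s t : List E4,
      (∀ v ∈ s, ‖v‖ = 1 ∧ |⟪x, v⟫| ≤ 1 / 10 ∧ |⟪y, v⟫| ≤ 1 / 10) →
      (∀ u ∈ t, ‖u‖ = 1 ∧ |⟪x, u⟫| ≤ 1 / 10 ∧ |⟪y, u⟫| ≤ 1 / 10) →
      (∀ v ∈ s, ∀ v' ∈ s, dist v v' ≤ 1 / 20) → (∀ u ∈ t, ∀ u' ∈ t, dist u u' ≤ 1 / 20) →
      (∀ v ∈ s, ∀ u ∈ t, |⟪v, u⟫| ≤ 1 / 10) →
      ∀ v ∈ s, ∀ v' ∈ s, ∀ u ∈ t, ∀ u' ∈ t, g v u = g v' u') := by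
  obtain ⟨b, hb, hb1⟩ := exists_basis2 x y hx hy hxy
  have hbn : ∀ i, ‖b i‖ = 1 := fun i => b.orthonormal.1 i
  refine ⟨gg (b 2) (b 3), fun v u hv => gg_neg_left _ _ _ hv, fun v u hu => gg_neg_right _ _ _ hu,
    ?_, ?_⟩
  · intro v u hv h
    obtain ⟨h1, h2⟩ := near_orth_ne hv h
    exact gg_swap _ _ h1 h2
  · intro s t hs ht hss htt hst v hv v' hv' u hu u' hu'
    apply fine_bound (hbn 2) (hbn 3) (ht u hu).1 (hs v' hv').1 (hss v hv v' hv')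
      (htt u hu u' hu')
    have p1 := b.sum_sq_inner_right v
    have p2 := b.sum_sq_inner_right u
    have p3 := b.sum_inner_mul_inner v u
    simp only [Fin.sum_univ_four] at p1 p2 p3
    rw [(hs v hv).1] at p1
    rw [(ht u hu).1] at p2
    rw [real_inner_comm (b 0) v, real_inner_comm (b 1) v, real_inner_comm (b 2) v,
      real_inner_comm (b 3) v] at p3
    have q1 := (hs v hv).2.1
    have q2 := (ht u hu).2.1
    have q3 := hst v hv u hu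
    have q4 : |⟪b 1, v⟫| ≤ 12 / 100 := (hb1 v).trans (by
      have := (hs v hv).2.1; have := (hs v hv).2.2; linarith)
    have q5 : |⟪b 1, u⟫| ≤ 12 / 100 := (hb1 u).trans (by
      have := (ht u hu).2.1; have := (ht u hu).2.2; linarith)
    rw [← hb] at q1 q2
    rw [← p3] at q3
    set a0 := ⟪b 0, v⟫
    set a1 := ⟪b 1, v⟫
    set a2 := ⟪b 2, v⟫
    set a3 := ⟪b 3, v⟫
    set c0 := ⟪b 0, u⟫
    set c1 := ⟪b 1, u⟫
    set c2 := ⟪b 2, u⟫
    set c3 := ⟪b 3, u⟫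
    by_contra hcon
    have r1 : |a2 * c3 - a3 * c2| ≤ 1 / 5 := not_lt.1 hcon
    have s1 : (a2 * c3 - a3 * c2) ^ 2 ≤ (1 / 5) ^ 2 := sq_le_sq' (abs_le.1 r1).1 (abs_le.1 r1).2
    have t1 : a0 ^ 2 ≤ (1 / 10) ^ 2 := sq_le_sq' (abs_le.1 q1).1 (abs_le.1 q1).2
    have t2 : c0 ^ 2 ≤ (1 / 10) ^ 2 := sq_le_sq' (abs_le.1 q2).1 (abs_le.1 q2).2
    have t1' : a1 ^ 2 ≤ (12 / 100) ^ 2 := sq_le_sq' (abs_le.1 q4).1 (abs_le.1 q4).2
    have t2' : c1 ^ 2 ≤ (12 / 100) ^ 2 := sq_le_sq' (abs_le.1 q5).1 (abs_le.1 q5).2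
    have t3 : |a0 * c0| ≤ 1 / 100 := by
      rw [abs_mul]
      calc |a0| * |c0| ≤ 1 / 10 * (1 / 10) := by gcongr
        _ = 1 / 100 := by norm_num
    have t3' : |a1 * c1| ≤ 2 / 100 := by
      rw [abs_mul]
      calc |a1| * |c1| ≤ 12 / 100 * (12 / 100) := by gcongr
        _ ≤ 2 / 100 := by norm_num
    have t4 : |a2 * c2 + a3 * c3| ≤ 13 / 100 := by
      have e : a2 * c2 + a3 * c3 =
        ((a0 * c0 + a1 * c1 + a2 * c2 + a3 * c3) - a0 * c0) - a1 * c1 := by ring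
      rw [e]
      have h1 := abs_sub ((a0 * c0 + a1 * c1 + a2 * c2 + a3 * c3) - a0 * c0) (a1 * c1)
      have h2 := abs_sub (a0 * c0 + a1 * c1 + a2 * c2 + a3 * c3) (a0 * c0)
      linarith
    have t5 : (a2 * c2 + a3 * c3) ^ 2 ≤ (13 / 100) ^ 2 :=
      sq_le_sq' (abs_le.1 t4).1 (abs_le.1 t4).2
    have lag : (a2 ^ 2 + a3 ^ 2) * (c2 ^ 2 + c3 ^ 2) =
      (a2 * c2 + a3 * c3) ^ 2 + (a2 * c3 - a3 * c2) ^ 2 := by ring
    have n1 : (97 / 100 : ℝ) ≤ a2 ^ 2 + a3 ^ 2 := by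
      norm_num at t1 t1' ⊢; linarith
    have n2 : (97 / 100 : ℝ) ≤ c2 ^ 2 + c3 ^ 2 := by
      norm_num at t2 t2' ⊢; linarith
    have n3 : (97 / 100 : ℝ) * (97 / 100) ≤ (a2 ^ 2 + a3 ^ 2) * (c2 ^ 2 + c3 ^ 2) :=
      mul_le_mul n1 n2 (by norm_num) (by linarith)
    norm_num at s1 t5 n3
    linarith

end

end Crest.Agent.S69.Det
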