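import Crest.Agent.S69.Line
import Crest.Agent.S69.Cap
import Crest.Agent.S69.Chi
import Crest.Agent.S69.Defs
import Crest.Agent.S69.Det

set_option autoImplicit false

/-!
# The line lemma for fundamental 1-chains
-/
namespace Crest.Agent.S69.LineF

open Crest.Agent.BU Crest.Agent.S69.Line Crest.Agent.S69
open scoped RealInnerProductSpace

/-- inner product on the sphere -/
noncomputable def ip (v u : S3) : ℝ :=
  ⟪(v : EuclideanSpace ℝ (Fin 4)), (u : EuclideanSpace ℝ (Fin 4))⟫

theorem ip_comm (v u : S3) : ip v u = ip u v := real_inner_comm _ _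

theorem coe_neg (v : S3) : ((-v : S3) : EuclideanSpace ℝ (Fin 4)) = -(v : EuclideanSpace ℝ (Fin 4)) :=
  rfl

theorem ip_neg_left (v u : S3) : ip (-v) u = -ip v u := by
  rw [ip, coe_neg, inner_neg_left]; rfl

theorem ip_neg_right (v u : S3) : ip v (-u) = -ip v u := by
  rw [ip, coe_neg, inner_neg_right]; rfl

theorem ip_sub_left (v v' u : S3) : |ip v u - ip v' u| ≤ dist v v' := by
  unfold ip
  rw [← inner_sub_left]
  have := abs_real_inner_le_norm ((v : EuclideanSpace ℝ (Fin 4)) - (v' : EuclideanSpace ℝ (Fin 4)))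
    (u : EuclideanSpace ℝ (Fin 4))
  rw [S3.norm u, mul_one, ← dist_eq_norm] at this
  exact this

theorem ip_sub_right (v u u' : S3) : |ip v u - ip v u'| ≤ dist u u' := by
  rw [ip_comm v u, ip_comm v u']; exact ip_sub_left u u' v

open Classical in
/-- symmetric tie-broken sign of the inner product -/
noncomputable def sy0 (v u : S3) : ZMod 2 :=
  if (0 : ℝ) < ip v u then 1 else if ip v u < 0 then 0 else tie v + tie u

theorem sy0_comm (v u : S3) : sy0 v u = sy0 u v := by
  unfold sy0; rw [ip_comm v u, add_comm (tie v)]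

theorem sy0_neg (v u : S3) : sy0 (-v) u = sy0 v u + 1 := by
  unfold sy0
  rw [ip_neg_left]
  rcases lt_trichotomy 0 (ip v u) with h | h | h
  · rw [if_neg (by linarith), if_pos (by linarith), if_pos h]; decide
  · rw [← h]; simp [tie_odd v]; ring
  · rw [if_pos (by linarith), if_neg (by linarith), if_pos h]; decide

/-- if the sign changes the inner products are small -/
theorem ip_small_of_ne {v u v' u' : S3} (h : sy0 v u ≠ sy0 v' u') :
    |ip v u| ≤ dist v v' + dist u u' := by
  have h1 := abs_le.1 (ip_sub_left v v' u)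
  have h2 := abs_le.1 (ip_sub_right v' u u')
  have h3 : (0 : ℝ) ≤ dist v v' := dist_nonneg
  have h4 : (0 : ℝ) ≤ dist u u' := dist_nonneg
  rw [abs_le]
  rcases lt_trichotomy 0 (ip v u) with h0 | h0 | h0
  · have : ip v' u' ≤ 0 := by
      by_contra hc
      push Not at hc
      apply h
      rw [sy0, sy0, if_pos h0, if_pos hc]
    constructor <;> linarith
  · constructor <;> linarith
  · have : 0 ≤ ip v' u' := by
      by_contra hc
      push Not at hc
      apply h
      rw [sy0, sy0, if_neg h0.not_gt, if_pos h0, if_neg hc.not_gt, if_pos hc]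
    constructor <;> linarith

theorem supp_inter {V : Type*} {P Q : List V → Prop} {z : Ch V} (h1 : z ∈ supp P)
    (h2 : z ∈ supp Q) : z ∈ supp (fun l => P l ∧ Q l) := by
  rw [supp, Finsupp.mem_supported] at *
  intro l hl
  exact ⟨h1 hl, h2 hl⟩

theorem case_lem {k l m ca cb cd : Fin 10} (hkl : k ≠ l) (hkm : k ≠ m) (hlm : l ≠ m)
    (o : Fin 10 → ℕ) (ok : o k = 0) (ol : o l = 2) (om : o m = 1)
    (q1 : ca = k ∨ ca = l ∨ ca = m) (q2 : cb = k ∨ cb = l ∨ cb = m)
    (q3 : cd = k ∨ cd = l ∨ cd = m) (n1 : ca ≠ cd) (n2 : cb ≠ cd) :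
    ((if o ca < o cd then 1 else 0 : ZMod 2) + if o cb < o cd then 1 else 0) =
      if ({ca, cb} : Finset (Fin 10)) = {k, l} then 1 else 0 := by
  have hset : (({ca, cb} : Finset (Fin 10)) = {k, l}) ↔ (ca = k ∧ cb = l) ∨ (ca = l ∧ cb = k) := by
    constructor
    · intro h
      have h1 := Finset.ext_iff.1 h
      simp only [Finset.mem_insert, Finset.mem_singleton] at h1
      have a1 := (h1 ca).1 (Or.inl rfl)
      have a2 := (h1 cb).1 (Or.inr rfl)
      have a3 := (h1 k).2 (Or.inl rfl)
      have a4 := (h1 l).2 (Or.inr rfl)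
      rcases a1 with rfl | rfl
      · rcases a4 with h | h
        · exact absurd h.symm hkl
        · exact Or.inl ⟨rfl, h.symm⟩
      · rcases a3 with h | h
        · exact absurd h hkl
        · exact Or.inr ⟨rfl, h.symm⟩
    · rintro (⟨rfl, rfl⟩ | ⟨rfl, rfl⟩)
      · rfl
      · exact Finset.pair_comm _ _
  simp only [hset]
  have h11 : (1 : ZMod 2) + 1 = 0 := rfl
  rcases q3 with rfl | rfl | rfl
  · have b1 : ca = l ∨ ca = m := q1.resolve_left n1
    have b2 : cb = l ∨ cb = m := q2.resolve_left n2
    rcases b1 with rfl | rfl <;> rcases b2 with rfl | rfl <;>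
      simp [ok, ol, om, hkl, hkm, hlm, hkl.symm, hkm.symm, hlm.symm]
  · have b1 : ca = k ∨ ca = m := by tauto
    have b2 : cb = k ∨ cb = m := by tauto
    rcases b1 with rfl | rfl <;> rcases b2 with rfl | rfl <;>
      simp [ok, ol, om, hkl, hkm, hlm, hkl.symm, hkm.symm, hlm.symm, h11]
  · have b1 : ca = k ∨ ca = l := by tauto
    have b2 : cb = k ∨ cb = l := by tauto
    rcases b1 with rfl | rfl <;> rcases b2 with rfl | rfl <;>
      simp [ok, ol, om, hkl, hkm, hlm, hkl.symm, hkm.symm, hlm.symm, h11]

/-- **Line lemma**, with the orientation sign `g` as input. -/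
theorem line_fund_g {c : EuclideanSpace ℝ (Fin 4) → Fin 10} {d e : ℝ} (hc : Col c d)
    (he : 4 * e < d) {X : Set S3} {z : Ch S3} (hz : Fund 1 e X z)
    {k l m : Fin 10} (hkl : k ≠ l) (hkm : k ≠ m) (hlm : l ≠ m)
    (hcol : z ∈ supp (fun l' : List S3 => ∀ v ∈ l', c v = k ∨ c v = l ∨ c v = m))
    (g : S3 → S3 → ZMod 2) (hg1 : ∀ v w, g (-v) w = g v w + 1)
    (hg2 : ∀ v w, g v (-w) = g v w + 1)
    (hanti : ∀ v w, |ip v w| ≤ 3 * e → g v w + g w v = 1)
    (hconst : ∀ a b c' d' : S3, dist a b < e → dist c' d' < e →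
      (∀ x ∈ X, |ip x a| < e ∧ |ip x b| < e ∧ |ip x c'| < e ∧ |ip x d'| < e) →
      |ip a c'| ≤ e → ∀ v w, (v = a ∨ v = b) → (w = c' ∨ w = d') → g v w = g a c') :
    ev (chi (fun v : S3 => c v) {k, l}) z = 1 := by
  classical
  -- the rank
  set o : Fin 10 → ℕ := fun i => if i = k then 0 else if i = l then 2 else 1 with ho
  have ok : o k = 0 := by simp [ho]
  have ol : o l = 2 := by simp [ho, hkl.symm]
  have om : o m = 1 := by simp [ho, hkm.symm, hlm.symm]
  set A : S3 → S3 → ZMod 2 := fun v w => if o (c v) < o (c w) then 1 else 0 with hA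
  -- the support
  let Q : S3 → S3 → Prop := fun a b => dist a b < e ∧ (∀ x ∈ X, |ip x a| < e ∧ |ip x b| < e) ∧
    (c a = k ∨ c a = l ∨ c a = m) ∧ (c b = k ∨ c b = l ∨ c b = m)
  have hQ : z ∈ supp (L2 Q) := by
    refine supp_mono ?_ (supp_inter hz.mem hcol)
    rintro l' ⟨⟨h1, h2, h3⟩, h4⟩
    match l', h1, h2, h3, h4 with
    | [a, b], _, h2, h3, h4 =>
      refine ⟨a, b, rfl, h2 a (by simp) b (by simp), ?_, h4 a (by simp), h4 b (by simp)⟩
      intro x hx
      exact ⟨h3 x hx a (by simp), h3 x hx b (by simp)⟩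
  have hS1 : ∀ Φ : S3 → S3 → ZMod 2, ∀ G : List S3 → ZMod 2, (∀ a b, Φ a b = G [a, b]) →
      S1 z Φ = ev G z := by
    intro Φ G h
    refine ev_congr ?_ hQ
    rintro l' ⟨a, b, rfl, -⟩
    exact h a b
  have hen : ∀ v, c ((-v : S3) : EuclideanSpace ℝ (Fin 4)) = c v := fun v => by
    rw [coe_neg, hc.even]
  -- smallness
  have he0 : ∀ a b, Q a b → 0 < e := fun a b h => lt_of_le_of_lt dist_nonneg h.1
  have hsmall : ∀ a b, Q a b → ∀ c' d', Q c' d' → (sy0 a c' ≠ sy0 b c' ∨ sy0 a c' ≠ sy0 a d') →
      |ip a c'| ≤ e := by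
    intro a b hab c' d' hcd h
    rcases h with h | h
    · have := ip_small_of_ne h
      rw [dist_self, add_zero] at this
      exact this.trans hab.1.le
    · have := ip_small_of_ne h
      rw [dist_self, zero_add] at this
      exact this.trans hcd.1.le
  have hsmall2 : ∀ a b, Q a b → ∀ c' d', Q c' d' → |ip a c'| ≤ e → ∀ v w, (v = a ∨ v = b) →
      (w = c' ∨ w = d') → |ip v w| ≤ 3 * e := by
    intro a b hab c' d' hcd h v w hv hw
    have h0 := he0 a b hab
    have hva : dist v a ≤ e := by
      rcases hv with rfl | rfl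
      · rw [dist_self]; exact h0.le
      · rw [dist_comm]; exact hab.1.le
    have hwc : dist w c' ≤ e := by
      rcases hw with rfl | rfl
      · rw [dist_self]; exact h0.le
      · rw [dist_comm]; exact hcd.1.le
    have h1 := abs_le.1 (ip_sub_left v a w)
    have h2 := abs_le.1 (ip_sub_right a w c')
    have h3 := abs_le.1 h
    rw [abs_le]
    constructor <;> linarith
  have hcne : ∀ v w : S3, |ip v w| ≤ 3 * e → c v ≠ c w := by
    intro v w h hvw
    have := hc.sep v w (S3.norm v) (S3.norm w) hvw
    have h1 : (0 : ℝ) ≤ |ip v w| := abs_nonneg _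
    have h2 : d ≤ |ip v w| := this
    linarith
  have hone : ∀ v w : S3, |ip v w| ≤ 3 * e → (c v = k ∨ c v = l ∨ c v = m) →
      (c w = k ∨ c w = l ∨ c w = m) → A v w + A w v = 1 := by
    intro v w h hv hw
    have hne := hcne v w h
    simp only [hA]
    rcases hv with hv | hv | hv <;> rcases hw with hw | hw | hw <;>
      first
      | exact absurd (hv.trans hw.symm) hne
      | (rw [hv, hw]; simp [ok, ol, om])
  have hQc : ∀ a b, Q a b → ∀ v, (v = a ∨ v = b) → (c v = k ∨ c v = l ∨ c v = m) := by
    intro a b hab v hv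
    rcases hv with rfl | rfl
    · exact hab.2.2.1
    · exact hab.2.2.2
  -- main identity
  have key := line_abs (z := z) hQ (fun _ => True) (fun v => -v) (fun _ _ _ => ⟨trivial, trivial⟩)
    (by
      intro G hG
      rw [hS1 _ (BU.cbd (fun l' => match l' with | [v] => G v | _ => 0)) (by
        intro a b
        simp only [BU.cbd, bdL, map_add, ev_sg, ev_cons, map_zero, add_zero]
        rw [add_comm])]
      refine hz.stokes one_pos _ ?_
      intro l'
      match l' with
      | [] => rfl
      | [v] => exact hG v trivial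
      | (v :: w :: l') => rfl)
    (by
      intro f hf
      rw [hS1 _ (BU.wprod [f]) (by intro a b; simp [BU.wprod, BU.wcup])]
      exact hz.cup [f] rfl (by
        intro a ha
        rw [List.mem_singleton.1 ha]
        exact fun v => hf v trivial))
    sy0 A g tie (fun v w => sy0_comm v w) (fun v w _ _ => sy0_neg v w)
    (fun v w _ _ => by simp only [hA, hen]) (fun v w _ _ => by simp only [hA, hen])
    (fun v w _ _ => hg1 v w) (fun v w _ _ => hg2 v w) (fun v _ => tie_odd v)
    (by
      intro a b hab c' d' hcd h v w hv hw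
      have h1 := hsmall a b hab c' d' hcd h
      have h2 := hsmall2 a b hab c' d' hcd h1 v w hv hw
      refine ⟨hone v w h2 (hQc a b hab v hv) (hQc c' d' hcd w hw), hanti v w h2, ?_⟩
      · refine hconst a b c' d' hab.1 hcd.1 (fun x hx => ⟨(hab.2.1 x hx).1, (hab.2.1 x hx).2,
          (hcd.2.1 x hx).1, (hcd.2.1 x hx).2⟩) h1 v w hv hw)
  -- evaluation
  rw [dd] at key
  have hev : S1 z (fun a b => S1 z (fun c' d' => (sy0 a c' + sy0 a d') * (A a d' + A b d'))) =
      S1 z (fun a b => chi (fun v : S3 => c v) {k, l} [a, b]) := by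
    refine S1_congr hQ ?_
    intro a b hab
    have h1 : S1 z (fun c' d' => (sy0 a c' + sy0 a d') * (A a d' + A b d')) =
        S1 z (fun c' d' => (sy0 a c' + sy0 a d') * chi (fun v : S3 => c v) {k, l} [a, b]) := by
      refine S1_congr hQ ?_
      intro c' d' hcd
      by_cases hn : sy0 a c' = sy0 a d'
      · rw [hn, add_self2, zero_mul, zero_mul]
      · congr 1
        have g1 := hsmall a b hab c' d' hcd (Or.inr hn)
        have n1 := hcne a d' (hsmall2 a b hab c' d' hcd g1 a d' (Or.inl rfl) (Or.inr rfl))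
        have n2 := hcne b d' (hsmall2 a b hab c' d' hcd g1 b d' (Or.inr rfl) (Or.inr rfl))
        have q1 := hab.2.2.1
        have q2 := hab.2.2.2
        have q3 := hcd.2.2.2
        simp only [hA]
        unfold chi
        simp only [List.map_cons, List.map_nil, List.toFinset_cons, List.toFinset_nil,
          insert_empty_eq, List.length_cons, List.length_nil, Finset.card_pair hkl, zero_add,
          Nat.reduceAdd, and_true]
        exact case_lem hkl hkm hlm o ok ol om q1 q2 q3 n1 n2
    rw [h1, S1_mul', hS1 _ (BU.wprod [fun w => sy0 a w]) (by intro a b; simp [BU.wprod, BU.wcup])]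
    rw [hz.cup [fun w => sy0 a w] rfl (by
        intro f hf
        rw [List.mem_singleton.1 hf]
        intro w
        simp only []
        rw [sy0_comm, sy0_neg, sy0_comm]), one_mul]
  rw [hev, hS1 _ (chi (fun v : S3 => c v) {k, l}) (fun a b => rfl)] at key
  exact key

/-- **Line lemma.** -/
theorem line_fund {c : EuclideanSpace ℝ (Fin 4) → Fin 10} {d e : ℝ} (hc : Col c d)
    (he : 4 * e < d) (he' : e ≤ 1 / 40) {X : Set S3} {x y : S3} (hx : x ∈ X) (hy : y ∈ X)
    (hxy : |ip x y| ≤ 1 / 10) {z : Ch S3} (hz : Fund 1 e X z)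
    {k l m : Fin 10} (hkl : k ≠ l) (hkm : k ≠ m) (hlm : l ≠ m)
    (hcol : z ∈ supp (fun l' : List S3 => ∀ v ∈ l', c v = k ∨ c v = l ∨ c v = m)) :
    ev (chi (fun v : S3 => c v) {k, l}) z = 1 := by
  obtain ⟨g, hg1, hg2, hg3, hg4⟩ := Det.exists_line (x : EuclideanSpace ℝ (Fin 4))
    (y : EuclideanSpace ℝ (Fin 4)) (S3.norm x) (S3.norm y) hxy
  have hne : ∀ v : S3, (v : EuclideanSpace ℝ (Fin 4)) ≠ 0 := by
    intro v h
    have := S3.norm v
    rw [h, norm_zero] at this
    exact zero_ne_one this
  refine line_fund_g hc he hz hkl hkm hlm hcol (fun v w => g v w)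
    (fun v w => by simp only [coe_neg]; exact hg1 _ _ (hne v))
    (fun v w => by simp only [coe_neg]; exact hg2 _ _ (hne w)) ?_ ?_
  · intro v w h
    have h1 := hg3 v w (S3.norm v) (show |ip v w| ≤ 1 / 10 by
      have : (0 : ℝ) ≤ |ip v w| := abs_nonneg _
      linarith)
    simp only [h1]
    have := add_self2 (g (v : EuclideanSpace ℝ (Fin 4)) w)
    linear_combination this
  · intro a b c' d' hab hcd hX hac v w hv hw
    have h0 : 0 < e := lt_of_le_of_lt dist_nonneg hab
    have hxX := hX x hx
    have hyX := hX y hy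
    have key := hg4 [(a : EuclideanSpace ℝ (Fin 4)), b] [(c' : EuclideanSpace ℝ (Fin 4)), d']
      (by
        intro v hv
        simp only [List.mem_cons, List.not_mem_nil, or_false] at hv
        rcases hv with rfl | rfl
        · exact ⟨S3.norm a, (hxX.1.le.trans (by linarith) : |ip x a| ≤ 1 / 10),
            (hyX.1.le.trans (by linarith) : |ip y a| ≤ 1 / 10)⟩
        · exact ⟨S3.norm b, (hxX.2.1.le.trans (by linarith) : |ip x b| ≤ 1 / 10),
            (hyX.2.1.le.trans (by linarith) : |ip y b| ≤ 1 / 10)⟩)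
      (by
        intro v hv
        simp only [List.mem_cons, List.not_mem_nil, or_false] at hv
        rcases hv with rfl | rfl
        · exact ⟨S3.norm c', (hxX.2.2.1.le.trans (by linarith) : |ip x c'| ≤ 1 / 10),
            (hyX.2.2.1.le.trans (by linarith) : |ip y c'| ≤ 1 / 10)⟩
        · exact ⟨S3.norm d', (hxX.2.2.2.le.trans (by linarith) : |ip x d'| ≤ 1 / 10),
            (hyX.2.2.2.le.trans (by linarith) : |ip y d'| ≤ 1 / 10)⟩)
      (by
        intro v hv v' hv'
        simp only [List.mem_cons, List.not_mem_nil, or_false] at hv hv'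
        have hab' : dist (a : EuclideanSpace ℝ (Fin 4)) b ≤ 1 / 20 := hab.le.trans (by linarith)
        rcases hv with rfl | rfl <;> rcases hv' with rfl | rfl
        · rw [dist_self]; norm_num
        · exact hab'
        · rw [dist_comm]; exact hab'
        · rw [dist_self]; norm_num)
      (by
        intro v hv v' hv'
        simp only [List.mem_cons, List.not_mem_nil, or_false] at hv hv'
        have hcd' : dist (c' : EuclideanSpace ℝ (Fin 4)) d' ≤ 1 / 20 := hcd.le.trans (by linarith)
        rcases hv with rfl | rfl <;> rcases hv' with rfl | rfl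
        · rw [dist_self]; norm_num
        · exact hcd'
        · rw [dist_comm]; exact hcd'
        · rw [dist_self]; norm_num)
      (by
        have hb : ∀ v w : S3, (v = a ∨ v = b) → (w = c' ∨ w = d') → |ip v w| ≤ 1 / 10 := by
          intro v w hv hw
          have hva : dist v a ≤ e := by
            rcases hv with rfl | rfl
            · rw [dist_self]; exact h0.le
            · rw [dist_comm]; exact hab.le
          have hwc : dist w c' ≤ e := by
            rcases hw with rfl | rfl
            · rw [dist_self]; exact h0.le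
            · rw [dist_comm]; exact hcd.le
          have h1 := abs_le.1 (ip_sub_left v a w)
          have h2 := abs_le.1 (ip_sub_right a w c')
          have h3 := abs_le.1 hac
          rw [abs_le]
          constructor <;> linarith
        intro v hv u hu
        simp only [List.mem_cons, List.not_mem_nil, or_false] at hv hu
        rcases hv with rfl | rfl <;> rcases hu with rfl | rfl
        · exact hb a c' (Or.inl rfl) (Or.inl rfl)
        · exact hb a d' (Or.inl rfl) (Or.inr rfl)
        · exact hb b c' (Or.inr rfl) (Or.inl rfl)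
        · exact hb b d' (Or.inr rfl) (Or.inr rfl))
    refine key v ?_ a (by simp) w ?_ c' (by simp)
    · rcases hv with rfl | rfl <;> simp
    · rcases hw with rfl | rfl <;> simp

end Crest.Agent.S69.LineF
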