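import Crest.Agent.S69.Alg

set_option autoImplicit false

/-!
# Double cochains: telescoping and the index formulas
-/
namespace Crest.Agent.S69

open Crest.Agent.BU

universe u
variable {V : Type u}

/-- the double functional -/
noncomputable def dz (z : Ch V) (F : DC V) : ZMod 2 := ev (fun s => ev (fun t => F s t) z) z

theorem dz_congr {P : List V → Prop} {z : Ch V} (hz : z ∈ supp P) {F G : DC V}
    (h : ∀ s t, P s → P t → F s t = G s t) : dz z F = dz z G :=
  ev_congr (fun s hs => ev_congr (fun t ht => h s t hs ht) hz) hz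

theorem dz_congr' {z : Ch V} {F G : DC V} (h : ∀ s t, F s t = G s t) : dz z F = dz z G := by
  have : F = G := by funext s t; exact h s t
  rw [this]

theorem dz_add (z : Ch V) (F G : DC V) :
    dz z (fun s t => F s t + G s t) = dz z F + dz z G := by
  unfold dz
  rw [← ev_add_fun]
  refine ev_congr_fun (fun s => ?_) z
  exact ev_add_fun _ _ _

theorem dz_TT (z : Ch V) (F : DC V) : dz z (TT F) = dz z F := by
  unfold dz TT
  exact ev_fubini (fun s t => F t s) z z

/-- even in both variables -/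
def EE (ν : V → V) (F : DC V) : Prop :=
  (∀ s t, F (s.map ν) t = F s t) ∧ (∀ s t, F s (t.map ν) = F s t)

theorem dz_DD (ν : V → V) {P : List V → Prop} {z : Ch V}
    (hst : ∀ G : List V → ZMod 2, (∀ l, G (l.map ν) = G l) → ev (cbd G) z = 0)
    (F : DC V) (hF : EE ν F) : dz z (DD F) = 0 := by
  have h1 : dz z (DD F) = dz z (fun s t => cbd (fun s' => F s' t) s) +
      dz z (fun s t => cbd (fun t' => F s t') t) := dz_add z _ _
  rw [h1]
  have h2 : dz z (fun s t => cbd (fun s' => F s' t) s) = 0 := by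
    unfold dz
    rw [ev_fubini (fun s t => cbd (fun s' => F s' t) s) z z]
    have : (fun t => ev (fun s => cbd (fun s' => F s' t) s) z) = fun _ => 0 := by
      funext t
      exact hst (fun s => F s t) (fun l => hF.1 l t)
    rw [this]
    have := ev_const_mul 0 (fun _ : List V => (0 : ZMod 2)) z
    simpa using this
  have h3 : dz z (fun s t => cbd (fun t' => F s t') t) = 0 := by
    unfold dz
    have : (fun s => ev (fun t => cbd (fun t' => F s t') t) z) = fun _ => 0 := by
      funext s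
      exact hst (fun t => F s t) (fun l => hF.2 s l)
    rw [this]
    have := ev_const_mul 0 (fun _ : List V => (0 : ZMod 2)) z
    simpa using this
  rw [h2, h3, add_zero]

/-- near-orthogonality of lists -/
def RR (r : V → V → Prop) (s t : List V) : Prop := ∀ x ∈ s, ∀ y ∈ t, r x y

/-- bi-parity: `σ (ν v) u = σ v u + κ`, `σ v (ν u) = σ v u + κ'` -/
def Par (ν : V → V) (σ : V → V → ZMod 2) : Prop :=
  (∃ κ : ZMod 2, ∀ v u, σ (ν v) u = σ v u + κ) ∧ (∃ κ : ZMod 2, ∀ v u, σ v (ν u) = σ v u + κ)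

theorem EE_Wcup (ν : V → V) {σ : V → V → ZMod 2} (hσ : Par ν σ) {F : DC V} (hF : EE ν F) :
    EE ν (Wcup σ F) := by
  obtain ⟨⟨κ, h1⟩, ⟨κ', h2⟩⟩ := hσ
  have hk := add_self2 κ
  have hk' := add_self2 κ'
  constructor
  · intro s t
    match s, t with
    | [], t => simp [Wcup, Wc1, Wc2]
    | [v], [] => simp [Wcup, Wc1, Wc2]
    | [v], [u] => simp [Wcup, Wc1, Wc2]
    | [v], (u :: u' :: t) =>
      have := hF.1 [v] (u' :: t)
      simp only [List.map_cons, List.map_nil] at this
      simp only [Wcup, Wc1, Wc2, List.map_cons, List.map_nil, h1, this]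
      linear_combination (F [v] (u' :: t)) * hk
    | (v :: v' :: s), [] => simp [Wcup, Wc1, Wc2]
    | (v :: v' :: s), [u] =>
      have := hF.1 (v' :: s) [u]
      simp only [List.map_cons] at this
      simp only [Wcup, Wc1, Wc2, List.map_cons, h1, this]
      linear_combination (F (v' :: s) [u]) * hk
    | (v :: v' :: s), (u :: u' :: t) =>
      have a1 := hF.1 (v' :: s) (u :: u' :: t)
      have a2 := hF.1 (v :: v' :: s) (u' :: t)
      simp only [List.map_cons] at a1 a2
      simp only [Wcup, Wc1, Wc2, List.map_cons, h1, a1, a2]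
      linear_combination (F (v' :: s) (u :: u' :: t)) * hk + (F (v :: v' :: s) (u' :: t)) * hk
  · intro s t
    match s, t with
    | [], t => simp [Wcup, Wc1, Wc2]
    | [v], [] => simp [Wcup, Wc1, Wc2]
    | [v], [u] => simp [Wcup, Wc1, Wc2]
    | [v], (u :: u' :: t) =>
      have := hF.2 [v] (u' :: t)
      simp only [List.map_cons] at this
      simp only [Wcup, Wc1, Wc2, List.map_cons, h2, this]
      linear_combination (F [v] (u' :: t)) * hk'
    | (v :: v' :: s), [] => simp [Wcup, Wc1, Wc2]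
    | (v :: v' :: s), [u] =>
      have := hF.2 (v' :: s) [u]
      simp only [List.map_cons, List.map_nil] at this
      simp only [Wcup, Wc1, Wc2, List.map_cons, List.map_nil, h2, this]
      linear_combination (F (v' :: s) [u]) * hk'
    | (v :: v' :: s), (u :: u' :: t) =>
      have a1 := hF.2 (v' :: s) (u :: u' :: t)
      have a2 := hF.2 (v :: v' :: s) (u' :: t)
      simp only [List.map_cons] at a1 a2
      simp only [Wcup, Wc1, Wc2, List.map_cons, h2, a1, a2]
      linear_combination (F (v' :: s) (u :: u' :: t)) * hk' + (F (v :: v' :: s) (u' :: t)) * hk'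

theorem EE_Acup (ν : V → V) {σ : V → V → ZMod 2} (h1 : ∀ v u, σ (ν v) u = σ v u)
    (h2 : ∀ v u, σ v (ν u) = σ v u) {F : DC V} (hF : EE ν F) : EE ν (Acup σ F) := by
  constructor
  · intro s t
    match s, t with
    | [], t => simp [Acup]
    | (v :: s), [] => simp [Acup]
    | (v :: s), (u :: t) =>
      have := hF.1 (v :: s) (u :: t)
      simp only [List.map_cons] at this
      simp only [Acup, List.map_cons, h1, this]
  · intro s t
    match s, t with
    | [], t => simp [Acup]
    | (v :: s), [] => simp [Acup]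
    | (v :: s), (u :: t) =>
      have := hF.2 (v :: s) (u :: t)
      simp only [List.map_cons] at this
      simp only [Acup, List.map_cons, h2, this]

theorem EE_Bw (ν : V → V) (gs : List (V → V → ZMod 2)) (hgs : ∀ g ∈ gs, Par ν g) {F : DC V}
    (hF : EE ν F) : EE ν (Bw gs F) := by
  induction gs with
  | nil => exact hF
  | cons g gs ih =>
    rw [Bw_cons]
    exact EE_Wcup ν (hgs g (by simp)) (ih (fun g hg => hgs g (by simp [hg])))

theorem Wcup_congr_R (r : V → V → Prop) (σ σ' : V → V → ZMod 2) {F G : DC V} {s t : List V}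
    (hR : RR r s t)
    (hσ : ∀ v v' u, r v u → r v' u → σ v u + σ v' u = σ' v u + σ' v' u)
    (hσ' : ∀ v u u', r v u → r v u' → σ v u + σ v u' = σ' v u + σ' v u')
    (h : ∀ s t, RR r s t → F s t = G s t) : Wcup σ F s t = Wcup σ' G s t := by
  have hsub : ∀ s' t', s' ⊆ s → t' ⊆ t → F s' t' = G s' t' := fun s' t' hs ht =>
    h s' t' (fun x hx y hy => hR x (hs hx) y (ht hy))
  match s, t, hR, hsub with
  | [], t, _, _ => simp [Wcup, Wc1, Wc2]
  | [v], [], _, _ => simp [Wcup, Wc1, Wc2]
  | [v], [u], _, _ => simp [Wcup, Wc1, Wc2]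
  | [v], (u :: u' :: t), hR, hsub =>
    have e1 := hσ' v u u' (hR v (by simp) u (by simp)) (hR v (by simp) u' (by simp))
    have e2 := hsub [v] (u' :: t) (by simp) (by simp)
    simp only [Wcup, Wc1, Wc2, e1, e2]
  | (v :: v' :: s), [], _, _ => simp [Wcup, Wc1, Wc2]
  | (v :: v' :: s), [u], hR, hsub =>
    have e1 := hσ v v' u (hR v (by simp) u (by simp)) (hR v' (by simp) u (by simp))
    have e2 := hsub (v' :: s) [u] (by simp) (by simp)
    simp only [Wcup, Wc1, Wc2, e1, e2]
  | (v :: v' :: s), (u :: u' :: t), hR, hsub =>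
    have e1 := hσ v v' u (hR v (by simp) u (by simp)) (hR v' (by simp) u (by simp))
    have e1' := hσ' v u u' (hR v (by simp) u (by simp)) (hR v (by simp) u' (by simp))
    have e2 := hsub (v' :: s) (u :: u' :: t) (by simp) (by simp)
    have e2' := hsub (v :: v' :: s) (u' :: t) (by simp) (by simp)
    simp only [Wcup, Wc1, Wc2, e1, e1', e2, e2']

theorem Bw_congr_R (r : V → V → Prop) (gs : List (V → V → ZMod 2)) {F G : DC V}
    (h : ∀ s t, RR r s t → F s t = G s t) {s t : List V} (hR : RR r s t) :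
    Bw gs F s t = Bw gs G s t := by
  induction gs generalizing s t with
  | nil => exact h s t hR
  | cons g gs ih =>
    rw [Bw_cons, Bw_cons]
    exact Wcup_congr_R r g g hR (fun _ _ _ _ _ => rfl) (fun _ _ _ _ _ => rfl)
      (fun s t hst => ih hst)

theorem Bw_TT_R (r : V → V → Prop) (hr : ∀ v u, r v u → r u v) (gs : List (V → V → ZMod 2))
    (hgs : ∀ g ∈ gs, ∀ v u, r v u → g u v = g v u + 1) (F : DC V) {s t : List V}
    (hR : RR r s t) : TT (Bw gs F) s t = Bw gs (TT F) s t := by
  induction gs generalizing s t with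
  | nil => rfl
  | cons g gs ih =>
    rw [Bw_cons, Bw_cons, TT_Wcup]
    have two := add_self2 (1 : ZMod 2)
    refine Wcup_congr_R r _ g hR ?_ ?_ (fun s t hst => ih (fun g hg => hgs g (by simp [hg])) hst)
    · intro v v' u h1 h2
      rw [hgs g (by simp) v u h1, hgs g (by simp) v' u h2]
      linear_combination two
    · intro v u u' h1 h2
      rw [hgs g (by simp) v u h1, hgs g (by simp) v u' h2]
      linear_combination two

theorem W_congr (r : V → V → Prop) (P : List V → Prop) (σ0 : V → V → ZMod 2)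
    (σ0_symm : ∀ v u, σ0 u v = σ0 v u) (hr : ∀ v u, r v u → r u v)
    (hW : ∀ s t, P s → P t → ∀ v ∈ s, ∀ v' ∈ s, ∀ u ∈ t, σ0 v u ≠ σ0 v' u → RR r s t)
    {F G : DC V} (h : ∀ s t, RR r s t → F s t = G s t) (s t : List V) (hs : P s) (ht : P t) :
    Wcup σ0 F s t = Wcup σ0 G s t := by
  by_cases hR : RR r s t
  · exact Wcup_congr_R r σ0 σ0 hR (fun _ _ _ _ _ => rfl) (fun _ _ _ _ _ => rfl) h
  · have c1 : ∀ v ∈ s, ∀ v' ∈ s, ∀ u ∈ t, σ0 v u = σ0 v' u := by
      intro v hv v' hv' u hu
      by_contra hne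
      exact hR (hW s t hs ht v hv v' hv' u hu hne)
    have c2 : ∀ v ∈ s, ∀ u ∈ t, ∀ u' ∈ t, σ0 v u = σ0 v u' := by
      intro v hv u hu u' hu'
      by_contra hne
      apply hR
      have := hW t s ht hs u hu u' hu' v hv (by rw [σ0_symm v u, σ0_symm v u']; exact hne)
      intro x hx y hy
      exact hr _ _ (this y hy x hx)
    have c : ∀ v ∈ s, ∀ v' ∈ s, ∀ u ∈ t, ∀ u' ∈ t, σ0 v u = σ0 v' u' := by
      intro v hv v' hv' u hu u' hu'
      rw [c1 v hv v' hv' u hu, c2 v' hv' u hu u' hu']
    have e1 := Bw_const [σ0] F s t σ0 (by simp) c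
    have e2 := Bw_const [σ0] G s t σ0 (by simp) c
    simp only [Bw_cons, Bw_nil] at e1 e2
    rw [e1, e2]

/-- the constant `1` in bidegree (0,0) -/
def One : DC V := fun s t => if s.length = 1 ∧ t.length = 1 then 1 else 0

/-- all the data -/
structure Dat (ν : V → V) (P : List V → Prop) (r : V → V → Prop) (z : Ch V)
    (σ0 : V → V → ZMod 2) (e : V → ZMod 2) : Prop where
  supp : z ∈ supp P
  stokes : ∀ G : List V → ZMod 2, (∀ l, G (l.map ν) = G l) → ev (cbd G) z = 0
  rsymm : ∀ v u, r v u → r u v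
  symm : ∀ v u, σ0 u v = σ0 v u
  oddl : ∀ v u, σ0 (ν v) u = σ0 v u + 1
  hW : ∀ s t, P s → P t → ∀ v ∈ s, ∀ v' ∈ s, ∀ u ∈ t, σ0 v u ≠ σ0 v' u → RR r s t
  odd : ∀ v, e (ν v) = e v + 1

variable {ν : V → V} {P : List V → Prop} {r : V → V → Prop} {z : Ch V}
    {σ0 : V → V → ZMod 2} {e : V → ZMod 2}

theorem Dat.oddr (D : Dat ν P r z σ0 e) (v u : V) : σ0 v (ν u) = σ0 v u + 1 := by
  rw [← D.symm v (ν u), D.oddl, D.symm v u]

/-- bi-odd functions, antisymmetric near orthogonal pairs -/
structure BiOdd (ν : V → V) (r : V → V → Prop) (g : V → V → ZMod 2) : Prop where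
  oddl : ∀ v u, g (ν v) u = g v u + 1
  oddr : ∀ v u, g v (ν u) = g v u + 1
  anti : ∀ v u, r v u → g u v = g v u + 1

theorem BiOdd.par {g : V → V → ZMod 2} (h : BiOdd ν r g) : Par ν g :=
  ⟨⟨1, h.oddl⟩, ⟨1, h.oddr⟩⟩

theorem Dat.par0 (D : Dat ν P r z σ0 e) : Par ν σ0 := ⟨⟨1, D.oddl⟩, ⟨1, D.oddr⟩⟩

theorem Dat.congr (D : Dat ν P r z σ0 e) (gs : List (V → V → ZMod 2)) {F G : DC V}
    (h : ∀ s t, RR r s t → F s t = G s t) :
    dz z (Wcup σ0 (Bw gs F)) = dz z (Wcup σ0 (Bw gs G)) :=
  dz_congr D.supp (fun s t hs ht => W_congr r P σ0 D.symm D.rsymm D.hW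
    (fun s t hst => Bw_congr_R r gs h hst) s t hs ht)

theorem Dat.swap (D : Dat ν P r z σ0 e) (gs : List (V → V → ZMod 2))
    (hgs : ∀ g ∈ gs, BiOdd ν r g) (F : DC V) :
    dz z (Wcup σ0 (Bw gs (TT F))) = dz z (Wcup σ0 (Bw gs F)) := by
  rw [← dz_TT z (Wcup σ0 (Bw gs F)), TT_Wcup]
  have hs : (fun v u => σ0 u v) = σ0 := by funext v u; exact D.symm v u
  rw [hs]
  symm
  exact dz_congr D.supp (fun s t hs ht => W_congr r P σ0 D.symm D.rsymm D.hW
    (fun s t hst => Bw_TT_R r D.rsymm gs (fun g hg => (hgs g hg).anti) F hst) s t hs ht)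

theorem Dat.add (gs : List (V → V → ZMod 2)) (F G : DC V) :
    dz z (Wcup σ0 (Bw gs (fun s t => F s t + G s t))) =
      dz z (Wcup σ0 (Bw gs F)) + dz z (Wcup σ0 (Bw gs G)) := by
  rw [← dz_add]
  apply dz_congr'
  intro s t
  exact Bw_add (σ0 :: gs) F G s t

theorem Dat.bdz (D : Dat ν P r z σ0 e) (gs : List (V → V → ZMod 2))
    (hgs : ∀ g ∈ gs, Par ν g) (F : DC V) (hF : Nz F) (hE : EE ν F) :
    dz z (Wcup σ0 (Bw gs (DD F))) = 0 := by
  have := dz_DD ν (P := P) D.stokes (Bw (σ0 :: gs) F) (EE_Bw ν _ (by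
    intro g hg
    rcases List.mem_cons.1 hg with rfl | hg
    · exact D.par0
    · exact hgs g hg) hE)
  rw [DD_Bw _ _ hF] at this
  exact this

/-- the telescoping step -/
theorem Dat.tele (D : Dat ν P r z σ0 e) (gs : List (V → V → ZMod 2))
    (hgs : ∀ g ∈ gs, BiOdd ν r g) (g : V → V → ZMod 2) (hg : BiOdd ν r g)
    (A A' C : DC V) (hA : Nz A) (hA' : Nz A') (hE : EE ν A')
    (h1 : ∀ s t, RR r s t → A s t + A t s = DD A' s t)
    (h2 : ∀ s t, RR r s t → A' s t + A' t s = C s t) :
    dz z (Wcup σ0 (Bw gs A)) = dz z (Wcup σ0 (Bw gs (Wcup g A'))) +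
      dz z (Wcup σ0 (Bw gs (Wcup (fun v _ => e v) C))) := by
  set a : V → V → ZMod 2 := fun v u => (e v + e u) + g v u with ha
  have a1 : dz z (Wcup σ0 (Bw gs A)) =
      dz z (Wcup σ0 (Bw gs (fun s t => Acup a A s t + Acup (fun v u => a u v) A s t))) := by
    refine D.congr gs (fun s t hst => ?_)
    match s, t, hst with
    | [], t, _ => simp [Acup, hA.1]
    | (v :: s), [], _ => simp [Acup, hA.2]
    | (v :: s), (u :: t), hst =>
      have := hg.anti v u (hst v (by simp) u (by simp))
      have k1 := add_self2 (e v)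
      have k2 := add_self2 (e u)
      have k3 := add_self2 (g v u)
      simp only [Acup, ha, this]
      linear_combination -(A (v :: s) (u :: t)) * (k1 + k2 + k3)
  have a2 : dz z (Wcup σ0 (Bw gs (Acup (fun v u => a u v) A))) =
      dz z (Wcup σ0 (Bw gs (Acup a (TT A)))) := by
    rw [← D.swap gs hgs, TT_Acup]
  have a3 : dz z (Wcup σ0 (Bw gs A)) = dz z (Wcup σ0 (Bw gs (Acup a (DD A')))) := by
    rw [a1, Dat.add, a2, ← Dat.add]
    refine D.congr gs (fun s t hst => ?_)
    match s, t, hst with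
    | [], t, _ => simp [Acup]
    | (v :: s), [], _ => simp [Acup]
    | (v :: s), (u :: t), hst =>
      have := h1 _ _ hst
      simp only [Acup, ← this, TT]
      ring
  have a4 : dz z (Wcup σ0 (Bw gs (Acup a (DD A')))) =
      dz z (Wcup σ0 (Bw gs (DD (Acup a A')))) + dz z (Wcup σ0 (Bw gs (Wcup a A'))) := by
    rw [← Dat.add]
    congr 3
    funext s t
    rw [DD_Acup a A' hA']
    have := add_self2 (Wcup a A' s t)
    linear_combination -this
  have ae1 : ∀ v u, a (ν v) u = a v u := by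
    intro v u
    have two := add_self2 (1 : ZMod 2)
    simp only [ha, D.odd, hg.oddl]
    linear_combination two
  have ae2 : ∀ v u, a v (ν u) = a v u := by
    intro v u
    have two := add_self2 (1 : ZMod 2)
    simp only [ha, D.odd, hg.oddr]
    linear_combination two
  have a5 : dz z (Wcup σ0 (Bw gs (DD (Acup a A')))) = 0 :=
    D.bdz gs (fun g hg => (hgs g hg).par) _ (Nz_Acup _ _) (EE_Acup ν ae1 ae2 hE)
  have a6 : dz z (Wcup σ0 (Bw gs (Wcup a A'))) =
      (dz z (Wcup σ0 (Bw gs (Wcup (fun v _ => e v) A'))) +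
        dz z (Wcup σ0 (Bw gs (Wcup (fun _ u => e u) A')))) +
        dz z (Wcup σ0 (Bw gs (Wcup g A'))) := by
    rw [← Dat.add, ← Dat.add]
    congr 3
    funext s t
    rw [← Wcup_add_left, ← Wcup_add_left]
  have a7 : dz z (Wcup σ0 (Bw gs (Wcup (fun _ u => e u) A'))) =
      dz z (Wcup σ0 (Bw gs (Wcup (fun v _ => e v) (TT A')))) := by
    rw [← D.swap gs hgs, TT_Wcup]
  have a8 : dz z (Wcup σ0 (Bw gs (Wcup (fun v _ => e v) A'))) +
        dz z (Wcup σ0 (Bw gs (Wcup (fun v _ => e v) (TT A')))) =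
      dz z (Wcup σ0 (Bw gs (Wcup (fun v _ => e v) C))) := by
    rw [← Dat.add]
    refine D.congr gs (fun s t hst => ?_)
    rw [← Wcup_add]
    exact Wcup_congr_R r _ _ hst (fun _ _ _ _ _ => rfl) (fun _ _ _ _ _ => rfl)
      (fun s t hst => h2 s t hst)
  rw [a3, a4, a5, a6, a7, a8]
  ring

/-- telescoping step when the error term is exact -/
theorem Dat.tele0 (D : Dat ν P r z σ0 e) (gs : List (V → V → ZMod 2))
    (hgs : ∀ g ∈ gs, BiOdd ν r g) (g : V → V → ZMod 2) (hg : BiOdd ν r g)
    (A A' A'' : DC V) (hA : Nz A) (hA' : Nz A') (hA'' : Nz A'') (hE : EE ν A') (hE' : EE ν A'')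
    (h1 : ∀ s t, RR r s t → A s t + A t s = DD A' s t)
    (h2 : ∀ s t, RR r s t → A' s t + A' t s = DD A'' s t) :
    dz z (Wcup σ0 (Bw gs A)) = dz z (Wcup σ0 (Bw (gs ++ [g]) A')) := by
  rw [D.tele gs hgs g hg A A' (DD A'') hA hA' hE h1 h2, Bw_append]
  have hp : Par ν (fun (v _ : V) => e v) := ⟨⟨1, fun v _ => D.odd v⟩, ⟨0, fun v u => by simp⟩⟩
  have : dz z (Wcup σ0 (Bw gs (Wcup (fun v _ => e v) (DD A'')))) = 0 := by
    have := D.bdz (gs ++ [fun v _ => e v]) (by
      intro g hg
      rcases List.mem_append.1 hg with hg | hg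
      · exact (hgs g hg).par
      · rw [List.mem_singleton.1 hg]; exact hp) A'' hA'' hE'
    rw [Bw_append] at this
    exact this
  rw [this, add_zero]
  rfl

/-! ### evaluation of words -/

/-- tensor product -/
def tens (p q : List V → ZMod 2) : DC V := fun s t => p s * q t

def one1 : List V → ZMod 2 := fun l => if l.length = 1 then 1 else 0

def wn (e : V → ZMod 2) : ℕ → List V → ZMod 2
  | 0 => one1
  | (n + 1) => wcup e (wn e n)

theorem wn_nil (e : V → ZMod 2) (n : ℕ) : wn e n [] = 0 := by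
  cases n with
  | zero => simp [wn, one1]
  | succ n => simp [wn, wcup]

theorem wn_len (e : V → ZMod 2) (n : ℕ) (l : List V) (h : l.length ≠ n + 1) : wn e n l = 0 := by
  induction n generalizing l with
  | zero => simp only [wn, one1]; rw [if_neg (by simpa using h)]
  | succ n ih =>
    match l, h with
    | [], _ => simp [wn, wcup]
    | [v], _ => simp [wn, wcup]
    | (v :: v' :: l), h =>
      rw [wn, wcup, ih (v' :: l) (by simp only [List.length_cons] at h ⊢; omega), mul_zero]

theorem wn_wprod (e : V → ZMod 2) (n : ℕ) (l : List V) (h : l.length = n + 1) :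
    wn e n l = wprod (List.replicate n e) l := by
  induction n generalizing l with
  | zero => simp [wn, one1, h, wprod]
  | succ n ih =>
    match l, h with
    | (v :: v' :: l), h =>
      have := ih (v' :: l) (by simp only [List.length_cons] at h ⊢; omega)
      rw [wn, wcup, this, List.replicate_succ]
      simp [wprod, wcup]

theorem One_eq : (One : DC V) = tens one1 one1 := by
  funext s t
  simp only [One, tens, one1]
  split_ifs <;> simp_all

theorem Wcup_X (e : V → ZMod 2) (p q : List V → ZMod 2) (hp : p [] = 0) (hq : q [] = 0)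
    (s t : List V) : Wcup (fun v _ => e v) (tens p q) s t = tens (wcup e p) q s t := by
  match s, t with
  | [], t => simp [Wcup, Wc1, Wc2, tens, wcup]
  | [v], [] => simp [Wcup, Wc1, Wc2, tens, wcup]
  | [v], [u] => simp [Wcup, Wc1, Wc2, tens, wcup]
  | [v], (u :: u' :: t) => simp [Wcup, Wc1, Wc2, tens, wcup, add_self2]
  | (v :: v' :: s), [] => simp [Wcup, Wc1, Wc2, tens, hq]
  | (v :: v' :: s), [u] => simp [Wcup, Wc1, Wc2, tens, wcup]; ring
  | (v :: v' :: s), (u :: u' :: t) => simp [Wcup, Wc1, Wc2, tens, wcup, add_self2]; ring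

theorem Wcup_Y (e : V → ZMod 2) (p q : List V → ZMod 2) (hp : p [] = 0) (hq : q [] = 0)
    (s t : List V) : Wcup (fun _ u => e u) (tens p q) s t = tens p (wcup e q) s t := by
  match s, t with
  | [], t => simp [Wcup, Wc1, Wc2, tens, hp]
  | [v], [] => simp [Wcup, Wc1, Wc2, tens, wcup]
  | [v], [u] => simp [Wcup, Wc1, Wc2, tens, wcup]
  | [v], (u :: u' :: t) => simp [Wcup, Wc1, Wc2, tens, wcup]; ring
  | (v :: v' :: s), [] => simp [Wcup, Wc1, Wc2, tens, wcup]
  | (v :: v' :: s), [u] => simp [Wcup, Wc1, Wc2, tens, wcup, add_self2]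
  | (v :: v' :: s), (u :: u' :: t) => simp [Wcup, Wc1, Wc2, tens, wcup, add_self2]; ring

theorem dz_tens (z : Ch V) (p q : List V → ZMod 2) : dz z (tens p q) = ev p z * ev q z := by
  unfold dz tens
  have h1 : (fun s => ev (fun t => p s * q t) z) = fun s => ev q z * p s := by
    funext s
    rw [ev_const_mul, mul_comm]
  rw [h1, ev_const_mul, mul_comm]

theorem DD_One : DD (One : DC V) = fun _ _ => 0 := by
  have hlen : ∀ l : List V, cbd one1 l = 0 := by
    intro l
    match l with
    | [] => exact cbd_nil _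
    | [v] => rw [cbd_single]; simp [one1]
    | [v, v'] => simp [cbd, bdL, one1, ev_cons, add_self2]
    | (v :: v' :: v'' :: l) =>
      have : ∀ (l : List V) (k : ℕ), l.length = k + 1 → bdL l ∈ supp (fun l' : List V => l'.length = k) := by
        intro l
        induction l with
        | nil => intro k hk; simp at hk
        | cons v l ih =>
          intro k hk
          rw [bdL]
          refine Submodule.add_mem _ (sg_mem (by simpa using hk)) ?_
          match k with
          | 0 =>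
            have : l = [] := by
              simp only [List.length_cons] at hk
              exact List.eq_nil_of_length_eq_zero (by omega)
            simp [this, bdL]
          | (k + 1) =>
            refine lift_mem (f := cons v) (fun l' hl' => ?_) (ih k (by simpa using hk))
            rw [cons_sg]
            exact sg_mem (by simp [hl'])
      have h := this (v :: v' :: v'' :: l) (l.length + 2) (by simp)
      refine ev_eq_zero (fun l' hl' => ?_) h
      simp only [one1]
      rw [if_neg (by omega)]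
  funext s t
  rw [One_eq]
  have e1 : cbd (fun s' => tens one1 one1 s' t) s = 0 := by
    have : (fun s' => tens one1 one1 s' t) = fun s' : List V => one1 t * one1 s' := by
      funext s'; simp [tens, mul_comm]
    rw [this]
    have := ev_const_mul (one1 t) one1 (bdL s)
    rw [cbd, this]
    have h := hlen s
    rw [cbd] at h
    rw [h, mul_zero]
  have e2 : cbd (fun t' => tens one1 one1 s t') t = 0 := by
    have : (fun t' => tens one1 one1 s t') = fun t' : List V => one1 s * one1 t' := by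
      funext t'; simp [tens]
    rw [this]
    have := ev_const_mul (one1 s) one1 (bdL t)
    rw [cbd, this]
    have h := hlen t
    rw [cbd] at h
    rw [h, mul_zero]
  unfold DD
  rw [e1, e2, add_zero]

theorem EE_One : EE ν (One : DC V) := ⟨fun s t => by simp [One], fun s t => by simp [One]⟩

theorem Nz_One : Nz (One : DC V) := ⟨fun t => by simp [One], fun s => by simp [One]⟩

/-- `X + Y` -/
def SS (e : V → ZMod 2) : V → V → ZMod 2 := fun v u => e v + e u

/-- replacing a bi-odd function by `X + Y` -/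
theorem Dat.repl (D : Dat ν P r z σ0 e) (pre : List (V → V → ZMod 2)) (hpre : ∀ g ∈ pre, Par ν g)
    (σ : V → V → ZMod 2) (h1 : ∀ v u, σ (ν v) u = σ v u + 1) (h2 : ∀ v u, σ v (ν u) = σ v u + 1)
    (C : DC V) (hC : Nz C) (hE : EE ν C) (hD : DD C = fun _ _ => 0) :
    dz z (Bw pre (Wcup σ C)) = dz z (Bw pre (Wcup (SS e) C)) := by
  set b : V → V → ZMod 2 := fun v u => σ v u + (e v + e u) with hb
  have two := add_self2 (1 : ZMod 2)
  have b1 : ∀ v u, b (ν v) u = b v u := by
    intro v u; simp only [hb, h1, D.odd]; linear_combination two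
  have b2 : ∀ v u, b v (ν u) = b v u := by
    intro v u; simp only [hb, h2, D.odd]; linear_combination two
  have e1 : dz z (Bw pre (Wcup b C)) = 0 := by
    have h := dz_DD ν (P := P) D.stokes (Bw pre (Acup b C))
      (EE_Bw ν pre hpre (EE_Acup ν b1 b2 hE))
    rw [DD_Bw _ _ (Nz_Acup _ _)] at h
    have : DD (Acup b C) = Wcup b C := by
      funext s t
      rw [DD_Acup b C hC, hD, Acup_zero, add_zero]
    rw [this] at h
    exact h
  have e2 : dz z (Bw pre (Wcup σ C)) + dz z (Bw pre (Wcup (SS e) C)) =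
      dz z (Bw pre (Wcup b C)) := by
    rw [← dz_add]
    apply dz_congr'
    intro s t
    rw [← Bw_add]
    congr 1
    funext s t
    rw [← Wcup_add_left]
    rfl
  rw [e1] at e2
  have := add_self2 (dz z (Bw pre (Wcup (SS e) C)))
  linear_combination e2 - this

theorem Wcup_S (e : V → ZMod 2) (i j : ℕ) :
    Wcup (SS e) (tens (wn e i) (wn e j)) =
      fun s t => tens (wn e (i + 1)) (wn e j) s t + tens (wn e i) (wn e (j + 1)) s t := by
  funext s t
  unfold SS
  rw [Wcup_add_left, Wcup_X e _ _ (wn_nil e i) (wn_nil e j), Wcup_Y e _ _ (wn_nil e i) (wn_nil e j)]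
  rfl

theorem Par_X (D : Dat ν P r z σ0 e) : Par ν (fun (v _ : V) => e v) :=
  ⟨⟨1, fun v _ => D.odd v⟩, ⟨0, fun v u => by simp⟩⟩

theorem Par_SS (D : Dat ν P r z σ0 e) : Par ν (SS e) :=
  ⟨⟨1, fun v u => by simp only [SS, D.odd]; ring⟩, ⟨1, fun v u => by simp only [SS, D.odd]; ring⟩⟩

/-- plane: value of the final word -/
theorem Dat.word3 (D : Dat ν P r z σ0 e) (hP : ∀ l, P l → l.length = 3)
    (he : ev (wprod [e, e]) z = 1) (g1 g2 : V → V → ZMod 2)
    (h1 : BiOdd ν r g1) (h2 : BiOdd ν r g2) :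
    dz z (Wcup σ0 (Bw [g1, g2] (Wcup (fun v _ => e v) One))) = 1 := by
  have pX := Par_X D
  have pS := Par_SS D
  have evn : ∀ n, n ≠ 2 → ev (wn e n) z = 0 := by
    intro n hn
    refine ev_eq_zero (fun l hl => wn_len e n l ?_) D.supp
    rw [hP l hl]; omega
  have ev2 : ev (wn e 2) z = 1 := by
    rw [← he]
    refine ev_congr (fun l hl => ?_) D.supp
    rw [wn_wprod e 2 l (hP l hl)]
    rfl
  have closed : ∀ gs : List (V → V → ZMod 2), DD (Bw gs (One : DC V)) = fun _ _ => 0 := by
    intro gs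
    rw [DD_Bw gs One Nz_One, DD_One, Bw_zero]
  have r0 : dz z (Wcup σ0 (Bw [g1, g2] (Wcup (fun v _ => e v) One))) =
      dz z (Bw [SS e, g1, g2, fun v _ => e v] One) :=
    D.repl [] (by simp) σ0 D.oddl D.oddr (Bw [g1, g2, fun v _ => e v] One) (Nz_Wcup _ _)
      (EE_Bw ν _ (by
        intro g hg
        simp only [List.mem_cons, List.not_mem_nil, or_false] at hg
        rcases hg with rfl | rfl | rfl
        · exact h1.par
        · exact h2.par
        · exact pX) EE_One) (closed _)
  have r1 : dz z (Bw [SS e, g1, g2, fun v _ => e v] One) =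
      dz z (Bw [SS e, SS e, g2, fun v _ => e v] One) :=
    D.repl [SS e] (by
        intro g hg
        rw [List.mem_singleton.1 hg]; exact pS) g1 h1.oddl h1.oddr
      (Bw [g2, fun v _ => e v] One) (Nz_Wcup _ _)
      (EE_Bw ν _ (by
        intro g hg
        simp only [List.mem_cons, List.not_mem_nil, or_false] at hg
        rcases hg with rfl | rfl
        · exact h2.par
        · exact pX) EE_One) (closed _)
  have r2 : dz z (Bw [SS e, SS e, g2, fun v _ => e v] One) =
      dz z (Bw [SS e, SS e, SS e, fun v _ => e v] One) :=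
    D.repl [SS e, SS e] (by
        intro g hg
        simp only [List.mem_cons, List.not_mem_nil, or_false, or_self] at hg
        rw [hg]; exact pS) g2 h2.oddl h2.oddr
      (Bw [fun v _ => e v] One) (Nz_Wcup _ _)
      (EE_Bw ν _ (by
        intro g hg
        simp only [List.mem_cons, List.not_mem_nil, or_false] at hg
        rw [hg]; exact pX) EE_One) (closed _)
  rw [r0, r1, r2]
  have w0 : Bw [fun v _ => e v] (One : DC V) = tens (wn e 1) (wn e 0) := by
    funext s t
    rw [Bw_cons, Bw_nil, One_eq, Wcup_X e one1 one1 (by simp [one1]) (by simp [one1])]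
    rfl
  have w1 : Bw [SS e, fun v _ => e v] (One : DC V) =
      fun s t => tens (wn e 2) (wn e 0) s t + tens (wn e 1) (wn e 1) s t := by
    have : Bw [SS e, fun v _ => e v] (One : DC V) = Wcup (SS e) (Bw [fun v _ => e v] One) := rfl
    rw [this, w0, Wcup_S]
  have w2 : Bw [SS e, SS e, fun v _ => e v] (One : DC V) =
      fun s t => tens (wn e 3) (wn e 0) s t + tens (wn e 1) (wn e 2) s t := by
    have : Bw [SS e, SS e, fun v _ => e v] (One : DC V) =
      Wcup (SS e) (Bw [SS e, fun v _ => e v] One) := rfl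
    rw [this, w1]
    funext s t
    rw [Wcup_add, Wcup_S, Wcup_S]
    have := add_self2 (tens (wn e 2) (wn e 1) s t)
    linear_combination this
  have w3 : Bw [SS e, SS e, SS e, fun v _ => e v] (One : DC V) =
      fun s t => (tens (wn e 4) (wn e 0) s t + tens (wn e 3) (wn e 1) s t) +
        (tens (wn e 2) (wn e 2) s t + tens (wn e 1) (wn e 3) s t) := by
    have : Bw [SS e, SS e, SS e, fun v _ => e v] (One : DC V) =
      Wcup (SS e) (Bw [SS e, SS e, fun v _ => e v] One) := rfl
    rw [this, w2]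
    funext s t
    rw [Wcup_add, Wcup_S, Wcup_S]
  rw [w3, dz_add, dz_add, dz_add, dz_tens, dz_tens, dz_tens, dz_tens, ev2,
    evn 4 (by norm_num), evn 3 (by norm_num), evn 1 (by norm_num)]
  norm_num

/-- line: value of the final word -/
theorem Dat.word1 (D : Dat ν P r z σ0 e) (hP : ∀ l, P l → l.length = 2)
    (he : ev (wprod [e]) z = 1) :
    dz z (Wcup σ0 (Wcup (fun v _ => e v) One)) = 1 := by
  have pX := Par_X D
  have evn : ∀ n, n ≠ 1 → ev (wn e n) z = 0 := by
    intro n hn
    refine ev_eq_zero (fun l hl => wn_len e n l ?_) D.supp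
    rw [hP l hl]; omega
  have ev2 : ev (wn e 1) z = 1 := by
    rw [← he]
    refine ev_congr (fun l hl => ?_) D.supp
    rw [wn_wprod e 1 l (hP l hl)]
    rfl
  have closed : ∀ gs : List (V → V → ZMod 2), DD (Bw gs (One : DC V)) = fun _ _ => 0 := by
    intro gs
    rw [DD_Bw gs One Nz_One, DD_One, Bw_zero]
  have r0 : dz z (Wcup σ0 (Wcup (fun v _ => e v) One)) =
      dz z (Bw [SS e, fun v _ => e v] One) :=
    D.repl [] (by simp) σ0 D.oddl D.oddr (Bw [fun v _ => e v] One) (Nz_Wcup _ _)
      (EE_Bw ν _ (by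
        intro g hg
        simp only [List.mem_cons, List.not_mem_nil, or_false] at hg
        rw [hg]; exact pX) EE_One) (closed _)
  rw [r0]
  have w0 : Bw [fun v _ => e v] (One : DC V) = tens (wn e 1) (wn e 0) := by
    funext s t
    rw [Bw_cons, Bw_nil, One_eq, Wcup_X e one1 one1 (by simp [one1]) (by simp [one1])]
    rfl
  have w1 : Bw [SS e, fun v _ => e v] (One : DC V) =
      fun s t => tens (wn e 2) (wn e 0) s t + tens (wn e 1) (wn e 1) s t := by
    have : Bw [SS e, fun v _ => e v] (One : DC V) = Wcup (SS e) (Bw [fun v _ => e v] One) := rfl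
    rw [this, w0, Wcup_S]
  rw [w1, dz_add, dz_tens, dz_tens, ev2, evn 2 (by norm_num)]
  norm_num

/-- **The plane index formula.** -/
theorem Dat.plane (D : Dat ν P r z σ0 e) (hP : ∀ l, P l → l.length = 3)
    (he : ev (wprod [e, e]) z = 1) (g1 g2 g3 : V → V → ZMod 2)
    (h1 : BiOdd ν r g1) (h2 : BiOdd ν r g2) (h3 : BiOdd ν r g3)
    (hvan : ∀ s t, P s → P t → RR r s t → ∃ g ∈ [g1, g2, g3],
      ∀ v ∈ s, ∀ v' ∈ s, ∀ u ∈ t, ∀ u' ∈ t, g v u = g v' u')
    (A0 A1 A2 A3 : DC V) (n0 : Nz A0) (n1 : Nz A1) (n2 : Nz A2) (n3 : Nz A3)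
    (e0 : EE ν A0) (e1 : EE ν A1) (e2 : EE ν A2)
    (k0 : ∀ s t, RR r s t → A0 s t + A0 t s = One s t)
    (k1 : ∀ s t, RR r s t → A1 s t + A1 t s = DD A0 s t)
    (k2 : ∀ s t, RR r s t → A2 s t + A2 t s = DD A1 s t)
    (k3 : ∀ s t, RR r s t → A3 s t + A3 t s = DD A2 s t) :
    dz z (Wcup σ0 A3) = 1 := by
  have s1 : dz z (Wcup σ0 A3) = dz z (Wcup σ0 (Bw [g1] A2)) :=
    D.tele0 [] (by simp) g1 h1 A3 A2 A1 n3 n2 n1 e2 e1 k3 k2
  have s2 : dz z (Wcup σ0 (Bw [g1] A2)) = dz z (Wcup σ0 (Bw [g1, g2] A1)) :=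
    D.tele0 [g1] (by simp [h1]) g2 h2 A2 A1 A0 n2 n1 n0 e1 e0 k2 k1
  have s3 := D.tele [g1, g2] (by simp [h1, h2]) g3 h3 A1 A0 One n1 n0 e0 k1 k0
  have s4 : dz z (Wcup σ0 (Bw [g1, g2] (Wcup g3 A0))) = 0 := by
    have : dz z (Wcup σ0 (Bw [g1, g2] (Wcup g3 A0))) = dz z (fun _ _ => 0) := by
      refine dz_congr D.supp (fun s t hs ht => ?_)
      by_cases hR : RR r s t
      · obtain ⟨g, hg, hc⟩ := hvan s t hs ht hR
        exact Bw_const (σ0 :: [g1, g2, g3]) A0 s t g (List.mem_cons_of_mem _ hg) hc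
      · have := W_congr r P σ0 D.symm D.rsymm D.hW (F := Bw [g1, g2] (Wcup g3 A0))
          (G := fun _ _ => 0)
        have c1 : ∀ v ∈ s, ∀ v' ∈ s, ∀ u ∈ t, σ0 v u = σ0 v' u := by
          intro v hv v' hv' u hu
          by_contra hne
          exact hR (D.hW s t hs ht v hv v' hv' u hu hne)
        have c2 : ∀ v ∈ s, ∀ u ∈ t, ∀ u' ∈ t, σ0 v u = σ0 v u' := by
          intro v hv u hu u' hu'
          by_contra hne
          apply hR
          have := D.hW t s ht hs u hu u' hu' v hv (by rw [D.symm v u, D.symm v u']; exact hne)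
          intro x hx y hy
          exact D.rsymm _ _ (this y hy x hx)
        exact Bw_const (σ0 :: [g1, g2, g3]) A0 s t σ0 (by simp) (by
          intro v hv v' hv' u hu u' hu'
          rw [c1 v hv v' hv' u hu, c2 v' hv' u hu u' hu'])
    rw [this]
    have h0 : dz z (fun _ _ => 0 : DC V) = dz z (tens (fun _ => 0) (fun _ => 0)) :=
      dz_congr' (fun s t => by simp [tens])
    rw [h0, dz_tens]
    have := ev_const_mul 0 (fun _ : List V => (0 : ZMod 2)) z
    simp only [zero_mul] at this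
    rw [this, zero_mul]
  rw [s1, s2, s3, s4, D.word3 hP he g1 g2 h1 h2, zero_add]

/-- **The line index formula.** -/
theorem Dat.line (D : Dat ν P r z σ0 e) (hP : ∀ l, P l → l.length = 2)
    (he : ev (wprod [e]) z = 1) (g : V → V → ZMod 2) (h1 : BiOdd ν r g)
    (hvan : ∀ s t, P s → P t → RR r s t →
      ∀ v ∈ s, ∀ v' ∈ s, ∀ u ∈ t, ∀ u' ∈ t, g v u = g v' u')
    (A0 A1 : DC V) (n0 : Nz A0) (n1 : Nz A1) (e0 : EE ν A0)
    (k0 : ∀ s t, RR r s t → A0 s t + A0 t s = One s t)
    (k1 : ∀ s t, RR r s t → A1 s t + A1 t s = DD A0 s t) :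
    dz z (Wcup σ0 A1) = 1 := by
  have s3 := D.tele [] (by simp) g h1 A1 A0 One n1 n0 e0 k1 k0
  simp only [Bw_nil] at s3
  have s4 : dz z (Wcup σ0 (Wcup g A0)) = 0 := by
    have : dz z (Wcup σ0 (Wcup g A0)) = dz z (fun _ _ => 0) := by
      refine dz_congr D.supp (fun s t hs ht => ?_)
      by_cases hR : RR r s t
      · exact Bw_const [σ0, g] A0 s t g (by simp) (hvan s t hs ht hR)
      · have c1 : ∀ v ∈ s, ∀ v' ∈ s, ∀ u ∈ t, σ0 v u = σ0 v' u := by
          intro v hv v' hv' u hu
          by_contra hne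
          exact hR (D.hW s t hs ht v hv v' hv' u hu hne)
        have c2 : ∀ v ∈ s, ∀ u ∈ t, ∀ u' ∈ t, σ0 v u = σ0 v u' := by
          intro v hv u hu u' hu'
          by_contra hne
          apply hR
          have := D.hW t s ht hs u hu u' hu' v hv (by rw [D.symm v u, D.symm v u']; exact hne)
          intro x hx y hy
          exact D.rsymm _ _ (this y hy x hx)
        exact Bw_const [σ0, g] A0 s t σ0 (by simp) (by
          intro v hv v' hv' u hu u' hu'
          rw [c1 v hv v' hv' u hu, c2 v' hv' u hu u' hu'])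
    rw [this]
    have h0 : dz z (fun _ _ => 0 : DC V) = dz z (tens (fun _ => 0) (fun _ => 0)) :=
      dz_congr' (fun s t => by simp [tens])
    rw [h0, dz_tens]
    have := ev_const_mul 0 (fun _ : List V => (0 : ZMod 2)) z
    simp only [zero_mul] at this
    rw [this, zero_mul]
  rw [s3, s4, D.word1 hP he, zero_add]

end Crest.Agent.S69
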