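import Crest.Agent.S69.Cap
import Crest.Agent.S69.Det

set_option autoImplicit false

/-!
# The sign functions of `Det.lean` on the sphere type `S3`
-/
namespace Crest.Agent.S69
open Crest.Agent.BU
open scoped RealInnerProductSpace

local notation "E4'" => EuclideanSpace ℝ (Fin 4)

theorem S3.coe_ne_zero (v : S3) : (v : E4') ≠ 0 := by
  intro h
  have := S3.norm v
  rw [h, norm_zero] at this
  exact zero_ne_one this

theorem S3.coe_neg' (v : S3) : ((-v : S3) : E4') = -(v : E4') := rfl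

theorem S3.dist_coe (v w : S3) : dist (v : E4') (w : E4') = dist v w := rfl

/-- symmetric, odd in each variable: the sign of the inner product -/
noncomputable def s0 (v u : S3) : ZMod 2 := Det.s0 (v : E4') (u : E4')

theorem s0_comm (v u : S3) : s0 v u = s0 u v := Det.s0_comm _ _

theorem s0_neg_left (v u : S3) : s0 (-v) u = s0 v u + 1 :=
  Det.s0_neg_left _ (S3.coe_ne_zero v)

theorem s0_neg_right (v u : S3) : s0 v (-u) = s0 v u + 1 :=
  Det.s0_neg_right _ (S3.coe_ne_zero u)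

theorem s0_odd (v : S3) : Odd (s0 v) := fun u => s0_neg_right v u

theorem s0_pos {x v : S3} (h : (0 : ℝ) < ⟪(x : E4'), (v : E4')⟫) : s0 x v = 0 := by
  unfold s0 Det.s0 Det.sg2
  rw [if_pos h]

theorem s0_neg {x v : S3} (h : ⟪(x : E4'), (v : E4')⟫ < (0 : ℝ)) : s0 x v = 1 := by
  unfold s0 Det.s0 Det.sg2
  rw [if_neg (not_lt.2 h.le), if_pos h]

theorem abs_inner_sub_lt {x v w : S3} {e : ℝ} (h : dist v w < e) :
    |⟪(x : E4'), (v : E4')⟫ - ⟪(x : E4'), (w : E4')⟫| < e := by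
  rw [← inner_sub_right]
  have := abs_real_inner_le_norm (x : E4') ((v : E4') - (w : E4'))
  rw [S3.norm x, one_mul, ← dist_eq_norm] at this
  exact lt_of_le_of_lt this h

/-- if the sign changes along a small edge then everything nearby is near `x^⊥` -/
theorem near_of_s0_ne {x v v' w : S3} {e : ℝ} (h : s0 x v ≠ s0 x v') (h1 : dist v w < e)
    (h2 : dist v' w < e) : |⟪(x : E4'), (w : E4')⟫| < e := by
  have k1 := abs_lt.1 (abs_inner_sub_lt (x := x) h1)
  have k2 := abs_lt.1 (abs_inner_sub_lt (x := x) h2)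
  by_contra hc
  rcases le_abs.1 (not_lt.1 hc) with h3 | h3
  · exact h ((s0_pos (by linarith)).trans (s0_pos (by linarith)).symm)
  · exact h ((s0_neg (by linarith)).trans (s0_neg (by linarith)).symm)

/-- two-variable version -/
theorem near_of_s0_ne2 {v v' u u' : S3} (h : s0 v u ≠ s0 v' u') :
    |⟪(v : E4'), (u : E4')⟫| ≤ dist v v' + dist u u' := by
  have := Det.s0_near (S3.norm u) (S3.norm v') h
  rwa [← dist_eq_norm, ← dist_eq_norm] at this

/-- capping with any odd function whose sign changes only near `x^⊥` -/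
theorem Fund.cap_of {k : ℕ} {e : ℝ} {X : Set S3} {z : Ch S3} (h : Fund (k + 1) e X z) (x : S3)
    {a : S3 → ZMod 2} (ha : Odd a) (hnear : ∀ v v' w : S3, a v ≠ a v' → dist v w < e →
      dist v' w < e → |⟪(x : E4'), (w : E4')⟫| < e) :
    Fund k e (insert x X) (Crest.Agent.S69.cap a z) := by
  refine ⟨fun hk G hG => ?_, fun as has hodd => ?_, ?_⟩
  · rw [ev_cap]
    have h1 : ev (BU.wcup a (BU.cbd G)) z = ev (BU.cbd (BU.wcup a G)) z := by
      refine ev_congr (fun l hl => ?_) h.mem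
      obtain ⟨hl, -, -⟩ := hl
      match l, hl with
      | (v :: v' :: v'' :: l), _ => rw [cbd_wcup]
      | [v, v'], hl => simp at hl; omega
      | [v], hl => simp at hl
      | [], hl => simp at hl
    rw [h1]
    exact h.stokes (Nat.succ_pos k) _ (hG.wcup (Or.inl ha))
  · rw [ev_cap]
    exact h.cup (a :: as) (by simp [has]) (by
      intro b hb
      rcases List.mem_cons.1 hb with rfl | hb
      · exact ha
      · exact hodd b hb)
  · refine cap_mem a (fun v v' l hl hne => ?_) h.mem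
    obtain ⟨h1, h2, h3⟩ := hl
    refine ⟨by simpa using h1, fun a ha b hb => h2 a (by
      simp only [List.mem_cons] at ha ⊢; tauto) b (by
      simp only [List.mem_cons] at hb ⊢; tauto), ?_⟩
    intro y hy w hw
    rcases Set.mem_insert_iff.1 hy with rfl | hy
    · exact hnear v v' w hne (h2 v (by simp) w (by
        simp only [List.mem_cons] at hw ⊢; tauto)) (h2 v' (by simp) w (by
        simp only [List.mem_cons] at hw ⊢; tauto))
    · exact h3 y hy w (by simp only [List.mem_cons] at hw ⊢; tauto)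

theorem Fund.cap0 {k : ℕ} {e : ℝ} {X : Set S3} {z : Ch S3} (h : Fund (k + 1) e X z) (x : S3) :
    Fund k e (insert x X) (Crest.Agent.S69.cap (s0 x) z) :=
  h.cap_of x (s0_odd x) (fun _ _ _ h1 h2 h3 => near_of_s0_ne h1 h2 h3)

/-- **the three functions of the plane lemma** -/
theorem exists_planeS (x : S3) : ∃ g : Fin 3 → S3 → S3 → ZMod 2,
    (∀ j v u, g j (-v) u = g j v u + 1) ∧
    (∀ j v u, g j v (-u) = g j v u + 1) ∧
    (∀ j (v u : S3), |⟪(v : E4'), (u : E4')⟫| ≤ 1 / 10 → g j u v = g j v u + 1) ∧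
    (∀ s t : List S3,
      (∀ v ∈ s, |⟪(x : E4'), ((v : S3) : E4')⟫| ≤ 1 / 10) →
      (∀ u ∈ t, |⟪(x : E4'), ((u : S3) : E4')⟫| ≤ 1 / 10) →
      (∀ v ∈ s, ∀ v' ∈ s, dist v v' ≤ 1 / 20) → (∀ u ∈ t, ∀ u' ∈ t, dist u u' ≤ 1 / 20) →
      (∀ v ∈ s, ∀ u ∈ t, |⟪((v : S3) : E4'), ((u : S3) : E4')⟫| ≤ 1 / 10) →
      ∃ j, ∀ v ∈ s, ∀ v' ∈ s, ∀ u ∈ t, ∀ u' ∈ t, g j v u = g j v' u') := by
  obtain ⟨g, h1, h2, h3, h4⟩ := Det.exists_plane (x : E4') (S3.norm x)
  refine ⟨fun j v u => g j (v : E4') (u : E4'), fun j v u => h1 j _ _ (S3.coe_ne_zero v),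
    fun j v u => h2 j _ _ (S3.coe_ne_zero u), fun j v u h => h3 j _ _ (S3.norm v) h, ?_⟩
  intro s t hs ht hss htt hst
  obtain ⟨j, hj⟩ := h4 (s.map (fun v : S3 => (v : E4'))) (t.map (fun v : S3 => (v : E4')))
    (by
      intro v hv0
      obtain ⟨v, hv, rfl⟩ := List.mem_map.1 hv0
      exact ⟨S3.norm v, hs v hv⟩)
    (by
      intro v hv0
      obtain ⟨v, hv, rfl⟩ := List.mem_map.1 hv0
      exact ⟨S3.norm v, ht v hv⟩)
    (by
      intro v hv0 v' hv0'
      obtain ⟨v, hv, rfl⟩ := List.mem_map.1 hv0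
      obtain ⟨v', hv', rfl⟩ := List.mem_map.1 hv0'
      exact hss v hv v' hv')
    (by
      intro v hv0 v' hv0'
      obtain ⟨v, hv, rfl⟩ := List.mem_map.1 hv0
      obtain ⟨v', hv', rfl⟩ := List.mem_map.1 hv0'
      exact htt v hv v' hv')
    (by
      intro v hv0 v' hv0'
      obtain ⟨v, hv, rfl⟩ := List.mem_map.1 hv0
      obtain ⟨v', hv', rfl⟩ := List.mem_map.1 hv0'
      exact hst v hv v' hv')
  exact ⟨j, fun v hv v' hv' u hu u' hu' => hj _ (List.mem_map_of_mem hv) _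
    (List.mem_map_of_mem hv') _ (List.mem_map_of_mem hu) _ (List.mem_map_of_mem hu')⟩

/-- **the function of the line lemma** -/
theorem exists_lineS (x y : S3) (hxy : |⟪(x : E4'), (y : E4')⟫| ≤ 1 / 10) :
    ∃ g : S3 → S3 → ZMod 2,
    (∀ v u, g (-v) u = g v u + 1) ∧
    (∀ v u, g v (-u) = g v u + 1) ∧
    (∀ (v u : S3), |⟪(v : E4'), (u : E4')⟫| ≤ 1 / 10 → g u v = g v u + 1) ∧
    (∀ s t : List S3,
      (∀ v ∈ s, |⟪(x : E4'), ((v : S3) : E4')⟫| ≤ 1 / 10 ∧
        |⟪(y : E4'), ((v : S3) : E4')⟫| ≤ 1 / 10) →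
      (∀ u ∈ t, |⟪(x : E4'), ((u : S3) : E4')⟫| ≤ 1 / 10 ∧
        |⟪(y : E4'), ((u : S3) : E4')⟫| ≤ 1 / 10) →
      (∀ v ∈ s, ∀ v' ∈ s, dist v v' ≤ 1 / 20) → (∀ u ∈ t, ∀ u' ∈ t, dist u u' ≤ 1 / 20) →
      (∀ v ∈ s, ∀ u ∈ t, |⟪((v : S3) : E4'), ((u : S3) : E4')⟫| ≤ 1 / 10) →
      ∀ v ∈ s, ∀ v' ∈ s, ∀ u ∈ t, ∀ u' ∈ t, g v u = g v' u') := by
  obtain ⟨g, h1, h2, h3, h4⟩ := Det.exists_line (x : E4') (y : E4') (S3.norm x) (S3.norm y) hxy
  refine ⟨fun v u => g (v : E4') (u : E4'), fun v u => h1 _ _ (S3.coe_ne_zero v),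
    fun v u => h2 _ _ (S3.coe_ne_zero u), fun v u h => h3 _ _ (S3.norm v) h, ?_⟩
  intro s t hs ht hss htt hst
  have hj := h4 (s.map (fun v : S3 => (v : E4'))) (t.map (fun v : S3 => (v : E4')))
    (by
      intro v hv0
      obtain ⟨v, hv, rfl⟩ := List.mem_map.1 hv0
      exact ⟨S3.norm v, hs v hv⟩)
    (by
      intro v hv0
      obtain ⟨v, hv, rfl⟩ := List.mem_map.1 hv0
      exact ⟨S3.norm v, ht v hv⟩)
    (by
      intro v hv0 v' hv0'
      obtain ⟨v, hv, rfl⟩ := List.mem_map.1 hv0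
      obtain ⟨v', hv', rfl⟩ := List.mem_map.1 hv0'
      exact hss v hv v' hv')
    (by
      intro v hv0 v' hv0'
      obtain ⟨v, hv, rfl⟩ := List.mem_map.1 hv0
      obtain ⟨v', hv', rfl⟩ := List.mem_map.1 hv0'
      exact htt v hv v' hv')
    (by
      intro v hv0 v' hv0'
      obtain ⟨v, hv, rfl⟩ := List.mem_map.1 hv0
      obtain ⟨v', hv', rfl⟩ := List.mem_map.1 hv0'
      exact hst v hv v' hv')
  exact fun v hv v' hv' u hu u' hu' => hj _ (List.mem_map_of_mem hv) _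
    (List.mem_map_of_mem hv') _ (List.mem_map_of_mem hu) _ (List.mem_map_of_mem hu')

end Crest.Agent.S69
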