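import Crest.Agent.BU.Basic

set_option autoImplicit false

/-!
# S0069: the order cochains `A0, A1, A2, A3` on pairs of lists
-/
namespace Crest.Agent.S69.OC

open Crest.Agent.BU

universe u
variable {V : Type u}

/-! ### explicit coboundaries -/

theorem cbd_nil (q : List V → ZMod 2) : cbd q [] = 0 := by simp [cbd, bdL]
theorem cbd_one (q : List V → ZMod 2) (v : V) : cbd q [v] = q [] := by simp [cbd, bdL]
theorem cbd_two (q : List V → ZMod 2) (v w : V) : cbd q [v, w] = q [w] + q [v] := by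
  simp [cbd, bdL]
theorem cbd_three (q : List V → ZMod 2) (a b c : V) :
    cbd q [a, b, c] = q [b, c] + (q [a, c] + q [a, b]) := by
  simp [cbd, bdL]

/-- faces are sublists, one shorter -/
theorem bdL_mem_sub (l : List V) :
    bdL l ∈ supp (fun l' : List V => l'.Sublist l ∧ l'.length + 1 = l.length) := by
  induction l with
  | nil => simp [bdL]
  | cons v l ih =>
    refine Submodule.add_mem _ (sg_mem ⟨List.sublist_cons_self v l, by simp⟩) ?_
    refine lift_mem (f := cons v) (fun l' hl' => ?_) ih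
    rw [cons_sg]
    exact sg_mem ⟨hl'.1.cons_cons v, by simp [hl'.2]⟩

theorem cbd_congr {q q' : List V → ZMod 2} {l : List V}
    (h : ∀ l' : List V, l'.Sublist l → l'.length + 1 = l.length → q l' = q' l') :
    cbd q l = cbd q' l :=
  ev_congr (fun l' hl' => h l' hl'.1 hl'.2) (bdL_mem_sub l)

theorem cbd_zero_of {q : List V → ZMod 2} {l : List V}
    (h : ∀ l' : List V, l'.Sublist l → l'.length + 1 = l.length → q l' = 0) :
    cbd q l = 0 :=
  ev_eq_zero (fun l' hl' => h l' hl'.1 hl'.2) (bdL_mem_sub l)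

theorem cbd_cbd' (q : List V → ZMod 2) (l : List V) : cbd (fun l' => cbd q l') l = 0 := by
  change ev (cbd q) (bdL l) = 0
  rw [← ev_bd, bd_bdL, map_zero]

theorem cbd_add' (q q' : List V → ZMod 2) (l : List V) :
    cbd (fun l' => q l' + q' l') l = cbd q l + cbd q' l := ev_add_fun q q' _

/-! ### the cochains -/

/-- lists with disjoint colours -/
def Dis (o : V → ℕ) (s t : List V) : Prop := ∀ v ∈ s, ∀ u ∈ t, o v ≠ o u

theorem Dis.symm {o : V → ℕ} {s t : List V} (h : Dis o s t) : Dis o t s :=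
  fun v hv u hu => (h u hu v hv).symm

theorem Dis.mono {o : V → ℕ} {s t s' t' : List V} (h : Dis o s t) (hs : s'.Sublist s)
    (ht : t'.Sublist t) : Dis o s' t' :=
  fun v hv u hu => h v (hs.subset hv) u (ht.subset hu)

/-- the unit cochain in bidegree (0,0) -/
def one2 : List V → List V → ZMod 2
  | [_], [_] => 1
  | _, _ => 0

def A0 (o : V → ℕ) : List V → List V → ZMod 2
  | [v], [u] => if o v < o u then 1 else 0
  | _, _ => 0

noncomputable def A1 (o : V → ℕ) (s t : List V) : ZMod 2 := cbd (fun s' => A0 o s' t) s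

def a2 (a b p q : ℕ) : ZMod 2 :=
  if min a b < min p q ∧ min p q < max a b ∧ max a b < max p q then 1 else 0

def A2 (o : V → ℕ) : List V → List V → ZMod 2
  | [v, v'], [u, u'] => a2 (o v) (o v') (o u) (o u')
  | _, _ => 0

noncomputable def A3 (o : V → ℕ) (s t : List V) : ZMod 2 := cbd (fun s' => A2 o s' t) s

theorem A0_eq_zero {o : V → ℕ} {s t : List V} (h : s.length ≠ 1 ∨ t.length ≠ 1) :
    A0 o s t = 0 := by
  unfold A0
  split
  · simp at h
  · rfl

theorem A2_eq_zero {o : V → ℕ} {s t : List V} (h : s.length ≠ 2 ∨ t.length ≠ 2) :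
    A2 o s t = 0 := by
  unfold A2
  split
  · simp at h
  · rfl

theorem one2_eq_zero {s t : List V} (h : s.length ≠ 1 ∨ t.length ≠ 1) :
    one2 s t = 0 := by
  unfold one2
  split
  · simp at h
  · rfl

theorem A1_eq_zero {o : V → ℕ} {s t : List V} (h : s.length ≠ 2 ∨ t.length ≠ 1) :
    A1 o s t = 0 := by
  refine cbd_zero_of (fun s' _ hs' => A0_eq_zero ?_)
  rcases h with h | h
  · left; omega
  · right; exact h

theorem A3_eq_zero {o : V → ℕ} {s t : List V} (h : s.length ≠ 3 ∨ t.length ≠ 2) :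
    A3 o s t = 0 := by
  refine cbd_zero_of (fun s' _ hs' => A2_eq_zero ?_)
  rcases h with h | h
  · left; omega
  · right; exact h

theorem A0_add {o : V → ℕ} {s t : List V} (h : Dis o s t) :
    A0 o s t + A0 o t s = one2 s t := by
  match s, t, h with
  | [v], [u], h =>
    have h1 : o v ≠ o u := h v (by simp) u (by simp)
    simp only [A0, one2]
    rcases lt_or_gt_of_ne h1 with h2 | h2
    · simp [h2, not_lt.mpr h2.le]
    · simp [h2, not_lt.mpr h2.le]
  | [], t, _ => simp [A0, one2]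
  | (v :: v' :: s), t, _ => simp [A0, one2]
  | [v], [], _ => simp [A0, one2]
  | [v], (u :: u' :: t), _ => simp [A0, one2]

/-- `one2` is closed in each variable -/
theorem cbd_one2_right (s t : List V) : cbd (fun t' => one2 s t') t = 0 := by
  by_cases hs : s.length = 1
  · obtain ⟨v, rfl⟩ := List.length_eq_one_iff.mp hs
    by_cases ht : t.length = 2
    · obtain ⟨a, b, rfl⟩ := List.length_eq_two.mp ht
      rw [cbd_two]
      exact add_self2 1
    · refine cbd_zero_of (fun t' _ ht' => one2_eq_zero (Or.inr ?_))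
      omega
  · exact cbd_zero_of (fun t' _ ht' => one2_eq_zero (Or.inl hs))

theorem cbd_one2_left (s t : List V) : cbd (fun s' => one2 s' t) s = 0 := by
  have h : ∀ s', one2 s' t = one2 t s' := by
    intro s'
    by_cases h1 : s'.length = 1
    · by_cases h2 : t.length = 1
      · obtain ⟨v, rfl⟩ := List.length_eq_one_iff.mp h1
        obtain ⟨u, rfl⟩ := List.length_eq_one_iff.mp h2
        rfl
      · rw [one2_eq_zero (Or.inr h2), one2_eq_zero (Or.inl h2)]
    · rw [one2_eq_zero (Or.inl h1), one2_eq_zero (Or.inr h1)]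
  have h2 : cbd (fun s' => one2 s' t) s = cbd (fun s' => one2 t s') s :=
    cbd_congr (fun s' _ _ => h s')
  rw [h2, cbd_one2_right]

theorem A1_add {o : V → ℕ} {s t : List V} (h : Dis o s t) :
    A1 o s t + A1 o t s = cbd (fun s' => A0 o s' t) s + cbd (fun t' => A0 o s t') t := by
  have h1 : A1 o t s = cbd (fun t' => A0 o s t' + one2 s t') t := by
    refine cbd_congr (fun t' ht' _ => ?_)
    have := A0_add (h.mono (List.Sublist.refl s) ht')
    rw [← this]
    have h2 := add_self2 (A0 o s t')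
    linear_combination (-1 : ZMod 2) * h2
  rw [h1, cbd_add', cbd_one2_right, add_zero]
  rfl

theorem a2_identity {a b p q : ℕ} (h1 : a ≠ p) (h2 : a ≠ q) (h3 : b ≠ p) (h4 : b ≠ q) :
    a2 a b p q + a2 p q a b =
      ((if b < q then 1 else 0) + (if a < q then 1 else 0))
        + ((if b < p then 1 else 0) + (if a < p then 1 else 0) : ZMod 2) := by
  simp only [a2]
  split_ifs <;> first | decide | (exfalso; omega)

theorem A2_add {o : V → ℕ} {s t : List V} (h : Dis o s t) :
    A2 o s t + A2 o t s = cbd (fun s' => A1 o s' t) s + cbd (fun t' => A1 o s t') t := by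
  have h0 : cbd (fun s' => A1 o s' t) s = 0 := cbd_cbd' (fun s' => A0 o s' t) s
  rw [h0, zero_add]
  by_cases hs : s.length = 2
  · by_cases ht : t.length = 2
    · obtain ⟨v, v', rfl⟩ := List.length_eq_two.mp hs
      obtain ⟨u, u', rfl⟩ := List.length_eq_two.mp ht
      rw [cbd_two]
      simp only [A1, cbd_two, A0, A2]
      exact a2_identity (h v (by simp) u (by simp)) (h v (by simp) u' (by simp))
        (h v' (by simp) u (by simp)) (h v' (by simp) u' (by simp))
    · rw [A2_eq_zero (Or.inr ht), A2_eq_zero (Or.inl ht), add_zero]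
      exact (cbd_zero_of (fun t' _ ht' => A1_eq_zero (Or.inr (by omega)))).symm
  · rw [A2_eq_zero (Or.inl hs), A2_eq_zero (Or.inr hs), add_zero]
    exact (cbd_zero_of (fun t' _ ht' => A1_eq_zero (Or.inl hs))).symm

theorem A3_add {o : V → ℕ} {s t : List V} (h : Dis o s t) :
    A3 o s t + A3 o t s = cbd (fun s' => A2 o s' t) s + cbd (fun t' => A2 o s t') t := by
  have h1 : A3 o t s = cbd (fun t' => A2 o s t' + cbd (fun t'' => A1 o s t'') t') t := by
    refine cbd_congr (fun t' ht' _ => ?_)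
    have h2 := A2_add (h.mono (List.Sublist.refl s) ht')
    have h0 : cbd (fun s' => A1 o s' t') s = 0 := cbd_cbd' (fun s' => A0 o s' t') s
    rw [h0, zero_add] at h2
    rw [← h2]
    have h3 := add_self2 (A2 o s t')
    linear_combination (-1 : ZMod 2) * h3
  rw [h1, cbd_add', cbd_cbd', add_zero]
  rfl


/-! ### naturality -/

theorem cbd_map {W : Type*} (q : List W → ZMod 2) (f : V → W) (l : List V) :
    cbd q (l.map f) = cbd (fun l' => q (l'.map f)) l := by
  simp only [cbd]
  rw [bdL_map, ev_mp]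

theorem A0_rank (o : V → ℕ) (s t : List V) : A0 o s t = A0 id (s.map o) (t.map o) := by
  match s, t with
  | [v], [u] => simp [A0]
  | [], t => simp [A0]
  | (v :: v' :: s), t => simp [A0]
  | [v], [] => simp [A0]
  | [v], (u :: u' :: t) => simp [A0]

theorem A2_rank (o : V → ℕ) (s t : List V) : A2 o s t = A2 id (s.map o) (t.map o) := by
  by_cases hs : s.length = 2
  · by_cases ht : t.length = 2
    · obtain ⟨v, v', rfl⟩ := List.length_eq_two.mp hs
      obtain ⟨u, u', rfl⟩ := List.length_eq_two.mp ht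
      simp [A2]
    · rw [A2_eq_zero (Or.inr ht), A2_eq_zero (Or.inr (by simpa using ht))]
  · rw [A2_eq_zero (Or.inl hs), A2_eq_zero (Or.inl (by simpa using hs))]

theorem A1_rank (o : V → ℕ) (s t : List V) : A1 o s t = A1 id (s.map o) (t.map o) := by
  simp only [A1]
  rw [cbd_map]
  exact cbd_congr (fun s' _ _ => A0_rank o s' t)

theorem A3_rank (o : V → ℕ) (s t : List V) : A3 o s t = A3 id (s.map o) (t.map o) := by
  simp only [A3]
  rw [cbd_map]
  exact cbd_congr (fun s' _ _ => A2_rank o s' t)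

section even
variable {o : V → ℕ} {f : V → V} (hf : ∀ v, o (f v) = o v)
include hf

theorem map_o (s : List V) : (s.map f).map o = s.map o := by
  rw [List.map_map]
  exact List.map_congr_left (fun v _ => hf v)

theorem A0_left (s t : List V) : A0 o (s.map f) t = A0 o s t := by
  rw [A0_rank, map_o hf, ← A0_rank]
theorem A0_right (s t : List V) : A0 o s (t.map f) = A0 o s t := by
  rw [A0_rank, map_o hf, ← A0_rank]
theorem A1_left (s t : List V) : A1 o (s.map f) t = A1 o s t := by
  rw [A1_rank, map_o hf, ← A1_rank]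
theorem A1_right (s t : List V) : A1 o s (t.map f) = A1 o s t := by
  rw [A1_rank, map_o hf, ← A1_rank]
theorem A2_left (s t : List V) : A2 o (s.map f) t = A2 o s t := by
  rw [A2_rank, map_o hf, ← A2_rank]
theorem A2_right (s t : List V) : A2 o s (t.map f) = A2 o s t := by
  rw [A2_rank, map_o hf, ← A2_rank]
theorem A3_left (s t : List V) : A3 o (s.map f) t = A3 o s t := by
  rw [A3_rank, map_o hf, ← A3_rank]
theorem A3_right (s t : List V) : A3 o s (t.map f) = A3 o s t := by
  rw [A3_rank, map_o hf, ← A3_rank]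
end even

/-! ### non rainbow lists -/

theorem a2_comm (a b p q : ℕ) : a2 a b p q = a2 b a p q := by
  simp only [a2, min_comm, max_comm]

theorem a2_self (a p q : ℕ) : a2 a a p q = 0 := by
  simp only [a2, min_self, max_self]
  split_ifs with h
  · omega
  · rfl

theorem a2_self' (a b p : ℕ) : a2 a b p p = 0 := by
  simp only [a2, min_self, max_self]
  split_ifs with h
  · omega
  · rfl

def a3 (a b c p q : ℕ) : ZMod 2 := a2 b c p q + (a2 a c p q + a2 a b p q)

theorem A3_three (o : V → ℕ) (v v' v'' u u' : V) :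
    A3 o [v, v', v''] [u, u'] = a3 (o v) (o v') (o v'') (o u) (o u') := by
  simp only [A3, cbd_three, A2, a3]

theorem a3_eq_zero {a b c : ℕ} (h : a = b ∨ a = c ∨ b = c) (p q : ℕ) : a3 a b c p q = 0 := by
  rcases h with rfl | rfl | rfl
  · simp only [a3, a2_self, add_zero]; exact add_self2 _
  · simp only [a3, a2_self, zero_add]; rw [a2_comm b a]; exact add_self2 _
  · simp only [a3, a2_self, zero_add]; exact add_self2 _

theorem A3_not_rainbow (o : V → ℕ) {v v' v'' : V} (h : o v = o v' ∨ o v = o v'' ∨ o v' = o v'')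
    (t : List V) : A3 o [v, v', v''] t = 0 := by
  by_cases ht : t.length = 2
  · obtain ⟨u, u', rfl⟩ := List.length_eq_two.mp ht
    rw [A3_three, a3_eq_zero h]
  · exact A3_eq_zero (Or.inr ht)

/-! ### the count -/

/-- the two-colour cochain -/
def pr2 (o : V → ℕ) (p q : ℕ) : List V → ZMod 2
  | [u, u'] => if (o u = p ∧ o u' = q) ∨ (o u = q ∧ o u' = p) then 1 else 0
  | _ => 0

theorem a2_comm' (a b p q : ℕ) : a2 a b p q = a2 a b q p := by
  simp only [a2, min_comm, max_comm]

theorem a3_comm' (a b c p q : ℕ) : a3 a b c p q = a3 a b c q p := by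
  simp only [a3]
  rw [a2_comm' b c, a2_comm' a c, a2_comm' a b]

theorem a3_self' (a b c p : ℕ) : a3 a b c p p = 0 := by
  simp only [a3, a2_self', add_zero]

/-- index set of pairs `p < q < 6` -/
def prs : Finset (ℕ × ℕ) := ((Finset.range 6) ×ˢ (Finset.range 6)).filter (fun x => x.1 < x.2)

theorem mem_prs {x : ℕ × ℕ} : x ∈ prs ↔ x.1 < x.2 ∧ x.2 < 6 := by
  simp only [prs, Finset.mem_filter, Finset.mem_product, Finset.mem_range]
  omega

theorem A3_expand (o : V → ℕ) (v v' v'' u u' : V) (hu : o u < 6) (hu' : o u' < 6) :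
    A3 o [v, v', v''] [u, u'] =
      ∑ x ∈ prs, a3 (o v) (o v') (o v'') x.1 x.2 * pr2 o x.1 x.2 [u, u'] := by
  rw [A3_three]
  rcases lt_trichotomy (o u) (o u') with h | h | h
  · rw [Finset.sum_eq_single (o u, o u')]
    · simp [pr2]
    · intro x hx hne
      have hx' := mem_prs.mp hx
      have : ¬ ((o u = x.1 ∧ o u' = x.2) ∨ (o u = x.2 ∧ o u' = x.1)) := by
        rintro (⟨h1, h2⟩ | ⟨h1, h2⟩)
        · exact hne (Prod.ext h1.symm h2.symm)
        · omega
      simp [pr2, this]
    · intro hx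
      exact absurd (mem_prs.mpr ⟨h, hu'⟩) hx
  · rw [h, a3_self']
    symm
    refine Finset.sum_eq_zero (fun x hx => ?_)
    have hx' := mem_prs.mp hx
    have : ¬ ((o u = x.1 ∧ o u' = x.2) ∨ (o u = x.2 ∧ o u' = x.1)) := by
      rintro (⟨h1, h2⟩ | ⟨h1, h2⟩) <;> omega
    simp [pr2, this]
  · rw [Finset.sum_eq_single (o u', o u)]
    · simp [pr2, a3_comm' (o v) (o v') (o v'') (o u) (o u')]
    · intro x hx hne
      have hx' := mem_prs.mp hx
      have : ¬ ((o u = x.1 ∧ o u' = x.2) ∨ (o u = x.2 ∧ o u' = x.1)) := by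
        rintro (⟨h1, h2⟩ | ⟨h1, h2⟩)
        · omega
        · exact hne (Prod.ext h2.symm h1.symm)
      simp [pr2, this]
    · intro hx
      exact absurd (mem_prs.mpr ⟨h, hu⟩) hx

/-- {0,2,4} or {1,3,5} as an unordered triple -/
def alt3 (a b c : ℕ) : Prop :=
  ({a, b, c} : Finset ℕ) = {0, 2, 4} ∨ ({a, b, c} : Finset ℕ) = {1, 3, 5}

instance (a b c : ℕ) : Decidable (alt3 a b c) := by unfold alt3; infer_instance

theorem count_aux : ∀ a ∈ Finset.range 6, ∀ b ∈ Finset.range 6, ∀ c ∈ Finset.range 6,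
    a ≠ b → a ≠ c → b ≠ c →
    (∑ x ∈ prs.filter (fun x => x.1 ≠ a ∧ x.1 ≠ b ∧ x.1 ≠ c ∧ x.2 ≠ a ∧ x.2 ≠ b ∧ x.2 ≠ c),
      a3 a b c x.1 x.2) = if alt3 a b c then 1 else 0 := by
  decide +kernel

theorem ev_sum_fun {ι : Type*} (S : Finset ι) (f : ι → ZMod 2) (q : ι → List V → ZMod 2)
    (z : Ch V) : ev (fun l => ∑ i ∈ S, f i * q i l) z = ∑ i ∈ S, f i * ev (q i) z := by
  classical
  induction S using Finset.induction_on with
  | empty => 
    simp only [Finset.sum_empty]
    exact ev_eq_zero (P := fun _ => True) (fun _ _ => rfl) (by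
      intro x _; trivial)
  | insert a S ha ih =>
    rw [Finset.sum_insert ha, ← ih, ← ev_const_mul, ← ev_add_fun]
    exact ev_congr_fun (fun l => by rw [Finset.sum_insert ha]) z

/-- The count: if every pair of the three complementary colours is odd on `z`, then `A3` is
odd exactly on the two alternating triples. -/
theorem ev_A3 (o : V → ℕ) {v v' v'' : V} (hv : o v < 6) (hv' : o v' < 6) (hv'' : o v'' < 6)
    (h1 : o v ≠ o v') (h2 : o v ≠ o v'') (h3 : o v' ≠ o v'') {z : Ch V}
    (hz : z ∈ supp (fun t : List V => t.length = 2 ∧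
      ∀ u ∈ t, o u < 6 ∧ o u ≠ o v ∧ o u ≠ o v' ∧ o u ≠ o v''))
    (hline : ∀ p q, p < q → q < 6 → p ≠ o v → p ≠ o v' → p ≠ o v'' → q ≠ o v → q ≠ o v' →
      q ≠ o v'' → ev (pr2 o p q) z = 1) :
    ev (A3 o [v, v', v'']) z = if alt3 (o v) (o v') (o v'') then 1 else 0 := by
  have e1 : ev (A3 o [v, v', v'']) z
      = ev (fun t => ∑ x ∈ prs, a3 (o v) (o v') (o v'') x.1 x.2 * pr2 o x.1 x.2 t) z := by
    refine ev_congr (fun t ht => ?_) hz
    obtain ⟨u, u', rfl⟩ := List.length_eq_two.mp ht.1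
    exact A3_expand o v v' v'' u u' (ht.2 u (by simp)).1 (ht.2 u' (by simp)).1
  rw [e1, ev_sum_fun, ← count_aux (o v) (Finset.mem_range.mpr hv) (o v')
    (Finset.mem_range.mpr hv') (o v'') (Finset.mem_range.mpr hv'') h1 h2 h3,
    Finset.sum_filter]
  refine Finset.sum_congr rfl (fun x hx => ?_)
  have hx' := mem_prs.mp hx
  split_ifs with hc
  · obtain ⟨c1, c2, c3, c4, c5, c6⟩ := hc
    rw [hline x.1 x.2 hx'.1 hx'.2 c1 c2 c3 c4 c5 c6, mul_one]
  · have : ev (pr2 o x.1 x.2) z = 0 := by
      refine ev_eq_zero (fun t ht => ?_) hz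
      obtain ⟨u, u', rfl⟩ := List.length_eq_two.mp ht.1
      have hu := ht.2 u (by simp)
      have hu' := ht.2 u' (by simp)
      have : ¬ ((o u = x.1 ∧ o u' = x.2) ∨ (o u = x.2 ∧ o u' = x.1)) := by
        rintro (⟨g1, g2⟩ | ⟨g1, g2⟩)
        · apply hc
          rw [← g1, ← g2]
          exact ⟨hu.2.1, hu.2.2.1, hu.2.2.2, hu'.2.1, hu'.2.2.1, hu'.2.2.2⟩
        · apply hc
          rw [← g1, ← g2]
          exact ⟨hu'.2.1, hu'.2.2.1, hu'.2.2.2, hu.2.1, hu.2.2.1, hu.2.2.2⟩
      simp [pr2, this]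
    rw [this, mul_zero]

end Crest.Agent.S69.OC
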