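import Crest.Agent.S69.PlaneGeo
import Crest.Agent.S69.Alg2
import Crest.Agent.S69.Ord
import Crest.Agent.S69.DetS
import Crest.Agent.S69.LineF
import Crest.Agent.S69.Chi

set_option autoImplicit false

/-!
# S0069: the plane lemma on `S³`, final form
-/
namespace Crest.Agent.S69

open Crest.Agent.BU
open scoped RealInnerProductSpace

namespace PM

theorem B2_eq : ∀ a b c d : Fin 6, PB.B2 a b c d = OC.a2 (a : ℕ) (b : ℕ) (c : ℕ) (d : ℕ) := by
  decide +kernel

theorem A2_eq {V : Type*} (k : V → Fin 6) (s t : List V) :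
    PB.A2 k s t = OC.A2 (fun v => (k v : ℕ)) s t := by
  match s, t with
  | [], _ => rfl
  | [_], _ => rfl
  | (_ :: _ :: _ :: _), _ => rfl
  | [_, _], [] => rfl
  | [_, _], [_] => rfl
  | [_, _], (_ :: _ :: _ :: _) => rfl
  | [v, v'], [u, u'] => exact B2_eq _ _ _ _

theorem A3_eq {V : Type*} (k : V → Fin 6) :
    PB.A3 k = OC.A3 (fun v => (k v : ℕ)) := by
  funext s t
  unfold PB.A3 OC.A3
  have : (fun s => PB.A2 k s t) = fun s' => OC.A2 (fun v => (k v : ℕ)) s' t := by
    funext s'; exact A2_eq k s' t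
  rw [this]

theorem Wcup_eq {V : Type*} (sg : V → V → ZMod 2) (F : List V → List V → ZMod 2) :
    PB.Wcup sg F = S69.Wcup sg F := by
  funext s t
  match s, t with
  | [], _ => rfl
  | [_], [] => rfl
  | [_], [_] => rfl
  | [_], (_ :: _ :: _) => rfl
  | (_ :: _ :: _), [] => rfl
  | (_ :: _ :: _), [_] => rfl
  | (_ :: _ :: _), (_ :: _ :: _) => rfl

theorem one_eq {V : Type*} (s t : List V) : OC.one2 s t = (One : DC V) s t := by
  match s, t with
  | [], _ => simp [OC.one2, One]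
  | [_], [] => simp [OC.one2, One]
  | [_], [_] => simp [OC.one2, One]
  | [_], (_ :: _ :: _) => simp [OC.one2, One]
  | (_ :: _ :: _), _ => simp [OC.one2, One]

end PM

/-- the index of the plane -/
theorem plane_idx {c : E4 → Fin 10} {d e δ : ℝ} (hc : Col c d) (h2 : 2 * e < d)
    (he : e ≤ 1 / 40) (hδ : δ + e < d) {X : Set S3} {x : S3} (hx : x ∈ X)
    {A : Finset (Fin 10)} (hA : Near c δ x A) {z : Ch S3} (hz : Fund 2 e X z)
    (o : Fin 10 → Fin 6) (ho : Set.InjOn o ((Aᶜ : Finset (Fin 10)) : Set (Fin 10))) :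
    PB.dd z (PB.Wcup sS (PB.A3 (fun v : S3 => o (c v)))) = 1 := by
  have hcA : ∀ v : S3, |⟪(x : E4), (v : E4)⟫| < e → c v ∉ A := fun v hv =>
    color_notin hc.sep hδ (S3.norm v) hv.le hA
  set r : S3 → S3 → Prop := fun v u => |⟪(v : E4), (u : E4)⟫| < 2 * e ∧ c v ∉ A ∧ c u ∉ A with hr
  set o' : S3 → ℕ := fun v => (o (c v) : ℕ) with ho'
  have heven : ∀ v : S3, o' (-v) = o' v := by
    intro v
    simp only [ho']
    rw [coe_neg_S3, hc.even]
  have hodd := sS_sym0.odd
  have hcomm := sS_sym0.comm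
  have D : Dat Neg.neg (FP 2 e X) r z sS tie := by
    refine ⟨hz.mem, fun G hG => ?_, fun v u h => ?_, fun v u => hcomm u v, fun v u => ?_, ?_,
      tie_odd⟩
    · exact hz.stokes (by norm_num) G hG
    · refine ⟨?_, h.2.2, h.2.1⟩
      rw [real_inner_comm]; exact h.1
    · rw [hcomm, hodd u v, hcomm]
    · intro s t hs ht v hv v' hv' u hu hne w hw y hy
      have h1 : ∀ w ∈ s, |⟪(u : E4), (w : E4)⟫| < e := by
        intro w hw
        refine sS_sym0.near (x := u) (v := v) (v' := v') ?_ (hs.2.1 v hv w hw) (hs.2.1 v' hv' w hw)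
        rw [hcomm u v, hcomm u v']; exact hne
      have h3 := inner_move u y w
      have h4 := h1 w hw
      have h5 := ht.2.1 u hu y hy
      refine ⟨?_, hcA w (hs.2.2 x hx w hw), hcA y (ht.2.2 x hx y hy)⟩
      rw [real_inner_comm]
      linarith
  obtain ⟨g, g1, g2, g3, g4⟩ := exists_planeS x
  have hr10 : ∀ v u, r v u → |⟪(v : E4), (u : E4)⟫| ≤ 1 / 10 := fun v u h => by
    have := h.1
    linarith
  have hB : ∀ j, BiOdd Neg.neg r (g j) := fun j =>
    ⟨fun v u => g1 j v u, fun v u => g2 j v u, fun v u h => g3 j v u (hr10 v u h)⟩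
  have hdis : ∀ s t, RR r s t → OC.Dis o' s t := by
    intro s t h v hv u hu heq
    obtain ⟨h1, h3, h4⟩ := h v hv u hu
    have h5 : o (c v) = o (c u) := Fin.ext heq
    have h6 : c v = c u := ho (by simpa using h3) (by simpa using h4) h5
    have h7 := hc.sep v u (S3.norm v) (S3.norm u) h6
    linarith
  have key := D.plane (fun l hl => hl.1) (hz.cup [tie, tie] rfl (by
      intro a ha
      simp only [List.mem_cons, List.not_mem_nil, or_false, or_self] at ha
      rw [ha]; exact tie_odd)) (g 0) (g 1) (g 2) (hB 0) (hB 1) (hB 2) ?_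
    (OC.A0 o') (OC.A1 o') (OC.A2 o') (OC.A3 o')
    ⟨fun t => OC.A0_eq_zero (Or.inl (by simp)), fun s => OC.A0_eq_zero (Or.inr (by simp))⟩
    ⟨fun t => OC.A1_eq_zero (Or.inl (by simp)), fun s => OC.A1_eq_zero (Or.inr (by simp))⟩
    ⟨fun t => OC.A2_eq_zero (Or.inl (by simp)), fun s => OC.A2_eq_zero (Or.inr (by simp))⟩
    ⟨fun t => OC.A3_eq_zero (Or.inl (by simp)), fun s => OC.A3_eq_zero (Or.inr (by simp))⟩
    ⟨OC.A0_left heven, OC.A0_right heven⟩
    ⟨OC.A1_left heven, OC.A1_right heven⟩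
    ⟨OC.A2_left heven, OC.A2_right heven⟩
    (fun s t h => (OC.A0_add (hdis s t h)).trans (PM.one_eq s t))
    (fun s t h => OC.A1_add (hdis s t h))
    (fun s t h => OC.A2_add (hdis s t h))
    (fun s t h => OC.A3_add (hdis s t h))
  · rw [PM.Wcup_eq, PM.A3_eq]
    exact key
  · intro s t hs ht hR
    obtain ⟨j, hj⟩ := g4 s t (fun v hv => (hs.2.2 x hx v hv).le.trans (by linarith))
      (fun u hu => (ht.2.2 x hx u hu).le.trans (by linarith))
      (fun v hv v' hv' => (hs.2.1 v hv v' hv').le.trans (by linarith))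
      (fun v hv v' hv' => (ht.2.1 v hv v' hv').le.trans (by linarith))
      (fun v hv u hu => hr10 v u (hR v hv u hu))
    refine ⟨g j, ?_, hj⟩
    fin_cases j <;> simp

/-- **The plane lemma.** -/
theorem plane_fund {c : E4 → Fin 10} {d e δ : ℝ} (hc : Col c d) (h4 : 4 * e < d)
    (he : e ≤ 1 / 40) (hδ : δ + e < d) {X : Set S3} {x : S3} (hx : x ∈ X)
    {A : Finset (Fin 10)} (hA4 : A.card = 4) (hA : Near c δ x A) {z : Ch S3} (hz : Fund 2 e X z)
    {t : Finset (Fin 10)} (ht : t ⊆ Aᶜ) (ht3 : t.card = 3) :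
    ev (chi (fun v : S3 => c v) t) z + ev (chi (fun v : S3 => c v) (Aᶜ \ t)) z = 1 := by
  have hchi : ∀ (P : Finset (Fin 10)), chi (fun v : S3 => c v) P = PB.chi (fun v : S3 => c v) P := by
    intro P; rfl
  have h0e : 2 * e < d := by
    by_contra hcon
    have := hc.pos
    push Not at hcon
    linarith
  rw [hchi, hchi]
  refine plane_geo hc hδ h0e hx hA4 hA sS_sym0 hz ?_
    (fun o ho => plane_idx hc h0e he hδ hx hA hz o ho) ht ht3
  intro y z1 hxy hz1 k l m hkl hkm hlm hcol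
  rw [← hchi]
  refine LineF.line_fund hc h4 he (Set.mem_insert_of_mem y hx) (Set.mem_insert y X) ?_ hz1 hkl hkm
    hlm (supp_mono (fun l' h => h.2) hcol)
  have : |⟪(x : E4), (y : E4)⟫| ≤ 1 / 10 := hxy.le.trans (by linarith)
  exact this

end Crest.Agent.S69
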