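import Mathlib

set_option autoImplicit false

namespace Crest.Agent.S69

open scoped RealInnerProductSpace

/-- The embedding x ↦ traceless part of x xᵀ, in orthonormal coordinates. -/
noncomputable def emb (x : EuclideanSpace ℝ (Fin 4)) : EuclideanSpace ℝ (Fin 9) :=
  WithLp.toLp 2 ![Real.sqrt 2 * (x 0 * x 1), Real.sqrt 2 * (x 0 * x 2), Real.sqrt 2 * (x 0 * x 3),
    Real.sqrt 2 * (x 1 * x 2), Real.sqrt 2 * (x 1 * x 3), Real.sqrt 2 * (x 2 * x 3),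
    (x 0 ^ 2 + x 1 ^ 2 - x 2 ^ 2 - x 3 ^ 2) / 2, (x 0 ^ 2 - x 1 ^ 2 + x 2 ^ 2 - x 3 ^ 2) / 2,
    (x 0 ^ 2 - x 1 ^ 2 - x 2 ^ 2 + x 3 ^ 2) / 2]

theorem emb_neg (x : EuclideanSpace ℝ (Fin 4)) : emb (-x) = emb x := by
  ext i
  fin_cases i <;> simp [emb]

theorem norm_sq4 (x : EuclideanSpace ℝ (Fin 4)) :
    ‖x‖ ^ 2 = x 0 ^ 2 + x 1 ^ 2 + x 2 ^ 2 + x 3 ^ 2 := by
  rw [EuclideanSpace.norm_sq_eq]
  simp [Fin.sum_univ_four]

theorem inner4 (x y : EuclideanSpace ℝ (Fin 4)) :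
    ⟪x, y⟫ = x 0 * y 0 + x 1 * y 1 + x 2 * y 2 + x 3 * y 3 := by
  rw [PiLp.inner_apply]
  simp [Fin.sum_univ_four]
  ring

theorem dist_emb (x y : EuclideanSpace ℝ (Fin 4)) (hx : ‖x‖ = 1) (hy : ‖y‖ = 1) :
    dist (emb x) (emb y) ^ 2 = 2 - 2 * ⟪x, y⟫ ^ 2 := by
  have h1 : x 0 ^ 2 + x 1 ^ 2 + x 2 ^ 2 + x 3 ^ 2 = 1 := by rw [← norm_sq4, hx]; norm_num
  have h2 : y 0 ^ 2 + y 1 ^ 2 + y 2 ^ 2 + y 3 ^ 2 = 1 := by rw [← norm_sq4, hy]; norm_num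
  have hs : Real.sqrt 2 ^ 2 = 2 := Real.sq_sqrt (by norm_num)
  rw [EuclideanSpace.dist_eq, Real.sq_sqrt (by positivity), inner4]
  simp only [Fin.sum_univ_succ, Real.dist_eq, sq_abs]
  simp [emb]
  generalize Real.sqrt 2 = s at hs
  have e2 : 2 - 2 * (x 0 * y 0 + x 1 * y 1 + x 2 * y 2 + x 3 * y 3) ^ 2
    = (x 0 ^ 2 + x 1 ^ 2 + x 2 ^ 2 + x 3 ^ 2)^2 + (y 0 ^ 2 + y 1 ^ 2 + y 2 ^ 2 + y 3 ^ 2)^2
      - 2 * (x 0 * y 0 + x 1 * y 1 + x 2 * y 2 + x 3 * y 3) ^ 2 := by rw [h1, h2]; ring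
  rw [e2]
  linear_combination ((x 0 * x 1 - y 0 * y 1)^2 + (x 0 * x 2 - y 0 * y 2)^2 + (x 0 * x 3 - y 0 * y 3)^2
    + (x 1 * x 2 - y 1 * y 2)^2 + (x 1 * x 3 - y 1 * y 3)^2 + (x 2 * x 3 - y 2 * y 3)^2) * hs
    - (1 / 4) * ((x 0 ^ 2 + x 1 ^ 2 + x 2 ^ 2 + x 3 ^ 2) - (y 0 ^ 2 + y 1 ^ 2 + y 2 ^ 2 + y 3 ^ 2)) * (h1 - h2)

theorem dist_emb_le (x y : EuclideanSpace ℝ (Fin 4)) (hx : ‖x‖ = 1) (hy : ‖y‖ = 1) :
    dist (emb x) (emb y) ≤ Real.sqrt 2 := by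
  apply Real.le_sqrt_of_sq_le
  rw [dist_emb x y hx hy]
  nlinarith [sq_nonneg (⟪x, y⟫)]

/-- The reduction of S0069 to: no even 10-colouring of S³ in which equal colours are uniformly
non-orthogonal. -/
theorem setup (H : ∀ c : EuclideanSpace ℝ (Fin 4) → Fin 10, (∀ x, c (-x) = c x) →
    ∀ d : ℝ, 0 < d → (∀ x y, ‖x‖ = 1 → ‖y‖ = 1 → c x = c y → d ≤ |⟪x, y⟫|) → False) :
    ∃ S : Set (EuclideanSpace ℝ (Fin 9)), Bornology.IsBounded S ∧ S.Nontrivial ∧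
      ∀ c : EuclideanSpace ℝ (Fin 9) → Fin 10, ∃ i : Fin 10,
        Metric.diam S ≤ Metric.diam (S ∩ c ⁻¹' {i}) := by
  classical
  set S : Set (EuclideanSpace ℝ (Fin 9)) := emb '' {x | ‖x‖ = 1} with hS
  have hdist : ∀ p ∈ S, ∀ q ∈ S, dist p q ≤ Real.sqrt 2 := by
    rintro p ⟨x, hx, rfl⟩ q ⟨y, hy, rfl⟩
    exact dist_emb_le x y hx hy
  have hbdd : Bornology.IsBounded S := by
    rw [Metric.isBounded_iff]
    exact ⟨Real.sqrt 2, fun p hp q hq => hdist p hp q hq⟩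
  have hdiam : Metric.diam S ≤ Real.sqrt 2 :=
    Metric.diam_le_of_forall_dist_le (Real.sqrt_nonneg _) hdist
  refine ⟨S, hbdd, ?_, ?_⟩
  · refine ⟨emb (EuclideanSpace.single 0 1), ⟨_, by simp, rfl⟩,
      emb (EuclideanSpace.single 1 1), ⟨_, by simp, rfl⟩, ?_⟩
    intro h
    have := congrArg (fun v : EuclideanSpace ℝ (Fin 9) => v 7) h
    simp [emb] at this
    norm_num at this
  · intro c
    by_contra hcon
    push Not at hcon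
    -- each part has diameter smaller than √2
    obtain ⟨D, hD0, hD2, hD⟩ : ∃ D : ℝ, 0 ≤ D ∧ D < Real.sqrt 2 ∧
        ∀ i, Metric.diam (S ∩ c ⁻¹' {i}) ≤ D := by
      obtain ⟨i0, -, hi0⟩ := Finset.exists_max_image (Finset.univ : Finset (Fin 10))
        (fun i => Metric.diam (S ∩ c ⁻¹' {i})) ⟨0, Finset.mem_univ _⟩
      exact ⟨_, Metric.diam_nonneg, lt_of_lt_of_le (hcon i0) hdiam,
        fun i => hi0 i (Finset.mem_univ _)⟩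
    have hD2' : D ^ 2 < 2 := by
      have := Real.sq_sqrt (show (0:ℝ) ≤ 2 by norm_num)
      nlinarith [Real.sqrt_nonneg 2]
    set d : ℝ := (2 - D ^ 2) / 2 with hd
    have hd0 : 0 < d := by rw [hd]; linarith
    have hd1 : d ≤ 1 := by rw [hd]; nlinarith [sq_nonneg D]
    refine H (fun x => c (emb x)) (fun x => by simp only [emb_neg]) d hd0 ?_
    intro x y hx hy hxy
    have h1 : dist (emb x) (emb y) ≤ D := by
      refine le_trans (Metric.dist_le_diam_of_mem (hbdd.subset Set.inter_subset_left)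
        (⟨⟨x, hx, rfl⟩, rfl⟩ : emb x ∈ S ∩ c ⁻¹' {c (emb x)})
        (⟨⟨y, hy, rfl⟩, hxy.symm⟩ : emb y ∈ S ∩ c ⁻¹' {c (emb x)})) (hD _)
    have h2 : 2 - 2 * ⟪x, y⟫ ^ 2 ≤ D ^ 2 := by
      rw [← dist_emb x y hx hy]
      exact pow_le_pow_left₀ dist_nonneg h1 2
    have h3 : d ≤ |⟪x, y⟫| ^ 2 := by rw [sq_abs, hd]; linarith
    have h4 : |⟪x, y⟫| ≤ 1 := by
      have := abs_real_inner_le_norm x y
      rwa [hx, hy, one_mul] at this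
    nlinarith [abs_nonneg (⟪x, y⟫ : ℝ)]

end Crest.Agent.S69
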