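import Crest.Agent.S69.Main
import Crest.Agent.S69.LineF
import Crest.Agent.S69.Setup
import Crest.Agent.S69.Adj
import Crest.Agent.S69.PlaneMain

set_option autoImplicit false

/-!
# S0069: final glue
-/
namespace Crest.Agent.S69
open Crest.Agent.BU
open scoped RealInnerProductSpace

variable {c : E4 → Fin 10} {d e : ℝ}

theorem lineHyp (hc : Col c d) (he : 4 * e < d) (he' : e ≤ 1 / 40) : LineHyp c e := by
  intro x y hxy z hz k l m hkl hkm hlm hcol
  refine LineF.line_fund hc he he' (X := {y, x}) (x := x) (y := y) (by simp) (by simp) ?_ hz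
    hkl hkm hlm ?_
  · exact hxy.le.trans (by linarith)
  · refine supp_mono (fun l' hl v hv => ?_) hz.mem
    have h1 := hl.2.2 x (by simp) v hv
    have h2 := hl.2.2 y (by simp) v hv
    exact hcol v h1 h2

/-- everything, from the plane lemma -/
theorem facts_of_plane (hc : Col c d) (he0 : 0 < e) (he : 4 * e < d) (he' : e ≤ 1 / 40)
    (hplane : PlaneHyp c e e) : Facts (Real c e) (Real c e) :=
  facts hc he0 le_rfl (by linarith) hplane (lineHyp hc he he')

/-- two realised 4-sets share three colours -/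
theorem adj_of_plane (hc : Col c d) (he0 : 0 < e) (he : 4 * e < d)
    (hplane : PlaneHyp c e e) : ∃ (u : Finset (Fin 10)) (k l : Fin 10), u.card = 3 ∧ k ∉ u ∧
      l ∉ u ∧ k ≠ l ∧ Real c e (insert k u) ∧ Real c e (insert l u) := by
  obtain ⟨h, hh⟩ := exists_fund he0
  obtain ⟨s', h4, x, hx1, hx⟩ := exists_facet c hc.even hc.pos hc.sep (ρ := e) he0
  have hx : Near c e x s' := hx
  have hc6 : (s'ᶜ).card = 6 := by rw [Finset.card_compl, h4]; rfl
  obtain ⟨t, ht, h3⟩ := Finset.exists_subset_card_eq (s := s'ᶜ) (n := 3) (by omega)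
  have h3' : (s'ᶜ \ t).card = 3 := by rw [Finset.card_sdiff_of_subset ht, hc6, h3]
  have hpl := hplane h hh ⟨x, by simpa using hx1⟩ s' h4 hx t ht h3
  have hor : ∀ a b : ZMod 2, a + b = 1 → a = 1 ∨ b = 1 := by decide
  have key : ∀ t' ⊆ s'ᶜ, t'.card = 3 → NN c h ⟨x, by simpa using hx1⟩ t' = 1 →
      ∃ (u : Finset (Fin 10)) (k l : Fin 10), u.card = 3 ∧ k ∉ u ∧
      l ∉ u ∧ k ≠ l ∧ Real c e (insert k u) ∧ Real c e (insert l u) := by
    intro t' ht' h3' hN
    refine Adj.adj hc he0 le_rfl (by linarith) hh (x := ⟨x, by simpa using hx1⟩) h4 hx h3' ?_ ?_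
    · rw [Finset.disjoint_left]
      intro k hk hk'
      exact (Finset.mem_compl.1 (ht' hk)) hk'
    · rw [← ev_cap]; exact hN
  rcases hor _ _ hpl with h1 | h1
  · exact key t ht h3 h1
  · exact key _ Finset.sdiff_subset h3' h1

theorem planeHyp (hc : Col c d) (he : 4 * e < d) (he' : e ≤ 1 / 40) {ρ : ℝ} (hρ : ρ + e < d) :
    PlaneHyp c ρ e := by
  intro h hh x s' h4 hx t ht h3
  exact plane_fund hc he he' hρ (X := insert x ∅) (Set.mem_insert _ _) h4 hx (hh.cap x) ht h3

/-- **all the facts** -/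
theorem facts_all (hc : Col c d) (he0 : 0 < e) (he : 4 * e < d) (he' : e ≤ 1 / 40) :
    Facts (Real c e) (Real c e) :=
  facts_of_plane hc he0 he he' (planeHyp hc he he' (by linarith))

theorem adj_all (hc : Col c d) (he0 : 0 < e) (he : 4 * e < d) (he' : e ≤ 1 / 40) :
    ∃ (u : Finset (Fin 10)) (k l : Fin 10), u.card = 3 ∧ k ∉ u ∧
      l ∉ u ∧ k ≠ l ∧ Real c e (insert k u) ∧ Real c e (insert l u) :=
  adj_of_plane hc he0 he (planeHyp hc he he' (by linarith))

/-- the finite end game gives the theorem -/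
theorem final (END : ∀ R F : Finset (Fin 10) → Prop, Facts R F →
      (∃ (u : Finset (Fin 10)) (k l : Fin 10), u.card = 3 ∧ k ∉ u ∧ l ∉ u ∧ k ≠ l ∧
        F (insert k u) ∧ F (insert l u)) → False) :
    ∃ S : Set (EuclideanSpace ℝ (Fin 9)), Bornology.IsBounded S ∧ S.Nontrivial ∧
      ∀ c : EuclideanSpace ℝ (Fin 9) → Fin 10, ∃ i : Fin 10,
        Metric.diam S ≤ Metric.diam (S ∩ c ⁻¹' {i}) := by
  refine setup (fun c hce d hd hsep => ?_)
  have hc : Col c d := ⟨hce, hd, hsep⟩
  have he0 : (0 : ℝ) < min (d / 5) (1 / 40) := lt_min (by linarith) (by norm_num)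
  have he : 4 * min (d / 5) (1 / 40) < d := by
    have := min_le_left (d / 5) (1 / 40 : ℝ)
    linarith
  exact END _ _ (facts_all hc he0 he (min_le_right _ _)) (adj_all hc he0 he (min_le_right _ _))

end Crest.Agent.S69
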