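import Crest.Agent.S69.Main
import Crest.Agent.S69.Adj
import Crest.Agent.S69.Facet

set_option autoImplicit false

namespace Crest.Agent.S69
open Crest.Agent.BU
open scoped RealInnerProductSpace

variable {c : E4 → Fin 10} {d e : ℝ}

theorem adj_facts (hc : Col c d) {ρ : ℝ} (he : 0 < e) (heρ : e ≤ ρ) (hρd : ρ + e < d)
    (hplane : PlaneHyp c ρ e) :
    ∃ (u : Finset (Fin 10)) (k l : Fin 10), u.card = 3 ∧ k ∉ u ∧ l ∉ u ∧ k ≠ l ∧
      Real c ρ (insert k u) ∧ Real c ρ (insert l u) := by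
  classical
  obtain ⟨h, hh⟩ := exists_fund he
  obtain ⟨s', h4, x, hx1, hx⟩ := exists_facet c hc.even hc.pos hc.sep (ρ := ρ) (by linarith)
  have hc6 : (s'ᶜ).card = 6 := by rw [Finset.card_compl, h4]; rfl
  obtain ⟨t, ht, h3⟩ := Finset.exists_subset_card_eq (show 3 ≤ (s'ᶜ).card by omega)
  have key := hplane h hh ⟨x, by simpa using hx1⟩ s' h4 hx t ht h3
  have hval : ∀ r : Finset (Fin 10), r ⊆ s'ᶜ → r.card = 3 →
      NN c h ⟨x, by simpa using hx1⟩ r = 1 →
      ∃ (u : Finset (Fin 10)) (k l : Fin 10), u.card = 3 ∧ k ∉ u ∧ l ∉ u ∧ k ≠ l ∧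
      Real c ρ (insert k u) ∧ Real c ρ (insert l u) := by
    intro r hr hr3 hN
    refine Adj.adj hc he heρ hρd.le hh (x := ⟨x, by simpa using hx1⟩) h4 hx hr3 ?_ ?_
    · rw [Finset.disjoint_left]
      intro i hi hi'
      exact (Finset.mem_compl.1 (hr hi)) hi'
    · rw [NN, ev_cap] at hN
      exact hN
  have h01 : ∀ a : ZMod 2, a = 0 ∨ a = 1 := by decide
  rcases h01 (NN c h ⟨x, by simpa using hx1⟩ t) with h0 | h1
  · rw [h0, zero_add] at key
    exact hval _ Finset.sdiff_subset (by rw [Finset.card_sdiff_of_subset ht, hc6, h3]) key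
  · exact hval t ht h3 h1

end Crest.Agent.S69
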