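import Crest.Agent.BU.Cup

set_option autoImplicit false

/-!
# Double cochains
-/
namespace Crest.Agent.S69

open Crest.Agent.BU

universe u
variable {V : Type u}

/-- double cochains, all bidegrees at once -/
abbrev DC (V : Type u) := List V → List V → ZMod 2

/-- vanishing on empty lists -/
def Nz (F : DC V) : Prop := (∀ t, F [] t = 0) ∧ (∀ s, F s [] = 0)

noncomputable def DD (F : DC V) : DC V := fun s t =>
  cbd (fun s' => F s' t) s + cbd (fun t' => F s t') t

def TT (F : DC V) : DC V := fun s t => F t s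

def Acup (σ : V → V → ZMod 2) (F : DC V) : DC V
  | (v :: s), (u :: t) => σ v u * F (v :: s) (u :: t)
  | _, _ => 0

def Wc1 (σ : V → V → ZMod 2) (F : DC V) : DC V
  | (v :: v' :: s), (u :: t) => (σ v u + σ v' u) * F (v' :: s) (u :: t)
  | _, _ => 0

def Wc2 (σ : V → V → ZMod 2) (F : DC V) : DC V
  | (v :: s), (u :: u' :: t) => (σ v u + σ v u') * F (v :: s) (u' :: t)
  | _, _ => 0

def Wcup (σ : V → V → ZMod 2) (F : DC V) : DC V := fun s t => Wc1 σ F s t + Wc2 σ F s t

/-! ### elementary properties -/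

theorem cbd_nil (q : List V → ZMod 2) : cbd q [] = 0 := by simp [cbd, bdL]

theorem cbd_single (q : List V → ZMod 2) (v : V) : cbd q [v] = q [] := by simp [cbd, bdL]

theorem cbd_zero (l : List V) : cbd (fun _ => 0) l = 0 := by
  have : ev (fun _ : List V => (0 : ZMod 2)) (bdL l) = 0 := by
    have := ev_const_mul 0 (fun _ : List V => (0 : ZMod 2)) (bdL l)
    simpa using this
  exact this

theorem cbd_acup' (a : V → ZMod 2) (q : List V → ZMod 2) (hq : q [] = 0) (l : List V) :
    cbd (acup a q) l = wcup a q l + acup a (cbd q) l := by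
  match l with
  | [] => simp [cbd_nil, wcup, acup]
  | [v] => simp [cbd_single, wcup, acup, hq]
  | (v :: v' :: l) => exact cbd_acup a q v v' l

theorem ev_fubini (F : DC V) (x y : Ch V) :
    ev (fun s => ev (fun t => F s t) y) x = ev (fun t => ev (fun s => F s t) x) y := by
  -- linear in both variables
  have h1 : ∀ s, ev (fun t => F s t) y = ev (fun t => ev (fun s => F s t) (sg s)) y := by
    intro s; simp
  have h2 : ∀ (y : Ch V), ev (fun s => ev (fun t => F s t) y) x =
      ev (fun t => ev (fun s => F s t) x) y := by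
    intro y
    -- as linear functions of y
    let L : Ch V →ₗ[ZMod 2] ZMod 2 :=
      { toFun := fun y => ev (fun s => ev (fun t => F s t) y) x
        map_add' := by
          intro a b
          simp only [map_add]
          exact ev_add_fun _ _ _
        map_smul' := by
          intro c a
          simp only [map_smul, smul_eq_mul, RingHom.id_apply]
          exact ev_const_mul _ _ _ }
    have := hom_ext (f := L) (g := ev (fun t => ev (fun s => F s t) x)) (fun l => by
      simp [L]) y
    exact this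
  exact h2 y

theorem cbd_comm (F : DC V) (s t : List V) :
    cbd (fun s' => cbd (fun t' => F s' t') t) s = cbd (fun t' => cbd (fun s' => F s' t') s) t :=
  ev_fubini F (bdL s) (bdL t)

theorem cbd_cbd (q : List V → ZMod 2) (l : List V) : cbd (cbd q) l = 0 := by
  have h : ev (cbd q) (bdL l) = ev q (bd (bdL l)) := (ev_bd q (bdL l)).symm
  rw [cbd, h, bd_bdL, map_zero]

theorem cbd_add (p q : List V → ZMod 2) (l : List V) :
    cbd (fun l => p l + q l) l = cbd p l + cbd q l := ev_add_fun _ _ _

theorem DD_DD (F : DC V) (s t : List V) : DD (DD F) s t = 0 := by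
  unfold DD
  rw [cbd_add, cbd_add, cbd_comm F s t]
  have h1 : cbd (fun s' => cbd (fun s'' => F s'' t) s') s = 0 := cbd_cbd (fun s'' => F s'' t) s
  have h2 : cbd (fun t' => cbd (fun t'' => F s t'') t') t = 0 := cbd_cbd (fun t'' => F s t'') t
  rw [h1, h2, zero_add, add_zero]
  exact add_self2 _

theorem DD_add (F G : DC V) : DD (fun s t => F s t + G s t) = fun s t => DD F s t + DD G s t := by
  funext s t
  unfold DD
  rw [cbd_add, cbd_add]
  ring

theorem DD_TT (F : DC V) : DD (TT F) = TT (DD F) := by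
  funext s t
  unfold DD TT
  exact add_comm _ _

theorem Nz_DD {F : DC V} (h : Nz F) : Nz (DD F) := by
  constructor
  · intro t
    unfold DD
    rw [cbd_nil, zero_add]
    have : (fun t' => F [] t') = fun _ => 0 := by funext t'; exact h.1 t'
    rw [this, cbd_zero]
  · intro s
    unfold DD
    rw [cbd_nil, add_zero]
    have : (fun s' => F s' []) = fun _ => 0 := by funext s'; exact h.2 s'
    rw [this, cbd_zero]

theorem Nz_Acup (σ : V → V → ZMod 2) (F : DC V) : Nz (Acup σ F) := by
  constructor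
  · intro t; simp [Acup]
  · intro s; cases s <;> simp [Acup]

theorem Nz_Wcup (σ : V → V → ZMod 2) (F : DC V) : Nz (Wcup σ F) := by
  constructor
  · intro t; simp [Wcup, Wc1, Wc2]
  · intro s
    match s with
    | [] => simp [Wcup, Wc1, Wc2]
    | [v] => simp [Wcup, Wc1, Wc2]
    | (v :: v' :: s) => simp [Wcup, Wc1, Wc2]

theorem Nz_TT {F : DC V} (h : Nz F) : Nz (TT F) := ⟨fun t => h.2 t, fun s => h.1 s⟩

theorem Nz_add {F G : DC V} (h : Nz F) (h' : Nz G) : Nz (fun s t => F s t + G s t) :=
  ⟨fun t => by simp [h.1, h'.1], fun s => by simp [h.2, h'.2]⟩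

/-- Leibniz rule -/
theorem DD_Acup (σ : V → V → ZMod 2) (F : DC V) (hF : Nz F) (s t : List V) :
    DD (Acup σ F) s t = Wcup σ F s t + Acup σ (DD F) s t := by
  match s, t with
  | [], t =>
    rw [(Nz_DD (Nz_Acup σ F)).1, (Nz_Wcup σ F).1, (Nz_Acup σ (DD F)).1, add_zero]
  | (v :: s), [] =>
    rw [(Nz_DD (Nz_Acup σ F)).2, (Nz_Wcup σ F).2, (Nz_Acup σ (DD F)).2, add_zero]
  | (v :: s), (u :: t) =>
    have e1 : (fun s' => Acup σ F s' (u :: t)) = acup (fun v => σ v u) (fun s' => F s' (u :: t)) := by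
      funext s'
      cases s' with
      | nil => simp [Acup, acup]
      | cons v s => simp [Acup, acup]
    have e2 : (fun t' => Acup σ F (v :: s) t') = acup (fun u => σ v u) (fun t' => F (v :: s) t') := by
      funext t'
      cases t' with
      | nil => simp [Acup, acup]
      | cons v s => simp [Acup, acup]
    have e3 : Wc1 σ F (v :: s) (u :: t) = wcup (fun v => σ v u) (fun s' => F s' (u :: t)) (v :: s) := by
      cases s with
      | nil => simp [Wc1, wcup]
      | cons v s => simp [Wc1, wcup]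
    have e4 : Wc2 σ F (v :: s) (u :: t) = wcup (fun u => σ v u) (fun t' => F (v :: s) t') (u :: t) := by
      cases t with
      | nil => simp [Wc2, wcup]
      | cons v s => simp [Wc2, wcup]
    have f1 := cbd_acup' (fun v => σ v u) (fun s' => F s' (u :: t)) (hF.1 _) (v :: s)
    have f2 := cbd_acup' (fun u => σ v u) (fun t' => F (v :: s) t') (hF.2 _) (u :: t)
    unfold DD Wcup
    rw [e1, e2, e3, e4, f1, f2]
    simp only [acup, Acup]
    ring

theorem Wcup_add (σ : V → V → ZMod 2) (F G : DC V) (s t : List V) :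
    Wcup σ (fun s t => F s t + G s t) s t = Wcup σ F s t + Wcup σ G s t := by
  match s, t with
  | [], t => simp [Wcup, Wc1, Wc2]
  | [v], [] => simp [Wcup, Wc1, Wc2]
  | [v], [u] => simp [Wcup, Wc1, Wc2]
  | [v], (u :: u' :: t) => simp [Wcup, Wc1, Wc2, mul_add]
  | (v :: v' :: s), [] => simp [Wcup, Wc1, Wc2]
  | (v :: v' :: s), [u] => simp [Wcup, Wc1, Wc2, mul_add]
  | (v :: v' :: s), (u :: u' :: t) => simp [Wcup, Wc1, Wc2]; ring

theorem Wcup_add_left (σ τ : V → V → ZMod 2) (F : DC V) (s t : List V) :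
    Wcup (fun v u => σ v u + τ v u) F s t = Wcup σ F s t + Wcup τ F s t := by
  match s, t with
  | [], t => simp [Wcup, Wc1, Wc2]
  | [v], [] => simp [Wcup, Wc1, Wc2]
  | [v], [u] => simp [Wcup, Wc1, Wc2]
  | [v], (u :: u' :: t) => simp [Wcup, Wc1, Wc2]; ring
  | (v :: v' :: s), [] => simp [Wcup, Wc1, Wc2]
  | (v :: v' :: s), [u] => simp [Wcup, Wc1, Wc2]; ring
  | (v :: v' :: s), (u :: u' :: t) => simp [Wcup, Wc1, Wc2]; ring

theorem Wcup_zero (σ : V → V → ZMod 2) (s t : List V) :
    Wcup σ (fun _ _ => 0) s t = 0 := by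
  match s, t with
  | [], t => simp [Wcup, Wc1, Wc2]
  | [v], [] => simp [Wcup, Wc1, Wc2]
  | [v], [u] => simp [Wcup, Wc1, Wc2]
  | [v], (u :: u' :: t) => simp [Wcup, Wc1, Wc2]
  | (v :: v' :: s), [] => simp [Wcup, Wc1, Wc2]
  | (v :: v' :: s), [u] => simp [Wcup, Wc1, Wc2]
  | (v :: v' :: s), (u :: u' :: t) => simp [Wcup, Wc1, Wc2]

theorem Acup_zero (σ : V → V → ZMod 2) (s t : List V) :
    Acup σ (fun _ _ => 0) s t = 0 := by
  match s, t with
  | [], t => simp [Acup]
  | (v :: s), [] => simp [Acup]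
  | (v :: s), (u :: t) => simp [Acup]

theorem Acup_add (σ : V → V → ZMod 2) (F G : DC V) (s t : List V) :
    Acup σ (fun s t => F s t + G s t) s t = Acup σ F s t + Acup σ G s t := by
  match s, t with
  | [], t => simp [Acup]
  | (v :: s), [] => simp [Acup]
  | (v :: s), (u :: t) => simp [Acup]; ring

theorem DD_zero : DD (fun _ _ => (0 : ZMod 2) : DC V) = fun _ _ => 0 := by
  funext s t
  unfold DD
  rw [cbd_zero, cbd_zero, add_zero]

theorem DD_Wcup (σ : V → V → ZMod 2) (F : DC V) (hF : Nz F) :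
    DD (Wcup σ F) = Wcup σ (DD F) := by
  have h1 : Wcup σ F = fun s t => DD (Acup σ F) s t + Acup σ (DD F) s t := by
    funext s t
    rw [DD_Acup σ F hF]
    have := add_self2 (Acup σ (DD F) s t)
    linear_combination -this
  rw [h1, DD_add]
  funext s t
  rw [DD_DD, DD_Acup σ (DD F) (Nz_DD hF)]
  have h2 : DD (DD F) = fun _ _ => 0 := by funext s t; exact DD_DD F s t
  rw [h2, Acup_zero]
  ring

theorem TT_Wcup (σ : V → V → ZMod 2) (F : DC V) :
    TT (Wcup σ F) = Wcup (fun v u => σ u v) (TT F) := by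
  funext s t
  match s, t with
  | [], [] => simp [TT, Wcup, Wc1, Wc2]
  | [], [u] => simp [TT, Wcup, Wc1, Wc2]
  | [], (u :: u' :: t) => simp [TT, Wcup, Wc1, Wc2]
  | [v], [] => simp [TT, Wcup, Wc1, Wc2]
  | [v], [u] => simp [TT, Wcup, Wc1, Wc2]
  | [v], (u :: u' :: t) => simp [TT, Wcup, Wc1, Wc2]
  | (v :: v' :: s), [] => simp [TT, Wcup, Wc1, Wc2]
  | (v :: v' :: s), [u] => simp [TT, Wcup, Wc1, Wc2]
  | (v :: v' :: s), (u :: u' :: t) => simp [TT, Wcup, Wc1, Wc2]; ring

theorem TT_Acup (σ : V → V → ZMod 2) (F : DC V) :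
    TT (Acup σ F) = Acup (fun v u => σ u v) (TT F) := by
  funext s t
  match s, t with
  | [], [] => simp [TT, Acup]
  | [], (u :: t) => simp [TT, Acup]
  | (v :: s), [] => simp [TT, Acup]
  | (v :: s), (u :: t) => simp [TT, Acup]

/-! ### prefixes -/

/-- iterated `Wcup` -/
def Bw (gs : List (V → V → ZMod 2)) (F : DC V) : DC V := gs.foldr Wcup F

@[simp] theorem Bw_nil (F : DC V) : Bw [] F = F := rfl
@[simp] theorem Bw_cons (g : V → V → ZMod 2) (gs) (F : DC V) :
    Bw (g :: gs) F = Wcup g (Bw gs F) := rfl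

theorem Bw_append (gs gs' : List (V → V → ZMod 2)) (F : DC V) :
    Bw (gs ++ gs') F = Bw gs (Bw gs' F) := by
  simp [Bw, List.foldr_append]

theorem Nz_Bw (gs : List (V → V → ZMod 2)) {F : DC V} (hF : Nz F) : Nz (Bw gs F) := by
  cases gs with
  | nil => exact hF
  | cons g gs => exact Nz_Wcup _ _

theorem DD_Bw (gs : List (V → V → ZMod 2)) (F : DC V) (hF : Nz F) :
    DD (Bw gs F) = Bw gs (DD F) := by
  induction gs with
  | nil => rfl
  | cons g gs ih => rw [Bw_cons, DD_Wcup _ _ (Nz_Bw gs hF), ih, Bw_cons]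

theorem Bw_add (gs : List (V → V → ZMod 2)) (F G : DC V) (s t : List V) :
    Bw gs (fun s t => F s t + G s t) s t = Bw gs F s t + Bw gs G s t := by
  induction gs generalizing s t with
  | nil => rfl
  | cons g gs ih =>
    have : Bw gs (fun s t => F s t + G s t) = fun s t => Bw gs F s t + Bw gs G s t := by
      funext s t; exact ih s t
    rw [Bw_cons, this, Wcup_add]
    rfl

theorem Bw_zero (gs : List (V → V → ZMod 2)) : Bw gs (fun _ _ => 0) = fun _ _ => (0 : ZMod 2) := by
  induction gs with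
  | nil => rfl
  | cons g gs ih =>
    rw [Bw_cons, ih]
    funext s t
    exact Wcup_zero g s t

/-- if some function of the prefix is constant on `s × t` then the value is zero -/
theorem Bw_const (gs : List (V → V → ZMod 2)) (F : DC V) (s t : List V) (g : V → V → ZMod 2)
    (hg : g ∈ gs) (h : ∀ v ∈ s, ∀ v' ∈ s, ∀ u ∈ t, ∀ u' ∈ t, g v u = g v' u') :
    Bw gs F s t = 0 := by
  induction gs generalizing s t with
  | nil => simp at hg
  | cons g' gs ih =>
    rw [Bw_cons]
    rcases List.mem_cons.1 hg with rfl | hg'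
    · match s, t with
      | [], t => simp [Wcup, Wc1, Wc2]
      | [v], [] => simp [Wcup, Wc1, Wc2]
      | [v], [u] => simp [Wcup, Wc1, Wc2]
      | [v], (u :: u' :: t) =>
        have := h v (by simp) v (by simp) u (by simp) u' (by simp)
        simp [Wcup, Wc1, Wc2, this, add_self2]
      | (v :: v' :: s), [] => simp [Wcup, Wc1, Wc2]
      | (v :: v' :: s), [u] =>
        have := h v (by simp) v' (by simp) u (by simp) u (by simp)
        simp [Wcup, Wc1, Wc2, this, add_self2]
      | (v :: v' :: s), (u :: u' :: t) =>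
        have h1 := h v (by simp) v' (by simp) u (by simp) u (by simp)
        have h2 := h v (by simp) v (by simp) u (by simp) u' (by simp)
        have e1 : g v u + g v' u = 0 := by rw [h1, add_self2]
        have e2 : g v u + g v u' = 0 := by rw [h2, add_self2]
        simp only [Wcup, Wc1, Wc2, e1, e2, zero_mul, add_zero]
    · have key : ∀ s' t', s' ⊆ s → t' ⊆ t → Bw gs F s' t' = 0 := by
        intro s' t' hs' ht'
        exact ih s' t' hg' (fun v hv v' hv' u hu u' hu' =>
          h v (hs' hv) v' (hs' hv') u (ht' hu) u' (ht' hu'))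
      match s, t, key with
      | [], t, _ => simp [Wcup, Wc1, Wc2]
      | [v], [], _ => simp [Wcup, Wc1, Wc2]
      | [v], [u], _ => simp [Wcup, Wc1, Wc2]
      | [v], (u :: u' :: t), key =>
        have := key [v] (u' :: t) (by simp) (by simp)
        simp [Wcup, Wc1, Wc2, this]
      | (v :: v' :: s), [], _ => simp [Wcup, Wc1, Wc2]
      | (v :: v' :: s), [u], key =>
        have := key (v' :: s) [u] (by simp) (by simp)
        simp [Wcup, Wc1, Wc2, this]
      | (v :: v' :: s), (u :: u' :: t), key =>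
        have h1 := key (v' :: s) (u :: u' :: t) (by simp) (by simp)
        have h2 := key (v :: v' :: s) (u' :: t) (by simp) (by simp)
        simp [Wcup, Wc1, Wc2, h1, h2]

end Crest.Agent.S69
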