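import Crest.Agent.BU.Cup

set_option autoImplicit false

/-!
# Double cochains (backup implementation of the algebra of the plane lemma)
-/
namespace Crest.Agent.S69.B

open Crest.Agent.BU

universe u
variable {V : Type u}

/-- double cochains -/
abbrev DC (V : Type u) := List V → List V → ZMod 2

@[simp] theorem cbd_nil (q : List V → ZMod 2) : cbd q [] = 0 := by simp [cbd, bdL]

theorem cbd_cons (q : List V → ZMod 2) (v : V) (l : List V) :
    cbd q (v :: l) = q l + cbd (fun l' => q (v :: l')) l := by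
  simp [cbd, bdL, ev_cons]

theorem cbd_add (q q' : List V → ZMod 2) (l : List V) :
    cbd (fun l => q l + q' l) l = cbd q l + cbd q' l := by
  simp [cbd, ev_add_fun]

theorem cbd_mul (a : ZMod 2) (q : List V → ZMod 2) (l : List V) :
    cbd (fun l => a * q l) l = a * cbd q l := by
  simp [cbd, ev_const_mul]

@[simp] theorem cbd_zero (l : List V) : cbd (fun _ => (0 : ZMod 2)) l = 0 := by
  induction l with
  | nil => simp
  | cons v l ih => rw [cbd_cons, ih, add_zero]

theorem cbd_cbd (q : List V → ZMod 2) (l : List V) : cbd (cbd q) l = 0 := by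
  have h : cbd (cbd q) l = ev q (bd (bdL l)) := by
    rw [ev_bd]; rfl
  rw [h, bd_bdL, map_zero]

/-- Fubini -/
theorem fub (F : DC V) (c c' : Ch V) :
    ev (fun s => ev (F s) c') c = ev (fun t => ev (fun s => F s t) c) c' := by
  induction c using Finsupp.induction_linear with
  | zero =>
    rw [map_zero]
    symm
    have : (fun t : List V => ev (fun s => F s t) (0 : Ch V)) = fun _ => (0 : ZMod 2) := by
      funext t; exact map_zero _
    rw [this]
    have := ev_const_mul (0 : ZMod 2) (fun _ : List V => (0 : ZMod 2)) c'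
    simpa using this
  | add a b ha hb =>
    rw [map_add, ha, hb, ← ev_add_fun]
    congr 2
    funext t
    rw [map_add]
  | single l a =>
    have : (Finsupp.single l a : Ch V) = a • sg l := by simp [sg]
    rw [this]
    simp only [map_smul, ev_sg, smul_eq_mul, ev_const_mul]

theorem cbd_comm (F : DC V) (s t : List V) :
    cbd (fun s' => cbd (F s') t) s = cbd (fun t' => cbd (fun s' => F s' t') s) t :=
  fub F (bdL s) (bdL t)

noncomputable def D (F : DC V) : DC V := fun s t =>
  cbd (fun s' => F s' t) s + cbd (F s) t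

def Acup (g : V → V → ZMod 2) (F : DC V) : DC V
  | (v :: s), (u :: t) => g v u * F (v :: s) (u :: t)
  | _, _ => 0

def Wl (g : V → V → ZMod 2) (F : DC V) : DC V
  | (v :: v' :: s), (u :: t) => (g v u + g v' u) * F (v' :: s) (u :: t)
  | _, _ => 0

def Wr (g : V → V → ZMod 2) (F : DC V) : DC V
  | (v :: s), (u :: u' :: t) => (g v u + g v u') * F (v :: s) (u' :: t)
  | _, _ => 0

def Wc (g : V → V → ZMod 2) (F : DC V) : DC V := fun s t => Wl g F s t + Wr g F s t

def Tr (F : DC V) : DC V := fun s t => F t s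

/-- vanishing on empty lists -/
def E0 (F : DC V) : Prop := (∀ t, F [] t = 0) ∧ ∀ s, F s [] = 0

theorem E0_Acup (g : V → V → ZMod 2) (F : DC V) : E0 (Acup g F) :=
  ⟨fun t => by cases t <;> rfl, fun s => by cases s <;> rfl⟩

theorem E0_Wc (g : V → V → ZMod 2) (F : DC V) : E0 (Wc g F) := by
  refine ⟨fun t => ?_, fun s => ?_⟩
  · rcases t with _ | ⟨u, _ | ⟨u', t⟩⟩ <;> simp [Wc, Wl, Wr]
  · rcases s with _ | ⟨u, _ | ⟨u', t⟩⟩ <;> simp [Wc, Wl, Wr]

theorem leibniz (g : V → V → ZMod 2) (F : DC V) (h0 : E0 F) :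
    D (Acup g F) = fun s t => Wc g F s t + Acup g (D F) s t := by
  funext s t
  rcases s with _ | ⟨v, s⟩
  · have h1 : (Acup g F []) = fun _ => (0 : ZMod 2) := by
      funext t'; exact (E0_Acup g F).1 t'
    have h2 : Acup g (D F) [] t = 0 := (E0_Acup g (D F)).1 t
    have h3 : Wc g F [] t = 0 := (E0_Wc g F).1 t
    simp only [D, cbd_nil, h1, cbd_zero, h2, h3, add_zero]
  rcases t with _ | ⟨u, t⟩
  · have h1 : (fun s' => Acup g F s' []) = fun _ => (0 : ZMod 2) := by
      funext t'; exact (E0_Acup g F).2 t'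
    have h2 : Acup g (D F) (v :: s) [] = 0 := (E0_Acup g (D F)).2 _
    have h3 : Wc g F (v :: s) [] = 0 := (E0_Wc g F).2 _
    simp only [D, cbd_nil, h1, cbd_zero, h2, h3, add_zero]
  have e1 : cbd (fun s' => Acup g F s' (u :: t)) (v :: s) =
      Acup g F s (u :: t) + g v u * cbd (fun s' => F (v :: s') (u :: t)) s := by
    rw [cbd_cons, ← cbd_mul]; rfl
  have e2 : cbd (Acup g F (v :: s)) (u :: t) =
      Acup g F (v :: s) t + g v u * cbd (fun t' => F (v :: s) (u :: t')) t := by
    rw [cbd_cons, ← cbd_mul]; rfl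
  have e3 : Acup g (D F) (v :: s) (u :: t) = g v u * ((F s (u :: t) +
      cbd (fun s' => F (v :: s') (u :: t)) s) + (F (v :: s) t +
      cbd (fun t' => F (v :: s) (u :: t')) t)) := by
    show g v u * D F (v :: s) (u :: t) = _
    simp only [D, cbd_cons]
  have e4 : Wl g F (v :: s) (u :: t) = Acup g F s (u :: t) + g v u * F s (u :: t) := by
    rcases s with _ | ⟨v', s⟩
    · simp [Wl, Acup, h0.1]
    · simp only [Wl, Acup]; ring
  have e5 : Wr g F (v :: s) (u :: t) = Acup g F (v :: s) t + g v u * F (v :: s) t := by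
    rcases t with _ | ⟨v', s⟩
    · simp [Wr, Acup, h0.2]
    · simp only [Wr, Acup]; ring
  show cbd (fun s' => Acup g F s' (u :: t)) (v :: s) + cbd (Acup g F (v :: s)) (u :: t) = _
  simp only [Wc]
  rw [e1, e2, e3, e4, e5]
  have h1 := add_self2 (g v u * F s (u :: t))
  have h2 := add_self2 (g v u * F (v :: s) t)
  linear_combination - h1 - h2

theorem D_D (F : DC V) : D (D F) = fun _ _ => 0 := by
  funext s t
  have e : D (D F) s t = cbd (fun s' => cbd (fun s'' => F s'' t) s' + cbd (F s') t) s +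
      cbd (fun t' => cbd (fun s' => F s' t') s + cbd (F s) t') t := rfl
  rw [e, cbd_add, cbd_add, cbd_comm]
  have h1 : cbd (fun s' => cbd (fun s'' => F s'' t) s') s = 0 := cbd_cbd _ _
  have h2 : cbd (fun t' => cbd (F s) t') t = 0 := cbd_cbd _ _
  rw [h1, h2]
  have h3 := add_self2 (cbd (fun t' => cbd (fun s' => F s' t') s) t)
  linear_combination h3

theorem D_add (F G : DC V) : D (fun s t => F s t + G s t) = fun s t => D F s t + D G s t := by
  funext s t
  simp only [D, cbd_add]
  ring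

theorem D_zero : D (fun _ _ => (0 : ZMod 2) : DC V) = fun _ _ => 0 := by
  funext s t; simp [D]

theorem Acup_zero (g : V → V → ZMod 2) : Acup g (fun _ _ => 0) = fun _ _ => 0 := by
  funext s t
  rcases s with _ | ⟨v, s⟩ <;> rcases t with _ | ⟨u, t⟩ <;> simp [Acup]

theorem Wc_zero (g : V → V → ZMod 2) : Wc g (fun _ _ => 0) = fun _ _ => 0 := by
  funext s t
  rcases s with _ | ⟨v, _ | ⟨v', s⟩⟩ <;> rcases t with _ | ⟨u, _ | ⟨u', t⟩⟩ <;> simp [Wc, Wl, Wr]

theorem E0_D (F : DC V) (h0 : E0 F) (t : List V) : D F [] t = 0 := by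
  have : F [] = fun _ => (0 : ZMod 2) := funext h0.1
  simp [D, this]

theorem E0_D' (F : DC V) (h0 : E0 F) (s : List V) : D F s [] = 0 := by
  have : (fun s' => F s' []) = fun _ => (0 : ZMod 2) := funext h0.2
  simp [D, this]

theorem E0_DF {F : DC V} (h0 : E0 F) : E0 (D F) := ⟨E0_D F h0, E0_D' F h0⟩

theorem D_Wc (g : V → V → ZMod 2) (F : DC V) (h0 : E0 F) : D (Wc g F) = Wc g (D F) := by
  have h1 : D (D (Acup g F)) = fun _ _ => 0 := D_D _
  rw [leibniz g F h0, D_add, leibniz g (D F) (E0_DF h0), D_D, Acup_zero] at h1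
  funext s t
  have h2 := congrFun (congrFun h1 s) t
  simp only [add_zero] at h2
  have h3 := add_self2 (Wc g (D F) s t)
  linear_combination h2 - h3

theorem Wc_add (g : V → V → ZMod 2) (F G : DC V) :
    Wc g (fun s t => F s t + G s t) = fun s t => Wc g F s t + Wc g G s t := by
  funext s t
  rcases s with _ | ⟨v, _ | ⟨v', s⟩⟩ <;> rcases t with _ | ⟨u, _ | ⟨u', t⟩⟩ <;>
    simp only [Wc, Wl, Wr] <;> ring

theorem Wc_add_left (g g' : V → V → ZMod 2) (F : DC V) :
    Wc (fun v u => g v u + g' v u) F = fun s t => Wc g F s t + Wc g' F s t := by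
  funext s t
  rcases s with _ | ⟨v, _ | ⟨v', s⟩⟩ <;> rcases t with _ | ⟨u, _ | ⟨u', t⟩⟩ <;>
    simp only [Wc, Wl, Wr] <;> ring

theorem Acup_add (g : V → V → ZMod 2) (F G : DC V) :
    Acup g (fun s t => F s t + G s t) = fun s t => Acup g F s t + Acup g G s t := by
  funext s t
  rcases s with _ | ⟨v, s⟩ <;> rcases t with _ | ⟨u, t⟩ <;> simp only [Acup] <;> ring

theorem Tr_Wc (g : V → V → ZMod 2) (F : DC V) : Tr (Wc g F) = Wc (fun v u => g u v) (Tr F) := by
  funext s t
  rcases s with _ | ⟨v, _ | ⟨v', s⟩⟩ <;> rcases t with _ | ⟨u, _ | ⟨u', t⟩⟩ <;>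
    simp only [Tr, Wc, Wl, Wr] <;> ring

theorem Tr_Acup (g : V → V → ZMod 2) (F : DC V) :
    Tr (Acup g F) = Acup (fun v u => g u v) (Tr F) := by
  funext s t
  rcases s with _ | ⟨v, s⟩ <;> rcases t with _ | ⟨u, t⟩ <;> simp only [Tr, Acup]

/-- iterated cup -/
def Wp (gs : List (V → V → ZMod 2)) (F : DC V) : DC V := gs.foldr Wc F

@[simp] theorem Wp_nil (F : DC V) : Wp [] F = F := rfl
@[simp] theorem Wp_cons (g : V → V → ZMod 2) (gs) (F : DC V) : Wp (g :: gs) F = Wc g (Wp gs F) := rfl

theorem Wp_append (gs gs' : List (V → V → ZMod 2)) (F : DC V) :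
    Wp (gs ++ gs') F = Wp gs (Wp gs' F) := by simp [Wp]

theorem Wp_add (gs : List (V → V → ZMod 2)) (F G : DC V) :
    Wp gs (fun s t => F s t + G s t) = fun s t => Wp gs F s t + Wp gs G s t := by
  induction gs with
  | nil => rfl
  | cons g gs ih => rw [Wp_cons, ih, Wc_add]; rfl

theorem E0_Wp (gs : List (V → V → ZMod 2)) (F : DC V) (h0 : E0 F) : E0 (Wp gs F) := by
  cases gs with
  | nil => exact h0
  | cons g gs => exact E0_Wc _ _

theorem Wp_D (gs : List (V → V → ZMod 2)) (F : DC V) (h0 : E0 F) :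
    Wp gs (D F) = D (Wp gs F) := by
  induction gs with
  | nil => rfl
  | cons g gs ih => rw [Wp_cons, ih, Wp_cons, D_Wc _ _ (E0_Wp _ _ h0)]

/-! ### evenness and locality -/

/-- data: involution `T`, unit vectors `P`, near-orthogonality `N`. -/
def Ev (T : V → V) (P : V → Prop) (F : DC V) : Prop :=
  ∀ s t, (∀ v ∈ s, P v) → (∀ u ∈ t, P u) →
    F (s.map T) t = F s t ∧ F s (t.map T) = F s t

/-- bi-odd or bi-even up to a constant: differences are invariant -/
def Bi (T : V → V) (P : V → Prop) (g : V → V → ZMod 2) : Prop :=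
  ∃ a b : ZMod 2, ∀ v u, P v → P u → g (T v) u = g v u + a ∧ g v (T u) = g v u + b

theorem Ev_Wc {T : V → V} {P : V → Prop} {g : V → V → ZMod 2} (hg : Bi T P g) {F : DC V}
    (hF : Ev T P F) : Ev T P (Wc g F) := by
  obtain ⟨a, b, hg⟩ := hg
  intro s t hs ht
  rcases s with _ | ⟨v, s⟩
  · have h1 := (E0_Wc g F).1
    simp only [List.map_nil, h1, and_self]
  rcases t with _ | ⟨u, t⟩
  · have h1 := (E0_Wc g F).2
    simp only [List.map_nil, h1, and_self]
  have hv : P v := hs v (by simp)
  have hu : P u := ht u (by simp)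
  have hs' : ∀ v ∈ s, P v := fun x hx => hs x (by simp [hx])
  have ht' : ∀ v ∈ t, P v := fun x hx => ht x (by simp [hx])
  have a2 := add_self2 a
  have b2 := add_self2 b
  have l1 : Wl g F ((v :: s).map T) (u :: t) = Wl g F (v :: s) (u :: t) := by
    rcases s with _ | ⟨v', s⟩
    · rfl
    · have hv' : P v' := hs' v' (by simp)
      simp only [List.map_cons, Wl]
      have e := (hF (v' :: s) (u :: t) hs' ht).1
      rw [List.map_cons] at e
      rw [e, (hg v u hv hu).1, (hg v' u hv' hu).1]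
      linear_combination (F (v' :: s) (u :: t)) * a2
  have l2 : Wl g F (v :: s) ((u :: t).map T) = Wl g F (v :: s) (u :: t) := by
    rcases s with _ | ⟨v', s⟩
    · rfl
    · have hv' : P v' := hs' v' (by simp)
      simp only [List.map_cons, Wl]
      have e := (hF (v' :: s) (u :: t) hs' ht).2
      rw [List.map_cons] at e
      rw [e, (hg v u hv hu).2, (hg v' u hv' hu).2]
      linear_combination (F (v' :: s) (u :: t)) * b2
  have r1 : Wr g F ((v :: s).map T) (u :: t) = Wr g F (v :: s) (u :: t) := by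
    rcases t with _ | ⟨u', t⟩
    · rfl
    · have hu' : P u' := ht' u' (by simp)
      simp only [List.map_cons, Wr]
      have e := (hF (v :: s) (u' :: t) hs ht').1
      rw [List.map_cons] at e
      rw [e, (hg v u hv hu).1, (hg v u' hv hu').1]
      linear_combination (F (v :: s) (u' :: t)) * a2
  have r2 : Wr g F (v :: s) ((u :: t).map T) = Wr g F (v :: s) (u :: t) := by
    rcases t with _ | ⟨u', t⟩
    · rfl
    · have hu' : P u' := ht' u' (by simp)
      simp only [List.map_cons, Wr]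
      have e := (hF (v :: s) (u' :: t) hs ht').2
      rw [List.map_cons] at e
      rw [e, (hg v u hv hu).2, (hg v u' hv hu').2]
      linear_combination (F (v :: s) (u' :: t)) * b2
  exact ⟨by simp only [Wc]; rw [l1, r1], by simp only [Wc]; rw [l2, r2]⟩

theorem Ev_Wp {T : V → V} {P : V → Prop} {gs : List (V → V → ZMod 2)}
    (hg : ∀ g ∈ gs, Bi T P g) {F : DC V} (hF : Ev T P F) : Ev T P (Wp gs F) := by
  induction gs with
  | nil => exact hF
  | cons g gs ih =>
    exact Ev_Wc (hg g (by simp)) (ih fun g' hg' => hg g' (by simp [hg']))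

theorem Ev_Acup {T : V → V} {P : V → Prop} {g : V → V → ZMod 2}
    (hg : ∀ v u, P v → P u → g (T v) u = g v u ∧ g v (T u) = g v u) {F : DC V}
    (hF : Ev T P F) : Ev T P (Acup g F) := by
  intro s t hs ht
  rcases s with _ | ⟨v, s⟩
  · have h1 := (E0_Acup g F).1
    simp only [List.map_nil, h1, and_self]
  rcases t with _ | ⟨u, t⟩
  · have h1 := (E0_Acup g F).2
    simp only [List.map_nil, h1, and_self]
  have hv : P v := hs v (by simp)
  have hu : P u := ht u (by simp)
  have e := hF (v :: s) (u :: t) hs ht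
  simp only [List.map_cons, Acup] at e ⊢
  rw [(hg v u hv hu).1, (hg v u hv hu).2, e.1, e.2]
  exact ⟨rfl, rfl⟩

/-- equality on near-orthogonal cells -/
def Eqv (P : V → Prop) (N : V → V → Prop) (F F' : DC V) : Prop :=
  ∀ s t, (∀ v ∈ s, P v) → (∀ u ∈ t, P u) → (∀ v ∈ s, ∀ u ∈ t, N v u) → F s t = F' s t

theorem Eqv_Wc {P : V → Prop} {N : V → V → Prop} (g : V → V → ZMod 2) {F F' : DC V}
    (h : Eqv P N F F') : Eqv P N (Wc g F) (Wc g F') := by
  intro s t hs ht hN
  rcases s with _ | ⟨v, s⟩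
  · rw [(E0_Wc g F).1, (E0_Wc g F').1]
  rcases t with _ | ⟨u, t⟩
  · rw [(E0_Wc g F).2, (E0_Wc g F').2]
  have l1 : Wl g F (v :: s) (u :: t) = Wl g F' (v :: s) (u :: t) := by
    rcases s with _ | ⟨v', s⟩
    · rfl
    · simp only [Wl]
      rw [h (v' :: s) (u :: t) (fun x hx => hs x (by simp [List.mem_cons.1 hx]))  ht
        (fun x hx => hN x (by simp [List.mem_cons.1 hx]))]
  have r1 : Wr g F (v :: s) (u :: t) = Wr g F' (v :: s) (u :: t) := by
    rcases t with _ | ⟨u', t⟩
    · rfl
    · simp only [Wr]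
      rw [h (v :: s) (u' :: t) hs (fun x hx => ht x (by simp [List.mem_cons.1 hx]))
        (fun x hx y hy => hN x hx y (by simp [List.mem_cons.1 hy]))]
  simp only [Wc]; rw [l1, r1]

theorem Eqv_Wp {P : V → Prop} {N : V → V → Prop} (gs : List (V → V → ZMod 2)) {F F' : DC V}
    (h : Eqv P N F F') : Eqv P N (Wp gs F) (Wp gs F') := by
  induction gs with
  | nil => exact h
  | cons g gs ih => exact Eqv_Wc g ih

end Crest.Agent.S69.B
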