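import Mathlib

/-! Borsuk–Ulam in all dimensions by mod-2 chains of small lists. -/

set_option autoImplicit false

namespace Crest.Agent.S69

open Finsupp

section Chains

variable {V W : Type*}

/-- mod-2 chains of lists -/
abbrev Ch (V : Type*) := (List V) →₀ (ZMod 2)

noncomputable def lin (g : List V → Ch W) : Ch V →ₗ[ZMod 2] Ch W :=
  Finsupp.linearCombination (ZMod 2) g

noncomputable def ev (g : List V → ZMod 2) : Ch V →ₗ[ZMod 2] ZMod 2 :=
  Finsupp.linearCombination (ZMod 2) g

@[simp] lemma lin_single (g : List V → Ch W) (l : List V) :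
    lin g (single l 1) = g l := by
  simp [lin]

@[simp] lemma ev_single (g : List V → ZMod 2) (l : List V) :
    ev g (single l 1) = g l := by
  simp [ev]

noncomputable def cons (x : V) : Ch V →ₗ[ZMod 2] Ch V := lin (fun l => single (x :: l) 1)

noncomputable def mp (r : V → W) : Ch V →ₗ[ZMod 2] Ch W := lin (fun l => single (l.map r) 1)

@[simp] lemma cons_single (x : V) (l : List V) : cons x (single l 1) = single (x :: l) 1 := by
  simp [cons]

@[simp] lemma mp_single (r : V → W) (l : List V) :
    mp r (single l 1) = single (l.map r) 1 := by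
  simp [mp]

noncomputable def bdL : List V → Ch V
  | [] => 0
  | x :: l => single l 1 + cons x (bdL l)

noncomputable def bd : Ch V →ₗ[ZMod 2] Ch V := lin bdL

@[simp] lemma bd_single (l : List V) : bd (single l 1) = bdL l := by simp [bd]

/-- prism between `r` and `r'` -/
noncomputable def prL (r r' : V → W) : List V → Ch W
  | [] => 0
  | x :: l => single (r x :: r' x :: l.map r') 1 + cons (r x) (prL r r' l)

noncomputable def pr (r r' : V → W) : Ch V →ₗ[ZMod 2] Ch W := lin (prL r r')

@[simp] lemma pr_single (r r' : V → W) (l : List V) : pr r r' (single l 1) = prL r r' l := by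
  simp [pr]

lemma lin_ext {F G : Ch V →ₗ[ZMod 2] Ch W} (h : ∀ l, F (single l 1) = G (single l 1)) :
    F = G := by
  apply Finsupp.lhom_ext'
  intro l
  apply LinearMap.ext_ring
  simpa using h l

lemma ev_ext {F G : Ch V →ₗ[ZMod 2] ZMod 2} (h : ∀ l, F (single l 1) = G (single l 1)) :
    F = G := by
  apply Finsupp.lhom_ext'
  intro l
  apply LinearMap.ext_ring
  simpa using h l

lemma two_smul_ch (c : Ch V) : c + c = 0 := by
  ext l
  simp only [Finsupp.coe_add, Pi.add_apply, Finsupp.coe_zero, Pi.zero_apply]
  exact CharTwo.add_self_eq_zero _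

lemma bd_cons (x : V) (c : Ch V) : bd (cons x c) = c + cons x (bd c) := by
  have : (bd ∘ₗ cons x) = LinearMap.id + (cons x ∘ₗ bd) := by
    apply lin_ext
    intro l
    simp [bdL]
  have h := LinearMap.congr_fun this c
  simpa using h

lemma bd_mp (r : V → W) (c : Ch V) : bd (mp r c) = mp r (bd c) := by
  have key : ∀ l : List V, bdL (l.map r) = mp r (bdL l) := by
    intro l
    induction l with
    | nil => simp [bdL]
    | cons x l ih =>
      have hc : ∀ c : Ch V, cons (r x) (mp r c) = mp r (cons x c) := by
        intro c
        have : (cons (r x) ∘ₗ mp r) = (mp r ∘ₗ cons x) := by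
          apply lin_ext
          intro l
          simp
        exact LinearMap.congr_fun this c
      simp [bdL, ih, hc]
  have : (bd ∘ₗ mp r) = (mp r ∘ₗ bd) := by
    apply lin_ext
    intro l
    simp [key]
  exact LinearMap.congr_fun this c

lemma pr_cons (r r' : V → W) (x : V) (c : Ch V) :
    pr r r' (cons x c) = cons (r x) (cons (r' x) (mp r' c)) + cons (r x) (pr r r' c) := by
  have : (pr r r' ∘ₗ cons x) =
      (cons (r x) ∘ₗ cons (r' x) ∘ₗ mp r') + (cons (r x) ∘ₗ pr r r') := by
    apply lin_ext
    intro l
    simp [prL]
  have h := LinearMap.congr_fun this c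
  simpa using h

lemma prism (r r' : V → W) (c : Ch V) :
    bd (pr r r' c) + pr r r' (bd c) = mp r c + mp r' c := by
  have key : ∀ l : List V, bd (prL r r' l) + pr r r' (bdL l)
      = single (l.map r) 1 + single (l.map r') 1 := by
    intro l
    induction l with
    | nil => simp [prL, bdL, two_smul_ch]
    | cons x l ih =>
      have e1 : bd (prL r r' (x :: l)) =
          single (r' x :: l.map r') 1 + cons (r x) (single (l.map r') 1
            + cons (r' x) (bdL (l.map r'))) + (prL r r' l + cons (r x) (bd (prL r r' l))) := by
        rw [prL, map_add, bd_cons, bd_single]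
        simp [bdL]
      have e2 : pr r r' (bdL (x :: l)) = prL r r' l +
          (cons (r x) (cons (r' x) (mp r' (bdL l))) + cons (r x) (pr r r' (bdL l))) := by
        rw [bdL, map_add, pr_single, pr_cons]
      have e3 : mp r' (bdL l) = bdL (l.map r') := by
        have := bd_mp r' (single l (1 : ZMod 2))
        simpa using this.symm
      have e4 : cons (r x) (bd (prL r r' l)) + cons (r x) (pr r r' (bdL l))
          = single (r x :: l.map r) 1 + single (r x :: l.map r') 1 := by
        rw [← map_add, ih]
        simp
      rw [e1, e2, e3]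
      have e5 : cons (r x) (single (l.map r') 1 + cons (r' x) (bdL (l.map r')))
          = single (r x :: l.map r') 1 + cons (r x) (cons (r' x) (bdL (l.map r'))) := by
        rw [map_add, cons_single]
      rw [e5]
      simp only [List.map_cons]
      set A := single (r' x :: l.map r') (1 : ZMod 2)
      set B := single (r x :: l.map r') (1 : ZMod 2)
      set D := cons (r x) (cons (r' x) (bdL (l.map r')))
      set E := prL r r' l
      set F := cons (r x) (bd (prL r r' l))
      set G := cons (r x) (pr r r' (bdL l))
      set H := single (r x :: l.map r) (1 : ZMod 2)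
      have : A + (B + D) + (E + F) + (E + (D + G)) = A + B + (D + D) + (E + E) + (F + G) := by
        abel
      rw [this, two_smul_ch, two_smul_ch, e4]
      have : A + B + 0 + 0 + (H + B) = (B + B) + (H + A) := by abel
      rw [this, two_smul_ch, zero_add]
  have : (bd ∘ₗ pr r r') + (pr r r' ∘ₗ bd) = mp r + mp r' := by
    apply lin_ext
    intro l
    simpa using key l
  have h := LinearMap.congr_fun this c
  simpa using h

lemma mp_mp {U : Type*} (r : V → W) (r' : W → U) (c : Ch V) :
    mp r' (mp r c) = mp (r' ∘ r) c := by
  have : (mp r' ∘ₗ mp r) = mp (r' ∘ r) := by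
    apply lin_ext
    intro l
    simp
  exact LinearMap.congr_fun this c

/-! ### cup products -/

/-- cup product cochain of a list of functions -/
def cup : List (V → ZMod 2) → List V → ZMod 2
  | [], l => if l.length = 1 then 1 else 0
  | _ :: _, [] => 0
  | _ :: _, [_] => 0
  | s :: ss, x :: y :: l => (s x + s y) * cup ss (y :: l)

def scup (s : V → ZMod 2) (ss : List (V → ZMod 2)) : List V → ZMod 2
  | [] => 0
  | x :: l => s x * cup ss (x :: l)

lemma ev_add (g h : List V → ZMod 2) (c : Ch V) :
    ev (fun l => g l + h l) c = ev g c + ev h c := by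
  have : ev (fun l => g l + h l) = ev g + ev h := by
    apply ev_ext
    intro l
    simp
  exact LinearMap.congr_fun this c

lemma ev_mul (a : ZMod 2) (g : List V → ZMod 2) (c : Ch V) :
    ev (fun l => a * g l) c = a * ev g c := by
  have : ev (fun l => a * g l) = a • ev g := by
    apply ev_ext
    intro l
    simp
  have h := LinearMap.congr_fun this c
  simpa using h

lemma ev_cons (g : List V → ZMod 2) (x : V) (c : Ch V) :
    ev g (cons x c) = ev (fun l => g (x :: l)) c := by
  have : ev g ∘ₗ cons x = ev (fun l => g (x :: l)) := by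
    apply ev_ext
    intro l
    simp
  exact LinearMap.congr_fun this c

lemma ev_mp (g : List W → ZMod 2) (r : V → W) (c : Ch V) :
    ev g (mp r c) = ev (fun l => g (l.map r)) c := by
  have : ev g ∘ₗ mp r = ev (fun l => g (l.map r)) := by
    apply ev_ext
    intro l
    simp
  exact LinearMap.congr_fun this c

lemma ev_congr_supp (g h : List V → ZMod 2) (c : Ch V) (S : Set (List V))
    (hc : c ∈ Finsupp.supported (ZMod 2) (ZMod 2) S) (hgh : ∀ l ∈ S, g l = h l) :
    ev g c = ev h c := by
  unfold ev
  rw [Finsupp.linearCombination_apply, Finsupp.linearCombination_apply]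
  apply Finsupp.sum_congr
  intro l hl
  rw [hgh l (hc hl)]

/-- faces in the list complex have positive length unless the list is `[x]` -/
lemma bdL_supp_length (l : List V) :
    bdL l ∈ Finsupp.supported (ZMod 2) (ZMod 2) {m : List V | m.length + 1 = l.length} := by
  induction l with
  | nil => simp [bdL]
  | cons x l ih =>
    rw [bdL]
    apply Submodule.add_mem
    · apply Finsupp.single_mem_supported
      simp
    · have : ∀ c ∈ Finsupp.supported (ZMod 2) (ZMod 2) {m : List V | m.length + 1 = l.length},
          cons x c ∈ Finsupp.supported (ZMod 2) (ZMod 2)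
            {m : List V | m.length + 1 = (x :: l).length} := by
        intro c hc
        unfold cons lin
        rw [Finsupp.linearCombination_apply]
        apply Submodule.sum_mem
        intro m hm
        apply Submodule.smul_mem
        apply Finsupp.single_mem_supported
        have := hc hm
        simp at this ⊢
        exact this
      exact this _ ih

lemma cup_bd (ss : List (V → ZMod 2)) :
    (∀ l : List V, ev (cup ss) (bdL l) = 0) ∧
    (∀ (s : V → ZMod 2) (l : List V), ev (scup s ss) (bdL l) = cup (s :: ss) l) := by
  induction ss with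
  | nil =>
    have h1 : ∀ l : List V, ev (cup []) (bdL l) = 0 := by
      intro l
      cases l with
      | nil => simp [bdL]
      | cons x l =>
        cases l with
        | nil => simp [bdL, cup]
        | cons y l =>
          have : bdL (x :: y :: l) ∈ Finsupp.supported (ZMod 2) (ZMod 2)
            {m : List V | m.length + 1 = (x :: y :: l).length} := bdL_supp_length _
          by_cases hl : l = []
          · subst hl
            simp [bdL, cup]
            exact CharTwo.add_self_eq_zero _
          · have h0 : ev (cup []) (bdL (x :: y :: l)) = ev (fun _ => 0) (bdL (x :: y :: l)) := by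
              apply ev_congr_supp _ _ _ _ this
              intro m hm
              simp at hm
              have : m.length ≠ 1 := by
                have : l.length ≠ 0 := by
                  intro h; exact hl (List.length_eq_zero_iff.mp h)
                omega
              simp [cup, this]
            rw [h0]
            simp only [ev, Finsupp.linearCombination_apply]
            simp
    refine ⟨h1, ?_⟩
    intro s l
    cases l with
    | nil => simp [bdL, cup]
    | cons x l =>
      have hx := h1 (x :: l)
      rw [bdL, map_add, ev_single, ev_cons] at hx ⊢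
      have e : ev (fun m => scup s [] (x :: m)) (bdL l) = s x * ev (fun m => cup [] (x :: m)) (bdL l) := by
        rw [← ev_mul]
        rfl
      rw [e]
      have hy : ev (fun m => cup [] (x :: m)) (bdL l) = cup [] l := by
        have := hx
        rw [add_comm] at this
        exact (CharTwo.add_eq_zero.mp this)
      rw [hy]
      cases l with
      | nil => simp [scup, cup]
      | cons y l => simp only [scup, cup]; ring
  | cons t ss ih =>
    obtain ⟨ih1, ih2⟩ := ih
    have h1 : ∀ l : List V, ev (cup (t :: ss)) (bdL l) = 0 := by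
      intro l
      cases l with
      | nil => simp [bdL]
      | cons x l =>
        rw [bdL, map_add, ev_single, ev_cons]
        have e : ev (fun m => cup (t :: ss) (x :: m)) (bdL l)
            = t x * ev (cup ss) (bdL l) + ev (scup t ss) (bdL l) := by
          rw [← ev_mul, ← ev_add]
          cases l with
          | nil => simp [bdL]
          | cons y l =>
            cases l with
            | nil =>
              simp only [bdL, map_zero, add_zero, ev_single]
              cases ss <;> simp [cup, scup]
            | cons z l =>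
              apply ev_congr_supp _ _ _ _ (bdL_supp_length _)
              intro m hm
              cases m with
              | nil => simp at hm
              | cons w m => simp only [cup, scup]; ring
        rw [e, ih1, ih2]
        simp [CharTwo.add_self_eq_zero]
    refine ⟨h1, ?_⟩
    intro s l
    cases l with
    | nil => simp [bdL, cup]
    | cons x l =>
      have hx := h1 (x :: l)
      rw [bdL, map_add, ev_single, ev_cons] at hx ⊢
      have e : ev (fun m => scup s (t :: ss) (x :: m)) (bdL l)
          = s x * ev (fun m => cup (t :: ss) (x :: m)) (bdL l) := by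
        rw [← ev_mul]
        rfl
      rw [e]
      have hy : ev (fun m => cup (t :: ss) (x :: m)) (bdL l) = cup (t :: ss) l := by
        have := hx
        rw [add_comm] at this
        exact (CharTwo.add_eq_zero.mp this)
      rw [hy]
      cases l with
      | nil => simp [scup, cup]
      | cons y l => simp only [scup, cup]; ring

lemma cup_map_neg [Neg V] (Q : V → Prop) (ss : List (V → ZMod 2))
    (hs : ∀ s ∈ ss, ∀ x, Q x → s (-x) = s x + 1) :
    ∀ l : List V, (∀ x ∈ l, Q x) → cup ss (l.map (fun x => -x)) = cup ss l := by
  induction ss with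
  | nil => intro l _; simp [cup]
  | cons s ss ih =>
    intro l hl
    cases l with
    | nil => simp [cup]
    | cons x l =>
      cases l with
      | nil => simp [cup]
      | cons y l =>
        have := ih (fun t ht => hs t (List.mem_cons_of_mem _ ht)) (y :: l)
          (fun z hz => hl z (List.mem_cons_of_mem _ hz))
        simp only [List.map_cons, cup] at this ⊢
        rw [this, hs s List.mem_cons_self x (hl x (by simp)),
          hs s List.mem_cons_self y (hl y (by simp))]
        have h2 : (1 : ZMod 2) + 1 = 0 := CharTwo.add_self_eq_zero _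
        have : s x + 1 + (s y + 1) = s x + s y + (1 + 1) := by ring
        rw [this, h2, add_zero]

lemma scup_map_neg [Neg V] (Q : V → Prop) (s : V → ZMod 2) (ss : List (V → ZMod 2))
    (h1 : ∀ x, Q x → s (-x) = s x + 1)
    (hs : ∀ s ∈ ss, ∀ x, Q x → s (-x) = s x + 1) (l : List V) (hl : ∀ x ∈ l, Q x) :
    scup s ss (l.map (fun x => -x)) = scup s ss l + cup ss l := by
  cases l with
  | nil =>
    cases ss <;> simp [scup, cup]
  | cons x l =>
    have := cup_map_neg Q ss hs (x :: l) hl
    simp only [List.map_cons, scup] at this ⊢
    rw [this, h1 x (hl x (by simp))]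
    ring

noncomputable def ng [Neg V] : Ch V →ₗ[ZMod 2] Ch V := mp (fun x => -x)

/-- one step of the cup formula -/
lemma cup_step [Neg V] (Q : V → Prop) (s : V → ZMod 2) (ss : List (V → ZMod 2))
    (h1 : ∀ x, Q x → s (-x) = s x + 1)
    (hs : ∀ s ∈ ss, ∀ x, Q x → s (-x) = s x + 1) (a b : Ch V) (hab : bd a = b + ng b)
    (hb : b ∈ Finsupp.supported (ZMod 2) (ZMod 2) {l : List V | ∀ x ∈ l, Q x}) :
    ev (cup (s :: ss)) a = ev (cup ss) b := by
  have e1 : ev (cup (s :: ss)) a = ev (scup s ss) (bd a) := by
    have : ev (cup (s :: ss)) = ev (scup s ss) ∘ₗ bd := by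
      apply ev_ext
      intro l
      simp [(cup_bd ss).2 s l]
    exact LinearMap.congr_fun this a
  rw [e1, hab, map_add, ng, ev_mp]
  have : ev (fun l => scup s ss (l.map (fun x => -x))) b
      = ev (scup s ss) b + ev (cup ss) b := by
    rw [← ev_add]
    apply ev_congr_supp _ _ _ _ hb
    intro l hl
    exact scup_map_neg Q s ss h1 hs l hl
  rw [this, ← add_assoc, CharTwo.add_self_eq_zero, zero_add]

lemma cup_const_zero (s : V → ZMod 2) (ss : List (V → ZMod 2)) (hs : s ∈ ss) :
    ∀ l : List V, (∀ x ∈ l, ∀ y ∈ l, s x = s y) → cup ss l = 0 := by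
  induction ss with
  | nil => simp at hs
  | cons t ss ih =>
    intro l hl
    cases l with
    | nil => simp [cup]
    | cons x l =>
      cases l with
      | nil => simp [cup]
      | cons y l =>
        simp only [cup]
        rcases List.mem_cons.mp hs with rfl | hs'
        · rw [hl x (by simp) y (by simp), CharTwo.add_self_eq_zero, zero_mul]
        · rw [ih hs' (y :: l) (fun a ha b hb => hl a (List.mem_cons_of_mem _ ha) b
            (List.mem_cons_of_mem _ hb)), mul_zero]

lemma mp_id (c : Ch V) (r : V → V) (S : Set (List V))
    (hc : c ∈ Finsupp.supported (ZMod 2) (ZMod 2) S) (h : ∀ l ∈ S, l.map r = l) :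
    mp r c = c := by
  unfold mp lin
  rw [Finsupp.linearCombination_apply]
  conv_rhs => rw [← Finsupp.sum_single c]
  apply Finsupp.sum_congr
  intro l hl
  rw [h l (hc hl)]
  simp

lemma lin_supported (g : List V → Ch W) (c : Ch V) (S : Set (List V)) (T : Set (List W))
    (hc : c ∈ Finsupp.supported (ZMod 2) (ZMod 2) S)
    (h : ∀ l ∈ S, g l ∈ Finsupp.supported (ZMod 2) (ZMod 2) T) :
    lin g c ∈ Finsupp.supported (ZMod 2) (ZMod 2) T := by
  unfold lin
  rw [Finsupp.linearCombination_apply]
  apply Submodule.sum_mem
  intro m hm
  exact Submodule.smul_mem _ _ (h m (hc hm))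

lemma mp_supported (r : V → W) (c : Ch V) (S : Set (List V)) (T : Set (List W))
    (hc : c ∈ Finsupp.supported (ZMod 2) (ZMod 2) S)
    (h : ∀ l ∈ S, l.map r ∈ T) :
    mp r c ∈ Finsupp.supported (ZMod 2) (ZMod 2) T :=
  lin_supported _ c S T hc (fun l hl => Finsupp.single_mem_supported _ _ (h l hl))

lemma prL_supp (r r' : V → W) (l : List V) :
    prL r r' l ∈ Finsupp.supported (ZMod 2) (ZMod 2)
      {m : List W | ∀ y ∈ m, ∃ x ∈ l, y = r x ∨ y = r' x} := by
  induction l with
  | nil => simp [prL]
  | cons x l ih =>
    rw [prL]
    apply Submodule.add_mem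
    · apply Finsupp.single_mem_supported
      intro y hy
      simp only [List.mem_cons, List.mem_map] at hy
      rcases hy with rfl | rfl | ⟨z, hz, rfl⟩
      · exact ⟨x, by simp, Or.inl rfl⟩
      · exact ⟨x, by simp, Or.inr rfl⟩
      · exact ⟨z, by simp [hz], Or.inr rfl⟩
    · refine lin_supported _ _ _ _ ih ?_
      intro m hm
      apply Finsupp.single_mem_supported
      intro y hy
      rcases List.mem_cons.mp hy with rfl | hy
      · exact ⟨x, by simp, Or.inl rfl⟩
      · obtain ⟨z, hz, h⟩ := hm y hy
        exact ⟨z, by simp [hz], h⟩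

lemma telescope (F : ℕ → Ch V) (T : ℕ) :
    ∑ t ∈ Finset.range T, (F t + F (t + 1)) = F 0 + F T := by
  induction T with
  | zero => simp [two_smul_ch]
  | succ T ih =>
    rw [Finset.sum_range_succ, ih]
    have : F 0 + F T + (F T + F (T + 1)) = F 0 + (F T + F T) + F (T + 1) := by abel
    rw [this, two_smul_ch, add_zero]

end Chains

section Sphere

variable {n : ℕ}

abbrev Vn (n : ℕ) := Fin (n + 1) → ℝ

def N1 (x : Vn n) : ℝ := ∑ i, |x i|

def Ok (n k : ℕ) (ε : ℝ) : Set (List (Vn n)) :=
  {l | (∀ x ∈ l, N1 x = 1 ∧ ∀ i : Fin (n + 1), k < i.val → x i = 0) ∧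
    ∀ x ∈ l, ∀ y ∈ l, ∀ i, |x i - y i| ≤ ε}

def Good (n : ℕ) (ε : ℝ) : ℕ → Ch (Vn n) → Prop
  | 0, c => c = single [Pi.single 0 1] 1
  | k + 1, c => (∃ c', Good n ε k c' ∧ bd c = c' + ng c') ∧
      c ∈ Finsupp.supported (ZMod 2) (ZMod 2) (Ok n (k + 1) ε)

lemma N1_neg (x : Vn n) : N1 (-x) = N1 x := by simp [N1]

lemma good_supp {ε : ℝ} (hε : 0 ≤ ε) {k : ℕ} {c : Ch (Vn n)} (h : Good n ε k c) :
    c ∈ Finsupp.supported (ZMod 2) (ZMod 2) (Ok n k ε) := by
  cases k with
  | zero =>
    rw [Good] at h
    subst h
    apply Finsupp.single_mem_supported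
    constructor
    · intro x hx
      simp only [List.mem_singleton] at hx
      subst hx
      constructor
      · unfold N1
        rw [Finset.sum_eq_single 0]
        · simp
        · intro b _ hb
          simp [hb]
        · simp
      · intro i hi
        have : i ≠ 0 := by
          intro h; subst h; simp at hi
        simp [this]
    · intro x hx y hy i
      simp only [List.mem_singleton] at hx hy
      subst hx; subst hy
      simpa using hε
  | succ k => exact h.2

lemma good_mono {ε ε' : ℝ} (hε : ε' ≤ ε) {k : ℕ} {c : Ch (Vn n)} (h : Good n ε' k c) :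
    Good n ε k c := by
  induction k generalizing c with
  | zero => exact h
  | succ k ih =>
    obtain ⟨⟨c', h1, h2⟩, h3⟩ := h
    refine ⟨⟨c', ih h1, h2⟩, ?_⟩
    refine Finsupp.supported_mono ?_ h3
    intro l hl
    exact ⟨hl.1, fun x hx y hy i => (hl.2 x hx y hy i).trans hε⟩

lemma ng_ng (c : Ch (Vn n)) : ng (ng c) = c := by
  unfold ng
  rw [mp_mp]
  apply mp_id c _ Set.univ
  · simp
  · intro l _
    have : ((fun x : Vn n => -x) ∘ fun x => -x) = id := by
      funext x; simp
    rw [this]; simp

lemma bd_ng (c : Ch (Vn n)) : bd (ng c) = ng (bd c) := bd_mp _ _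

lemma good_bd {ε : ℝ} {k : ℕ} {c : Ch (Vn n)} (h : Good n ε k c) :
    bd (c + ng c) = 0 := by
  rw [map_add, bd_ng]
  cases k with
  | zero =>
    rw [Good] at h
    subst h
    simp [bdL, ng, two_smul_ch]
  | succ k =>
    obtain ⟨⟨c', h1, h2⟩, h3⟩ := h
    rw [h2, map_add, ng_ng]
    have : c' + ng c' + (ng c' + c') = (c' + c') + (ng c' + ng c') := by abel
    rw [this, two_smul_ch, two_smul_ch, add_zero]

lemma cup_good {ε : ℝ} (hε : 0 ≤ ε) : ∀ (k : ℕ) (ss : List (Vn n → ZMod 2)) (a : Ch (Vn n)),
    ss.length = k → (∀ s ∈ ss, ∀ x, N1 x = 1 → s (-x) = s x + 1) → Good n ε k a →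
    ev (cup ss) a = 1 := by
  intro k
  induction k with
  | zero =>
    intro ss a hl _ ha
    rw [List.length_eq_zero_iff] at hl
    subst hl
    rw [Good] at ha
    subst ha
    simp [cup]
  | succ k ih =>
    intro ss a hl hs ha
    cases ss with
    | nil => simp at hl
    | cons s ss =>
      obtain ⟨⟨c', h1, h2⟩, h3⟩ := ha
      have hsupp := good_supp hε h1
      rw [cup_step (fun x => N1 x = 1) s ss (hs s (by simp))
        (fun t ht => hs t (List.mem_cons_of_mem _ ht)) a c' h2
        (Finsupp.supported_mono (fun l hl x hx => (hl.1 x hx).1) hsupp)]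
      exact ih ss c' (by simpa using hl) (fun t ht => hs t (List.mem_cons_of_mem _ ht)) h1

lemma N1_sub_le (x y : Vn n) : |N1 x - N1 y| ≤ ∑ i, |x i - y i| := by
  unfold N1
  rw [← Finset.sum_sub_distrib]
  refine (Finset.abs_sum_le_sum_abs _ _).trans ?_
  apply Finset.sum_le_sum
  intro i _
  exact abs_abs_sub_abs_le _ _

lemma exists_good (k : ℕ) (hk : k ≤ n) : ∀ ε > 0, ∃ c, Good n ε k c := by
  induction k with
  | zero => intro ε _; exact ⟨_, rfl⟩
  | succ k ih =>
    intro ε hε
    have hn : (0 : ℝ) < 2 * (n + 1) := by positivity
    set ε1 : ℝ := ε / (2 * (n + 1)) with hε1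
    have hε1pos : 0 < ε1 := by positivity
    obtain ⟨c, hc⟩ := ih (by omega) ε1 hε1pos
    obtain ⟨T, hT⟩ := exists_nat_gt (1 / ε1)
    have hTpos : (0 : ℝ) < T := lt_trans (by positivity) hT
    have hT1 : 1 / (T : ℝ) ≤ ε1 := by
      rw [div_le_iff₀ hTpos]
      rw [div_lt_iff₀ hε1pos] at hT
      linarith
    set z := c + ng c with hz
    have hzb : bd z = 0 := good_bd hc
    have hcs := good_supp hε1pos.le hc
    have hzs : z ∈ Finsupp.supported (ZMod 2) (ZMod 2) (Ok n k ε1) := by
      apply Submodule.add_mem _ hcs
      refine mp_supported _ _ _ _ hcs ?_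
      intro l hl
      constructor
      · intro x hx
        obtain ⟨y, hy, rfl⟩ := List.mem_map.mp hx
        refine ⟨by rw [N1_neg]; exact (hl.1 y hy).1, fun i hi => ?_⟩
        simp [(hl.1 y hy).2 i hi]
      · intro x hx y hy i
        obtain ⟨x', hx', rfl⟩ := List.mem_map.mp hx
        obtain ⟨y', hy', rfl⟩ := List.mem_map.mp hy
        have := hl.2 x' hx' y' hy' i
        have e : (-x') i - (-y') i = -(x' i - y' i) := by simp; ring
        rw [e, abs_neg]
        exact this
    let r : ℕ → Vn n → Vn n := fun t x => (1 - (t : ℝ) / T) • x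
    set b := ∑ t ∈ Finset.range T, pr (r t) (r (t + 1)) z with hb
    have hbb : bd b = z := by
      rw [hb, map_sum]
      have h1 : ∀ t ∈ Finset.range T, bd (pr (r t) (r (t + 1)) z)
          = mp (r t) z + mp (r (t + 1)) z := by
        intro t _
        have := prism (r t) (r (t + 1)) z
        rw [hzb, map_zero, add_zero] at this
        exact this
      rw [Finset.sum_congr rfl h1, telescope (fun t => mp (r t) z) T]
      have h0 : mp (r 0) z = z := by
        apply mp_id z _ Set.univ (by simp)
        intro l _
        have : r 0 = id := by funext x; simp [r]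
        rw [this]; simp
      have hTT : mp (r T) z = 0 := by
        have : r T = fun _ => 0 := by
          funext x
          simp only [r]
          rw [div_self hTpos.ne']
          simp
        rw [this, hz, map_add, ng, mp_mp]
        have : ((fun _ : Vn n => (0 : Vn n)) ∘ fun x => -x) = fun _ => 0 := rfl
        rw [this, two_smul_ch]
      rw [h0, hTT, add_zero]
    have hbs : b ∈ Finsupp.supported (ZMod 2) (ZMod 2)
        {m : List (Vn n) | (∀ x ∈ m, N1 x ≤ 1 ∧ ∀ i : Fin (n + 1), k < i.val → x i = 0) ∧
          ∀ x ∈ m, ∀ y ∈ m, ∀ i, |x i - y i| ≤ 2 * ε1} := by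
      rw [hb]
      apply Submodule.sum_mem
      intro t ht
      have ht' : t < T := Finset.mem_range.mp ht
      refine lin_supported _ _ _ _ hzs ?_
      intro l hl
      refine Finsupp.supported_mono ?_ (prL_supp (r t) (r (t + 1)) l)
      intro m hm
      -- every element of m is (1-a) • x with a in [0,1], a near t/T
      have key : ∀ y ∈ m, ∃ x ∈ l, ∃ a : ℝ, (t : ℝ) / T ≤ a ∧ a ≤ (t : ℝ) / T + 1 / T ∧ 0 ≤ a ∧
          a ≤ 1 ∧ y = (1 - a) • x := by
        intro y hy
        obtain ⟨x, hx, h⟩ := hm y hy
        have h0 : (0 : ℝ) ≤ (t : ℝ) / T := by positivity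
        have h1 : (t : ℝ) / T + 1 / T ≤ 1 := by
          rw [← add_div, div_le_one hTpos]
          exact_mod_cast ht'
        have h2 : (0 : ℝ) ≤ 1 / T := by positivity
        rcases h with h | h
        · exact ⟨x, hx, (t : ℝ) / T, le_refl _, by linarith, h0, by linarith, h⟩
        · refine ⟨x, hx, (t : ℝ) / T + 1 / T, by linarith, le_refl _, by linarith, h1, ?_⟩
          rw [h]
          simp only [r]
          congr 2
          push_cast
          rw [add_div]
      constructor
      · intro y hy
        obtain ⟨x, hx, a, _, _, ha0, ha1, rfl⟩ := key y hy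
        obtain ⟨hx1, hx2⟩ := hl.1 x hx
        constructor
        · unfold N1 at hx1 ⊢
          have : ∑ i, |((1 - a) • x) i| = (1 - a) * ∑ i, |x i| := by
            rw [Finset.mul_sum]
            apply Finset.sum_congr rfl
            intro i _
            simp only [Pi.smul_apply, smul_eq_mul, abs_mul]
            rw [abs_of_nonneg (by linarith)]
          rw [this, hx1]
          linarith
        · intro i hi
          simp [hx2 i hi]
      · intro y hy y' hy' i
        obtain ⟨x, hx, a, ha, ha', ha0, ha1, rfl⟩ := key y hy
        obtain ⟨x', hx', a', hb1, hb1', hb0, hb2, rfl⟩ := key y' hy'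
        have e : ((1 - a) • x) i - ((1 - a') • x') i
            = (1 - a) * (x i - x' i) + (a' - a) * x' i := by
          simp; ring
        have h1 : |x' i| ≤ 1 := by
          rw [← (hl.1 x' hx').1]
          unfold N1
          exact Finset.single_le_sum (f := fun i => |x' i|) (fun i _ => abs_nonneg _)
            (Finset.mem_univ i)
        have h2 := hl.2 x hx x' hx' i
        have h3 : |a' - a| ≤ 1 / T := by
          rw [abs_le]; constructor <;> linarith
        rw [e]
        calc |(1 - a) * (x i - x' i) + (a' - a) * x' i|
            ≤ |(1 - a) * (x i - x' i)| + |(a' - a) * x' i| := abs_add_le _ _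
          _ = (1 - a) * |x i - x' i| + |a' - a| * |x' i| := by
              rw [abs_mul, abs_mul, abs_of_nonneg (by linarith : (0 : ℝ) ≤ 1 - a)]
          _ ≤ 1 * ε1 + 1 / T * 1 := by
              apply add_le_add
              · apply mul_le_mul (by linarith) h2 (abs_nonneg _) (by norm_num)
              · apply mul_le_mul h3 h1 (abs_nonneg _) (by positivity)
          _ ≤ 2 * ε1 := by linarith
    have hkn : k + 1 < n + 1 := by omega
    let j : Fin (n + 1) := ⟨k + 1, hkn⟩
    let h : Vn n → Vn n := fun u => u + (1 - N1 u) • Pi.single j 1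
    refine ⟨mp h b, ⟨c, good_mono ?_ hc, ?_⟩, ?_⟩
    · rw [hε1, div_le_iff₀ hn]
      have : (1 : ℝ) ≤ 2 * (n + 1) := by
        have : (0 : ℝ) ≤ n := Nat.cast_nonneg n
        linarith
      nlinarith
    · rw [bd_mp, hbb]
      apply mp_id z _ _ hzs
      intro l hl
      conv_rhs => rw [← List.map_id l]
      apply List.map_congr_left
      intro x hx
      simp only [h, (hl.1 x hx).1]
      simp
    · refine mp_supported _ _ _ _ hbs ?_
      intro l hl
      constructor
      · intro x hx
        obtain ⟨u, hu, rfl⟩ := List.mem_map.mp hx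
        obtain ⟨hu1, hu2⟩ := hl.1 u hu
        have huj : u j = 0 := hu2 j (by simp [j])
        constructor
        · have : N1 (h u) = N1 u + |1 - N1 u| := by
            simp only [h]
            set w := 1 - N1 u
            unfold N1
            rw [← Finset.add_sum_erase _ _ (Finset.mem_univ j),
              ← Finset.add_sum_erase (Finset.univ) (fun i => |u i|) (Finset.mem_univ j)]
            have : ∑ i ∈ Finset.univ.erase j, |(u + w • (Pi.single j 1 : Vn n)) i|
                = ∑ i ∈ Finset.univ.erase j, |u i| := by
              apply Finset.sum_congr rfl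
              intro i hi
              have : i ≠ j := (Finset.mem_erase.mp hi).1
              simp [this]
            rw [this]
            simp [huj]
            ring
          rw [this, abs_of_nonneg (by linarith)]
          ring
        · intro i hi
          have h1 : u i = 0 := hu2 i (by omega)
          have h2 : i ≠ j := by
            intro e
            have := congrArg Fin.val e
            simp [j] at this
            omega
          simp [h, h1, h2]
      · intro x hx y hy i
        obtain ⟨u, hu, rfl⟩ := List.mem_map.mp hx
        obtain ⟨v, hv, rfl⟩ := List.mem_map.mp hy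
        have hε' : 2 * ε1 * (n + 1) = ε := by
          rw [hε1]; field_simp
        have hεε : 2 * ε1 ≤ ε := by
          have : (0 : ℝ) ≤ n := Nat.cast_nonneg n
          nlinarith
        by_cases hij : i = j
        · subst hij
          have h1 : u j = 0 := (hl.1 u hu).2 j (by simp [j])
          have h2 : v j = 0 := (hl.1 v hv).2 j (by simp [j])
          have e : h u j - h v j = -(N1 u - N1 v) := by
            simp [h, h1, h2]
          rw [e, abs_neg]
          refine (N1_sub_le u v).trans ?_
          calc ∑ i, |u i - v i| ≤ ∑ _i : Fin (n + 1), 2 * ε1 :=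
                Finset.sum_le_sum (fun i _ => hl.2 u hu v hv i)
            _ = ε := by
                rw [Finset.sum_const, Finset.card_univ, Fintype.card_fin, nsmul_eq_mul]
                push_cast
                linarith
        · have e : h u i - h v i = u i - v i := by
            simp [h, hij]
          rw [e]
          exact (hl.2 u hu v hv i).trans hεε

open Classical in
/-- Borsuk–Ulam. -/
theorem bu (n : ℕ) (f : (Fin (n + 1) → ℝ) → (Fin n → ℝ))
    (hc : ContinuousOn f {x | ∑ i, |x i| = 1})
    (hodd : ∀ x, ∑ i, |x i| = 1 → f (-x) = -f x) :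
    ∃ x, ∑ i, |x i| = 1 ∧ f x = 0 := by
  by_contra hcon
  push Not at hcon
  set K : Set (Vn n) := {x | ∑ i, |x i| = 1} with hK
  have hKclosed : IsClosed K := isClosed_eq (by fun_prop) continuous_const
  have hKb : Bornology.IsBounded K := by
    rw [isBounded_iff_forall_norm_le]
    refine ⟨1, fun x hx => ?_⟩
    rw [pi_norm_le_iff_of_nonneg (by norm_num)]
    intro i
    have h1 : ∑ i, |x i| = 1 := hx
    rw [Real.norm_eq_abs, ← h1]
    exact Finset.single_le_sum (f := fun i => |x i|) (fun i _ => abs_nonneg _)
      (Finset.mem_univ i)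
  have hKc : IsCompact K := Metric.isCompact_of_isClosed_isBounded hKclosed hKb
  have hne : K.Nonempty := by
    refine ⟨Pi.single 0 1, ?_⟩
    change ∑ i, |(Pi.single 0 1 : Vn n) i| = 1
    rw [Finset.sum_eq_single 0]
    · simp
    · intro b _ hb; simp [hb]
    · simp
  obtain ⟨x0, hx0, hmin⟩ := hKc.exists_isMinOn hne (hc.norm)
  set η := ‖f x0‖ with hη
  have hηpos : 0 < η := norm_pos_iff.mpr (hcon x0 hx0)
  have hmin' : ∀ x ∈ K, η ≤ ‖f x‖ := fun x hx => hmin hx
  have huc : UniformContinuousOn f K := hKc.uniformContinuousOn_of_continuous hc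
  rw [Metric.uniformContinuousOn_iff] at huc
  obtain ⟨δ, hδ, hδ'⟩ := huc η hηpos
  obtain ⟨a, ha⟩ := exists_good n le_rfl (δ / 2) (by positivity)
  let s0 : Vn n → ZMod 2 := fun x => if WellOrderingRel x (-x) then 0 else 1
  let s : Fin n → Vn n → ZMod 2 := fun j x =>
    if 0 < f x j then 0 else if f x j < 0 then 1 else s0 x
  have h11 : (1 : ZMod 2) + 1 = 0 := CharTwo.add_self_eq_zero _
  have hs0 : ∀ x, N1 x = 1 → s0 (-x) = s0 x + 1 := by
    intro x hx
    have hne : x ≠ -x := by
      intro h
      have : x = 0 := by
        funext i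
        have := congrFun h i
        simp at this
        simp
        linarith
      rw [this] at hx
      simp [N1] at hx
    simp only [s0, neg_neg]
    rcases trichotomous_of WellOrderingRel x (-x) with h | h | h
    · have h' : ¬ WellOrderingRel (-x) x := asymm_of WellOrderingRel h
      simp [h, h']
    · exact absurd h hne
    · have h' : ¬ WellOrderingRel x (-x) := asymm_of WellOrderingRel h
      simp [h, h', h11]
  have hs : ∀ t ∈ List.ofFn s, ∀ x, N1 x = 1 → t (-x) = t x + 1 := by
    intro t ht x hx
    obtain ⟨j, rfl⟩ := List.mem_ofFn.mp ht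
    have hfx := congrFun (hodd x hx) j
    simp only [Pi.neg_apply] at hfx
    simp only [s, hfx]
    rcases lt_trichotomy (f x j) 0 with h | h | h
    · have h1 : ¬ 0 < f x j := not_lt.mpr h.le
      simp [h, h1, h11]
    · simp [h, hs0 x hx]
    · have h1 : ¬ f x j < 0 := not_lt.mpr h.le
      simp [h, h1]
  have h1 := cup_good (by positivity) n (List.ofFn s) a (by simp) hs ha
  have h2 : ev (cup (List.ofFn s)) a = ev (fun _ => 0) a := by
    apply ev_congr_supp _ _ _ _ (good_supp (by positivity) ha)
    intro l hl
    cases l with
    | nil =>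
      cases hls : List.ofFn s with
      | nil => simp [cup]
      | cons => simp [cup]
    | cons x l =>
      have hx := (hl.1 x (by simp)).1
      have hfx := hmin' x hx
      -- a coordinate of f x is at least η
      have : ∃ j, η ≤ |f x j| := by
        by_contra hno
        push Not at hno
        have : ‖f x‖ < η := by
          rw [pi_norm_lt_iff hηpos]
          intro j
          exact hno j
        linarith
      obtain ⟨j, hj⟩ := this
      apply cup_const_zero (s j) _ (List.mem_ofFn.mpr ⟨j, rfl⟩)
      have hclose : ∀ y ∈ (x :: l), |f y j - f x j| < η := by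
        intro y hy
        have hd : dist y x < δ := by
          rw [dist_pi_lt_iff hδ]
          intro i
          rw [Real.dist_eq]
          have := hl.2 y hy x (by simp) i
          linarith
        have := hδ' y (hl.1 y hy).1 x hx hd
        have h3 := dist_le_pi_dist (f y) (f x) j
        rw [Real.dist_eq] at h3
        linarith
      have hconst : ∀ y ∈ (x :: l), s j y = s j x := by
        intro y hy
        have hy' := hclose y hy
        rw [abs_lt] at hy'
        rcases le_abs.mp hj with h | h
        · have a1 : 0 < f x j := by linarith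
          have a2 : 0 < f y j := by linarith
          simp [s, a1, a2]
        · have a1 : f x j < 0 := by linarith
          have a2 : f y j < 0 := by linarith
          have b1 : ¬ 0 < f x j := not_lt.mpr a1.le
          have b2 : ¬ 0 < f y j := not_lt.mpr a2.le
          simp [s, a1, a2, b1, b2]
      intro y hy y' hy'
      rw [hconst y hy, hconst y' hy']
  rw [h2] at h1
  have h3 : ev (fun _ => (0 : ZMod 2)) a = 0 := by
    simp only [ev, Finsupp.linearCombination_apply]
    simp
  rw [h3] at h1
  exact zero_ne_one h1

end Sphere

end Crest.Agent.S69
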