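import Mathlib
import Crest.Agent.BU.Basic

set_option autoImplicit false

/-!
# S0069: calculus of double cochains (mod 2)
-/
namespace Crest.Agent.S69.Dbl

open Crest.Agent.BU

variable {V : Type*}

/-! ### generalities on `ev`, `cbd` -/

theorem ev_eq_sum (q : List V → ZMod 2) (c : Ch V) : ev q c = ∑ l ∈ c.support, c l * q l := by
  simp [ev, lift, Finsupp.linearCombination_apply, Finsupp.sum, smul_eq_mul]

theorem ev_comm (F : List V → List V → ZMod 2) (x y : Ch V) :
    ev (fun s => ev (fun t => F s t) y) x = ev (fun t => ev (fun s => F s t) x) y := by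
  simp only [ev_eq_sum, Finset.mul_sum]
  rw [Finset.sum_comm]
  refine Finset.sum_congr rfl fun t _ => Finset.sum_congr rfl fun s _ => ?_
  ring

theorem ev_zero_fun (c : Ch V) : ev (fun _ => (0 : ZMod 2)) c = 0 := by
  simp [ev_eq_sum]

theorem cbd_add (q q' : List V → ZMod 2) (l : List V) :
    cbd (fun l => q l + q' l) l = cbd q l + cbd q' l := ev_add_fun q q' _

theorem cbd_cbd (q : List V → ZMod 2) (l : List V) : cbd (cbd q) l = 0 := by
  rw [cbd, ← ev_bd, bd_bdL, map_zero]

theorem cbd_nil (q : List V → ZMod 2) : cbd q [] = 0 := by simp [cbd, bdL]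

theorem cbd_single (q : List V → ZMod 2) (v : V) : cbd q [v] = q [] := by simp [cbd, bdL]

theorem cbd_map (q : List V → ZMod 2) (nu : V → V) (l : List V) :
    cbd q (l.map nu) = cbd (fun l => q (l.map nu)) l := by
  rw [cbd, bdL_map, ev_mp]; rfl

/-- Leibniz, all lengths -/
theorem cbd_acup' (a : V → ZMod 2) (q : List V → ZMod 2) (hq : q [] = 0) (l : List V) :
    cbd (acup a q) l = wcup a q l + acup a (cbd q) l := by
  match l with
  | [] => simp [cbd_nil, wcup, acup]
  | [v] => simp [cbd_single, wcup, acup, hq]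
  | v :: v' :: l => exact cbd_acup a q v v' l

/-! ### double cochains -/

abbrev DC (V : Type*) := List V → List V → ZMod 2

def Nrm (F : DC V) : Prop := (∀ t, F [] t = 0) ∧ ∀ s, F s [] = 0

noncomputable def D (F : DC V) : DC V := fun s t =>
  cbd (fun s => F s t) s + cbd (fun t => F s t) t

def Tw (F : DC V) : DC V := fun s t => F t s

def Acup (g : V → V → ZMod 2) (F : DC V) : DC V
  | v :: s, u :: t => g v u * F (v :: s) (u :: t)
  | _, _ => 0

def W1 (g : V → V → ZMod 2) (F : DC V) : DC V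
  | v :: v' :: s, u :: t => (g v u + g v' u) * F (v' :: s) (u :: t)
  | _, _ => 0

def W2 (g : V → V → ZMod 2) (F : DC V) : DC V
  | v :: s, u :: u' :: t => (g v u + g v u') * F (v :: s) (u' :: t)
  | _, _ => 0

def Wcup (g : V → V → ZMod 2) (F : DC V) : DC V := fun s t => W1 g F s t + W2 g F s t

noncomputable def dd (z : Ch V) (F : DC V) : ZMod 2 := ev (fun s => ev (fun t => F s t) z) z

theorem D_nrm {F : DC V} (hF : Nrm F) : Nrm (D F) := by
  constructor
  · intro t
    have : (fun t => F [] t) = fun _ => 0 := funext hF.1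
    simp [D, this, cbd, ev_zero_fun, bdL]
  · intro s
    have : (fun s => F s []) = fun _ => 0 := funext hF.2
    simp [D, this, cbd, ev_zero_fun, bdL]

theorem Acup_nrm (g : V → V → ZMod 2) (F : DC V) : Nrm (Acup g F) := by
  constructor
  · intro t; simp [Acup]
  · intro s; cases s <;> simp [Acup]

theorem W1_nil_left (g : V → V → ZMod 2) (F : DC V) (t : List V) : W1 g F [] t = 0 := by simp [W1]
theorem W1_nil_right (g : V → V → ZMod 2) (F : DC V) (s : List V) : W1 g F s [] = 0 := by
  match s with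
  | [] => simp [W1]
  | [v] => simp [W1]
  | v :: v' :: s => simp [W1]
theorem W2_nil_left (g : V → V → ZMod 2) (F : DC V) (t : List V) : W2 g F [] t = 0 := by simp [W2]
theorem W2_nil_right (g : V → V → ZMod 2) (F : DC V) (s : List V) : W2 g F s [] = 0 := by
  cases s <;> simp [W2]

theorem Wcup_nrm (g : V → V → ZMod 2) (F : DC V) : Nrm (Wcup g F) := by
  constructor
  · intro t; simp [Wcup, W1_nil_left, W2_nil_left]
  · intro s; simp [Wcup, W1_nil_right, W2_nil_right]

theorem D_add (F G : DC V) : D (F + G) = D F + D G := by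
  funext s t
  simp only [D, Pi.add_apply, cbd_add]
  ring

theorem D_D (F : DC V) : D (D F) = 0 := by
  funext s t
  have h1 : ∀ s, (fun s => D F s t) s = cbd (fun s => F s t) s + cbd (fun t => F s t) t :=
    fun s => rfl
  simp only [D, Pi.zero_apply, cbd_add]
  have e1 : cbd (fun s => cbd (fun s => F s t) s) s = 0 := cbd_cbd _ s
  have e2 : cbd (fun t => cbd (fun t => F s t) t) t = 0 := cbd_cbd _ t
  have e3 : cbd (fun s => cbd (fun t => F s t) t) s = cbd (fun t => cbd (fun s => F s t) s) t := by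
    simp only [cbd]
    exact ev_comm F (bdL s) (bdL t)
  rw [e1, e2, e3, zero_add, add_zero, add_self2]

theorem W1_eq (g : V → V → ZMod 2) (F : DC V) (u : V) (t s : List V) :
    W1 g F s (u :: t) = wcup (fun v => g v u) (fun s => F s (u :: t)) s := by
  match s with
  | [] => simp [W1, wcup]
  | [v] => simp [W1, wcup]
  | v :: v' :: s => simp [W1, wcup]

theorem W2_eq (g : V → V → ZMod 2) (F : DC V) (v : V) (s t : List V) :
    W2 g F (v :: s) t = wcup (fun u => g v u) (fun t => F (v :: s) t) t := by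
  match t with
  | [] => simp [W2, wcup]
  | [u] => simp [W2, wcup]
  | u :: u' :: t => simp [W2, wcup]

/-- Leibniz rule -/
theorem D_Acup (g : V → V → ZMod 2) (F : DC V) (hF : Nrm F) :
    D (Acup g F) = Wcup g F + Acup g (D F) := by
  funext s t
  match s, t with
  | [], t =>
    rw [(D_nrm (Acup_nrm g F)).1]
    simp [(Wcup_nrm g F).1, (Acup_nrm g (D F)).1]
  | v :: s, [] =>
    rw [(D_nrm (Acup_nrm g F)).2]
    simp [(Wcup_nrm g F).2, (Acup_nrm g (D F)).2]
  | v :: s, u :: t =>
    have e1 : (fun s => Acup g F s (u :: t)) = acup (fun v => g v u) (fun s => F s (u :: t)) := by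
      funext s
      cases s <;> simp [Acup, acup]
    have e2 : (fun t => Acup g F (v :: s) t) = acup (fun u => g v u) (fun t => F (v :: s) t) := by
      funext t
      cases t <;> simp [Acup, acup]
    have h1 : D (Acup g F) (v :: s) (u :: t) =
        cbd (fun s => Acup g F s (u :: t)) (v :: s) + cbd (fun t => Acup g F (v :: s) t) (u :: t) :=
      rfl
    rw [h1, e1, e2, cbd_acup' _ (fun s => F s (u :: t)) (hF.1 _),
      cbd_acup' _ (fun t => F (v :: s) t) (hF.2 _)]
    simp only [Pi.add_apply, Wcup, W1_eq, W2_eq, Acup, acup, D]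
    ring

theorem Acup_zero (g : V → V → ZMod 2) : Acup g (0 : DC V) = 0 := by
  funext s t
  match s, t with
  | [], t => simp [Acup]
  | v :: s, [] => simp [Acup]
  | v :: s, u :: t => simp [Acup]

theorem D_zero : D (0 : DC V) = 0 := by
  funext s t
  simp [D, cbd, ev_zero_fun]

theorem add_self_DC (F : DC V) : F + F = 0 := by
  funext s t; exact add_self2 _

theorem D_Wcup (g : V → V → ZMod 2) (F : DC V) (hF : Nrm F) : D (Wcup g F) = Wcup g (D F) := by
  have h1 := D_Acup g F hF
  have h2 := D_Acup g (D F) (D_nrm hF)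
  have h3 : D (D (Acup g F)) = 0 := D_D _
  rw [h1, D_add, h2, D_D, Acup_zero, add_zero] at h3
  have h4 : D (Wcup g F) = D (Wcup g F) + (Wcup g (D F) + Wcup g (D F)) := by
    rw [add_self_DC, add_zero]
  rw [h4, ← add_assoc, h3, zero_add]

theorem Wcup_add (g : V → V → ZMod 2) (F G : DC V) : Wcup g (F + G) = Wcup g F + Wcup g G := by
  funext s t
  have e1 : W1 g (F + G) s t = W1 g F s t + W1 g G s t := by
    match s, t with
    | [], t => simp [W1]
    | [v], t => simp [W1]
    | v :: v' :: s, [] => simp [W1]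
    | v :: v' :: s, u :: t => simp [W1, mul_add]
  have e2 : W2 g (F + G) s t = W2 g F s t + W2 g G s t := by
    match s, t with
    | [], t => simp [W2]
    | v :: s, [] => simp [W2]
    | v :: s, [u] => simp [W2]
    | v :: s, u :: u' :: t => simp [W2, mul_add]
  simp only [Wcup, Pi.add_apply, e1, e2]
  ring

theorem Wcup_add_sg (g g' : V → V → ZMod 2) (F : DC V) :
    Wcup (fun v u => g v u + g' v u) F = Wcup g F + Wcup g' F := by
  funext s t
  have e1 : W1 (fun v u => g v u + g' v u) F s t = W1 g F s t + W1 g' F s t := by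
    match s, t with
    | [], t => simp [W1]
    | [v], t => simp [W1]
    | v :: v' :: s, [] => simp [W1]
    | v :: v' :: s, u :: t => simp only [W1]; ring
  have e2 : W2 (fun v u => g v u + g' v u) F s t = W2 g F s t + W2 g' F s t := by
    match s, t with
    | [], t => simp [W2]
    | v :: s, [] => simp [W2]
    | v :: s, [u] => simp [W2]
    | v :: s, u :: u' :: t => simp only [W2]; ring
  simp only [Wcup, Pi.add_apply, e1, e2]
  ring

theorem Tw_Wcup (g : V → V → ZMod 2) (F : DC V) :
    Tw (Wcup g F) = Wcup (fun v u => g u v) (Tw F) := by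
  funext s t
  have e1 : W1 g F t s = W2 (fun v u => g u v) (Tw F) s t := by
    match t, s with
    | [], s => rw [W1_nil_left, W2_nil_right]
    | [v], s => cases s <;> simp [W1, W2]
    | v :: v' :: t, [] => simp [W1, W2]
    | v :: v' :: t, u :: s => simp [W1, W2, Tw]
  have e2 : W2 g F t s = W1 (fun v u => g u v) (Tw F) s t := by
    match t, s with
    | [], s => rw [W2_nil_left, W1_nil_right]
    | v :: t, [] => simp [W1, W2]
    | v :: t, [u] => simp [W1, W2]
    | v :: t, u :: u' :: s => simp [W1, W2, Tw]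
  simp only [Tw, Wcup, e1, e2]
  rw [add_comm]

theorem Tw_Acup (g : V → V → ZMod 2) (F : DC V) :
    Tw (Acup g F) = Acup (fun v u => g u v) (Tw F) := by
  funext s t
  match t, s with
  | [], s => cases s <;> simp [Tw, Acup]
  | v :: t, [] => simp [Tw, Acup]
  | v :: t, u :: s => simp [Tw, Acup]

/-! ### evenness -/

def EvenD (nu : V → V) (F : DC V) : Prop :=
  (∀ s t, F (s.map nu) t = F s t) ∧ (∀ s t, F s (t.map nu) = F s t)

def Par (nu : V → V) (g : V → V → ZMod 2) (k1 k2 : ZMod 2) : Prop :=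
  (∀ v u, g (nu v) u = g v u + k1) ∧ (∀ v u, g v (nu u) = g v u + k2)

theorem aux_cancel (a b k : ZMod 2) : (a + k) + (b + k) = a + b := by
  have := add_self2 k
  linear_combination this

theorem Wcup_even {nu : V → V} {g : V → V → ZMod 2} {k1 k2 : ZMod 2} (hg : Par nu g k1 k2)
    {F : DC V} (hF : EvenD nu F) : EvenD nu (Wcup g F) := by
  constructor
  · intro s t
    have e1 : W1 g F (s.map nu) t = W1 g F s t := by
      match s, t with
      | [], t => simp
      | [v], t => cases t <;> simp [W1]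
      | v :: v' :: s, [] => simp [W1]
      | v :: v' :: s, u :: t =>
        have h := hF.1 (v' :: s) (u :: t)
        simp only [List.map_cons] at h
        simp only [List.map_cons, W1, hg.1, h, aux_cancel]
    have e2 : W2 g F (s.map nu) t = W2 g F s t := by
      match s, t with
      | [], t => simp
      | v :: s, [] => simp [W2]
      | v :: s, [u] => simp [W2]
      | v :: s, u :: u' :: t =>
        have h := hF.1 (v :: s) (u' :: t)
        simp only [List.map_cons] at h
        simp only [List.map_cons, W2, hg.1, h, aux_cancel]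
    simp only [Wcup, e1, e2]
  · intro s t
    have e1 : W1 g F s (t.map nu) = W1 g F s t := by
      match s, t with
      | s, [] => simp
      | [], u :: t => simp [W1]
      | [v], u :: t => simp [W1]
      | v :: v' :: s, u :: t =>
        have h := hF.2 (v' :: s) (u :: t)
        simp only [List.map_cons] at h
        simp only [List.map_cons, W1, hg.2, h, aux_cancel]
    have e2 : W2 g F s (t.map nu) = W2 g F s t := by
      match s, t with
      | s, [] => simp
      | [], u :: t => simp [W2]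
      | v :: s, [u] => simp [W2]
      | v :: s, u :: u' :: t =>
        have h := hF.2 (v :: s) (u' :: t)
        simp only [List.map_cons] at h
        simp only [List.map_cons, W2, hg.2, h, aux_cancel]
    simp only [Wcup, e1, e2]

theorem Acup_even {nu : V → V} {g : V → V → ZMod 2} (hg : Par nu g 0 0)
    {F : DC V} (hF : EvenD nu F) : EvenD nu (Acup g F) := by
  constructor
  · intro s t
    match s, t with
    | [], t => simp
    | v :: s, [] => simp [Acup]
    | v :: s, u :: t =>
      have h := hF.1 (v :: s) (u :: t)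
      simp only [List.map_cons] at h
      simp only [List.map_cons, Acup, hg.1, h, add_zero]
  · intro s t
    match s, t with
    | s, [] => simp
    | [], u :: t => simp [Acup]
    | v :: s, u :: t =>
      have h := hF.2 (v :: s) (u :: t)
      simp only [List.map_cons] at h
      simp only [List.map_cons, Acup, hg.2, h, add_zero]

/-! ### evaluation on a chain satisfying Stokes -/

/-- Stokes: coboundaries of even cochains vanish on `z` -/
def St (nu : V → V) (z : Ch V) : Prop :=
  ∀ G : List V → ZMod 2, (∀ l, G (l.map nu) = G l) → ev (cbd G) z = 0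

theorem dd_D {nu : V → V} {z : Ch V} (hz : St nu z) {F : DC V} (hF : EvenD nu F) :
    dd z (D F) = 0 := by
  have h1 : dd z (D F) = ev (fun s => ev (fun t => cbd (fun s => F s t) s) z) z +
      ev (fun s => ev (fun t => cbd (fun t => F s t) t) z) z := by
    rw [← ev_add_fun]
    refine ev_congr_fun (fun s => ?_) z
    rw [← ev_add_fun]
    rfl
  rw [h1]
  have h2 : ev (fun s => ev (fun t => cbd (fun t => F s t) t) z) z = 0 := by
    have : ∀ s, ev (fun t => cbd (fun t => F s t) t) z = 0 := fun s =>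
      hz (fun t => F s t) (fun l => hF.2 s l)
    simp only [this, ev_zero_fun]
  have h3 : ev (fun s => ev (fun t => cbd (fun s => F s t) s) z) z = 0 := by
    rw [ev_comm]
    have : ∀ t, ev (fun s => cbd (fun s => F s t) s) z = 0 := fun t =>
      hz (fun s => F s t) (fun l => hF.1 l t)
    simp only [this, ev_zero_fun]
  rw [h2, h3, add_zero]

theorem dd_add (z : Ch V) (F G : DC V) : dd z (F + G) = dd z F + dd z G := by
  simp only [dd, Pi.add_apply]
  rw [← ev_add_fun]
  refine ev_congr_fun (fun s => ?_) z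
  rw [← ev_add_fun]

theorem dd_Tw (z : Ch V) (F : DC V) : dd z (Tw F) = dd z F := by
  simp only [dd, Tw]
  exact ev_comm (fun s t => F t s) z z

theorem dd_congr {P : List V → Prop} {z : Ch V} (hz : z ∈ supp P) {F G : DC V}
    (h : ∀ s t, P s → P t → F s t = G s t) : dd z F = dd z G := by
  unfold dd
  exact ev_congr (fun s hs => ev_congr (fun t ht => h s t hs ht) hz) hz

/-! ### prefixes -/

structure Pre (nu : V → V) (P : List V → Prop) (NO : List V → List V → Prop)
    (B : DC V → DC V) : Prop where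
  add : ∀ F G, B (F + G) = B F + B G
  dcomm : ∀ F, Nrm F → D (B F) = B (D F)
  even : ∀ F, EvenD nu F → EvenD nu (B F)
  loc : ∀ F F' : DC V, (∀ s t, NO s t → F s t = F' s t) → ∀ s t, P s → P t → B F s t = B F' s t
  swap : ∀ F s t, P s → P t → B F t s = B (Tw F) s t

theorem pre_W {nu : V → V} {P : List V → Prop} {NO : List V → List V → Prop}
    {s0 : V → V → ZMod 2} {k1 k2 : ZMod 2} (hpar : Par nu s0 k1 k2)
    (hsym : ∀ v u, s0 v u = s0 u v)
    (h1 : ∀ v v' s u t, P (v :: v' :: s) → P (u :: t) → s0 v u + s0 v' u ≠ 0 →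
      NO (v' :: s) (u :: t))
    (h2 : ∀ v s u u' t, P (v :: s) → P (u :: u' :: t) → s0 v u + s0 v u' ≠ 0 →
      NO (v :: s) (u' :: t)) :
    Pre nu P NO (Wcup s0) := by
  refine ⟨Wcup_add s0, fun F hF => D_Wcup s0 F hF, fun F hF => Wcup_even hpar hF, ?_, ?_⟩
  · intro F F' h s t hs ht
    have e1 : W1 s0 F s t = W1 s0 F' s t := by
      match s, t, hs, ht with
      | [], t, _, _ => simp [W1]
      | [v], t, _, _ => simp [W1]
      | v :: v' :: s, [], _, _ => simp [W1]
      | v :: v' :: s, u :: t, hs, ht =>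
        simp only [W1]
        by_cases hc : s0 v u + s0 v' u = 0
        · rw [hc, zero_mul, zero_mul]
        · rw [h _ _ (h1 v v' s u t hs ht hc)]
    have e2 : W2 s0 F s t = W2 s0 F' s t := by
      match s, t, hs, ht with
      | [], t, _, _ => simp [W2]
      | v :: s, [], _, _ => simp [W2]
      | v :: s, [u], _, _ => simp [W2]
      | v :: s, u :: u' :: t, hs, ht =>
        simp only [W2]
        by_cases hc : s0 v u + s0 v u' = 0
        · rw [hc, zero_mul, zero_mul]
        · rw [h _ _ (h2 v s u u' t hs ht hc)]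
    simp only [Wcup, e1, e2]
  · intro F s t _ _
    have := congrFun (congrFun (Tw_Wcup s0 F) s) t
    have e : (fun v u => s0 u v) = s0 := by
      funext v u; exact hsym u v
    rw [e] at this
    exact this

theorem Wcup_loc {NO : List V → List V → Prop}
    (hno1 : ∀ v v' s t, NO (v :: v' :: s) t → NO (v' :: s) t)
    (hno2 : ∀ s u u' t, NO s (u :: u' :: t) → NO s (u' :: t))
    (g : V → V → ZMod 2) (F F' : DC V) (h : ∀ s t, NO s t → F s t = F' s t) (s t : List V)
    (hst : NO s t) : Wcup g F s t = Wcup g F' s t := by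
  have e1 : W1 g F s t = W1 g F' s t := by
    match s, t, hst with
    | [], t, _ => simp [W1]
    | [v], t, _ => simp [W1]
    | v :: v' :: s, [], _ => simp [W1]
    | v :: v' :: s, u :: t, hst =>
      simp only [W1]
      rw [h _ _ (hno1 v v' s _ hst)]
  have e2 : W2 g F s t = W2 g F' s t := by
    match s, t, hst with
    | [], t, _ => simp [W2]
    | v :: s, [], _ => simp [W2]
    | v :: s, [u], _ => simp [W2]
    | v :: s, u :: u' :: t, hst =>
      simp only [W2]
      rw [h _ _ (hno2 _ u u' t hst)]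
  simp only [Wcup, e1, e2]

theorem Wcup_anti {NO : List V → List V → Prop} (g : V → V → ZMod 2)
    (hanti : ∀ s t, NO s t → ∀ v ∈ s, ∀ u ∈ t, g v u + g u v = 1) (F : DC V) (s t : List V)
    (hst : NO s t) : Wcup (fun v u => g u v) F s t = Wcup g F s t := by
  have key : ∀ v ∈ s, ∀ u ∈ t, g u v = g v u + 1 := by
    intro v hv u hu
    have h1 := hanti s t hst v hv u hu
    have h2 := add_self2 (g v u)
    linear_combination h1 - h2
  have e1 : W1 (fun v u => g u v) F s t = W1 g F s t := by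
    match s, t, key with
    | [], t, _ => simp [W1]
    | [v], t, _ => simp [W1]
    | v :: v' :: s, [], _ => simp [W1]
    | v :: v' :: s, u :: t, key =>
      simp only [W1]
      rw [key v (by simp) u (by simp), key v' (by simp) u (by simp), aux_cancel]
  have e2 : W2 (fun v u => g u v) F s t = W2 g F s t := by
    match s, t, key with
    | [], t, _ => simp [W2]
    | v :: s, [], _ => simp [W2]
    | v :: s, [u], _ => simp [W2]
    | v :: s, u :: u' :: t, key =>
      simp only [W2]
      rw [key v (by simp) u (by simp), key v (by simp) u' (by simp), aux_cancel]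
  simp only [Wcup, e1, e2]

theorem pre_G {nu : V → V} {P : List V → Prop} {NO : List V → List V → Prop}
    {B : DC V → DC V} (hB : Pre nu P NO B)
    (hno1 : ∀ v v' s t, NO (v :: v' :: s) t → NO (v' :: s) t)
    (hno2 : ∀ s u u' t, NO s (u :: u' :: t) → NO s (u' :: t))
    {g : V → V → ZMod 2} {k1 k2 : ZMod 2} (hpar : Par nu g k1 k2)
    (hanti : ∀ s t, NO s t → ∀ v ∈ s, ∀ u ∈ t, g v u + g u v = 1) :
    Pre nu P NO (fun F => B (Wcup g F)) := by
  refine ⟨?_, ?_, ?_, ?_, ?_⟩
  · intro F G
    simp only [Wcup_add, hB.add]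
  · intro F hF
    simp only [hB.dcomm _ (Wcup_nrm g F), D_Wcup g F hF]
  · intro F hF
    exact hB.even _ (Wcup_even hpar hF)
  · intro F F' h s t hs ht
    exact hB.loc _ _ (fun s t hst => Wcup_loc hno1 hno2 g F F' h s t hst) s t hs ht
  · intro F s t hs ht
    show B (Wcup g F) t s = B (Wcup g (Tw F)) s t
    rw [hB.swap _ s t hs ht]
    refine hB.loc _ _ (fun s t hst => ?_) s t hs ht
    rw [Tw_Wcup]
    exact Wcup_anti g hanti (Tw F) s t hst

theorem Acup_add_apply (g g' : V → V → ZMod 2) (F : DC V) :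
    Acup (fun v u => g v u + g' v u) F = Acup g F + Acup g' F := by
  funext s t
  match s, t with
  | [], t => simp [Acup]
  | v :: s, [] => simp [Acup]
  | v :: s, u :: t => simp only [Acup, Pi.add_apply]; ring

/-- the telescope step -/
theorem telescope {nu : V → V} {P : List V → Prop} {NO : List V → List V → Prop}
    {B : DC V → DC V} (hB : Pre nu P NO B) {z : Ch V} (hz : z ∈ supp P) (hst : St nu z)
    {a : V → V → ZMod 2} (hpar : Par nu a 0 0)
    (hanti : ∀ s t, NO s t → ∀ v ∈ s, ∀ u ∈ t, a v u + a u v = 1)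
    {A A' : DC V} (hA : Nrm A) (hA' : Nrm A') (heA' : EvenD nu A')
    (hAA : ∀ s t, NO s t → A s t + Tw A s t = D A' s t) :
    dd z (B A) = dd z (B (Wcup a A')) := by
  have h1 : dd z (B A) = dd z (B (Acup a A + Acup (fun v u => a u v) A)) := by
    refine dd_congr hz (fun s t hs ht => hB.loc _ _ (fun s t hn => ?_) s t hs ht)
    rw [← Acup_add_apply]
    match s, t, hn with
    | [], t, _ => simp [Acup, hA.1]
    | v :: s, [], _ => simp [Acup, hA.2]
    | v :: s, u :: t, hn =>
      simp only [Acup]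
      rw [hanti _ _ hn v (by simp) u (by simp), one_mul]
  have h2 : dd z (B (Acup (fun v u => a u v) A)) = dd z (B (Acup a (Tw A))) := by
    rw [← dd_Tw]
    refine dd_congr hz (fun s t hs ht => ?_)
    show B _ t s = _
    rw [hB.swap _ s t hs ht, Tw_Acup]
  have h3 : dd z (B (Acup a A)) + dd z (B (Acup a (Tw A))) = dd z (B (Acup a (D A'))) := by
    rw [← dd_add, ← hB.add]
    refine dd_congr hz (fun s t hs ht => hB.loc _ _ (fun s t hn => ?_) s t hs ht)
    match s, t, hn with
    | [], t, _ => simp [Acup]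
    | v :: s, [], _ => simp [Acup]
    | v :: s, u :: t, hn =>
      simp only [Acup, Pi.add_apply]
      rw [← mul_add, hAA _ _ hn]
  have h4 : dd z (B (Acup a (D A'))) = dd z (B (Wcup a A')) := by
    have e := hB.dcomm (Acup a A') (Acup_nrm a A')
    rw [D_Acup a A' hA', hB.add] at e
    have e2 := dd_D hst (hB.even _ (Acup_even hpar heA'))
    rw [e, dd_add] at e2
    have := add_self2 (dd z (B (Wcup a A')))
    linear_combination e2 - this
  rw [h1, hB.add, dd_add, h2, h3, h4]

/-- one variable pieces -/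
def Xs (e : V → ZMod 2) : V → V → ZMod 2 := fun v _ => e v
def Ys (e : V → ZMod 2) : V → V → ZMod 2 := fun _ u => e u

theorem Tw_Ys (e : V → ZMod 2) (F : DC V) : Tw (Wcup (Ys e) F) = Wcup (Xs e) (Tw F) :=
  Tw_Wcup _ _

theorem par_Xs {nu : V → V} {e : V → ZMod 2} (he : ∀ v, e (nu v) = e v + 1) :
    Par nu (Xs e) 1 0 := ⟨fun v _ => he v, fun v _ => (add_zero _).symm⟩

theorem par_Ys {nu : V → V} {e : V → ZMod 2} (he : ∀ v, e (nu v) = e v + 1) :
    Par nu (Ys e) 0 1 := ⟨fun v _ => (add_zero _).symm, fun _ u => he u⟩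

/-- `dd (B X A) + dd (B Y A) = dd (B X (A + TA))` -/
theorem split_XY {nu : V → V} {P : List V → Prop} {NO : List V → List V → Prop}
    {B : DC V → DC V} (hB : Pre nu P NO B) {z : Ch V} (hz : z ∈ supp P) (e : V → ZMod 2)
    (A : DC V) :
    dd z (B (Wcup (Xs e) A)) + dd z (B (Wcup (Ys e) A)) = dd z (B (Wcup (Xs e) (A + Tw A))) := by
  have h2 : dd z (B (Wcup (Ys e) A)) = dd z (B (Wcup (Xs e) (Tw A))) := by
    rw [← dd_Tw]
    refine dd_congr hz (fun s t hs ht => ?_)
    show B _ t s = _
    rw [hB.swap _ s t hs ht, Tw_Ys]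
  rw [h2, Wcup_add, hB.add, dd_add]

theorem split_zero {nu : V → V} {P : List V → Prop} {NO : List V → List V → Prop}
    {B : DC V → DC V} (hB : Pre nu P NO B)
    (hno1 : ∀ v v' s t, NO (v :: v' :: s) t → NO (v' :: s) t)
    (hno2 : ∀ s u u' t, NO s (u :: u' :: t) → NO s (u' :: t))
    {z : Ch V} (hz : z ∈ supp P) (hst : St nu z)
    {e : V → ZMod 2} (he : ∀ v, e (nu v) = e v + 1)
    {A A' : DC V} (hA' : Nrm A') (heA' : EvenD nu A')
    (hAA : ∀ s t, NO s t → A s t + Tw A s t = D A' s t) :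
    dd z (B (Wcup (Xs e) A)) + dd z (B (Wcup (Ys e) A)) = 0 := by
  rw [split_XY hB hz]
  have h1 : dd z (B (Wcup (Xs e) (A + Tw A))) = dd z (B (Wcup (Xs e) (D A'))) := by
    refine dd_congr hz (fun s t hs ht => hB.loc _ _ (fun s t hn => ?_) s t hs ht)
    exact Wcup_loc hno1 hno2 _ _ _ (fun s t hn => hAA s t hn) s t hn
  rw [h1, ← D_Wcup _ _ hA', ← hB.dcomm _ (Wcup_nrm _ _)]
  exact dd_D hst (hB.even _ (Wcup_even (par_Xs he) heA'))

/-- the `0`-cochain `1` on pairs -/
def len1 (l : List V) : ZMod 2 := if l.length = 1 then 1 else 0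

def One : DC V := fun s t => len1 s * len1 t

theorem step_A {nu : V → V} {P : List V → Prop} {NO : List V → List V → Prop}
    {B : DC V → DC V} (hB : Pre nu P NO B)
    (hno1 : ∀ v v' s t, NO (v :: v' :: s) t → NO (v' :: s) t)
    (hno2 : ∀ s u u' t, NO s (u :: u' :: t) → NO s (u' :: t))
    {z : Ch V} (hz : z ∈ supp P) (hst : St nu z)
    {e : V → ZMod 2} (he : ∀ v, e (nu v) = e v + 1)
    {g : V → V → ZMod 2} (hg : Par nu g 1 1)
    (hanti : ∀ s t, NO s t → ∀ v ∈ s, ∀ u ∈ t, g v u + g u v = 1)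
    {A A' : DC V} (hA : Nrm A) (hA' : Nrm A') (heA' : EvenD nu A')
    (hAA : ∀ s t, NO s t → A s t + Tw A s t = D A' s t) :
    dd z (B A) = dd z (B (Wcup g A')) +
      (dd z (B (Wcup (Xs e) A')) + dd z (B (Wcup (Ys e) A'))) := by
  have hpar : Par nu (fun v u => g v u + (Xs e v u + Ys e v u)) 0 0 := by
    constructor
    · intro v u
      simp only [hg.1, Xs, Ys, he]
      have := add_self2 (1 : ZMod 2)
      linear_combination this
    · intro v u
      simp only [hg.2, Xs, Ys, he]
      have := add_self2 (1 : ZMod 2)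
      linear_combination this
  rw [telescope hB hz hst hpar (fun s t hn v hv u hu => ?_) hA hA' heA' hAA]
  · have e1 : Wcup (fun v u => g v u + (Xs e v u + Ys e v u)) A' =
        Wcup g A' + (Wcup (Xs e) A' + Wcup (Ys e) A') := by
      rw [Wcup_add_sg g (fun v u => Xs e v u + Ys e v u), Wcup_add_sg (Xs e) (Ys e)]
    rw [e1, hB.add, hB.add, dd_add, dd_add]
  · have h1 := hanti s t hn v hv u hu
    have h2 := add_self2 (e v)
    have h3 := add_self2 (e u)
    simp only [Xs, Ys]
    linear_combination h1 + h2 + h3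

/-- replace an odd-odd sign by `e v + e u` in front of something closed -/
theorem replace {nu : V → V} {B : DC V → DC V}
    (hadd : ∀ F G, B (F + G) = B F + B G)
    (hd : ∀ F, Nrm F → D (B F) = B (D F))
    (hev : ∀ F, EvenD nu F → EvenD nu (B F))
    {z : Ch V} (hst : St nu z)
    {e : V → ZMod 2} (he : ∀ v, e (nu v) = e v + 1)
    {g : V → V → ZMod 2} (hg : Par nu g 1 1) {F : DC V} (hF : Nrm F) (hFe : EvenD nu F)
    (hc : D F = 0) :
    dd z (B (Wcup g F)) = dd z (B (Wcup (Xs e) F + Wcup (Ys e) F)) := by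
  have hpar : Par nu (fun v u => g v u + (Xs e v u + Ys e v u)) 0 0 := by
    constructor
    · intro v u
      simp only [hg.1, Xs, Ys, he]
      have := add_self2 (1 : ZMod 2)
      linear_combination this
    · intro v u
      simp only [hg.2, Xs, Ys, he]
      have := add_self2 (1 : ZMod 2)
      linear_combination this
  have h1 := dd_D hst (hev _ (Acup_even hpar hFe))
  rw [hd _ (Acup_nrm _ _), D_Acup _ _ hF, hc, Acup_zero, add_zero,
    Wcup_add_sg g (fun v u => Xs e v u + Ys e v u), Wcup_add_sg (Xs e) (Ys e), hadd, dd_add] at h1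
  have := add_self2 (dd z (B (Wcup (Xs e) F + Wcup (Ys e) F)))
  linear_combination h1 - this

/-! ### words -/

/-- `w_e^k` -/
def mw (e : V → ZMod 2) : ℕ → List V → ZMod 2
  | 0 => len1
  | k + 1 => wcup e (mw e k)

def Mon (e : V → ZMod 2) (i j : ℕ) : DC V := fun s t => mw e i s * mw e j t

theorem mw_nil (e : V → ZMod 2) (k : ℕ) : mw e k [] = 0 := by
  cases k <;> simp [mw, len1, wcup]

theorem mw_len (e : V → ZMod 2) (k : ℕ) (l : List V) (h : l.length ≠ k + 1) : mw e k l = 0 := by
  induction k generalizing l with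
  | zero => simp only [mw, len1]; rw [if_neg h]
  | succ k ih =>
    match l, h with
    | [], _ => simp [mw, wcup]
    | [v], _ => simp [mw, wcup]
    | v :: v' :: l, h =>
      have := ih (v' :: l) (by simp only [List.length_cons] at h ⊢; omega)
      simp only [mw, wcup, this, mul_zero]

theorem Mon_X (e : V → ZMod 2) (i j : ℕ) : Wcup (Xs e) (Mon e i j) = Mon e (i + 1) j := by
  funext s t
  have e2 : W2 (Xs e) (Mon e i j) s t = 0 := by
    match s, t with
    | [], t => simp [W2]
    | v :: s, [] => simp [W2]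
    | v :: s, [u] => simp [W2]
    | v :: s, u :: u' :: t => simp only [W2, Xs, add_self2, zero_mul]
  have e1 : W1 (Xs e) (Mon e i j) s t = Mon e (i + 1) j s t := by
    match s, t with
    | [], t => simp [W1, Mon, mw_nil]
    | [v], t => cases t <;> simp [W1, Mon, mw_nil, mw, wcup]
    | v :: v' :: s, [] => simp [W1, Mon, mw_nil]
    | v :: v' :: s, u :: t => simp only [W1, Mon, Xs, mw, wcup]; ring
  simp only [Wcup, e1, e2, add_zero]

theorem Mon_Y (e : V → ZMod 2) (i j : ℕ) : Wcup (Ys e) (Mon e i j) = Mon e i (j + 1) := by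
  funext s t
  have e1 : W1 (Ys e) (Mon e i j) s t = 0 := by
    match s, t with
    | [], t => simp [W1]
    | [v], t => cases t <;> simp [W1]
    | v :: v' :: s, [] => simp [W1]
    | v :: v' :: s, u :: t => simp only [W1, Ys, add_self2, zero_mul]
  have e2 : W2 (Ys e) (Mon e i j) s t = Mon e i (j + 1) s t := by
    match s, t with
    | [], t => simp [W2, Mon, mw_nil]
    | v :: s, [] => simp [W2, Mon, mw_nil]
    | v :: s, [u] => simp [W2, Mon, mw, wcup]
    | v :: s, u :: u' :: t => simp only [W2, Mon, Ys, mw, wcup]; ring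
  simp only [Wcup, e1, e2, zero_add]

theorem dd_Mon (e : V → ZMod 2) (i j : ℕ) (z : Ch V) :
    dd z (Mon e i j) = ev (mw e i) z * ev (mw e j) z := by
  unfold dd Mon
  have h1 : ∀ s, ev (fun t => mw e i s * mw e j t) z = ev (mw e j) z * mw e i s := by
    intro s; rw [ev_const_mul, mul_comm]
  simp only [h1]
  rw [ev_const_mul, mul_comm]

theorem dd_Mon_zero {P : List V → Prop} {n : ℕ} (hlen : ∀ l, P l → l.length = n + 1) {z : Ch V}
    (hz : z ∈ supp P) (e : V → ZMod 2) {i j : ℕ} (h : i ≠ n ∨ j ≠ n) : dd z (Mon e i j) = 0 := by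
  rw [dd_Mon]
  rcases h with h | h
  · rw [ev_eq_zero (P := P) (fun l hl => mw_len e i l (by rw [hlen l hl]; omega)) hz, zero_mul]
  · rw [ev_eq_zero (P := P) (fun l hl => mw_len e j l (by rw [hlen l hl]; omega)) hz, mul_zero]

theorem One_eq (e : V → ZMod 2) : (One : DC V) = Mon e 0 0 := rfl

theorem cbd_len1 (l : List V) : cbd (len1 (V := V)) l = 0 := by
  match l with
  | [] => simp [cbd_nil]
  | [v] => simp [cbd_single, len1]
  | [v, v'] =>
    simp [cbd, bdL, len1]
    decide
  | v :: v' :: v'' :: l =>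
    rw [cbd, bdL, bdL]
    simp only [map_add, ev_sg, ev_cons]
    have h1 : (fun l : List V => len1 (v :: v' :: l)) = fun _ => 0 := by
      funext l; simp [len1]
    rw [h1, ev_zero_fun]
    simp [len1]

theorem One_nrm : Nrm (One : DC V) := by
  constructor
  · intro t; simp [One, len1]
  · intro t; simp [One, len1]

theorem One_even (nu : V → V) : EvenD nu (One : DC V) := by
  constructor
  · intro s t; simp [One, len1]
  · intro s t; simp [One, len1]

theorem D_One : D (One : DC V) = 0 := by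
  funext s t
  have h1 : cbd (fun s => (One : DC V) s t) s = 0 := by
    have : cbd (fun s => (One : DC V) s t) s = len1 t * cbd len1 s := by
      have e : (fun s => (One : DC V) s t) = fun s => len1 t * len1 s := by
        funext s; simp only [One]; ring
      rw [e, cbd, ev_const_mul (len1 t) len1]; rfl
    rw [this, cbd_len1, mul_zero]
  have h2 : cbd (fun t => (One : DC V) s t) t = 0 := by
    have : cbd (fun t => (One : DC V) s t) t = len1 s * cbd len1 t := by
      have e : (fun t => (One : DC V) s t) = fun t => len1 s * len1 t := by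
        funext s; simp only [One]
      rw [e, cbd, ev_const_mul (len1 s) len1]; rfl
    rw [this, cbd_len1, mul_zero]
  simp only [D, h1, h2, Pi.zero_apply, add_zero]

/-- `X + Y` -/
def XY (e : V → ZMod 2) (F : DC V) : DC V := Wcup (Xs e) F + Wcup (Ys e) F

theorem XY_add (e : V → ZMod 2) (F G : DC V) : XY e (F + G) = XY e F + XY e G := by
  simp only [XY, Wcup_add]
  abel

theorem XY_nrm (e : V → ZMod 2) (F : DC V) : Nrm (XY e F) := by
  constructor
  · intro t; simp [XY, (Wcup_nrm _ F).1]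
  · intro t; simp [XY, (Wcup_nrm _ F).2]

theorem D_XY (e : V → ZMod 2) (F : DC V) (hF : Nrm F) : D (XY e F) = XY e (D F) := by
  simp only [XY, D_add, D_Wcup _ F hF]

theorem EvenD_add {nu : V → V} {F G : DC V} (hF : EvenD nu F) (hG : EvenD nu G) :
    EvenD nu (F + G) := by
  constructor
  · intro s t; simp only [Pi.add_apply, hF.1, hG.1]
  · intro s t; simp only [Pi.add_apply, hF.2, hG.2]

theorem XY_even {nu : V → V} {e : V → ZMod 2} (he : ∀ v, e (nu v) = e v + 1) {F : DC V}
    (hF : EvenD nu F) : EvenD nu (XY e F) :=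
  EvenD_add (Wcup_even (par_Xs he) hF) (Wcup_even (par_Ys he) hF)

theorem XY_Mon (e : V → ZMod 2) (i j : ℕ) :
    XY e (Mon e i j) = Mon e (i + 1) j + Mon e i (j + 1) := by
  rw [XY, Mon_X, Mon_Y]

/-- line version: `dd (W A1) = 1` -/
theorem line_alg {nu : V → V} {P : List V → Prop} {NO : List V → List V → Prop}
    (hno1 : ∀ v v' s t, NO (v :: v' :: s) t → NO (v' :: s) t)
    (hno2 : ∀ s u u' t, NO s (u :: u' :: t) → NO s (u' :: t))
    (hlen : ∀ l, P l → l.length = 2)
    {z : Ch V} (hz : z ∈ supp P) (hst : St nu z)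
    {e : V → ZMod 2} (he : ∀ v, e (nu v) = e v + 1) (hm : ev (mw e 1) z = 1)
    {s0 : V → V → ZMod 2} (hs0 : Par nu s0 1 1) (hsym : ∀ v u, s0 v u = s0 u v)
    (h1 : ∀ v v' s u t, P (v :: v' :: s) → P (u :: t) → s0 v u + s0 v' u ≠ 0 →
      NO (v' :: s) (u :: t))
    (h2 : ∀ v s u u' t, P (v :: s) → P (u :: u' :: t) → s0 v u + s0 v u' ≠ 0 →
      NO (v :: s) (u' :: t))
    {g : V → V → ZMod 2} (hg : Par nu g 1 1)
    (hanti : ∀ s t, NO s t → ∀ v ∈ s, ∀ u ∈ t, g v u + g u v = 1)
    {A0 A1 : DC V} (hA0 : Nrm A0) (hA1 : Nrm A1) (heA0 : EvenD nu A0)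
    (hAA0 : ∀ s t, NO s t → A0 s t + A0 t s = One s t)
    (hAA1 : ∀ s t, NO s t → A1 s t + A1 t s = D A0 s t)
    (h0 : ∀ s t, P s → P t → Wcup s0 (Wcup g A0) s t = 0) :
    dd z (Wcup s0 A1) = 1 := by
  have hW := pre_W hs0 hsym h1 h2
  rw [step_A hW hno1 hno2 hz hst he hg hanti hA1 hA0 heA0 hAA1]
  have e0 : dd z (Wcup s0 (Wcup g A0)) = 0 := by
    rw [dd_congr hz (G := 0) (fun s t hs ht => h0 s t hs ht)]
    simp [dd, ev_zero_fun]
  rw [e0, zero_add, split_XY hW hz]
  have e1 : dd z (Wcup s0 (Wcup (Xs e) (A0 + Tw A0))) = dd z (Wcup s0 (Wcup (Xs e) One)) := by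
    refine dd_congr hz (fun s t hs ht => hW.loc _ _ (fun s t hn => ?_) s t hs ht)
    exact Wcup_loc hno1 hno2 _ _ _ (fun s t hn => hAA0 s t hn) s t hn
  rw [e1]
  have r1 := replace (B := fun F => F) (z := z) (nu := nu) (e := e) (g := s0)
    (F := Wcup (Xs e) One) (fun _ _ => rfl) (fun _ _ => rfl) (fun _ h => h) hst he hs0
    (Wcup_nrm _ _) (Wcup_even (par_Xs he) (One_even nu)) (by
      rw [D_Wcup _ _ One_nrm, D_One]
      have := Wcup_add (Xs e) (0 : DC V) 0
      rw [add_zero] at this
      exact left_eq_add.1 this)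
  rw [r1, One_eq e, Mon_X]
  have r2 := XY_Mon e (0 + 1) 0
  rw [XY] at r2
  rw [r2, dd_add, dd_Mon_zero (n := 1) (fun l hl => by rw [hlen l hl]) hz e (Or.inl (by norm_num)),
    zero_add, dd_Mon]
  simp only [zero_add, hm, mul_one]

theorem Wcup_zero (g : V → V → ZMod 2) : Wcup g (0 : DC V) = 0 := by
  have := Wcup_add g (0 : DC V) 0
  rw [add_zero] at this
  exact left_eq_add.1 this

/-- plane version: `dd (W A3) = 1` -/
theorem plane_alg {nu : V → V} {P : List V → Prop} {NO : List V → List V → Prop}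
    (hno1 : ∀ v v' s t, NO (v :: v' :: s) t → NO (v' :: s) t)
    (hno2 : ∀ s u u' t, NO s (u :: u' :: t) → NO s (u' :: t))
    (hlen : ∀ l, P l → l.length = 3)
    {z : Ch V} (hz : z ∈ supp P) (hst : St nu z)
    {e : V → ZMod 2} (he : ∀ v, e (nu v) = e v + 1) (hm : ev (mw e 2) z = 1)
    {s0 : V → V → ZMod 2} (hs0 : Par nu s0 1 1) (hsym : ∀ v u, s0 v u = s0 u v)
    (h1 : ∀ v v' s u t, P (v :: v' :: s) → P (u :: t) → s0 v u + s0 v' u ≠ 0 →
      NO (v' :: s) (u :: t))
    (h2 : ∀ v s u u' t, P (v :: s) → P (u :: u' :: t) → s0 v u + s0 v u' ≠ 0 →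
      NO (v :: s) (u' :: t))
    {g1 g2 g3 : V → V → ZMod 2}
    (hg1 : Par nu g1 1 1) (hg2 : Par nu g2 1 1) (hg3 : Par nu g3 1 1)
    (hanti1 : ∀ s t, NO s t → ∀ v ∈ s, ∀ u ∈ t, g1 v u + g1 u v = 1)
    (hanti2 : ∀ s t, NO s t → ∀ v ∈ s, ∀ u ∈ t, g2 v u + g2 u v = 1)
    (hanti3 : ∀ s t, NO s t → ∀ v ∈ s, ∀ u ∈ t, g3 v u + g3 u v = 1)
    {A0 A1 A2 A3 : DC V} (hA0 : Nrm A0) (hA1 : Nrm A1) (hA2 : Nrm A2) (hA3 : Nrm A3)
    (heA0 : EvenD nu A0) (heA1 : EvenD nu A1) (heA2 : EvenD nu A2)
    (hAA0 : ∀ s t, NO s t → A0 s t + A0 t s = One s t)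
    (hAA1 : ∀ s t, NO s t → A1 s t + A1 t s = D A0 s t)
    (hAA2 : ∀ s t, NO s t → A2 s t + A2 t s = D A1 s t)
    (hAA3 : ∀ s t, NO s t → A3 s t + A3 t s = D A2 s t)
    (h0 : ∀ s t, P s → P t → Wcup s0 (Wcup g1 (Wcup g2 (Wcup g3 A0))) s t = 0) :
    dd z (Wcup s0 A3) = 1 := by
  have hW := pre_W hs0 hsym h1 h2
  have hB1 := pre_G hW hno1 hno2 hg1 hanti1
  have hB2 := pre_G hB1 hno1 hno2 hg2 hanti2
  have t1 := step_A hW hno1 hno2 hz hst he hg1 hanti1 hA3 hA2 heA2 hAA3
  rw [split_zero hW hno1 hno2 hz hst he hA1 heA1 hAA2, add_zero] at t1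
  have t2 := step_A hB1 hno1 hno2 hz hst he hg2 hanti2 hA2 hA1 heA1 hAA2
  rw [split_zero hB1 hno1 hno2 hz hst he hA0 heA0 hAA1, add_zero] at t2
  have t3 := step_A hB2 hno1 hno2 hz hst he hg3 hanti3 hA1 hA0 heA0 hAA1
  rw [split_XY hB2 hz] at t3
  rw [t1, t2, t3]
  have e0 : dd z (Wcup s0 (Wcup g1 (Wcup g2 (Wcup g3 A0)))) = 0 := by
    rw [dd_congr hz (G := 0) (fun s t hs ht => h0 s t hs ht)]
    simp [dd, ev_zero_fun]
  rw [e0, zero_add]
  have e1 : dd z (Wcup s0 (Wcup g1 (Wcup g2 (Wcup (Xs e) (A0 + Tw A0))))) =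
      dd z (Wcup s0 (Wcup g1 (Wcup g2 (Wcup (Xs e) One)))) := by
    refine dd_congr hz (fun s t hs ht => hB2.loc _ _ (fun s t hn => ?_) s t hs ht)
    exact Wcup_loc hno1 hno2 _ _ _ (fun s t hn => hAA0 s t hn) s t hn
  rw [e1]
  have c1 : D (Wcup (Xs e) (One : DC V)) = 0 := by
    rw [D_Wcup _ _ One_nrm, D_One, Wcup_zero]
  have c2 : D (Wcup g2 (Wcup (Xs e) (One : DC V))) = 0 := by
    rw [D_Wcup _ _ (Wcup_nrm _ _), c1, Wcup_zero]
  have c3 : D (Wcup g1 (Wcup g2 (Wcup (Xs e) (One : DC V)))) = 0 := by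
    rw [D_Wcup _ _ (Wcup_nrm _ _), c2, Wcup_zero]
  have v1 : EvenD nu (Wcup (Xs e) (One : DC V)) := Wcup_even (par_Xs he) (One_even nu)
  have v2 : EvenD nu (Wcup g2 (Wcup (Xs e) (One : DC V))) := Wcup_even hg2 v1
  have v3 : EvenD nu (Wcup g1 (Wcup g2 (Wcup (Xs e) (One : DC V)))) := Wcup_even hg1 v2
  have r1 := replace (B := fun F => F) (z := z) (nu := nu) (e := e) (g := s0)
    (F := Wcup g1 (Wcup g2 (Wcup (Xs e) One))) (fun _ _ => rfl) (fun _ _ => rfl)
    (fun _ h => h) hst he hs0 (Wcup_nrm _ _) v3 c3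
  have r2 := replace (B := fun F => XY e F) (z := z) (nu := nu) (e := e) (g := g1)
    (F := Wcup g2 (Wcup (Xs e) One)) (XY_add e) (D_XY e)
    (fun F hF => XY_even he hF) hst he hg1 (Wcup_nrm _ _) v2 c2
  have r3 := replace (B := fun F => XY e (XY e F)) (z := z) (nu := nu) (e := e) (g := g2)
    (F := Wcup (Xs e) One) (fun F G => by simp only [XY_add])
    (fun F hF => by simp only [D_XY e _ (XY_nrm e F), D_XY e F hF])
    (fun F hF => XY_even he (XY_even he hF)) hst he hg2 (Wcup_nrm _ _) v1 c1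
  try simp only at r1
  try simp only at r2
  try simp only at r3
  have x1 : Wcup (Xs e) (Wcup g1 (Wcup g2 (Wcup (Xs e) (One : DC V)))) +
    Wcup (Ys e) (Wcup g1 (Wcup g2 (Wcup (Xs e) One))) =
      XY e (Wcup g1 (Wcup g2 (Wcup (Xs e) (One : DC V)))) := rfl
  have x2 : Wcup (Xs e) (Wcup g2 (Wcup (Xs e) (One : DC V))) +
    Wcup (Ys e) (Wcup g2 (Wcup (Xs e) One)) =
      XY e (Wcup g2 (Wcup (Xs e) (One : DC V))) := rfl
  have x3 : Wcup (Xs e) (Wcup (Xs e) (One : DC V)) + Wcup (Ys e) (Wcup (Xs e) One) =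
      XY e (Wcup (Xs e) (One : DC V)) := rfl
  rw [r1, x1, r2, x2, r3, x3, One_eq e, Mon_X]
  simp only [XY_Mon, XY_add, dd_add, Nat.reduceAdd]
  have hlen' : ∀ l, P l → l.length = 2 + 1 := fun l hl => by rw [hlen l hl]
  have z1 : dd z (Mon e 4 0) = 0 := dd_Mon_zero hlen' hz e (Or.inl (by norm_num))
  have z2 : dd z (Mon e 3 1) = 0 := dd_Mon_zero hlen' hz e (Or.inl (by norm_num))
  have z3 : dd z (Mon e 1 3) = 0 := dd_Mon_zero hlen' hz e (Or.inl (by norm_num))
  have z4 : dd z (Mon e 2 2) = 1 := by rw [dd_Mon, hm, one_mul]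
  simp only [z1, z2, z3, z4]
  decide

/-- evaluation of `W F` for `F` living on lists `s` of full length -/
theorem dd_W_eval {P : List V → Prop} {n : ℕ} (hlen : ∀ l, P l → l.length = n)
    {z : Ch V} (hz : z ∈ supp P) (s0 : V → V → ZMod 2) (F : DC V)
    (hF : ∀ s t, s.length ≠ n → F s t = 0) :
    dd z (Wcup s0 F) = ev (fun s => match s with
      | [] => 0
      | v :: s => ev (wcup (fun u => s0 v u) (fun t => F (v :: s) t)) z) z := by
  unfold dd
  refine ev_congr (fun s hs => ?_) hz
  match s, hs with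
  | [], _ =>
    refine ev_eq_zero (fun t _ => (Wcup_nrm s0 F).1 t) hz
  | v :: s, hs =>
    refine ev_congr (fun t ht => ?_) hz
    have e1 : W1 s0 F (v :: s) t = 0 := by
      match s, t, hs with
      | [], t, _ => cases t <;> simp [W1]
      | v' :: s, [], _ => simp [W1]
      | v' :: s, u :: t, hs =>
        have := hlen _ hs
        simp only [W1]
        rw [hF _ _ (by simp only [List.length_cons] at this ⊢; omega), mul_zero]
    simp only [Wcup, e1, zero_add, W2_eq]

end Crest.Agent.S69.Dbl
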