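import Crest.Agent.S69.Defs
set_option autoImplicit false
namespace Crest.Agent.S69
open scoped RealInnerProductSpace

/-- 3x3 minor -/
def det3 (a b c : Fin 3 → ℝ) : ℝ :=
  a 0 * (b 1 * c 2 - b 2 * c 1) - a 1 * (b 0 * c 2 - b 2 * c 0) + a 2 * (b 0 * c 1 - b 1 * c 0)

/-- explicit 4x4 determinant with rows `a b c d` -/
noncomputable def det4 (a b c d : E4) : ℝ :=
  a 0 * (b 1 * (c 2 * d 3 - c 3 * d 2) - b 2 * (c 1 * d 3 - c 3 * d 1) + b 3 * (c 1 * d 2 - c 2 * d 1))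
  - a 1 * (b 0 * (c 2 * d 3 - c 3 * d 2) - b 2 * (c 0 * d 3 - c 3 * d 0) + b 3 * (c 0 * d 2 - c 2 * d 0))
  + a 2 * (b 0 * (c 1 * d 3 - c 3 * d 1) - b 1 * (c 0 * d 3 - c 3 * d 0) + b 3 * (c 0 * d 1 - c 1 * d 0))
  - a 3 * (b 0 * (c 1 * d 2 - c 2 * d 1) - b 1 * (c 0 * d 2 - c 2 * d 0) + b 2 * (c 0 * d 1 - c 1 * d 0))

theorem ip4 (x y : E4) : ⟪x, y⟫ = x 0 * y 0 + x 1 * y 1 + x 2 * y 2 + x 3 * y 3 := by
  simp [PiLp.inner_apply, Fin.sum_univ_four]; ring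

theorem nsq4 (x : E4) : ‖x‖ ^ 2 = x 0 * x 0 + x 1 * x 1 + x 2 * x 2 + x 3 * x 3 := by
  rw [← real_inner_self_eq_norm_sq, ip4]

/-- Gram determinant -/
noncomputable def gram4 (aa ab ac ad bb bc bd cc cd dd : ℝ) : ℝ :=
  aa * (bb * (cc * dd - cd * cd) - bc * (bc * dd - cd * bd) + bd * (bc * cd - cc * bd))
  - ab * (ab * (cc * dd - cd * cd) - bc * (ac * dd - cd * ad) + bd * (ac * cd - cc * ad))
  + ac * (ab * (bc * dd - cd * bd) - bb * (ac * dd - cd * ad) + bd * (ac * bd - bc * ad))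
  - ad * (ab * (bc * cd - cc * bd) - bb * (ac * cd - cc * ad) + bc * (ac * bd - bc * ad))

theorem det4_sq (a b c d : E4) : det4 a b c d ^ 2 =
    gram4 ⟪a, a⟫ ⟪a, b⟫ ⟪a, c⟫ ⟪a, d⟫ ⟪b, b⟫ ⟪b, c⟫ ⟪b, d⟫ ⟪c, c⟫ ⟪c, d⟫ ⟪d, d⟫ := by
  simp only [ip4, det4, gram4]
  ring

theorem mul2_le {x y : ℝ} {e : ℝ} (he : 0 ≤ e) (hx : |x| ≤ e) (hy : |y| ≤ e) : |x * y| ≤ e * e := by
  rw [abs_mul]; exact mul_le_mul hx hy (abs_nonneg _) he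

theorem gram4_ge (ab ac ad bc bd cd : ℝ) (h1 : |ab| ≤ 1 / 10) (h2 : |ac| ≤ 1 / 10)
    (h3 : |ad| ≤ 1 / 10) (h4 : |bc| ≤ 1 / 10) (h5 : |bd| ≤ 1 / 10) (h6 : |cd| ≤ 1 / 10) :
    1 / 2 ≤ gram4 1 ab ac ad 1 bc bd 1 cd 1 := by
  have e : gram4 1 ab ac ad 1 bc bd 1 cd 1 =
      1 - ab * ab - ac * ac - ad * ad - bc * bc - bd * bd - cd * cd
      + 2 * ((ab * bc) * ac) + 2 * ((ab * bd) * ad) + 2 * ((ac * cd) * ad) + 2 * ((bc * cd) * bd)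
      + (ab * cd) * (ab * cd) + (ac * bd) * (ac * bd) + (ad * bc) * (ad * bc)
      - 2 * ((ab * cd) * (ac * bd)) - 2 * ((ab * cd) * (ad * bc)) - 2 * ((ac * bd) * (ad * bc)) := by
    unfold gram4; ring
  have t : (0:ℝ) ≤ 1 / 10 := by norm_num
  have t2 : (0:ℝ) ≤ 1 / 10 * (1 / 10) := by norm_num
  have q1 := mul2_le t h1 h1
  have q2 := mul2_le t h2 h2
  have q3 := mul2_le t h3 h3
  have q4 := mul2_le t h4 h4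
  have q5 := mul2_le t h5 h5
  have q6 := mul2_le t h6 h6
  have p1 := mul2_le t h1 h6
  have p2 := mul2_le t h2 h5
  have p3 := mul2_le t h3 h4
  have r1 : |(ab * bc) * ac| ≤ 1 / 10 * (1 / 10) * (1 / 10) := by
    rw [abs_mul]; exact mul_le_mul (mul2_le t h1 h4) h2 (abs_nonneg _) t2
  have r2 : |(ab * bd) * ad| ≤ 1 / 10 * (1 / 10) * (1 / 10) := by
    rw [abs_mul]; exact mul_le_mul (mul2_le t h1 h5) h3 (abs_nonneg _) t2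
  have r3 : |(ac * cd) * ad| ≤ 1 / 10 * (1 / 10) * (1 / 10) := by
    rw [abs_mul]; exact mul_le_mul (mul2_le t h2 h6) h3 (abs_nonneg _) t2
  have r4 : |(bc * cd) * bd| ≤ 1 / 10 * (1 / 10) * (1 / 10) := by
    rw [abs_mul]; exact mul_le_mul (mul2_le t h4 h6) h5 (abs_nonneg _) t2
  have s1 := mul2_le t2 p1 p2
  have s2 := mul2_le t2 p1 p3
  have s3 := mul2_le t2 p2 p3
  have z1 := mul_self_nonneg (ab * cd)
  have z2 := mul_self_nonneg (ac * bd)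
  have z3 := mul_self_nonneg (ad * bc)
  rw [e]
  rw [abs_le] at q1 q2 q3 q4 q5 q6 r1 r2 r3 r4 s1 s2 s3
  obtain ⟨_, q1⟩ := q1
  obtain ⟨_, q2⟩ := q2
  obtain ⟨_, q3⟩ := q3
  obtain ⟨_, q4⟩ := q4
  obtain ⟨_, q5⟩ := q5
  obtain ⟨_, q6⟩ := q6
  obtain ⟨r1, _⟩ := r1
  obtain ⟨r2, _⟩ := r2
  obtain ⟨r3, _⟩ := r3
  obtain ⟨r4, _⟩ := r4
  obtain ⟨_, s1⟩ := s1
  obtain ⟨_, s2⟩ := s2
  obtain ⟨_, s3⟩ := s3
  norm_num at *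
  linarith

/-- nearly orthonormal vectors have determinant of square at least `1/2` -/
theorem det4_sq_ge {a b c d : E4} (ha : ‖a‖ = 1) (hb : ‖b‖ = 1) (hc : ‖c‖ = 1) (hd : ‖d‖ = 1)
    (h1 : |⟪a, b⟫| ≤ 1 / 10) (h2 : |⟪a, c⟫| ≤ 1 / 10) (h3 : |⟪a, d⟫| ≤ 1 / 10)
    (h4 : |⟪b, c⟫| ≤ 1 / 10) (h5 : |⟪b, d⟫| ≤ 1 / 10) (h6 : |⟪c, d⟫| ≤ 1 / 10) :
    1 / 2 ≤ det4 a b c d ^ 2 := by
  rw [det4_sq]
  have e1 : ⟪a, a⟫ = (1:ℝ) := by rw [real_inner_self_eq_norm_sq, ha]; norm_num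
  have e2 : ⟪b, b⟫ = (1:ℝ) := by rw [real_inner_self_eq_norm_sq, hb]; norm_num
  have e3 : ⟪c, c⟫ = (1:ℝ) := by rw [real_inner_self_eq_norm_sq, hc]; norm_num
  have e4 : ⟪d, d⟫ = (1:ℝ) := by rw [real_inner_self_eq_norm_sq, hd]; norm_num
  rw [e1, e2, e3, e4]
  exact gram4_ge _ _ _ _ _ _ h1 h2 h3 h4 h5 h6

theorem det4_add (a b c c' d : E4) : det4 a b (c + c') d = det4 a b c d + det4 a b c' d := by
  simp only [det4, PiLp.add_apply]; ring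
theorem det4_sub (a b c c' d : E4) : det4 a b (c - c') d = det4 a b c d - det4 a b c' d := by
  simp only [det4, PiLp.sub_apply]; ring
theorem det4_neg (a b c d : E4) : det4 a b (-c) d = - det4 a b c d := by
  simp only [det4, PiLp.neg_apply]; ring
theorem det4_swap34 (a b c d : E4) : det4 a b d c = - det4 a b c d := by
  simp only [det4]; ring
theorem det4_swap23 (a b c d : E4) : det4 a c b d = - det4 a b c d := by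
  simp only [det4]; ring
theorem det4_swap12 (a b c d : E4) : det4 b a c d = - det4 a b c d := by
  simp only [det4]; ring
theorem det4_neg4 (a b c d : E4) : det4 a b c (-d) = - det4 a b c d := by
  rw [det4_swap34, det4_neg, det4_swap34]; ring
theorem det4_sub4 (a b c d d' : E4) : det4 a b c (d - d') = det4 a b c d - det4 a b c d' := by
  rw [det4_swap34, det4_sub, det4_swap34 a b d c, det4_swap34 a b d' c]; ring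

/-- cofactor vector -/
noncomputable def cof (b c d : E4) : E4 := WithLp.toLp 2
  ![ b 1 * (c 2 * d 3 - c 3 * d 2) - b 2 * (c 1 * d 3 - c 3 * d 1) + b 3 * (c 1 * d 2 - c 2 * d 1),
   -(b 0 * (c 2 * d 3 - c 3 * d 2) - b 2 * (c 0 * d 3 - c 3 * d 0) + b 3 * (c 0 * d 2 - c 2 * d 0)),
    b 0 * (c 1 * d 3 - c 3 * d 1) - b 1 * (c 0 * d 3 - c 3 * d 0) + b 3 * (c 0 * d 1 - c 1 * d 0),
   -(b 0 * (c 1 * d 2 - c 2 * d 1) - b 1 * (c 0 * d 2 - c 2 * d 0) + b 2 * (c 0 * d 1 - c 1 * d 0))]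

theorem det4_eq_inner (a b c d : E4) : det4 a b c d = ⟪cof b c d, a⟫ := by
  rw [ip4]; simp [det4, cof]; ring

/-- 3x3 Gram -/
noncomputable def gram3 (bb bc bd cc cd dd : ℝ) : ℝ :=
  bb * (cc * dd - cd * cd) - bc * (bc * dd - cd * bd) + bd * (bc * cd - cc * bd)

theorem cof_sq (b c d : E4) : ⟪cof b c d, cof b c d⟫ =
    gram3 ⟪b, b⟫ ⟪b, c⟫ ⟪b, d⟫ ⟪c, c⟫ ⟪c, d⟫ ⟪d, d⟫ := by
  simp only [ip4, gram3]; simp [cof]; ring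

theorem cof_perp (b c d : E4) : ⟪cof b c d, b⟫ = 0 := by
  rw [ip4]; simp [cof]; ring

/-- sum over an orthonormal basis `x, e 0, e 1, e 2` -/
theorem sum_det4 {x : E4} (b : OrthonormalBasis (Fin 4) ℝ E4) (hx : b 3 = x) (v u : E4) :
    det4 (b 0) x v u ^ 2 + det4 (b 1) x v u ^ 2 + det4 (b 2) x v u ^ 2 =
      gram3 ⟪x, x⟫ ⟪x, v⟫ ⟪x, u⟫ ⟪v, v⟫ ⟪v, u⟫ ⟪u, u⟫ := by
  rw [← cof_sq]
  have h := b.sum_inner_mul_inner (cof x v u) (cof x v u)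
  rw [Fin.sum_univ_four, hx, cof_perp] at h
  simp only [det4_eq_inner]
  rw [← h]
  rw [real_inner_comm (cof x v u) (b 0), real_inner_comm (cof x v u) (b 1),
    real_inner_comm (cof x v u) (b 2)]
  ring

theorem gram3_le (b c d : E4) : gram3 ⟪b, b⟫ ⟪b, c⟫ ⟪b, d⟫ ⟪c, c⟫ ⟪c, d⟫ ⟪d, d⟫ ≤
    (‖b‖ * ‖c‖ * ‖d‖) ^ 2 := by
  have hb : ⟪b, b⟫ = ‖b‖ ^ 2 := real_inner_self_eq_norm_sq b
  have hc : ⟪c, c⟫ = ‖c‖ ^ 2 := real_inner_self_eq_norm_sq c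
  have hd : ⟪d, d⟫ = ‖d‖ ^ 2 := real_inner_self_eq_norm_sq d
  rw [hb, hc, hd, gram3]
  have h1 : |⟪b, d⟫| ≤ ‖b‖ * ‖d‖ := abs_real_inner_le_norm b d
  have h2 : ⟪b, c⟫ * ⟪c, d⟫ * ⟪b, d⟫ ≤ |⟪b, c⟫| * |⟪c, d⟫| * (‖b‖ * ‖d‖) := by
    calc ⟪b, c⟫ * ⟪c, d⟫ * ⟪b, d⟫ ≤ |⟪b, c⟫ * ⟪c, d⟫ * ⟪b, d⟫| := le_abs_self _
      _ = |⟪b, c⟫| * |⟪c, d⟫| * |⟪b, d⟫| := by rw [abs_mul, abs_mul]
      _ ≤ _ := mul_le_mul_of_nonneg_left h1 (by positivity)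
  have h3 := sq_nonneg (‖b‖ * |⟪c, d⟫| - ‖d‖ * |⟪b, c⟫|)
  have e1 : |⟪c, d⟫| ^ 2 = ⟪c, d⟫ ^ 2 := sq_abs _
  have e2 : |⟪b, c⟫| ^ 2 = ⟪b, c⟫ ^ 2 := sq_abs _
  have h4 : 0 ≤ ‖c‖ ^ 2 * ⟪b, d⟫ ^ 2 := by positivity
  have h5 : (‖b‖ * |⟪c, d⟫| - ‖d‖ * |⟪b, c⟫|) ^ 2 = ‖b‖ ^ 2 * ⟪c, d⟫ ^ 2 + ‖d‖ ^ 2 * ⟪b, c⟫ ^ 2
      - 2 * (|⟪b, c⟫| * |⟪c, d⟫| * (‖b‖ * ‖d‖)) := by
    rw [← e1, ← e2]; ring
  nlinarith

/-- Hadamard inequality -/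
theorem det4_abs_le (a b c d : E4) : |det4 a b c d| ≤ ‖a‖ * ‖b‖ * ‖c‖ * ‖d‖ := by
  rw [det4_eq_inner]
  have h1 := abs_real_inner_le_norm (cof b c d) a
  have h2 : ‖cof b c d‖ ≤ ‖b‖ * ‖c‖ * ‖d‖ := by
    have := gram3_le b c d
    rw [← cof_sq, real_inner_self_eq_norm_sq] at this
    exact le_of_sq_le_sq this (by positivity)
  calc _ ≤ ‖cof b c d‖ * ‖a‖ := h1
    _ ≤ (‖b‖ * ‖c‖ * ‖d‖) * ‖a‖ := mul_le_mul_of_nonneg_right h2 (norm_nonneg _)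
    _ = _ := by ring

/-- `det4` changes slowly in the last two slots -/
theorem det4_lip {a b c c' d d' : E4} (ha : ‖a‖ = 1) (hb : ‖b‖ = 1) (hc' : ‖c'‖ = 1)
    (hd : ‖d‖ = 1) : |det4 a b c d - det4 a b c' d'| ≤ ‖c - c'‖ + ‖d - d'‖ := by
  have e : det4 a b c d - det4 a b c' d' = det4 a b (c - c') d + det4 a b c' (d - d') := by
    rw [det4_sub, det4_sub4]; ring
  rw [e]
  refine (abs_add_le _ _).trans (add_le_add ?_ ?_)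
  · have := det4_abs_le a b (c - c') d
    rw [ha, hb, hd] at this; simpa using this
  · have := det4_abs_le a b c' (d - d')
    rw [ha, hb, hc'] at this; simpa using this

/-- near orthonormal quadruples: the sign of `det4` does not change under small moves -/
theorem det4_sign_const {a b c c' d d' : E4} (ha : ‖a‖ = 1) (hb : ‖b‖ = 1) (hc : ‖c‖ = 1)
    (hc' : ‖c'‖ = 1) (hd : ‖d‖ = 1)
    (h1 : |⟪a, b⟫| ≤ 1 / 10) (h2 : |⟪a, c⟫| ≤ 1 / 10) (h3 : |⟪a, d⟫| ≤ 1 / 10)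
    (h4 : |⟪b, c⟫| ≤ 1 / 10) (h5 : |⟪b, d⟫| ≤ 1 / 10) (h6 : |⟪c, d⟫| ≤ 1 / 10)
    (hcc : ‖c - c'‖ ≤ 1 / 4) (hdd : ‖d - d'‖ ≤ 1 / 4) :
    (0 < det4 a b c d ↔ 0 < det4 a b c' d') ∧ det4 a b c d ≠ 0 ∧ det4 a b c' d' ≠ 0 := by
  have hs := det4_sq_ge ha hb hc hd h1 h2 h3 h4 h5 h6
  have hl := det4_lip (c := c) (d' := d') ha hb hc' hd
  have hl' : |det4 a b c d - det4 a b c' d'| ≤ 1 / 2 := by linarith
  rw [abs_le] at hl'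
  obtain ⟨l1, l2⟩ := hl'
  rcases le_or_gt (det4 a b c d) 0 with h | h
  · have hneg : det4 a b c d < - (7 / 10) := by nlinarith
    refine ⟨⟨fun h' => absurd h' (not_lt.mpr h), fun h' => ?_⟩, by linarith, by linarith⟩
    linarith
  · have hpos : 7 / 10 < det4 a b c d := by nlinarith
    exact ⟨⟨fun _ => by linarith, fun _ => h⟩, by linarith, by linarith⟩

theorem gram3_ge {b c d : E4} (hb : ‖b‖ = 1) (hc : ‖c‖ = 1) (hd : ‖d‖ = 1)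
    (h4 : |⟪b, c⟫| ≤ 1 / 10) (h5 : |⟪b, d⟫| ≤ 1 / 10) (h6 : |⟪c, d⟫| ≤ 1 / 10) :
    9 / 10 ≤ gram3 ⟪b, b⟫ ⟪b, c⟫ ⟪b, d⟫ ⟪c, c⟫ ⟪c, d⟫ ⟪d, d⟫ := by
  have e2 : ⟪b, b⟫ = (1:ℝ) := by rw [real_inner_self_eq_norm_sq, hb]; norm_num
  have e3 : ⟪c, c⟫ = (1:ℝ) := by rw [real_inner_self_eq_norm_sq, hc]; norm_num
  have e4 : ⟪d, d⟫ = (1:ℝ) := by rw [real_inner_self_eq_norm_sq, hd]; norm_num
  rw [e2, e3, e4, gram3]
  have t : (0:ℝ) ≤ 1 / 10 := by norm_num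
  have t2 : (0:ℝ) ≤ 1 / 10 * (1 / 10) := by norm_num
  have q4 := mul2_le t h4 h4
  have q5 := mul2_le t h5 h5
  have q6 := mul2_le t h6 h6
  have r1 : |(⟪b, c⟫ * ⟪c, d⟫) * ⟪b, d⟫| ≤ 1 / 10 * (1 / 10) * (1 / 10) := by
    rw [abs_mul]; exact mul_le_mul (mul2_le t h4 h6) h5 (abs_nonneg _) t2
  rw [abs_le] at q4 q5 q6 r1
  obtain ⟨_, q4⟩ := q4
  obtain ⟨_, q5⟩ := q5
  obtain ⟨_, q6⟩ := q6
  obtain ⟨r1, _⟩ := r1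
  norm_num at *
  nlinarith

end Crest.Agent.S69
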