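import Crest.Agent.S69.Defs

set_option autoImplicit false

open scoped RealInnerProductSpace

namespace Crest.Agent.S69


/-- the bilinear form of the traceless symmetric 3x3 matrix with coordinates `t` -/
def B3 (t : Fin 5 → ℝ) (x y : E3) : ℝ :=
  t 0 * (x 0 * y 0 - x 2 * y 2) + t 1 * (x 1 * y 1 - x 2 * y 2)
    + t 2 * (x 0 * y 1 + x 1 * y 0) + t 3 * (x 0 * y 2 + x 2 * y 0) + t 4 * (x 1 * y 2 + x 2 * y 1)

theorem B3_neg (t : Fin 5 → ℝ) (x y : E3) : B3 (-t) x y = -B3 t x y := by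
  simp only [B3, Pi.neg_apply]; ring

theorem B3_sub (t t' : Fin 5 → ℝ) (x y : E3) : B3 (t - t') x y = B3 t x y - B3 t' x y := by
  simp only [B3, Pi.sub_apply]; ring

theorem B3_comm (t : Fin 5 → ℝ) (x y : E3) : B3 t x y = B3 t y x := by
  simp only [B3]; ring

theorem inner3 (x y : E3) : ⟪x, y⟫ = x 0 * y 0 + x 1 * y 1 + x 2 * y 2 := by
  simp [PiLp.inner_apply, Fin.sum_univ_three]; ring

theorem normsq3 (x : E3) : ‖x‖ ^ 2 = x 0 ^ 2 + x 1 ^ 2 + x 2 ^ 2 := by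
  rw [← real_inner_self_eq_norm_sq, inner3]; ring

theorem coord_le {x : E3} (hx : ‖x‖ = 1) (i : Fin 3) : |x i| ≤ 1 := by
  have h := normsq3 x
  rw [hx] at h
  rw [abs_le_one_iff_mul_self_le_one]
  fin_cases i <;> simp <;> nlinarith [sq_nonneg (x 0), sq_nonneg (x 1), sq_nonneg (x 2)]

theorem B3_bound (t : Fin 5 → ℝ) {x y : E3} (hx : ‖x‖ = 1) (hy : ‖y‖ = 1) :
    |B3 t x y| ≤ 10 * ‖t‖ := by
  have hp : ∀ i j, |x i * y j| ≤ 1 := by
    intro i j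
    rw [abs_mul]
    exact mul_le_one₀ (coord_le hx i) (abs_nonneg _) (coord_le hy j)
  have ht : ∀ i, |t i| ≤ ‖t‖ := fun i => by
    have := norm_le_pi_norm t i
    simpa using this
  have key : ∀ (i : Fin 5) (a b : ℝ), |a| ≤ 1 → |b| ≤ 1 → |t i * (a + b)| ≤ 2 * ‖t‖ := by
    intro i a b ha hb
    rw [abs_mul]
    have h1 : |a + b| ≤ 2 := (abs_add_le a b).trans (by linarith)
    calc |t i| * |a + b| ≤ ‖t‖ * 2 :=
          mul_le_mul (ht i) h1 (abs_nonneg _) (norm_nonneg _)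
      _ = 2 * ‖t‖ := by ring
  have k0 := key 0 (x 0 * y 0) (-(x 2 * y 2)) (hp 0 0) (by rw [abs_neg]; exact hp 2 2)
  have k1 := key 1 (x 1 * y 1) (-(x 2 * y 2)) (hp 1 1) (by rw [abs_neg]; exact hp 2 2)
  have k2 := key 2 (x 0 * y 1) (x 1 * y 0) (hp 0 1) (hp 1 0)
  have k3 := key 3 (x 0 * y 2) (x 2 * y 0) (hp 0 2) (hp 2 0)
  have k4 := key 4 (x 1 * y 2) (x 2 * y 1) (hp 1 2) (hp 2 1)
  rw [abs_le] at *
  simp only [B3]
  constructor <;> nlinarith [k0.1, k0.2, k1.1, k1.2, k2.1, k2.2, k3.1, k3.2, k4.1, k4.2]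

theorem continuous_B3 (t : Fin 5 → ℝ) : Continuous (fun x : E3 => B3 t x x) := by
  unfold B3
  fun_prop

theorem exists_top (t : Fin 5 → ℝ) : ∃ e : E3, ‖e‖ = 1 ∧ ∀ x : E3, ‖x‖ = 1 → B3 t x x ≤ B3 t e e := by
  have hc : IsCompact (Metric.sphere (0 : E3) 1) := isCompact_sphere 0 1
  have hne : (Metric.sphere (0 : E3) 1).Nonempty := by
    refine ⟨EuclideanSpace.single 0 1, ?_⟩
    simp
  obtain ⟨e, he, hm⟩ := hc.exists_isMaxOn hne (continuous_B3 t).continuousOn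
  refine ⟨e, by simpa using he, fun x hx => ?_⟩
  exact hm (by simpa using hx)

/-- a top eigenvector -/
noncomputable def ev3 (t : Fin 5 → ℝ) : E3 := (exists_top t).choose

/-- the top eigenvalue -/
noncomputable def M3 (t : Fin 5 → ℝ) : ℝ := B3 t (ev3 t) (ev3 t)

theorem norm_ev3 (t : Fin 5 → ℝ) : ‖ev3 t‖ = 1 := (exists_top t).choose_spec.1

theorem B3_le_M3 (t : Fin 5 → ℝ) {x : E3} (hx : ‖x‖ = 1) : B3 t x x ≤ M3 t :=
  (exists_top t).choose_spec.2 x hx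

theorem B3_smul (t : Fin 5 → ℝ) (a : ℝ) (x : E3) : B3 t (a • x) (a • x) = a ^ 2 * B3 t x x := by
  simp only [B3, PiLp.smul_apply, smul_eq_mul]; ring

theorem B3_le_M3' (t : Fin 5 → ℝ) (x : E3) : B3 t x x ≤ M3 t * ‖x‖ ^ 2 := by
  by_cases h : x = 0
  · subst h; simp [B3]
  · have hn : ‖x‖ ≠ 0 := by simpa using h
    have h1 : ‖(‖x‖⁻¹ • x)‖ = 1 := by
      rw [norm_smul, norm_inv, norm_norm, inv_mul_cancel₀ hn]
    have h2 := B3_le_M3 t h1
    rw [B3_smul] at h2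
    have h3 : 0 < ‖x‖ ^ 2 := by positivity
    have h4 : (‖x‖⁻¹) ^ 2 * B3 t x x * ‖x‖ ^ 2 ≤ M3 t * ‖x‖ ^ 2 :=
      mul_le_mul_of_nonneg_right h2 h3.le
    have h5 : (‖x‖⁻¹) ^ 2 * B3 t x x * ‖x‖ ^ 2 = B3 t x x := by
      field_simp
    linarith

theorem lin_zero {α β : ℝ} (h : ∀ s : ℝ, 0 ≤ 2 * s * α + s ^ 2 * β) : α = 0 := by
  by_contra hα
  have hb : 0 < |β| + 1 := by positivity
  have h1 := h (-α / (|β| + 1))
  have h2 : 2 * (-α / (|β| + 1)) * α + (-α / (|β| + 1)) ^ 2 * β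
      = (-(2 * α ^ 2 * (|β| + 1)) + α ^ 2 * β) / (|β| + 1) ^ 2 := by
    field_simp
  rw [h2] at h1
  have h3 : 0 < α ^ 2 := by positivity
  have h4 : 0 < (|β| + 1) ^ 2 := by positivity
  rw [le_div_iff₀ h4, zero_mul] at h1
  nlinarith [le_abs_self β, abs_nonneg β]

theorem B3_ev3 (t : Fin 5 → ℝ) (y : E3) : B3 t (ev3 t) y = M3 t * ⟪ev3 t, y⟫ := by
  have h : ∀ s : ℝ, 0 ≤ 2 * s * (M3 t * ⟪ev3 t, y⟫ - B3 t (ev3 t) y)
      + s ^ 2 * (M3 t * ‖y‖ ^ 2 - B3 t y y) := by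
    intro s
    have h1 := B3_le_M3' t (ev3 t + s • y)
    have h2 : ‖ev3 t + s • y‖ ^ 2 = 1 + 2 * s * ⟪ev3 t, y⟫ + s ^ 2 * ‖y‖ ^ 2 := by
      have h0 : ‖ev3 t‖ ^ 2 = 1 := by rw [norm_ev3]; norm_num
      rw [normsq3] at h0
      rw [normsq3, normsq3, inner3]
      simp only [PiLp.add_apply, PiLp.smul_apply, smul_eq_mul]
      linear_combination h0
    have h3 : B3 t (ev3 t + s • y) (ev3 t + s • y)
        = M3 t + 2 * s * B3 t (ev3 t) y + s ^ 2 * B3 t y y := by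
      simp only [M3, B3, PiLp.add_apply, PiLp.smul_apply, smul_eq_mul]
      ring
    rw [h2, h3] at h1
    nlinarith
  have := lin_zero h
  linarith

set_option maxHeartbeats 1000000 in
/-- trace identity in an orthonormal frame -/
theorem trace_frame (t : Fin 5 → ℝ) {x z : E3} (hx : ‖x‖ = 1) (hz : ‖z‖ = 1) (hxz : ⟪x, z⟫ = 0) :
    ∃ w : E3, ‖w‖ = 1 ∧ B3 t x x + B3 t z z + B3 t w w = 0 := by
  have hx2 : x 0 ^ 2 + x 1 ^ 2 + x 2 ^ 2 = 1 := by rw [← normsq3, hx]; norm_num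
  have hz2 : z 0 ^ 2 + z 1 ^ 2 + z 2 ^ 2 = 1 := by rw [← normsq3, hz]; norm_num
  have h0 : x 0 * z 0 + x 1 * z 1 + x 2 * z 2 = 0 := by rw [← inner3]; exact hxz
  let w : E3 := WithLp.toLp 2 ![x 1 * z 2 - x 2 * z 1, x 2 * z 0 - x 0 * z 2, x 0 * z 1 - x 1 * z 0]
  have w0 : w 0 = x 1 * z 2 - x 2 * z 1 := rfl
  have w1 : w 1 = x 2 * z 0 - x 0 * z 2 := rfl
  have w2 : w 2 = x 0 * z 1 - x 1 * z 0 := rfl
  have hw2 : w 0 ^ 2 + w 1 ^ 2 + w 2 ^ 2 = 1 := by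
    rw [w0, w1, w2]
    have : (x 1 * z 2 - x 2 * z 1) ^ 2 + (x 2 * z 0 - x 0 * z 2) ^ 2 + (x 0 * z 1 - x 1 * z 0) ^ 2
      = (x 0 ^ 2 + x 1 ^ 2 + x 2 ^ 2) * (z 0 ^ 2 + z 1 ^ 2 + z 2 ^ 2)
        - (x 0 * z 0 + x 1 * z 1 + x 2 * z 2) ^ 2 := by ring
    rw [this, hx2, hz2, h0]; norm_num
  have hxw : x 0 * w 0 + x 1 * w 1 + x 2 * w 2 = 0 := by rw [w0, w1, w2]; ring
  have hzw : z 0 * w 0 + z 1 * w 1 + z 2 * w 2 = 0 := by rw [w0, w1, w2]; ring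
  -- rows orthonormal => columns orthonormal
  let A : Matrix (Fin 3) (Fin 3) ℝ := !![x 0, x 1, x 2; z 0, z 1, z 2; w 0, w 1, w 2]
  have hA : A * A.transpose = 1 := by
    ext i j
    fin_cases i <;> fin_cases j <;>
      simp [A, Matrix.mul_apply, Fin.sum_univ_three] <;>
      first
        | linear_combination hx2
        | linear_combination hz2
        | linear_combination hw2
        | linear_combination h0
        | linear_combination hxw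
        | linear_combination hzw
  have hA' : A.transpose * A = 1 := mul_eq_one_comm.mp hA
  have e00 := congrFun (congrFun hA' 0) 0
  have e11 := congrFun (congrFun hA' 1) 1
  have e22 := congrFun (congrFun hA' 2) 2
  have e01 := congrFun (congrFun hA' 0) 1
  have e02 := congrFun (congrFun hA' 0) 2
  have e12 := congrFun (congrFun hA' 1) 2
  simp [A, Matrix.mul_apply, Fin.sum_univ_three] at e00 e11 e22 e01 e02 e12
  refine ⟨w, ?_, ?_⟩
  · have : ‖w‖ ^ 2 = 1 := by rw [normsq3]; exact hw2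
    exact (pow_eq_one_iff_of_nonneg (norm_nonneg w) two_ne_zero).mp this
  · simp only [B3]
    linear_combination (t 0) * e00 - (t 0 + t 1) * e22 + (t 1) * e11 + 2 * (t 2) * e01
      + 2 * (t 3) * e02 + 2 * (t 4) * e12

/-- the quadratic form on the complement of the top eigenvector -/
theorem B3_perp (t : Fin 5 → ℝ) {z : E3} (hz : ⟪ev3 t, z⟫ = 0) :
    B3 t z z ≤ (M3 (-t) - M3 t) * ‖z‖ ^ 2 := by
  by_cases h : z = 0
  · subst h; simp [B3]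
  · have hn : ‖z‖ ≠ 0 := by simpa using h
    have h1 : ‖(‖z‖⁻¹ • z)‖ = 1 := by
      rw [norm_smul, norm_inv, norm_norm, inv_mul_cancel₀ hn]
    have h2 : ⟪ev3 t, ‖z‖⁻¹ • z⟫ = 0 := by rw [inner_smul_right, hz, mul_zero]
    obtain ⟨w, hw, htr⟩ := trace_frame t (norm_ev3 t) h1 h2
    have h3 := B3_le_M3 (-t) hw
    rw [B3_neg] at h3
    rw [B3_smul] at htr
    have h4 : M3 t + (‖z‖⁻¹) ^ 2 * B3 t z z + B3 t w w = 0 := htr
    have h5 : (‖z‖⁻¹) ^ 2 * B3 t z z ≤ M3 (-t) - M3 t := by linarith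
    have h6 : 0 < ‖z‖ ^ 2 := by positivity
    have h7 := mul_le_mul_of_nonneg_right h5 h6.le
    have h8 : (‖z‖⁻¹) ^ 2 * B3 t z z * ‖z‖ ^ 2 = B3 t z z := by field_simp
    linarith

/-- lower bound for the top eigenvalue -/
theorem M3_lower (t : Fin 5 → ℝ) (h : M3 (-t) ≤ M3 t) : ∑ i, |t i| ≤ 5 * M3 t := by
  have hq : ∀ x : E3, ‖x‖ = 1 → |B3 t x x| ≤ M3 t := by
    intro x hx
    rw [abs_le]
    constructor
    · have := B3_le_M3 (-t) hx
      rw [B3_neg] at this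
      linarith
    · exact B3_le_M3 t hx
  have nn : ∀ a b c : ℝ, a ^ 2 + b ^ 2 + c ^ 2 = 1 →
      ‖(WithLp.toLp 2 ![a, b, c] : E3)‖ = 1 := by
    intro a b c h
    have h1 : ‖(WithLp.toLp 2 ![a, b, c] : E3)‖ ^ 2 = 1 := by
      rw [normsq3]; exact h
    exact (pow_eq_one_iff_of_nonneg (norm_nonneg _) two_ne_zero).mp h1
  obtain ⟨r, hr0, hr⟩ : ∃ r : ℝ, 0 ≤ r ∧ r ^ 2 = 1 / 2 :=
    ⟨Real.sqrt (1 / 2), Real.sqrt_nonneg _, Real.sq_sqrt (by norm_num)⟩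
  have q0 := hq _ (nn 1 0 0 (by norm_num))
  have q1 := hq _ (nn 0 1 0 (by norm_num))
  have a1 := hq _ (nn r r 0 (by rw [hr]; norm_num))
  have a2 := hq _ (nn r (-r) 0 (by rw [neg_sq, hr]; norm_num))
  have b1 := hq _ (nn r 0 r (by rw [hr]; norm_num))
  have b2 := hq _ (nn r 0 (-r) (by rw [neg_sq, hr]; norm_num))
  have c1 := hq _ (nn 0 r r (by rw [hr]; norm_num))
  have c2 := hq _ (nn 0 r (-r) (by rw [neg_sq, hr]; norm_num))
  simp [B3] at q0 q1 a1 a2 b1 b2 c1 c2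
  rw [abs_le] at a1 a2 b1 b2 c1 c2
  have h2 : |t 2| ≤ M3 t := by
    rw [abs_le]; constructor <;> nlinarith
  have h3 : |t 3| ≤ M3 t := by
    rw [abs_le]; constructor <;> nlinarith
  have h4 : |t 4| ≤ M3 t := by
    rw [abs_le]; constructor <;> nlinarith
  rw [Fin.sum_univ_five]
  linarith

theorem M3_close (t t' : Fin 5 → ℝ) : M3 t - 10 * ‖t - t'‖ ≤ M3 t' := by
  have h1 := B3_bound (t - t') (norm_ev3 t) (norm_ev3 t)
  rw [B3_sub] at h1
  have h2 := B3_le_M3 t' (norm_ev3 t)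
  have h3 := (abs_le.mp h1).2
  have h4 : M3 t = B3 t (ev3 t) (ev3 t) := rfl
  linarith

/-- top eigenvectors of nearby top-heavy matrices are close up to sign -/
theorem top_top {t t' : Fin 5 → ℝ} (h1 : ∑ i, |t i| = 1) (h : M3 (-t) ≤ M3 t) :
    1 - 100 * ‖t - t'‖ ≤ ⟪ev3 t, ev3 t'⟫ ^ 2 := by
  have hM : 1 ≤ 5 * M3 t := by rw [← h1]; exact M3_lower t h
  set α := ⟪ev3 t, ev3 t'⟫ with hα
  let z : E3 := ev3 t' - α • ev3 t
  have hn : ⟪ev3 t, ev3 t⟫ = 1 := by rw [real_inner_self_eq_norm_sq, norm_ev3]; norm_num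
  have hz : ⟪ev3 t, z⟫ = 0 := by
    simp only [z, inner_sub_right, inner_smul_right, hn]
    rw [← hα]; ring
  have hzz := B3_perp t hz
  have hz0 : B3 t z z ≤ 0 := by
    have : (M3 (-t) - M3 t) * ‖z‖ ^ 2 ≤ 0 :=
      mul_nonpos_of_nonpos_of_nonneg (by linarith) (by positivity)
    linarith
  have hexp : B3 t z z = B3 t (ev3 t') (ev3 t') - 2 * α * B3 t (ev3 t) (ev3 t')
      + α ^ 2 * B3 t (ev3 t) (ev3 t) := by
    simp only [z, B3, PiLp.sub_apply, PiLp.smul_apply, smul_eq_mul]; ring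
  rw [B3_ev3, B3_ev3, hn, ← hα] at hexp
  have h3 := B3_bound (t - t') (norm_ev3 t') (norm_ev3 t')
  rw [B3_sub] at h3
  have h4 := (abs_le.mp h3).1
  have h5 : M3 t' = B3 t' (ev3 t') (ev3 t') := rfl
  have h6 := M3_close t t'
  have h7 : M3 t - 20 * ‖t - t'‖ ≤ α ^ 2 * M3 t := by nlinarith
  have h8 : 0 ≤ ‖t - t'‖ := norm_nonneg _
  have h9 : 0 < M3 t := by linarith
  by_contra hcon
  push Not at hcon
  have h10 : α ^ 2 * M3 t < (1 - 100 * ‖t - t'‖) * M3 t := mul_lt_mul_of_pos_right hcon h9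
  nlinarith

/-- top eigenvector of a top-heavy matrix against the bottom eigenvector of a nearby
bottom-heavy one -/
theorem top_bot {t t' : Fin 5 → ℝ} (h1 : ∑ i, |t i| = 1) (h : M3 (-t) ≤ M3 t)
    (h1' : ∑ i, |t' i| = 1) (h' : M3 t' ≤ M3 (-t')) :
    |⟪ev3 t, ev3 (-t')⟫| ≤ 25 * ‖t - t'‖ := by
  have hM : 1 ≤ 5 * M3 t := by rw [← h1]; exact M3_lower t h
  have hM' : 1 ≤ 5 * M3 (-t') := by
    have := M3_lower (-t') (by rw [neg_neg]; exact h')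
    simp only [Pi.neg_apply, abs_neg, h1'] at this
    exact this
  have e1 := B3_ev3 t (ev3 (-t'))
  have e2 := B3_ev3 (-t') (ev3 t)
  rw [B3_neg, B3_comm, real_inner_comm] at e2
  have h3 := B3_bound (t - t') (norm_ev3 t) (norm_ev3 (-t'))
  rw [B3_sub, e1] at h3
  have e3 : B3 t' (ev3 t) (ev3 (-t')) = -(M3 (-t') * ⟪ev3 t, ev3 (-t')⟫) := by linarith
  rw [e3] at h3
  have h4 : (M3 t + M3 (-t')) * |⟪ev3 t, ev3 (-t')⟫| ≤ 10 * ‖t - t'‖ := by
    have : M3 t * ⟪ev3 t, ev3 (-t')⟫ - -(M3 (-t') * ⟪ev3 t, ev3 (-t')⟫)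
        = (M3 t + M3 (-t')) * ⟪ev3 t, ev3 (-t')⟫ := by ring
    rw [this, abs_mul, abs_of_pos (by linarith : 0 < M3 t + M3 (-t'))] at h3
    exact h3
  have h5 := abs_nonneg ⟪ev3 t, ev3 (-t')⟫
  have h8 : 0 ≤ ‖t - t'‖ := norm_nonneg _
  nlinarith

theorem close_of_inner_sq {x y : E3} (hx : ‖x‖ = 1) (hy : ‖y‖ = 1) {d : ℝ}
    (h : 1 - d ≤ ⟪x, y⟫ ^ 2) : ‖x - y‖ ^ 2 ≤ 2 * d ∨ ‖x + y‖ ^ 2 ≤ 2 * d := by
  have h1 : ‖x - y‖ ^ 2 = 2 - 2 * ⟪x, y⟫ := by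
    rw [norm_sub_sq_real, hx, hy]; ring
  have h2 : ‖x + y‖ ^ 2 = 2 + 2 * ⟪x, y⟫ := by
    rw [norm_add_sq_real, hx, hy]; ring
  have h3 : |⟪x, y⟫| ≤ 1 := by
    have := abs_real_inner_le_norm x y
    rwa [hx, hy, mul_one] at this
  rw [abs_le] at h3
  rcases le_total 0 ⟪x, y⟫ with h0 | h0
  · left; rw [h1]; nlinarith
  · right; rw [h2]; nlinarith

/-- an odd function on any type with an involution -/
theorem exists_odd {V : Type*} (T : V → V) (hT : ∀ v, T (T v) = v) :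
    ∃ o : V → ZMod 2, ∀ v, T v ≠ v → o (T v) = o v + 1 := by
  classical
  refine ⟨fun v => if WellOrderingRel v (T v) then 0 else 1, fun v hv => ?_⟩
  simp only [hT]
  rcases trichotomous_of WellOrderingRel v (T v) with h | h | h
  · have h' : ¬ WellOrderingRel (T v) v := fun h' => asymm_of WellOrderingRel h h'
    simp [h, h']
  · exact absurd h.symm hv
  · have h' : ¬ WellOrderingRel v (T v) := fun h' => asymm_of WellOrderingRel h h'
    simp only [h, h', if_true, if_false]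
    decide

/-- the label lemma -/
theorem exists_label : ∃ (a : (Fin 5 → ℝ) → ZMod 2),
    (∀ t, t ≠ 0 → a (-t) = a t + 1) ∧ (∀ t, a t = 0 → M3 (-t) ≤ M3 t) ∧
    (∀ t, a t = 1 → M3 t ≤ M3 (-t)) := by
  classical
  obtain ⟨o, ho⟩ := exists_odd (fun t : Fin 5 → ℝ => -t) (fun t => neg_neg t)
  refine ⟨fun t => if M3 (-t) < M3 t then 0 else if M3 t < M3 (-t) then 1 else o t, ?_, ?_, ?_⟩
  · intro t ht
    have ht' : -t ≠ t := by
      intro h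
      apply ht
      exact self_eq_neg.mp h.symm
    simp only [neg_neg]
    rcases lt_trichotomy (M3 (-t)) (M3 t) with h | h | h
    · have h2 : ¬ M3 t < M3 (-t) := not_lt.mpr h.le
      simp [h, h2]
    · simp [h, ho t ht']
    · have h2 : ¬ M3 (-t) < M3 t := not_lt.mpr h.le
      simp only [h, h2, if_true, if_false]
      decide
  · intro t h
    by_contra hcon
    push Not at hcon
    have h2 : ¬ M3 (-t) < M3 t := not_lt.mpr hcon.le
    simp [hcon, h2] at h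
  · intro t h
    by_contra hcon
    push Not at hcon
    simp [hcon] at h

/-- The eigenvector label lemma: unit vectors `e t` and signs `a t`. -/
theorem eig_label : ∃ (e : (Fin 5 → ℝ) → E3) (a : (Fin 5 → ℝ) → ZMod 2),
    (∀ t, ‖e t‖ = 1) ∧ (∀ t, t ≠ 0 → a (-t) = a t + 1) ∧
    ∀ η : ℝ, 0 < η → ∃ ε : ℝ, 0 < ε ∧ ∀ t t' : Fin 5 → ℝ, ∑ i, |t i| = 1 → ∑ i, |t' i| = 1 →
      ‖t - t'‖ ≤ ε →
      (a t = 0 → a t' = 0 → ‖e t - e t'‖ ≤ η ∨ ‖e t + e t'‖ ≤ η) ∧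
      (a t = 0 → a t' = 1 → |⟪e t, e (-t')⟫| ≤ η) := by
  obtain ⟨a, ha, h0, h1⟩ := exists_label
  refine ⟨ev3, a, norm_ev3, ha, fun η hη => ?_⟩
  refine ⟨min (η ^ 2 / 200) (η / 25), by positivity, fun t t' ht ht' hε => ⟨fun at0 at0' => ?_,
    fun at0 at1' => ?_⟩⟩
  · have h2 := top_top (t' := t') ht (h0 t at0)
    have h3 : ‖t - t'‖ ≤ η ^ 2 / 200 := hε.trans (min_le_left _ _)
    rcases close_of_inner_sq (norm_ev3 t) (norm_ev3 t') h2 with h | h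
    · left
      have h4 : ‖ev3 t - ev3 t'‖ ^ 2 ≤ η ^ 2 := by linarith
      exact (sq_le_sq₀ (norm_nonneg _) hη.le).mp h4
    · right
      have h4 : ‖ev3 t + ev3 t'‖ ^ 2 ≤ η ^ 2 := by linarith
      exact (sq_le_sq₀ (norm_nonneg _) hη.le).mp h4
  · have h2 := top_bot ht (h0 t at0) ht' (h1 t' at1')
    have h3 : ‖t - t'‖ ≤ η / 25 := hε.trans (min_le_right _ _)
    linarith

end Crest.Agent.S69
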