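import Crest.Agent.S69.EndSat

set_option autoImplicit false
set_option maxRecDepth 100000

namespace Crest.Agent.S69.EndSat

def trA : Tr := .nd (.nd (.nd (.nd (.nd (.nd (.nd (.nd (.nd (.lf [63,28]) (.lf [3619,388,392,448])) (.nd (.lf [427,3089,3137,3585]) (.lf [177,3602]))) (.nd (.nd (.lf [183,176]) (.lf [543])) (.nd (.lf [3603,100,392]) (.lf [])))) (.nd (.nd (.nd (.lf [2079,800,1216]) (.lf [3201])) (.nd (.lf [1587,140,2368]) (.lf []))) (.nd (.nd (.lf [2823,113,225,1121]) (.lf [159])) (.nd (.lf [2851,29,77,1037]) (.lf []))))) (.nd (.nd (.nd (.nd (.lf [63,1600,1664,1792]) (.lf [2078])) (.nd (.lf [3595,388,112]) (.lf [148]))) (.nd (.nd (.lf [1559,352,448,2368]) (.lf [800])) (.nd (.lf [2467,524,1104]) (.lf [])))) (.nd (.nd (.nd (.lf [335,1569,1665,3585]) (.lf [2403])) (.nd (.lf [1427,584,608,2624]) (.lf []))) (.nd (.nd (.lf [603,417,1409,2433]) (.lf [77,2467,3619])) (.nd (.lf [2851,1037,1054,1070,1102,1166,1294,1550,3086]) (.lf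 [])))))) (.nd (.nd (.nd (.nd (.nd (.lf [63,1601,2433]) (.lf [963,29,45,2061])) (.nd (.lf [2827,2312]) (.lf [2575]))) (.nd (.nd (.lf [2135,393,1569]) (.lf [1443])) (.nd (.lf [2403,29,1665]) (.lf [])))) (.nd (.nd (.nd (.lf [2079,1569,1574,1578,1586,1634,1698,1826,3618]) (.lf [2723])) (.nd (.lf [1363,45,525,2061]) (.lf []))) (.nd (.nd (.lf [3591,153,158,186,218,410,666,1178,2202]) (.lf [1303])) (.nd (.lf [2851,149,209,1169]) (.lf []))))) (.nd (.nd (.nd (.nd (.lf [287,225,3585]) (.lf [1859])) (.nd (.lf [435,1036,2624]) (.lf [1587]))) (.nd (.nd (.lf [807,88,3200]) (.lf [1103])) (.nd (.lf [2723,2688]) (.lf [])))) (.nd (.nd (.nd (.lf [1167,801,833,2817]) (.lf [95])) (.nd (.lf [2835,2320]) (.lf []))) (.nd (.nd (.lf [2203,1569,1574,1578,1586,1634,1698,1826,3618]) (.lf [3619])) (.nd (.lf [3619,84,392]) (.lf []))))))) (.nd (.nd (.nd (.nd (.nd (.nd (.lf [63,2241,1793]) (.lf [3619,85,94,118,214,342,598,1110,2134])) (.nd (.lf [1579,148,2368])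 (.lf [2151]))) (.nd (.nd (.lf [343,1569,1665,3585]) (.lf [1563])) (.nd (.lf [2275,29,269,1037]) (.lf [])))) (.nd (.nd (.nd (.lf [2079,1313,1345,1409]) (.lf [3584])) (.nd (.lf [851,45,141,2061]) (.lf []))) (.nd (.nd (.lf [3591,104,400]) (.lf [655])) (.nd (.lf [2851,141,149,197]) (.lf []))))) (.nd (.nd (.nd (.nd (.lf [63,2817,2822,2826,2834,2850,2882,2946,3842]) (.lf [28])) (.nd (.lf [371,2061,1665]) (.lf [153]))) (.nd (.nd (.lf [423,1048,2624]) (.lf [791])) (.nd (.lf [2467,533,542,566,598,662,790,1558,2582]) (.lf [])))) (.nd (.nd (.nd (.lf [2127,305,1665]) (.lf [449])) (.nd (.lf [1683,269,286,302,334,398,782,1294,2318]) (.lf []))) (.nd (.nd (.lf [411,608,1600,2624]) (.lf [76,2851,3619])) (.nd (.lf [2851,1169,1174,1178,1202,1234,1426,1682,3218]) (.lf [])))))) (.nd (.nd (.nd (.nd (.nd (.lf [63,2241,2433,2689]) (.lf [2947,2688])) (.nd (.lf [2827,85,94,118,214,342,598,1110,2134]) (.lf [187]))) (.nd (.nd (.lf [2199,2180]) (.lf [1235]))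 (.nd (.lf [931,672]) (.lf [])))) (.nd (.nd (.nd (.lf [303,1105,1169,1553]) (.lf [3219])) (.nd (.lf [3155,268,672]) (.lf []))) (.nd (.nd (.lf [571,389,3137]) (.lf [411])) (.nd (.lf [2851,1049,1105,1169]) (.lf []))))) (.nd (.nd (.nd (.nd (.lf [2079,224,1792]) (.lf [3843])) (.nd (.lf [2227,268,1600]) (.lf []))) (.nd (.nd (.lf [839,1168,1184,3200]) (.lf [591])) (.nd (.lf [2851,77,1169]) (.lf [])))) (.nd (.nd (.nd (.lf [1551,352,448,2368]) (.lf [343])) (.nd (.lf [2835,77,94,110,206,334,590,1102,2126]) (.lf []))) (.nd (.nd (.lf [2587,389,1121]) (.lf [2823])) (.nd (.lf [3619,29,77,141]) (.lf [])))))))) (.nd (.nd (.nd (.nd (.nd (.nd (.nd (.lf [63,449,3585]) (.lf [3619,392,400,448])) (.nd (.lf [811,296]) (.lf [819]))) (.nd (.nd (.lf [1079,585,2433]) (.lf [1551])) (.nd (.lf [483,29,3585]) (.lf [])))) (.nd (.nd (.nd (.lf [2079,225,417,1185]) (.lf [1619])) (.nd (.lf [1235,45,2817]) (.lf []))) (.nd (.nd (.lf [3591,89,417]) (.lf [1175]))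 (.nd (.lf [2851,76,140,1036]) (.lf []))))) (.nd (.nd (.nd (.nd (.lf [63,2625,2817,3585]) (.lf [2432])) (.nd (.lf [3595,336,352,448]) (.lf [196]))) (.nd (.nd (.lf [3095,585,417]) (.lf [704])) (.nd (.lf [2467,532,536,1552]) (.lf [])))) (.nd (.nd (.nd (.lf [1103,672,896,2688]) (.lf [353])) (.nd (.lf [1683,268,2144]) (.lf []))) (.nd (.nd (.lf [2139,293,1665]) (.lf [2467,2851,3619])) (.nd (.lf [2851,1049,1054,1082,1114,1178,1306,1562,3098]) (.lf [])))))) (.nd (.nd (.nd (.nd (.nd (.lf [63,1216,1600,3136]) (.lf [2883,2368])) (.nd (.lf [2827,101,225,1121]) (.lf [177]))) (.nd (.nd (.lf [663,1121,1345,3137]) (.lf [3329])) (.nd (.lf [2659,2624]) (.lf [])))) (.nd (.nd (.nd (.lf [111,2192,1792]) (.lf [3715])) (.nd (.lf [2387,45,1665]) (.lf []))) (.nd (.nd (.lf [123,2309,1665]) (.lf [399])) (.nd (.lf [2851,1044,1048,1104]) (.lf []))))) (.nd (.nd (.nd (.nd (.lf [1055,352,2688]) (.lf [1827])) (.nd (.lf [1203,2061,833]) (.lf []))) (.nd (.nd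 (.lf [1575,2185,337]) (.lf [1115])) (.nd (.lf [1827,29,2241]) (.lf [])))) (.nd (.nd (.nd (.lf [1295,225,705,2241]) (.lf [1185])) (.nd (.lf [2835,101,225,1121]) (.lf []))) (.nd (.nd (.lf [1307,225,705,2241]) (.lf [2823,389])) (.nd (.lf [3619,388,88]) (.lf []))))))) (.nd (.nd (.nd (.nd (.nd (.nd (.lf [63,1344,2688]) (.lf [3619,337,342,346,370,466,850,1362,2386])) (.nd (.lf [1579,2193,2241,2433]) (.lf [400]))) (.nd (.nd (.lf [1111,672,896,2688]) (.lf [931])) (.nd (.lf [2275,785,790,794,818,850,914,1810,2834]) (.lf [])))) (.nd (.nd (.nd (.lf [2079,417,422,426,434,482,930,1442,2466]) (.lf [416])) (.nd (.lf [851,2209,2214,2218,2226,2274,2466,2722,3234]) (.lf []))) (.nd (.nd (.lf [3591,177,225,417]) (.lf [667])) (.nd (.lf [2851,141,153,201]) (.lf []))))) (.nd (.nd (.nd (.nd (.lf [95,417,3585]) (.lf [2060])) (.nd (.lf [2163,1036,896]) (.lf [2180]))) (.nd (.nd (.lf [2215,337,833,1345]) (.lf [2659])) (.nd (.lf [2467,1553,1558,1562,1586,1618,1682,1810,3602])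 (.lf [])))) (.nd (.nd (.nd (.lf [399,608,1600,2624]) (.lf [467])) (.nd (.lf [3219,3200]) (.lf []))) (.nd (.nd (.lf [1179,801,833,2817]) (.lf [77,3619])) (.nd (.lf [3619,77,401]) (.lf [])))))) (.nd (.nd (.nd (.nd (.nd (.lf [63,833,897,2817]) (.lf [3843,1792])) (.nd (.lf [3595,148,352]) (.lf [3594]))) (.nd (.nd (.lf [791,1184,1216,3200]) (.lf [3136])) (.nd (.lf [2467,76,1552]) (.lf [])))) (.nd (.nd (.nd (.lf [1071,400,2624]) (.lf [832])) (.nd (.lf [1427,400]) (.lf []))) (.nd (.nd (.lf [219,1312,1792,3328]) (.lf [215])) (.nd (.lf [2851,1096,1104,1216]) (.lf []))))) (.nd (.nd (.nd (.nd (.lf [2079,609,1409]) (.lf [1601])) (.nd (.lf [819,76,3200]) (.lf []))) (.nd (.nd (.lf [2823,88,1184]) (.lf [603])) (.nd (.lf [2851,141,1105]) (.lf [])))) (.nd (.nd (.nd (.lf [3087,400,608]) (.lf [1203])) (.nd (.lf [3603,77,417]) (.lf []))) (.nd (.nd (.lf [2155,1169,1409,1665]) (.lf [2835])) (.nd (.lf [3619,76,140,268]) (.lf []))))))))) (.nd (.nd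 (.nd (.nd (.nd (.nd (.nd (.nd (.lf [63,44]) (.lf [3619,388,400,448])) (.nd (.lf [2219,337,833,1345]) (.lf [77]))) (.nd (.nd (.lf [567,393,3137]) (.lf [1055])) (.nd (.lf [3603,388,104]) (.lf [])))) (.nd (.nd (.nd (.lf [2079,225,417,673]) (.lf [1635])) (.nd (.lf [467,45,3585]) (.lf []))) (.nd (.nd (.lf [2823,89,94,122,218,346,602,1114,2138]) (.lf [1167])) (.nd (.lf [2851,29,141,1037]) (.lf []))))) (.nd (.nd (.nd (.nd (.lf [63,1600,1792,3584]) (.lf [2240])) (.nd (.lf [3595,177,225,417]) (.lf [336]))) (.nd (.nd (.lf [2583,393,1121]) (.lf [1120])) (.nd (.lf [2467,76,524,1036]) (.lf [])))) (.nd (.nd (.nd (.lf [591,417,1409,2433]) (.lf [2387])) (.nd (.lf [2451,1093,1097,1121]) (.lf []))) (.nd (.nd (.lf [1115,672,896,2688]) (.lf [1105,2467,2851,3619])) (.nd (.lf [2851,1045,1054,1078,1110,1174,1302,1558,3094]) (.lf [])))))) (.nd (.nd (.nd (.nd (.nd (.lf [63,448,704,1216]) (.lf [1859,29,45,2061])) (.nd (.lf [2827,84,1184]) (.lf [3603])))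 (.nd (.nd (.lf [407,608,1600,2624]) (.lf [1217])) (.nd (.lf [1635,29,2433]) (.lf [])))) (.nd (.nd (.nd (.lf [111,401,3585]) (.lf [2947])) (.nd (.lf [1363,2209,2214,2218,2226,2274,2466,2722,3234]) (.lf []))) (.nd (.nd (.lf [123,389,3585]) (.lf [1307])) (.nd (.lf [2851,153,209,1169]) (.lf []))))) (.nd (.nd (.nd (.nd (.lf [543,352,3200]) (.lf [1793])) (.nd (.lf [435,1093,1097,3137]) (.lf [1579]))) (.nd (.nd (.lf [1575,152,2368]) (.lf [1111])) (.nd (.lf [3235,3200]) (.lf [])))) (.nd (.nd (.nd (.lf [783,1184,1216,3200]) (.lf [673])) (.nd (.lf [2835,76,1184]) (.lf []))) (.nd (.nd (.lf [795,1184,1216,3200]) (.lf [2827,3594,392])) (.nd (.lf [3619,85,393]) (.lf []))))))) (.nd (.nd (.nd (.nd (.nd (.nd (.lf [63,832,3200]) (.lf [3619,89,94,122,218,346,602,1114,2138])) (.nd (.lf [1579,2181,337]) (.lf [2155]))) (.nd (.nd (.lf [599,417,1409,2433]) (.lf [867])) (.nd (.lf [2275,268,524,1036]) (.lf [])))) (.nd (.nd (.nd (.lf [2079,1568,1600,1792])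 (.lf [3651])) (.nd (.lf [851,45,1037,2061]) (.lf []))) (.nd (.nd (.lf [3591,392,112]) (.lf [663])) (.nd (.lf [2851,76,88,200]) (.lf []))))) (.nd (.nd (.nd (.nd (.lf [63,3585,3590,3594,3602,3618,3650,3714,3842]) (.lf [44])) (.nd (.lf [1139,268,2688]) (.lf [141]))) (.nd (.nd (.lf [423,3089,3137,3585]) (.lf [795])) (.nd (.lf [2467,537,542,570,602,666,794,1562,2586]) (.lf [])))) (.nd (.nd (.nd (.lf [2127,401,1569]) (.lf [483])) (.nd (.lf [1683,2145,2150,2154,2162,2274,2402,2658,3170]) (.lf []))) (.nd (.nd (.lf [667,1121,1345,3137]) (.lf [2851,3619])) (.nd (.lf [3619,76,400]) (.lf [])))))) (.nd (.nd (.nd (.nd (.nd (.lf [63,2241,2433,3201]) (.lf [3715,2688])) (.nd (.lf [3595,85,417]) (.lf [3591]))) (.nd (.nd (.lf [2199,1569,1574,1578,1586,1634,1698,1826,3618]) (.lf [897])) (.nd (.lf [1443,1184]) (.lf [])))) (.nd (.nd (.nd (.lf [559,401,3137]) (.lf [3235])) (.nd (.lf [915,896]) (.lf []))) (.nd (.nd (.lf [1083,581,2433]) (.lf [207]))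 (.nd (.lf [2851,1092,1104,1216]) (.lf []))))) (.nd (.nd (.nd (.nd (.lf [2079,353,1665]) (.lf [224])) (.nd (.lf [819,304]) (.lf []))) (.nd (.nd (.lf [2823,2308]) (.lf [599])) (.nd (.lf [2851,140,1104]) (.lf [])))) (.nd (.nd (.nd (.lf [2575,401,1121]) (.lf [347])) (.nd (.lf [3603,3088]) (.lf []))) (.nd (.nd (.lf [3099,581,417]) (.lf [2827])) (.nd (.lf [3619,29,77,269]) (.lf [])))))))) (.nd (.nd (.nd (.nd (.nd (.nd (.nd (.lf [63,1217,2817]) (.lf [3619,77,94,110,206,334,590,1102,2126])) (.nd (.lf [811,84,3200]) (.lf [1168]))) (.nd (.nd (.lf [215,1312,1792,3328]) (.lf [1559])) (.nd (.lf [2275,1036,784]) (.lf [])))) (.nd (.nd (.nd (.lf [2079,1120,1216,1600]) (.lf [1664])) (.nd (.lf [851,1036,2208]) (.lf []))) (.nd (.nd (.lf [3591,152,352]) (.lf [1179])) (.nd (.lf [2851,76,84,196]) (.lf []))))) (.nd (.nd (.nd (.nd (.lf [63,833,838,842,850,866,962,1858,2882]) (.lf [2816])) (.nd (.lf [3595,149,158,182,214,406,662,1174,2198]) (.lf [2198])))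 (.nd (.nd (.lf [2151,1169,1409,1665]) (.lf [783])) (.nd (.lf [2467,525,542,558,590,654,782,1550,2574]) (.lf [])))) (.nd (.nd (.nd (.lf [2127,176,1792]) (.lf [371])) (.nd (.lf [1683,45,269,2061]) (.lf []))) (.nd (.nd (.lf [2139,389,1569]) (.lf [1104,401,2851,3619])) (.nd (.lf [2851,1105,1110,1114,1138,1234,1362,1618,3154]) (.lf [])))))) (.nd (.nd (.nd (.nd (.nd (.lf [63,1216,1408,3200]) (.lf [3651,1600])) (.nd (.lf [2827,113,225,1121]) (.lf [183]))) (.nd (.nd (.lf [1175,801,833,2817]) (.lf [2625])) (.nd (.lf [3171,148,152,400]) (.lf [])))) (.nd (.nd (.nd (.lf [111,2321,1665]) (.lf [1344])) (.nd (.lf [1619,45,2433]) (.lf []))) (.nd (.nd (.lf [187,176]) (.lf [407])) (.nd (.lf [2851,1045,1105,1169]) (.lf []))))) (.nd (.nd (.nd (.nd (.lf [2079,2060]) (.lf [1811])) (.nd (.lf [2227,76,1792]) (.lf []))) (.nd (.nd (.lf [1575,2193,2241,2433]) (.lf [609])) (.nd (.lf [2851,76,1168]) (.lf [])))) (.nd (.nd (.nd (.lf [2319,1105,1169,1553])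 (.lf [335])) (.nd (.lf [2835,105,225,1121]) (.lf []))) (.nd (.nd (.lf [1563,352,448,2368]) (.lf [2835,401])) (.nd (.lf [3619,389,89]) (.lf []))))))) (.nd (.nd (.nd (.nd (.nd (.nd (.lf [63,2369,1665]) (.lf [3619,401,406,410,434,466,914,1426,2450])) (.nd (.lf [843,1168,1184,3200]) (.lf [559]))) (.nd (.nd (.lf [2135,297,1665]) (.lf [1699])) (.nd (.lf [867,352]) (.lf [])))) (.nd (.nd (.nd (.lf [2079,801,806,810,818,866,930,1826,2850]) (.lf [1568])) (.nd (.lf [1363,524,2208]) (.lf []))) (.nd (.nd (.lf [3591,336,352,448]) (.lf [1295])) (.nd (.lf [2851,149,153,1169]) (.lf []))))) (.nd (.nd (.nd (.nd (.lf [159,801,3137]) (.lf [963])) (.nd (.lf [435,525,3137]) (.lf [1575]))) (.nd (.nd (.lf [807,292]) (.lf [915])) (.nd (.lf [1699,672]) (.lf [])))) (.nd (.nd (.nd (.lf [655,1121,1345,3137]) (.lf [287])) (.nd (.lf [1811,45,2241]) (.lf []))) (.nd (.nd (.lf [2203,2184]) (.lf [393,3619])) (.nd (.lf [3619,140,336]) (.lf [])))))) (.nd (.nd (.nd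 (.nd (.nd (.lf [63,2433,2817,3329]) (.lf [62])) (.nd (.lf [3595,100,400]) (.lf [85]))) (.nd (.nd (.lf [1303,225,705,2241]) (.lf [1408])) (.nd (.lf [2467,77,1553]) (.lf [])))) (.nd (.nd (.nd (.lf [207,1312,1792,3328]) (.lf [2369])) (.nd (.lf [1427,580,608,2624]) (.lf []))) (.nd (.nd (.lf [347,1569,1665,3585]) (.lf [219])) (.nd (.lf [2851,77,94,110,206,334,590,1102,2126]) (.lf []))))) (.nd (.nd (.nd (.nd (.lf [2079,416,1600]) (.lf [2689])) (.nd (.lf [1587,77,2433]) (.lf []))) (.nd (.nd (.lf [2823,105,225,1121]) (.lf [1313])) (.nd (.lf [2851,1036,208]) (.lf [])))) (.nd (.nd (.nd (.lf [119,2313,1665]) (.lf [2883])) (.nd (.lf [3603,140,352]) (.lf []))) (.nd (.nd (.lf [427,1044,2624]) (.lf [2850])) (.nd (.lf [3619,389,393,401]) (.lf [])))))))))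

def inpA : List Inp := [.c2 15 7, .c2 15 11, .c3n 15 112 896, .c3n 15 304 704, .c3n 15 560 448, .c3p 15 208 800, .c3p 15 336 672, .c3n 15 592 416, .c3n 15 400 608, .c4p 15 4 5 6 7 8 112 176 304, .c4p 15 4 8 5 7 9 304 400 784, .c4p 15 5 8 4 6 9 304 352 800, .c4n 15 5 9 4 6 7 560 608 672, .c4n 15 5 9 4 6 8 560 608 800, .c4n 15 6 7 4 5 9 208 224 704, .c4n 15 6 9 5 7 8 608 704 832, .c4p 15 7 8 4 5 6 400 416 448, .c4p 15 7 8 4 6 9 400 448 896, .c4n 15 7 9 4 6 8 656 704 896, .c5 15 208, .c5 15 704, .c5 15 896, .c3n 23 104 896, .c3n 39 200 784, .c3n 71 56 896, .c3p 135 88 800, .c3p 263 88 672, .c2 519 515, .c3p 519 56 448, .c3n 519 88 416, .c3n 519 152 352, .c3p 519 104 400, .c3p 519 200 304, .c4n 519 3 5 4 6 7 56 104 168, .c4n 519 3 5 4 6 8 56 104 296, .c4p 519 4 8 3 5 7 280 304 400, .c4n 519 6 8 3 4 5 328 336 352, .c4p 519 7 8 3 4 6 392 400 448, .c5 519 104, .c5 519 200, .c5 519 392, .c3n 27 100 896, .c3p 27 548 448, .c3n 27 580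 416, .c4n 75 2 8 4 5 7 276 292 388, .c3n 139 100 784, .c3p 267 100 656, .c4p 51 6 8 3 7 9 328 448 832, .c4n 83 7 8 3 5 9 392 416 896, .c4n 147 5 6 3 8 9 104 352 608, .c4p 275 5 7 3 6 9 168 224 672, .c3p 531 44 448, .c3n 531 76 416, .c3n 531 100 392, .c4p 99 4 7 3 8 9 152 400 656, .c4n 163 4 8 3 6 9 280 336 784, .c4n 291 6 7 3 4 9 200 208 704, .c4p 195 5 8 3 4 9 296 304 800, .c4n 323 4 5 3 7 9 56 176 560, .c4n 579 2 8 4 5 7 276 292 388, .c4p 387 4 6 3 5 9 88 112 592, .c3n 643 100 280, .c3p 771 100 152, .c3n 29 578 416, .c2 45 44, .c3n 141 98 784, .c3n 269 146 608, .c4p 53 6 8 3 7 9 328 448 832, .c4n 85 7 8 3 5 9 392 416 896, .c4n 149 5 6 3 8 9 104 352 608, .c4p 277 5 7 3 6 9 168 224 672, .c3n 533 74 416, .c3n 533 98 392, .c4p 101 4 7 3 8 9 152 400 656, .c4n 165 4 8 3 6 9 280 336 784, .c4n 293 6 7 3 4 9 200 208 704, .c2 549 545, .c5 549 392, .c4p 197 5 8 3 4 9 296 304 800, .c4n 325 4 5 3 7 9 56 176 560, .c4p 389 4 6 3 5 9 88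 112 592, .c3n 645 98 280, .c3n 773 146 104, .c4n 537 5 8 2 6 7 292 352 416, .c3p 105 262 656, .c4n 105 8 9 2 4 7 772 784 896, .c4n 553 4 6 2 7 8 84 208 336, .c2 201 73, .c3p 201 22 800, .c3p 393 38 592, .c3n 393 546 84, .c4n 393 5 9 2 4 6 548 560 608, .c4p 209 5 8 2 3 9 292 296 800, .c2 705 577, .c3p 705 22 296, .c4n 705 3 4 1 5 8 26 56 280, .c4n 705 3 4 2 5 8 28 56 280, .c5 705 22, .c3n 897 22 104, .c3p 897 38 88, .c3p 897 26 100, .c3p 897 98 28, .c4n 897 3 5 2 4 6 44 56 104, .c4p 897 4 6 2 3 5 84 88 112, .c5 897 38, .c3n 30 97 896, .c3n 30 577 416, .c2 46 44, .c3n 142 97 784, .c3n 270 145 608, .c4p 54 6 8 3 7 9 328 448 832, .c4n 86 7 8 3 5 9 392 416 896, .c4n 150 5 6 3 8 9 104 352 608, .c4p 278 5 7 3 6 9 168 224 672, .c3n 534 73 416, .c3n 534 97 392, .c4p 102 4 7 3 8 9 152 400 656, .c4n 166 4 8 3 6 9 280 336 784, .c4n 294 6 7 3 4 9 200 208 704, .c2 550 546, .c5 550 392, .c4p 198 5 8 3 4 9 296 304 800, .c4n 326 4 5 3 7 9 56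 176 560, .c4p 390 4 6 3 5 9 88 112 592, .c3n 646 97 280, .c3n 774 145 104, .c4n 538 5 8 2 6 7 292 352 416, .c3p 106 261 656, .c4n 106 8 9 2 4 7 772 784 896, .c4n 554 4 6 2 7 8 84 208 336, .c2 202 74, .c3p 202 21 800, .c3p 394 37 592, .c3n 394 545 84, .c4n 394 5 9 2 4 6 548 560 608, .c4p 210 5 8 2 3 9 292 296 800, .c2 706 578, .c3p 706 21 296, .c4n 706 3 4 0 5 8 25 56 280, .c4n 706 3 4 2 5 8 28 56 280, .c5 706 21, .c3n 898 21 104, .c3p 898 37 88, .c3p 898 25 100, .c3p 898 97 28, .c4n 898 3 5 2 4 6 44 56 104, .c4p 898 4 6 2 3 5 84 88 112, .c5 898 37, .c3n 92 515 416, .c3p 284 67 672, .c3p 540 259 224, .c3n 108 131 784, .c3p 108 259 656, .c4n 108 4 8 0 1 9 273 274 784, .c3n 300 515 208, .c3p 556 19 448, .c3p 556 67 400, .c2 204 76, .c3p 204 19 800, .c3n 396 19 608, .c3p 396 35 592, .c3n 116 11 896, .c3n 308 11 704, .c3p 212 259 552, .c4n 212 0 1 3 5 9 11 35 515, .c4n 212 0 1 3 8 9 11 259 515, .c5 212 552, .c3p 340 131 552, .c4n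 340 0 1 3 7 9 11 131 515, .c5 340 552, .c3n 596 11 416, .c3n 404 11 608, .c3p 788 67 168, .c2 228 224, .c2 356 100, .c4p 356 4 7 0 3 9 145 152 656, .c4p 356 4 7 1 3 9 146 152 656, .c4n 612 4 8 0 1 3 273 274 280, .c3p 420 67 536, .c4n 420 0 1 3 6 9 11 67 515, .c5 420 67, .c5 420 536, .c2 804 800, .c3n 452 11 560, .c2 708 580, .c3p 708 19 296, .c4n 708 3 4 0 5 8 25 56 280, .c4n 708 3 4 1 5 8 26 56 280, .c5 708 19, .c2 900 772, .c3n 900 19 104, .c3p 900 35 88, .c3p 900 25 98, .c3p 900 97 26, .c3n 120 7 896, .c3p 568 259 196, .c4n 568 0 1 2 6 8 7 67 259, .c4p 568 0 1 6 7 8 67 131 259, .c5 568 196, .c2 216 88, .c3n 600 7 416, .c3n 408 7 608, .c2 664 656, .c4p 792 2 5 0 1 6 37 38 100, .c2 232 168, .c2 360 296, .c3p 616 19 388, .c3n 616 19 388, .c3p 616 131 276, .c4p 616 0 1 4 7 8 19 131 259, .c4p 616 2 7 0 1 8 133 134 388, .c5 616 131, .c5 616 133, .c5 616 134, .c5 616 388, .c2 424 168, .c2 680 672, .c2 808 800, .c3n 456 7 560, .c3p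 712 19 292, .c3n 712 19 292, .c3p 712 35 276, .c3n 712 35 276, .c3p 712 259 52, .c4n 712 0 1 2 4 8 7 19 259, .c4n 712 0 1 2 5 8 7 35 259, .c4p 712 0 1 4 5 8 19 35 259, .c4p 712 0 4 1 2 5 19 21 49, .c4n 712 0 5 1 2 4 35 37 49, .c4p 712 1 4 0 2 5 19 22 50, .c4n 712 1 5 0 2 4 35 38 50, .c4n 712 2 5 0 1 8 37 38 292, .c4n 712 2 5 0 4 8 37 52 292, .c4n 712 2 5 1 4 8 38 52 292, .c4p 712 2 8 0 1 4 261 262 276, .c4n 712 2 8 0 4 5 261 276 292, .c4n 712 2 8 1 4 5 262 276 292, .c4p 712 4 8 0 2 5 273 276 304, .c4p 712 4 8 1 2 5 274 276 304, .c5 712 19, .c5 712 259, .c5 712 261, .c5 712 262, .c5 712 276, .c5 712 292, .c3p 904 19 100, .c3n 904 19 100, .c3p 904 35 84, .c3p 904 21 98, .c3n 904 21 98, .c3p 904 97 22, .c3n 904 97 22, .c4n 904 0 1 2 4 5 7 19 35, .c4n 904 0 1 2 4 6 7 19 67, .c4p 904 0 1 4 5 6 19 35 67, .c4n 904 5 6 0 1 2 97 98 100, .c4p 904 5 6 0 1 4 97 98 112, .c4p 904 5 6 0 2 4 97 100 112, .c4p 904 5 6 1 2 4 98 100 112, .c5 904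 19, .c5 904 21, .c5 904 22, .c5 904 84, .c5 904 100, .c4n 240 0 1 2 3 9 7 11 515, .c4n 464 0 1 2 3 9 7 11 515, .c2 720 592, .c2 912 400, .c2 736 672, .c2 928 672, .c2 960 448, .u0 15, .u2 519, .u1 560, .u1 608, .u1 704]

def stA : List (List ℕ) := [[271,0], [271,1], [272,27], [278,277,276,264], [278,277,276,265], [273,271,4], [273,276,218], [273,277,183], [281,270], [281,272,28], [274,271,8], [274,271,273,12], [274,271,273,13], [274,276,201], [274,277,171], [286,271,281,16], [286,271,281,17], [286,267], [286,272,31], [286,272,281,37], [287,216], [287,268], [287,269], [287,271,6], [288,182], [288,217], [288,271,5], [291,271,7], [291,276,200], [291,277,170], [291,272,29], [291,278,148], [292,271,2], [292,276,194], [292,277,161], [292,285,24], [294,292,22], [294,272,285,33], [294,272,285,34], [295,291,292,48], [295,291,292,68], [295,291,292,111], [302,278,154], [303,266], [306,288,25], [306,287,26], [306,308,303,60], [306,308,303,80],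 [306,308,303,123], [306,199], [313,204], [313,215], [314,205], [275,271,3], [275,271,274,15], [275,271,292,18], [275,277,162], [275,271,302,14], [329,271,286,10], [329,271,288,11], [329,272,32], [329,272,286,35], [329,271,308,9], [329,314,288,57], [329,314,288,78], [329,314,288,121], [331,202], [333,173], [333,313,287,50], [333,313,287,70], [333,313,287,113], [335,272,30], [335,294,274,49], [335,294,274,69], [335,294,274,112], [335,272,299,36], [336,334,23], [336,302,275,56], [336,302,275,75], [336,302,275,118], [337,299,334,55], [337,299,334,74], [337,299,334,117], [338,285,273,58], [338,285,273,79], [338,285,273,122], [347,286,331,54], [347,286,331,73], [347,286,331,116], [351,281,330,47], [351,281,330,67], [351,281,330,110], [308,334,337,324,341,358,350,323,340,357,349,320,246,207,257,258,108,124,65,81,213,212,210], [303,306,283,290,324,323,359,339,362,315,311,368,206,219,222,160,191,254,44,59,214,180], [334,337,322,339,356,348,320,368,245,369,45,61,208,211],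 [329,334,337,343,310,364,363,331,347,274,294,324,361,355,346,323,360,354,345,321,237,238,153,177,263,175,176,109,125,66,82,242,241,234], [281,331,299,302,278,277,276,328,326,309,294,272,305,310,307,317,316,334,301,296,370,155,245,219,371,222,235,236,247,254,226,127,84,86,129,165,196,38,262,151,167,169], [296,301,277,278,271,302,325,279,280,319,345,346,332,290,299,314,288,313,286,287,276,370,372,252,253,220,224,247,221,149,156,172,92,135,86,129,243,19,168,163,166,197], [308,288,314,282,326,325,336,272,284,297,319,275,271,291,344,348,315,365,312,373,246,257,258,251,249,88,94,131,137,39,20,157,184,52,43,259], [288,314,282,326,325,336,272,284,297,319,275,271,291,346,350,317,367,312,374,245,185,158,373,249,255,131,137,250,39,20,87,93,114,106,261], [308,288,314,282,326,325,336,272,284,297,319,275,271,291,345,349,316,366,312,373,374,158,185,375,248,256,251,88,94,39,20,130,136,71,63,260], [337,285,284,298,293,376,292,271,138,139,192,101,21],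 [292,295,314,346,350,317,367,312,115,105,94,97], [292,295,314,344,348,315,365,312,53,41,185,188], [314,337,285,294,284,298,293,376,292,271,94,95,96,378,98,193,144,21], [314,291,294,345,349,316,366,312,295,136,137,63,141,140,377,72], [314,337,285,294,284,298,293,376,292,271,185,186,187,379,190,143,100,21], [382,271,275,380,381,319,297,284,20], [294,285,284,298,293,376,292,271,102,145,21], [294,344,348,315,365,383,312,281,274,273,376,282,327,289,295,272,159,190,384,51,239,42,91,134,40], [385,288,158], [385,383,219], [387,335,291,83], [387,335,291,126], [331,347,322,359,353,344,321,333,385,300,332,318,355,354,383,387,278,277,342,304,389,388,382,283,343,386,341,340,46,62,174,240,150,223,226,244,232,233,164,179,203,178,181,195,198], [390,334,45], [390,337,61], [306,292,334,383,276,331,328,326,309,294,272,392,322,339,356,348,391,320,385,189,191,85,128,225,152,38,211,209], [393,384], [394,64], [394,107], [294,308,306,385,355,358,364,367,396,352,387,383,303,376,282,327,289,295,98,99,103,229,104,231,230,119,132,160,90,120],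 [397,271,292,393,376,293,298,284,21], [398,294,141], [398,306,142], [398,306,308,146], [399,383,385,227], [400,352,395,366,363,357,354,398,147], [400,383,387,231], [402,383,400,228], [403,76], [404,303,89], [405,303,160], [406,401,133], [407,409,295,403,408,289,327,282,376,77]]


theorem chkA1 : chkInps trA 0 inpA = true := by decide +kernel
theorem chkA2 : chkSteps trA 276 stA = true := by decide +kernel
theorem chkA3 : leq (look trA 410) [] = true := by decide +kernel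
theorem lenA1 : inpA.length = 276 := by decide +kernel
theorem lenA2 : stA.length = 135 := by decide +kernel

end Crest.Agent.S69.EndSat
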