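import Mathlib

/-!
# S0069, finite end game

`R t` : the three colours of `t` occur together (small rainbow triangle, equivalently "coherent"),
`F s` : the four colours of `s` occur together (four-fold point).
-/

set_option autoImplicit false

namespace Crest.Agent.S69.EndGame

open Finset

open scoped Classical in
/-- every pair of colours of a good six-set lies in at least one `R`-triple -/
theorem deg_pos {T : Finset (Fin 10)} (hT : T.card = 6) {R : Finset (Fin 10) → Prop}
    (hcomp : ∀ t ⊆ T, t.card = 3 → (R t ↔ ¬ R (T \ t)))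
    (hmaj : ∀ t ⊆ T, t.card = 3 → R t → ∀ p ∈ T \ t, ∀ q ∈ T \ t, p ≠ q → ∃ a ∈ t, R {p, q, a})
    {p q : Fin 10} (hp : p ∈ T) (hq : q ∈ T) (hpq : p ≠ q) :
    ∃ k ∈ T \ {p, q}, R {p, q, k} := by
  have hc2 : ({p, q} : Finset (Fin 10)).card = 2 := card_pair hpq
  have hsub : ({p, q} : Finset (Fin 10)) ⊆ T := by
    intro x hx
    simp only [mem_insert, mem_singleton] at hx
    rcases hx with rfl | rfl <;> assumption
  have hc4 : (T \ {p, q}).card = 4 := by
    rw [card_sdiff_of_subset hsub, hT, hc2]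
  obtain ⟨r, hr⟩ : (T \ {p, q}).Nonempty := card_pos.mp (by omega)
  by_contra hno
  push Not at hno
  have hr' := hr
  simp only [mem_sdiff, mem_insert, mem_singleton, not_or] at hr'
  have h3 : ({p, q, r} : Finset (Fin 10)).card = 3 := by
    rw [card_eq_three]
    exact ⟨p, q, r, hpq, fun h => hr'.2.1 h.symm, fun h => hr'.2.2 h.symm, rfl⟩
  have h3s : ({p, q, r} : Finset (Fin 10)) ⊆ T := by
    intro x hx
    simp only [mem_insert, mem_singleton] at hx
    rcases hx with rfl | rfl | rfl
    · exact hp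
    · exact hq
    · exact hr'.1
  have hR : R (T \ {p, q, r}) := by
    by_contra h
    exact hno r hr ((hcomp _ h3s h3).mpr h)
  have hc3 : (T \ {p, q, r}).card = 3 := by
    rw [card_sdiff_of_subset h3s, hT, h3]
  have hpm : p ∈ T \ (T \ {p, q, r}) := by simp [hp]
  have hqm : q ∈ T \ (T \ {p, q, r}) := by simp [hq]
  obtain ⟨a, ha, hRa⟩ := hmaj _ sdiff_subset hc3 hR p hpm q hqm hpq
  refine hno a ?_ hRa
  simp only [mem_sdiff, mem_insert, mem_singleton, not_or] at ha ⊢
  exact ⟨ha.1, ha.2.1, ha.2.2.1⟩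

open scoped Classical in
/-- every pair of colours of a good six-set lies in exactly two `R`-triples -/
theorem deg_two {T : Finset (Fin 10)} (hT : T.card = 6) {R : Finset (Fin 10) → Prop}
    (hcomp : ∀ t ⊆ T, t.card = 3 → (R t ↔ ¬ R (T \ t)))
    (heven : ∀ a ∈ T, ∀ b ∈ T, a ≠ b →
      Even (((T \ {a, b}).filter (fun k => R {a, b, k})).card))
    (hmaj : ∀ t ⊆ T, t.card = 3 → R t → ∀ p ∈ T \ t, ∀ q ∈ T \ t, p ≠ q → ∃ a ∈ t, R {p, q, a})
    {a b : Fin 10} (ha : a ∈ T) (hb : b ∈ T) (hab : a ≠ b) :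
    ((T \ {a, b}).filter (fun k => R {a, b, k})).card = 2 := by
  have hc2 : ({a, b} : Finset (Fin 10)).card = 2 := card_pair hab
  have hsub : ({a, b} : Finset (Fin 10)) ⊆ T := by
    intro x hx
    simp only [mem_insert, mem_singleton] at hx
    rcases hx with rfl | rfl <;> assumption
  have hc4 : (T \ {a, b}).card = 4 := by
    rw [card_sdiff_of_subset hsub, hT, hc2]
  have hle : ((T \ {a, b}).filter (fun k => R {a, b, k})).card ≤ 4 := by
    rw [← hc4]; exact card_filter_le _ _
  have hne0 : ((T \ {a, b}).filter (fun k => R {a, b, k})).card ≠ 0 := by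
    obtain ⟨k, hk, hRk⟩ := deg_pos hT hcomp hmaj ha hb hab
    have : k ∈ (T \ {a, b}).filter (fun k => R {a, b, k}) := by
      rw [mem_filter]; exact ⟨hk, hRk⟩
    exact card_ne_zero_of_mem this
  have hne4 : ((T \ {a, b}).filter (fun k => R {a, b, k})).card ≠ 4 := by
    intro h4
    -- every `k` in `U = T \ {a,b}` has `R {a,b,k}`
    have hall : ∀ k ∈ T \ {a, b}, R {a, b, k} := by
      have : (T \ {a, b}).filter (fun k => R {a, b, k}) = T \ {a, b} :=
        eq_of_subset_of_card_le (filter_subset _ _) (by rw [h4, hc4])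
      intro k hk
      rw [← this, mem_filter] at hk
      exact hk.2
    -- no triple inside `U`
    have hnone : ∀ t ⊆ T \ {a, b}, t.card = 3 → ¬ R t := by
      intro t ht htc hRt
      have h1 : ((T \ {a, b}) \ t).card = 1 := by
        rw [card_sdiff_of_subset ht, hc4, htc]
      obtain ⟨w, hw⟩ := card_eq_one.mp h1
      have hwm : w ∈ (T \ {a, b}) \ t := by rw [hw]; exact mem_singleton_self w
      have hEq : T \ t = {a, b, w} := by
        ext x
        constructor
        · intro hx
          rw [mem_sdiff] at hx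
          by_cases hxa : x = a
          · simp [hxa]
          by_cases hxb : x = b
          · simp [hxb]
          have : x ∈ (T \ {a, b}) \ t := by
            simp only [mem_sdiff, mem_insert, mem_singleton, not_or]
            exact ⟨⟨hx.1, hxa, hxb⟩, hx.2⟩
          rw [hw, mem_singleton] at this
          simp [this]
        · intro hx
          simp only [mem_insert, mem_singleton] at hx
          rw [mem_sdiff]
          rcases hx with rfl | rfl | rfl
          · exact ⟨ha, fun h => by have := ht h; simp at this⟩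
          · exact ⟨hb, fun h => by have := ht h; simp at this⟩
          · rw [mem_sdiff] at hwm
            exact ⟨sdiff_subset hwm.1, hwm.2⟩
      have := (hcomp t (ht.trans sdiff_subset) htc).mp hRt
      rw [hEq] at this
      exact this (hall w (mem_sdiff.mp hwm).1)
    -- for all pairs `x,y` in `U`, `R {x,y,a}` and `R {x,y,b}`
    have hxy : ∀ x ∈ T \ {a, b}, ∀ y ∈ T \ {a, b}, x ≠ y → R {x, y, a} ∧ R {x, y, b} := by
      intro x hx y hy hne
      have hxT : x ∈ T := sdiff_subset hx
      have hyT : y ∈ T := sdiff_subset hy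
      have hxx := hx
      have hyy := hy
      simp only [mem_sdiff, mem_insert, mem_singleton, not_or] at hxx hyy
      have hev := heven x hxT y hyT hne
      have hpos : ((T \ {x, y}).filter (fun k => R {x, y, k})).card ≠ 0 := by
        obtain ⟨k, hk, hRk⟩ := deg_pos hT hcomp hmaj hxT hyT hne
        have : k ∈ (T \ {x, y}).filter (fun k => R {x, y, k}) := by
          rw [mem_filter]; exact ⟨hk, hRk⟩
        exact card_ne_zero_of_mem this
      have hsub2 : (T \ {x, y}).filter (fun k => R {x, y, k}) ⊆ {a, b} := by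
        intro k hk
        rw [mem_filter] at hk
        by_contra hkab
        have hkU : k ∈ T \ {a, b} := mem_sdiff.mpr ⟨sdiff_subset hk.1, hkab⟩
        have hk1 := hk.1
        simp only [mem_sdiff, mem_insert, mem_singleton, not_or] at hk1
        refine hnone {x, y, k} ?_ ?_ hk.2
        · intro z hz
          simp only [mem_insert, mem_singleton] at hz
          rcases hz with rfl | rfl | rfl
          · exact hx
          · exact hy
          · exact hkU
        · rw [card_eq_three]
          exact ⟨x, y, k, hne, fun h => hk1.2.1 h.symm, fun h => hk1.2.2 h.symm, rfl⟩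
      have hle2 : ((T \ {x, y}).filter (fun k => R {x, y, k})).card ≤ 2 := by
        rw [← hc2]; exact card_le_card hsub2
      have h2 : ((T \ {x, y}).filter (fun k => R {x, y, k})).card = 2 := by
        obtain ⟨m, hm⟩ := hev
        omega
      have hEq : (T \ {x, y}).filter (fun k => R {x, y, k}) = {a, b} :=
        eq_of_subset_of_card_le hsub2 (by rw [h2, hc2])
      have hma : a ∈ (T \ {x, y}).filter (fun k => R {x, y, k}) := by rw [hEq]; simp
      have hmb : b ∈ (T \ {x, y}).filter (fun k => R {x, y, k}) := by rw [hEq]; simp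
      exact ⟨(mem_filter.mp hma).2, (mem_filter.mp hmb).2⟩
    -- contradiction through a complementary pair
    obtain ⟨x, hx⟩ : (T \ {a, b}).Nonempty := card_pos.mp (by omega)
    obtain ⟨y, hy, hyx⟩ : ∃ y ∈ T \ {a, b}, y ≠ x :=
      exists_mem_ne (by omega) x
    have hsubxy : ({x, y} : Finset (Fin 10)) ⊆ T \ {a, b} := by
      intro z hz
      simp only [mem_insert, mem_singleton] at hz
      rcases hz with rfl | rfl
      · exact hx
      · exact hy
    have hrest : ((T \ {a, b}) \ {x, y}).card = 2 := by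
      rw [card_sdiff_of_subset hsubxy, hc4, card_pair (Ne.symm hyx)]
    obtain ⟨z, w, hzw, hEq⟩ := card_eq_two.mp hrest
    have hz : z ∈ (T \ {a, b}) \ {x, y} := by rw [hEq]; simp
    have hw : w ∈ (T \ {a, b}) \ {x, y} := by rw [hEq]; simp
    have hz1 : z ∈ T \ {a, b} := sdiff_subset hz
    have hw1 : w ∈ T \ {a, b} := sdiff_subset hw
    have hR1 := (hxy x hx y hy (Ne.symm hyx)).1
    have hR2 := (hxy z hz1 w hw1 hzw).2
    have hxx := hx
    have hyy := hy
    simp only [mem_sdiff, mem_insert, mem_singleton, not_or] at hxx hyy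
    have h3 : ({x, y, a} : Finset (Fin 10)).card = 3 := by
      rw [card_eq_three]
      exact ⟨x, y, a, Ne.symm hyx, hxx.2.1, hyy.2.1, rfl⟩
    have h3s : ({x, y, a} : Finset (Fin 10)) ⊆ T := by
      intro v hv
      simp only [mem_insert, mem_singleton] at hv
      rcases hv with rfl | rfl | rfl
      · exact hxx.1
      · exact hyy.1
      · exact ha
    have hcompl : T \ {x, y, a} = {z, w, b} := by
      ext v
      constructor
      · intro hv
        simp only [mem_sdiff, mem_insert, mem_singleton, not_or] at hv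
        by_cases hvb : v = b
        · simp [hvb]
        have : v ∈ (T \ {a, b}) \ {x, y} := by
          simp only [mem_sdiff, mem_insert, mem_singleton, not_or]
          exact ⟨⟨hv.1, hv.2.2.2, hvb⟩, hv.2.1, hv.2.2.1⟩
        rw [hEq] at this
        simp only [mem_insert, mem_singleton] at this ⊢
        rcases this with h | h
        · exact Or.inl h
        · exact Or.inr (Or.inl h)
      · intro hv
        simp only [mem_insert, mem_singleton] at hv
        simp only [mem_sdiff, mem_insert, mem_singleton, not_or] at hz hw ⊢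
        rcases hv with rfl | rfl | rfl
        · exact ⟨hz.1.1, hz.2.1, hz.2.2, hz.1.2.1⟩
        · exact ⟨hw.1.1, hw.2.1, hw.2.2, hw.1.2.1⟩
        · exact ⟨hb, fun h => hxx.2.2 h.symm, fun h => hyy.2.2 h.symm, Ne.symm hab⟩
    have := (hcomp _ h3s h3).mp hR1
    rw [hcompl] at this
    exact this hR2
  obtain ⟨m, hm⟩ := heven a ha b hb hab
  omega

open scoped Classical in
/-- The double count: a two-regular graph `E` on five points and a set `Z` of points such that for
every edge exactly one of the three points off the edge is in `Z` : impossible (`6 z = 10`). -/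
theorem pentagon_count {Q : Finset (Fin 10)} (hQ : Q.card = 5) (E : Fin 10 → Fin 10 → Prop)
    (hsymm : ∀ a b, E a b → E b a)
    (hdeg : ∀ a ∈ Q, (Q.filter (fun b => b ≠ a ∧ E a b)).card = 2)
    (Z : Fin 10 → Prop)
    (hZ : ∀ a ∈ Q, ∀ b ∈ Q, a ≠ b → E a b →
      (Q.filter (fun q => q ≠ a ∧ q ≠ b ∧ Z q)).card = 1) : False := by
  -- ordered edges
  let e : Fin 10 → Fin 10 → ℕ := fun a b => if b ≠ a ∧ E a b then 1 else 0
  let z : Fin 10 → ℕ := fun q => if Z q then 1 else 0
  have he : ∀ a ∈ Q, ∑ b ∈ Q, e a b = 2 := by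
    intro a ha
    rw [← hdeg a ha, card_filter]
  have he' : ∀ b ∈ Q, ∑ a ∈ Q, e a b = 2 := by
    intro b hb
    rw [← he b hb]
    refine sum_congr rfl (fun a _ => ?_)
    simp only [e]
    refine if_congr ?_ rfl rfl
    constructor
    · rintro ⟨h1, h2⟩; exact ⟨Ne.symm h1, hsymm _ _ h2⟩
    · rintro ⟨h1, h2⟩; exact ⟨Ne.symm h1, hsymm _ _ h2⟩
  -- total count
  have h1 : ∑ a ∈ Q, ∑ b ∈ Q, ∑ q ∈ Q, e a b * (if q ≠ a ∧ q ≠ b ∧ Z q then 1 else 0) = 10 := by
    have : ∀ a ∈ Q, ∑ b ∈ Q, ∑ q ∈ Q, e a b * (if q ≠ a ∧ q ≠ b ∧ Z q then 1 else 0) = 2 := by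
      intro a ha
      rw [← he a ha]
      refine sum_congr rfl (fun b hb => ?_)
      rw [← mul_sum, ← card_filter]
      by_cases h : b ≠ a ∧ E a b
      · rw [hZ a ha b hb (Ne.symm h.1) h.2, mul_one]
      · have : e a b = 0 := by simp only [e]; rw [if_neg h]
        rw [this, zero_mul]
    rw [sum_congr rfl this, sum_const, hQ]
    rfl
  have h2 : ∑ a ∈ Q, ∑ b ∈ Q, ∑ q ∈ Q, e a b * (if q ≠ a ∧ q ≠ b ∧ Z q then 1 else 0)
      = ∑ q ∈ Q, z q * 6 := by
    have hswap : ∑ a ∈ Q, ∑ b ∈ Q, ∑ q ∈ Q, e a b * (if q ≠ a ∧ q ≠ b ∧ Z q then 1 else 0)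
        = ∑ q ∈ Q, ∑ a ∈ Q, ∑ b ∈ Q, e a b * (if q ≠ a ∧ q ≠ b ∧ Z q then 1 else 0) := by
      rw [sum_congr rfl (fun a _ => sum_comm), sum_comm]
    rw [hswap]
    refine sum_congr rfl (fun q hq => ?_)
    by_cases hz : Z q
    · have hzq : z q = 1 := by simp only [z]; rw [if_pos hz]
      rw [hzq, one_mul]
      -- inclusion-exclusion
      have key : ∀ a ∈ Q, ∀ b ∈ Q,
          e a b * (if q ≠ a ∧ q ≠ b ∧ Z q then 1 else 0) + (if a = q then e a b else 0)
            + (if b = q then e a b else 0) = e a b := by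
        intro a _ b _
        by_cases haq : a = q
        · by_cases hbq : b = q
          · have : e a b = 0 := by
              simp only [e]; rw [if_neg]; rintro ⟨h, _⟩; exact h (hbq.trans haq.symm)
            simp [this]
          · simp [haq, hbq]
        · by_cases hbq : b = q
          · simp [haq, hbq]
          · have : (q ≠ a ∧ q ≠ b ∧ Z q) := ⟨fun h => haq h.symm, fun h => hbq h.symm, hz⟩
            rw [if_pos this, if_neg haq, if_neg hbq, mul_one, add_zero, add_zero]
      have hsum : ∑ a ∈ Q, ∑ b ∈ Q, (e a b * (if q ≠ a ∧ q ≠ b ∧ Z q then 1 else 0)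
            + (if a = q then e a b else 0) + (if b = q then e a b else 0)) = 10 := by
        rw [sum_congr rfl (fun a ha => sum_congr rfl (fun b hb => key a ha b hb)),
          sum_congr rfl he, sum_const, hQ]
        rfl
      have hA : ∑ a ∈ Q, ∑ b ∈ Q, (if a = q then e a b else 0) = 2 := by
        rw [sum_comm]
        have : ∀ b ∈ Q, ∑ a ∈ Q, (if a = q then e a b else 0) = e q b := by
          intro b _
          rw [sum_ite_eq' Q q (fun a => e a b), if_pos hq]
        rw [sum_congr rfl this]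
        exact he q hq
      have hB : ∑ a ∈ Q, ∑ b ∈ Q, (if b = q then e a b else 0) = 2 := by
        have : ∀ a ∈ Q, ∑ b ∈ Q, (if b = q then e a b else 0) = e a q := by
          intro a _
          rw [sum_ite_eq' Q q (fun b => e a b), if_pos hq]
        rw [sum_congr rfl this]
        exact he' q hq
      simp only [sum_add_distrib] at hsum
      omega
    · have hzq : z q = 0 := by simp only [z]; rw [if_neg hz]
      rw [hzq, zero_mul]
      refine sum_eq_zero (fun a _ => sum_eq_zero (fun b _ => ?_))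
      rw [if_neg (fun h => hz h.2.2), mul_zero]
  rw [h2, ← sum_mul] at h1
  omega

open scoped Classical in
/-- **End game.** -/
theorem endgame (R F : Finset (Fin 10) → Prop)
    (hcomp : ∀ s : Finset (Fin 10), s.card = 4 → F s → ∀ t ⊆ sᶜ, t.card = 3 →
      (R t ↔ ¬ R (sᶜ \ t)))
    (heven : ∀ s : Finset (Fin 10), s.card = 4 → F s → ∀ a ∈ sᶜ, ∀ b ∈ sᶜ, a ≠ b →
      Even (((sᶜ \ {a, b}).filter (fun k => R {a, b, k})).card))
    (hmaj : ∀ s : Finset (Fin 10), s.card = 4 → F s → ∀ t ⊆ sᶜ, t.card = 3 → R t →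
      ∀ p ∈ sᶜ \ t, ∀ q ∈ sᶜ \ t, p ≠ q → ∃ a ∈ t, R {p, q, a})
    (hface : ∀ s : Finset (Fin 10), s.card = 4 → F s → ∀ t ⊆ s, t.card = 3 → R t)
    (hsweep : ∃ (t : Finset (Fin 10)) (k l : Fin 10), t.card = 3 ∧ k ∉ t ∧ l ∉ t ∧ k ≠ l ∧
      F (insert k t) ∧ F (insert l t) ∧
      ∀ a b : Fin 10, a ∉ t → b ∉ t → a ≠ b → a ≠ k → b ≠ k → a ≠ l → b ≠ l →
        R {k, a, b} → R {l, a, b} → F {k, l, a, b}) : False := by
  obtain ⟨t, k, l, ht, hk, hl, hkl, hFk, hFl, hsw⟩ := hsweep
  have hck : (insert k t).card = 4 := by rw [card_insert_of_notMem hk, ht]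
  have hcl : (insert l t).card = 4 := by rw [card_insert_of_notMem hl, ht]
  set Q : Finset (Fin 10) := (insert k (insert l t))ᶜ with hQdef
  have hmemQ : ∀ q, q ∈ Q ↔ q ≠ k ∧ q ≠ l ∧ q ∉ t := by
    intro q
    simp only [Q, mem_compl, mem_insert, not_or]
  have hkl' : k ∉ insert l t := by
    simp only [mem_insert, not_or]; exact ⟨hkl, hk⟩
  have hQc : Q.card = 5 := by
    rw [hQdef, card_compl, Fintype.card_fin, card_insert_of_notMem hkl', hcl]
  have hTk : (insert k t)ᶜ = insert l Q := by
    ext x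
    simp only [mem_compl, mem_insert, not_or, hmemQ]
    constructor
    · rintro ⟨h1, h2⟩
      by_cases hx : x = l
      · exact Or.inl hx
      · exact Or.inr ⟨h1, hx, h2⟩
    · rintro (rfl | ⟨h1, _, h3⟩)
      · exact ⟨Ne.symm hkl, hl⟩
      · exact ⟨h1, h3⟩
  have hTl : (insert l t)ᶜ = insert k Q := by
    ext x
    simp only [mem_compl, mem_insert, not_or, hmemQ]
    constructor
    · rintro ⟨h1, h2⟩
      by_cases hx : x = k
      · exact Or.inl hx
      · exact Or.inr ⟨hx, h1, h2⟩
    · rintro (rfl | ⟨_, h2, h3⟩)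
      · exact ⟨hkl, hk⟩
      · exact ⟨h2, h3⟩
  have h6 : ∀ s : Finset (Fin 10), s.card = 4 → sᶜ.card = 6 := by
    intro s hs
    rw [card_compl, Fintype.card_fin, hs]
  have hkQ : k ∉ Q := fun h => ((hmemQ k).mp h).1 rfl
  have hlQ : l ∉ Q := fun h => ((hmemQ l).mp h).2.1 rfl
  -- `R {k,a,b} ↔ R {l,a,b}`
  have hRkl : ∀ a ∈ Q, ∀ b ∈ Q, a ≠ b → R {l, a, b} → R {k, a, b} := by
    intro a ha b hb hab hR
    have hak : a ≠ k := ((hmemQ a).mp ha).1
    have hal : a ≠ l := ((hmemQ a).mp ha).2.1
    have hbk : b ≠ k := ((hmemQ b).mp hb).1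
    have hbl : b ≠ l := ((hmemQ b).mp hb).2.1
    have c1 : ({l, a, b} : Finset (Fin 10)).card = 3 := by
      rw [card_eq_three]; exact ⟨l, a, b, Ne.symm hal, Ne.symm hbl, hab, rfl⟩
    have c2 : ({k, a, b} : Finset (Fin 10)).card = 3 := by
      rw [card_eq_three]; exact ⟨k, a, b, Ne.symm hak, Ne.symm hbk, hab, rfl⟩
    have s1 : ({l, a, b} : Finset (Fin 10)) ⊆ (insert k t)ᶜ := by
      rw [hTk]
      intro x hx
      simp only [mem_insert, mem_singleton] at hx ⊢
      rcases hx with rfl | rfl | rfl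
      · exact Or.inl rfl
      · exact Or.inr ha
      · exact Or.inr hb
    have s2 : ({k, a, b} : Finset (Fin 10)) ⊆ (insert l t)ᶜ := by
      rw [hTl]
      intro x hx
      simp only [mem_insert, mem_singleton] at hx ⊢
      rcases hx with rfl | rfl | rfl
      · exact Or.inl rfl
      · exact Or.inr ha
      · exact Or.inr hb
    have e1 : (insert k t)ᶜ \ {l, a, b} = Q \ {a, b} := by
      rw [hTk]
      ext x
      simp only [mem_sdiff, mem_insert, mem_singleton, not_or]
      constructor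
      · rintro ⟨h | h, h1, h2, h3⟩
        · exact absurd h h1
        · exact ⟨h, h2, h3⟩
      · rintro ⟨h, h2, h3⟩
        exact ⟨Or.inr h, fun h' => hlQ (h' ▸ h), h2, h3⟩
    have e2 : (insert l t)ᶜ \ {k, a, b} = Q \ {a, b} := by
      rw [hTl]
      ext x
      simp only [mem_sdiff, mem_insert, mem_singleton, not_or]
      constructor
      · rintro ⟨h | h, h1, h2, h3⟩
        · exact absurd h h1
        · exact ⟨h, h2, h3⟩
      · rintro ⟨h, h2, h3⟩
        exact ⟨Or.inr h, fun h' => hkQ (h' ▸ h), h2, h3⟩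
    have g1 := hcomp _ hck hFk _ s1 c1
    have g2 := hcomp _ hcl hFl _ s2 c2
    rw [e1] at g1
    rw [e2] at g2
    exact g2.mpr (g1.mp hR)
  -- two distinct colours of `t`
  obtain ⟨t1, t2, t3, h12, h13, h23, rfl⟩ := card_eq_three.mp ht
  -- the pentagon
  refine pentagon_count hQc (fun a b => R {l, a, b}) (fun a b h => by
      rwa [show ({l, b, a} : Finset (Fin 10)) = {l, a, b} by
        rw [Finset.pair_comm b a]]) ?_ (fun q => R {t1, t2, q}) ?_
  · intro a ha
    have hal : a ≠ l := ((hmemQ a).mp ha).2.1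
    have hlT : l ∈ (insert k ({t1, t2, t3} : Finset (Fin 10)))ᶜ := by rw [hTk]; simp
    have haT : a ∈ (insert k ({t1, t2, t3} : Finset (Fin 10)))ᶜ := by
      rw [hTk]; exact mem_insert_of_mem ha
    have hd := deg_two (h6 _ hck) (hcomp _ hck hFk) (heven _ hck hFk) (hmaj _ hck hFk) hlT haT
      (Ne.symm hal)
    rw [← hd]
    congr 1
    ext x
    rw [mem_filter, mem_filter, hTk]
    simp only [mem_sdiff, mem_insert, mem_singleton, not_or]
    constructor
    · rintro ⟨h1, h2, h3⟩
      exact ⟨⟨Or.inr h1, fun h' => hlQ (h' ▸ h1), h2⟩, h3⟩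
    · rintro ⟨⟨h1 | h1, h2, h3⟩, h4⟩
      · exact absurd h1 h2
      · exact ⟨h1, h3, h4⟩
  · intro a ha b hb hab hE
    have hA := (hmemQ a).mp ha
    have hB := (hmemQ b).mp hb
    have hRk : R {k, a, b} := hRkl a ha b hb hab hE
    have hF : F {k, l, a, b} := hsw a b hA.2.2 hB.2.2 hab hA.1 hB.1 hA.2.1 hB.2.1 hRk hE
    have hFc : ({k, l, a, b} : Finset (Fin 10)).card = 4 := by
      rw [card_insert_of_notMem, card_eq_three.mpr
        ⟨l, a, b, Ne.symm hA.2.1, Ne.symm hB.2.1, hab, rfl⟩]
      simp only [mem_insert, mem_singleton, not_or]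
      exact ⟨hkl, Ne.symm hA.1, Ne.symm hB.1⟩
    have hmem : ∀ x, x ∈ ({k, l, a, b} : Finset (Fin 10))ᶜ ↔
        x ∈ ({t1, t2, t3} : Finset (Fin 10)) ∨ (x ∈ Q ∧ x ≠ a ∧ x ≠ b) := by
      intro x
      rw [hmemQ]
      simp only [mem_compl, mem_insert, mem_singleton, not_or]
      constructor
      · rintro ⟨h1, h2, h3, h4⟩
        by_cases hx : x = t1 ∨ x = t2 ∨ x = t3
        · exact Or.inl hx
        · exact Or.inr ⟨⟨h1, h2, by simpa only [not_or] using hx⟩, h3, h4⟩
      · rintro (h | ⟨⟨h1, h2, _⟩, h4, h5⟩)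
        · have hxt : x ∈ ({t1, t2, t3} : Finset (Fin 10)) := by
            simp only [mem_insert, mem_singleton]; exact h
          exact ⟨fun h' => hk (h' ▸ hxt), fun h' => hl (h' ▸ hxt),
            fun h' => hA.2.2 (h' ▸ hxt), fun h' => hB.2.2 (h' ▸ hxt)⟩
        · exact ⟨h1, h2, h4, h5⟩
    have ht1 : t1 ∈ ({k, l, a, b} : Finset (Fin 10))ᶜ := (hmem t1).mpr (Or.inl (by simp))
    have ht2 : t2 ∈ ({k, l, a, b} : Finset (Fin 10))ᶜ := (hmem t2).mpr (Or.inl (by simp))
    have hd := deg_two (h6 _ hFc) (hcomp _ hFc hF) (heven _ hFc hF) (hmaj _ hFc hF) ht1 ht2 h12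
    have hR3 : R {t1, t2, t3} := hface _ hck hFk _ (subset_insert _ _) ht
    -- the filter on the six-set is `t3` plus the filter on `Q`
    have hins : (({k, l, a, b} : Finset (Fin 10))ᶜ \ {t1, t2}).filter (fun x => R {t1, t2, x})
        = insert t3 (Q.filter (fun q => q ≠ a ∧ q ≠ b ∧ R {t1, t2, q})) := by
      ext x
      simp only [mem_filter, mem_sdiff, hmem, mem_insert, mem_singleton, not_or]
      constructor
      · rintro ⟨⟨h | h, h1, h2⟩, h3⟩
        · rcases h with h | h | h
          · exact absurd h h1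
          · exact absurd h h2
          · exact Or.inl h
        · exact Or.inr ⟨h.1, h.2.1, h.2.2, h3⟩
      · rintro (rfl | ⟨h1, h2, h3, h4⟩)
        · exact ⟨⟨Or.inl (Or.inr (Or.inr rfl)), Ne.symm h13, Ne.symm h23⟩, hR3⟩
        · have hxt := ((hmemQ x).mp h1).2.2
          simp only [mem_insert, mem_singleton, not_or] at hxt
          exact ⟨⟨Or.inr ⟨h1, h2, h3⟩, hxt.1, hxt.2.1⟩, h4⟩
    have ht3 : t3 ∉ Q.filter (fun q => q ≠ a ∧ q ≠ b ∧ R {t1, t2, q}) := by
      intro h
      have := ((hmemQ t3).mp (mem_filter.mp h).1).2.2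
      exact this (by simp)
    rw [hins, card_insert_of_notMem ht3] at hd
    omega

end Crest.Agent.S69.EndGame
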