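import Mathlib

set_option autoImplicit false

/-!
# S0069: the finite end game, by a kernel-checked unit-propagation certificate
-/
namespace Crest.Agent.S69.EndSat

/-- test a bit (kernel friendly) -/
def tb (m i : ℕ) : Bool := Nat.beq (m / 2 ^ i % 2) 1

theorem tb_eq (m i : ℕ) : tb m i = m.testBit i := by
  rw [Nat.testBit_eq_decide_div_mod_eq, tb]
  by_cases h : m / 2 ^ i % 2 = 1
  · simp [h]
  · have : Nat.beq (m / 2 ^ i % 2) 1 = false := by
      rw [← Bool.not_eq_true]; intro h'; exact h (Nat.eq_of_beq_eq_true h')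
    simp [h, this]

/-- binary trees of clauses -/
inductive Tr
  | lf (c : List ℕ)
  | nd (a b : Tr)

def look : Tr → ℕ → List ℕ
  | .lf c, _ => c
  | .nd a b, i => cond (Nat.beq (i % 2) 0) (look a (i / 2)) (look b (i / 2))

/-- complementary literal -/
def cp (l : ℕ) : ℕ := cond (Nat.beq (l % 2) 0) (l + 1) (l - 1)

def rup (db : Tr) : ℕ → List ℕ → Bool
  | _, [] => false
  | A, h :: hs =>
    match (look db h).filter (fun l => !(tb A l)) with
    | [] => true
    | [l] => rup db (A ||| 2 ^ (cp l)) hs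
    | _ :: _ :: _ => false

def maskOf : List ℕ → ℕ
  | [] => 0
  | l :: c => maskOf c ||| 2 ^ l

def lall (f : ℕ → Bool) : List ℕ → Bool
  | [] => true
  | x :: xs => f x && lall f xs

def chkSteps (db : Tr) : ℕ → List (List ℕ) → Bool
  | _, [] => true
  | i, hs :: r => lall (fun h => Nat.blt h i) hs && rup db (maskOf (look db i)) hs &&
      chkSteps db (i + 1) r

def leq : List ℕ → List ℕ → Bool
  | [], [] => true
  | a :: as, b :: bs => Nat.beq a b && leq as bs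
  | _, _ => false

/-- semantics of literals: 4m : R, 4m+1 : ¬ R, 4m+2 : F, 4m+3 : ¬ F -/
def ls (P Q : ℕ → Prop) (l : ℕ) : Prop :=
  match l % 4 with
  | 0 => P (l / 4)
  | 1 => ¬ P (l / 4)
  | 2 => Q (l / 4)
  | _ => ¬ Q (l / 4)

theorem ls_cp (P Q : ℕ → Prop) (l : ℕ) (h : ls P Q l) : ¬ ls P Q (cp l) := by
  have h4 : l % 4 = 0 ∨ l % 4 = 1 ∨ l % 4 = 2 ∨ l % 4 = 3 := by omega
  rcases h4 with h4 | h4 | h4 | h4
  · have e : cp l = l + 1 := by
      have : l % 2 = 0 := by omega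
      simp [cp, this]
    have e1 : (l + 1) % 4 = 1 := by omega
    have e2 : (l + 1) / 4 = l / 4 := by omega
    simp only [ls, h4] at h
    simp only [e, ls, e1, e2]
    exact fun h' => h' h
  · have e : cp l = l - 1 := by
      have : l % 2 = 1 := by omega
      rw [cp, this]; rfl
    have e1 : (l - 1) % 4 = 0 := by omega
    have e2 : (l - 1) / 4 = l / 4 := by omega
    simp only [ls, h4] at h
    simp only [e, ls, e1, e2]
    exact h
  · have e : cp l = l + 1 := by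
      have : l % 2 = 0 := by omega
      simp [cp, this]
    have e1 : (l + 1) % 4 = 3 := by omega
    have e2 : (l + 1) / 4 = l / 4 := by omega
    simp only [ls, h4] at h
    simp only [e, ls, e1, e2]
    exact fun h' => h' h
  · have e : cp l = l - 1 := by
      have : l % 2 = 1 := by omega
      rw [cp, this]; rfl
    have e1 : (l - 1) % 4 = 2 := by omega
    have e2 : (l - 1) / 4 = l / 4 := by omega
    simp only [ls, h4] at h
    simp only [e, ls, e1, e2]
    exact h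

def Sat (P Q : ℕ → Prop) (c : List ℕ) : Prop := ∃ l ∈ c, ls P Q l

theorem rup_sound (P Q : ℕ → Prop) (db : Tr) (hs : List ℕ) :
    ∀ A : ℕ, (∀ h ∈ hs, Sat P Q (look db h)) → (∀ l, tb A l = true → ¬ ls P Q l) →
      rup db A hs = true → False := by
  induction hs with
  | nil => intro A _ _ h; simp [rup] at h
  | cons h hs ih =>
    intro A hsat hA hr
    obtain ⟨l, hl, hls⟩ := hsat h (by simp)
    have hl' : l ∈ (look db h).filter (fun l => !(tb A l)) := by
      rw [List.mem_filter]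
      refine ⟨hl, ?_⟩
      by_contra hcon
      exact hA l (by simpa using hcon) hls
    rw [rup] at hr
    split at hr
    · rename_i heq; rw [heq] at hl'; simp at hl'
    · rename_i l' heq
      rw [heq, List.mem_singleton] at hl'
      subst hl'
      refine ih _ (fun h' hh' => hsat h' (by simp [hh'])) ?_ hr
      intro k hk
      rw [tb_eq, Nat.testBit_or, Bool.or_eq_true] at hk
      rcases hk with hk | hk
      · exact hA k (by rw [tb_eq]; exact hk)
      · rw [Nat.testBit_two_pow] at hk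
        have : cp l = k := by simpa using hk
        rw [← this]
        exact ls_cp P Q l hls
    · simp at hr

theorem maskOf_spec (c : List ℕ) (l : ℕ) (h : tb (maskOf c) l = true) : l ∈ c := by
  induction c with
  | nil => simp [maskOf, tb] at h
  | cons a c ih =>
    rw [maskOf, tb_eq, Nat.testBit_or, Bool.or_eq_true] at h
    rcases h with h | h
    · rw [← tb_eq] at h; exact List.mem_cons_of_mem _ (ih h)
    · rw [Nat.testBit_two_pow] at h
      have : a = l := by simpa using h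
      simp [this]

theorem lall_spec (f : ℕ → Bool) (l : List ℕ) (h : lall f l = true) : ∀ x ∈ l, f x = true := by
  induction l with
  | nil => simp
  | cons a l ih =>
    rw [lall, Bool.and_eq_true] at h
    intro x hx
    rcases List.mem_cons.1 hx with hx | hx
    · rw [hx]; exact h.1
    · exact ih h.2 x hx

theorem chkSteps_sound (P Q : ℕ → Prop) (db : Tr) (st : List (List ℕ)) :
    ∀ i : ℕ, (∀ j < i, Sat P Q (look db j)) → chkSteps db i st = true →
      ∀ j < i + st.length, Sat P Q (look db j) := by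
  induction st with
  | nil => intro i h _ j hj; exact h j (by simpa using hj)
  | cons hs r ih =>
    intro i h hc j hj
    rw [chkSteps, Bool.and_eq_true, Bool.and_eq_true] at hc
    obtain ⟨⟨h1, h2⟩, h3⟩ := hc
    refine ih (i + 1) ?_ h3 j (by simp at hj; omega)
    intro k hk
    rcases Nat.lt_succ_iff_lt_or_eq.1 hk with hk | hk
    · exact h k hk
    · rw [hk]
      by_contra hcon
      refine rup_sound P Q db hs _ ?_ ?_ h2
      · intro h' hh'
        have := lall_spec _ _ h1 h' hh'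
        exact h h' (by simpa using this)
      · intro l hl hls
        exact hcon ⟨l, maskOf_spec _ _ hl, hls⟩

theorem leq_spec : ∀ a b : List ℕ, leq a b = true → a = b
  | [], [], _ => rfl
  | a :: as, b :: bs, h => by
    rw [leq, Bool.and_eq_true] at h
    rw [Nat.eq_of_beq_eq_true h.1, leq_spec as bs h.2]
  | [], _ :: _, h => by simp [leq] at h
  | _ :: _, [], h => by simp [leq] at h


/-! ## the input clauses -/

def r10 : List ℕ := [0, 1, 2, 3, 4, 5, 6, 7, 8, 9]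

def pcl (m : ℕ) : List ℕ → ℕ
  | [] => 0
  | i :: l => cond (tb m i) 1 0 + pcl m l

/-- `m` has exactly the members described by `f` -/
def eqm (m : ℕ) (f : ℕ → Bool) : Bool := lall (fun i => cond (f i) (tb m i) (!(tb m i))) r10

def dis (S t : ℕ) : Bool := lall (fun i => !(tb S i && tb t i)) r10
def sub (t S : ℕ) : Bool := lall (fun i => !(tb t i) || tb S i) r10

inductive Inp
  | u0 (S : ℕ)
  | u1 (t : ℕ)
  | u2 (S : ℕ)
  | c2 (S t : ℕ)
  | c3p (S t u : ℕ)
  | c3n (S t u : ℕ)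
  | c4p (S a b x y z mx my mz : ℕ)
  | c4n (S a b x y z mx my mz : ℕ)
  | c5 (S t : ℕ)
  | ns (t x y mx my : ℕ)

def out4 (S a b x y z mx my mz : ℕ) : Bool :=
  Nat.beq (pcl S r10) 4 &&
  (Nat.blt a 10 && Nat.blt b 10 && Nat.blt x 10 && Nat.blt y 10 && Nat.blt z 10) &&
  (!(Nat.beq a b) && !(Nat.beq a x) && !(Nat.beq a y) && !(Nat.beq a z) && !(Nat.beq b x) &&
    !(Nat.beq b y) && !(Nat.beq b z) && !(Nat.beq x y) && !(Nat.beq x z) && !(Nat.beq y z)) &&
  (!(tb S a) && !(tb S b) && !(tb S x) && !(tb S y) && !(tb S z)) &&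
  (eqm mx (fun i => Nat.beq i a || Nat.beq i b || Nat.beq i x) &&
   eqm my (fun i => Nat.beq i a || Nat.beq i b || Nat.beq i y) &&
   eqm mz (fun i => Nat.beq i a || Nat.beq i b || Nat.beq i z))

def okI : Inp → Bool
  | .u0 S => Nat.beq S 15
  | .u1 t => Nat.beq t 560 || Nat.beq t 608 || Nat.beq t 704 || Nat.beq t 896 || Nat.beq t 784
  | .u2 S => Nat.beq S 519
  | .c2 S t => Nat.beq (pcl S r10) 4 && Nat.beq (pcl t r10) 3 && sub t S
  | .c3p S t u => Nat.beq (pcl S r10) 4 && Nat.beq (pcl t r10) 3 && dis S t &&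
      eqm u (fun i => !(tb S i || tb t i))
  | .c3n S t u => Nat.beq (pcl S r10) 4 && Nat.beq (pcl t r10) 3 && dis S t &&
      eqm u (fun i => !(tb S i || tb t i))
  | .c4p S a b x y z mx my mz => out4 S a b x y z mx my mz
  | .c4n S a b x y z mx my mz => out4 S a b x y z mx my mz
  | .c5 S t => Nat.beq (pcl S r10) 4 && Nat.beq (pcl t r10) 3 && dis S t &&
      lall (fun i => tb t i || eqm (t + 2 ^ i) (fun j => Nat.beq j i || tb t j)) r10
  | .ns t x y mx my => Nat.beq (pcl t r10) 3 && Nat.blt x 10 && Nat.blt y 10 &&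
      !(Nat.beq x y) && !(tb t x) && !(tb t y) &&
      eqm mx (fun j => Nat.beq j x || tb t j) && eqm my (fun j => Nat.beq j y || tb t j)

def clauseOf : Inp → List ℕ
  | .u0 S => [4 * S + 2]
  | .u1 t => [4 * t]
  | .u2 S => [4 * S + 2]
  | .c2 S t => [4 * S + 3, 4 * t]
  | .c3p S t u => [4 * S + 3, 4 * t, 4 * u]
  | .c3n S t u => [4 * S + 3, 4 * t + 1, 4 * u + 1]
  | .c4p S _ _ _ _ _ mx my mz => [4 * S + 3, 4 * mx, 4 * my, 4 * mz]
  | .c4n S _ _ _ _ _ mx my mz => [4 * S + 3, 4 * mx + 1, 4 * my + 1, 4 * mz + 1]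
  | .c5 S t => (4 * S + 3) :: (4 * t + 1) ::
      (r10.filter (fun i => !(tb t i))).map (fun i => 4 * (t + 2 ^ i) + 2)
  | .ns _ _ _ mx my => [4 * mx + 3, 4 * my + 3]

def chkInps (db : Tr) : ℕ → List Inp → Bool
  | _, [] => true
  | i, x :: xs => okI x && leq (look db i) (clauseOf x) && chkInps db (i + 1) xs

theorem chkInps_sound (P Q : ℕ → Prop) (db : Tr)
    (hok : ∀ x, okI x = true → Sat P Q (clauseOf x)) (xs : List Inp) :
    ∀ i, chkInps db i xs = true → ∀ j, i ≤ j → j < i + xs.length → Sat P Q (look db j) := by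
  induction xs with
  | nil => intro i _ j h1 h2; simp at h2; omega
  | cons x xs ih =>
    intro i h j h1 h2
    rw [chkInps, Bool.and_eq_true, Bool.and_eq_true] at h
    obtain ⟨⟨ha, hb⟩, hc⟩ := h
    rcases Nat.eq_or_lt_of_le h1 with h1 | h1
    · rw [← h1, leq_spec _ _ hb]; exact hok x ha
    · exact ih (i + 1) hc j h1 (by simp at h2; omega)

/-! ## semantics -/

def fs (m : ℕ) : Finset (Fin 10) := Finset.univ.filter (fun i : Fin 10 => tb m i = true)

theorem mem_fs {m : ℕ} {i : Fin 10} : i ∈ fs m ↔ tb m i = true := by simp [fs]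

theorem fs_card (m : ℕ) : (fs m).card = pcl m r10 := by
  rw [fs, Finset.card_filter,
    Fin.sum_univ_eq_sum_range (fun i => if tb m i = true then 1 else 0) 10]
  simp only [Finset.sum_range_succ, Finset.sum_range_zero, r10, pcl, Bool.cond_eq_ite]
  ring

theorem mem_r10 (i : Fin 10) : (i : ℕ) ∈ r10 := by
  fin_cases i <;> simp [r10]

theorem eqm_spec {m : ℕ} {f : ℕ → Bool} (h : eqm m f = true) (i : Fin 10) :
    i ∈ fs m ↔ f i = true := by
  have := lall_spec _ _ h i (mem_r10 i)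
  rw [mem_fs]
  cases hf : f i <;> simp [hf] at this <;> simp [this]

theorem dis_spec {S t : ℕ} (h : dis S t = true) : fs t ⊆ (fs S)ᶜ := by
  intro i hi
  have := lall_spec _ _ h i (mem_r10 i)
  rw [mem_fs] at hi
  rw [Finset.mem_compl, mem_fs]
  simp [hi] at this
  simp [this]

theorem sub_spec {S t : ℕ} (h : sub t S = true) : fs t ⊆ fs S := by
  intro i hi
  have := lall_spec _ _ h i (mem_r10 i)
  rw [mem_fs] at hi ⊢
  simpa [hi] using this

structure Hyp (R F : Finset (Fin 10) → Prop) : Prop where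
  h2 : ∀ S, S.card = 4 → F S → ∀ t, t ⊆ S → t.card = 3 → R t
  h3 : ∀ S, S.card = 4 → F S → ∀ t, t ⊆ Sᶜ → t.card = 3 → (R t ↔ ¬ R (Sᶜ \ t))
  h4 : ∀ S, S.card = 4 → F S → ∀ a b x y z, a ∉ S → b ∉ S → x ∉ S → y ∉ S → z ∉ S →
    a ≠ b → a ≠ x → a ≠ y → a ≠ z → b ≠ x → b ≠ y → b ≠ z → x ≠ y → x ≠ z → y ≠ z →
    (R {a, b, x} ∨ R {a, b, y} ∨ R {a, b, z}) ∧ ¬ (R {a, b, x} ∧ R {a, b, y} ∧ R {a, b, z})
  h5 : ∀ S, S.card = 4 → F S → ∀ t, t ⊆ Sᶜ → t.card = 3 → R t → ∃ s, s ∉ t ∧ F (insert s t)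

theorem ls0 (P Q : ℕ → Prop) (m : ℕ) : ls P Q (4 * m) ↔ P m := by
  have e1 : (4 * m) % 4 = 0 := by omega
  have e2 : (4 * m) / 4 = m := by omega
  simp only [ls, e1, e2]
theorem ls1 (P Q : ℕ → Prop) (m : ℕ) : ls P Q (4 * m + 1) ↔ ¬ P m := by
  have e1 : (4 * m + 1) % 4 = 1 := by omega
  have e2 : (4 * m + 1) / 4 = m := by omega
  simp only [ls, e1, e2]
theorem ls2 (P Q : ℕ → Prop) (m : ℕ) : ls P Q (4 * m + 2) ↔ Q m := by
  have e1 : (4 * m + 2) % 4 = 2 := by omega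
  have e2 : (4 * m + 2) / 4 = m := by omega
  simp only [ls, e1, e2]
theorem ls3 (P Q : ℕ → Prop) (m : ℕ) : ls P Q (4 * m + 3) ↔ ¬ Q m := by
  have e1 : (4 * m + 3) % 4 = 3 := by omega
  have e2 : (4 * m + 3) / 4 = m := by omega
  simp only [ls, e1, e2]

theorem triple_of_eqm {m : ℕ} {a b x : Fin 10}
    (h : eqm m (fun i => Nat.beq i a || Nat.beq i b || Nat.beq i x) = true) : fs m = {a, b, x} := by
  ext i
  rw [eqm_spec h]
  simp [Fin.ext_iff, or_assoc]

theorem insert_of_eqm {m t : ℕ} {x : Fin 10}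
    (h : eqm m (fun i => Nat.beq i x || tb t i) = true) : fs m = insert x (fs t) := by
  ext i
  rw [eqm_spec h]
  simp [Fin.ext_iff, mem_fs]

theorem compl_of_eqm {u S t : ℕ}
    (h : eqm u (fun i => !(tb S i || tb t i)) = true) : fs u = (fs S)ᶜ \ fs t := by
  ext i
  rw [eqm_spec h]
  simp [mem_fs]

theorem out4_sound {R F : Finset (Fin 10) → Prop} (H : Hyp R F)
    {S a b x y z mx my mz : ℕ} (h : out4 S a b x y z mx my mz = true) (hF : F (fs S)) :
    (R (fs mx) ∨ R (fs my) ∨ R (fs mz)) ∧ ¬ (R (fs mx) ∧ R (fs my) ∧ R (fs mz)) := by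
  simp only [out4, Bool.and_eq_true, Bool.not_eq_true', Nat.blt_eq] at h
  obtain ⟨⟨⟨⟨hS, ⟨⟨⟨⟨ha, hb⟩, hx⟩, hy⟩, hz⟩⟩, hne⟩, hnS⟩, hm⟩ := h
  have hS4 : (fs S).card = 4 := by rw [fs_card]; exact Nat.eq_of_beq_eq_true hS
  have nb : ∀ {u v : ℕ}, Nat.beq u v = false → u ≠ v := by
    intro u v h h'
    rw [h'] at h
    simp at h
  obtain ⟨⟨⟨⟨⟨⟨⟨⟨⟨n1, n2⟩, n3⟩, n4⟩, n5⟩, n6⟩, n7⟩, n8⟩, n9⟩, n10⟩ := hne
  obtain ⟨⟨⟨⟨o1, o2⟩, o3⟩, o4⟩, o5⟩ := hnS
  obtain ⟨⟨m1, m2⟩, m3⟩ := hm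
  have hmem : ∀ (i : Fin 10), tb S i = false → i ∉ fs S := by
    intro i h h'
    rw [mem_fs, h] at h'
    simp at h'
  have neF : ∀ {u v : ℕ} (hu : u < 10) (hv : v < 10), Nat.beq u v = false →
      (⟨u, hu⟩ : Fin 10) ≠ ⟨v, hv⟩ := by
    intro u v hu hv h h'
    exact nb h (Fin.mk.inj_iff.1 h')
  have e1 : fs mx = {(⟨a, ha⟩ : Fin 10), ⟨b, hb⟩, ⟨x, hx⟩} := triple_of_eqm m1
  have e2 : fs my = {(⟨a, ha⟩ : Fin 10), ⟨b, hb⟩, ⟨y, hy⟩} := triple_of_eqm m2
  have e3 : fs mz = {(⟨a, ha⟩ : Fin 10), ⟨b, hb⟩, ⟨z, hz⟩} := triple_of_eqm m3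
  rw [e1, e2, e3]
  exact H.h4 (fs S) hS4 hF ⟨a, ha⟩ ⟨b, hb⟩ ⟨x, hx⟩ ⟨y, hy⟩ ⟨z, hz⟩
    (hmem _ o1) (hmem _ o2) (hmem _ o3) (hmem _ o4) (hmem _ o5)
    (neF _ _ n1) (neF _ _ n2) (neF _ _ n3) (neF _ _ n4) (neF _ _ n5)
    (neF _ _ n6) (neF _ _ n7) (neF _ _ n8) (neF _ _ n9) (neF _ _ n10)

theorem ok_sound {R F : Finset (Fin 10) → Prop} (H : Hyp R F)
    (hu0 : F (fs 15)) (hu1 : R (fs 560) ∧ R (fs 608) ∧ R (fs 704) ∧ R (fs 896) ∧ R (fs 784))
    (x : Inp) (hx : okI x = true)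
    (hkind : (∀ S, x = .u2 S → F (fs 519)) ∧
      (∀ t a b ma mb, x = .ns t a b ma mb → ∀ (t : Finset (Fin 10)) x y, t.card = 3 → x ∉ t →
        y ∉ t → x ≠ y → ¬ F (insert x t) ∨ ¬ F (insert y t))) :
    Sat (fun m => R (fs m)) (fun m => F (fs m)) (clauseOf x) := by
  cases x with
  | u0 S =>
    simp only [okI] at hx
    rw [Nat.eq_of_beq_eq_true hx]
    exact ⟨4 * 15 + 2, by simp [clauseOf], (ls2 _ _ _).2 hu0⟩
  | u1 t =>
    simp only [okI, Bool.or_eq_true] at hx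
    refine ⟨4 * t, by simp [clauseOf], (ls0 _ _ _).2 ?_⟩
    rcases hx with (((h | h) | h) | h) | h <;> rw [Nat.eq_of_beq_eq_true h]
    · exact hu1.1
    · exact hu1.2.1
    · exact hu1.2.2.1
    · exact hu1.2.2.2.1
    · exact hu1.2.2.2.2
  | u2 S =>
    simp only [okI] at hx
    rw [Nat.eq_of_beq_eq_true hx]
    exact ⟨4 * 519 + 2, by simp [clauseOf], (ls2 _ _ _).2 (hkind.1 S rfl)⟩
  | c2 S t =>
    simp only [okI, Bool.and_eq_true] at hx
    obtain ⟨⟨a1, a2⟩, a3⟩ := hx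
    by_cases hF : F (fs S)
    · refine ⟨4 * t, by simp [clauseOf], (ls0 _ _ _).2 ?_⟩
      exact H.h2 _ (by rw [fs_card]; exact Nat.eq_of_beq_eq_true a1) hF _ (sub_spec a3)
        (by rw [fs_card]; exact Nat.eq_of_beq_eq_true a2)
    · exact ⟨4 * S + 3, by simp [clauseOf], (ls3 _ _ _).2 hF⟩
  | c3p S t u =>
    simp only [okI, Bool.and_eq_true] at hx
    obtain ⟨⟨⟨a1, a2⟩, a3⟩, a4⟩ := hx
    by_cases hF : F (fs S)
    · have h3 := H.h3 _ (by rw [fs_card]; exact Nat.eq_of_beq_eq_true a1) hF _ (dis_spec a3)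
        (by rw [fs_card]; exact Nat.eq_of_beq_eq_true a2)
      rw [← compl_of_eqm a4] at h3
      by_cases hR : R (fs t)
      · exact ⟨4 * t, by simp [clauseOf], (ls0 _ _ _).2 hR⟩
      · refine ⟨4 * u, by simp [clauseOf], (ls0 _ _ _).2 ?_⟩
        by_contra hcon
        exact hR (h3.2 hcon)
    · exact ⟨4 * S + 3, by simp [clauseOf], (ls3 _ _ _).2 hF⟩
  | c3n S t u =>
    simp only [okI, Bool.and_eq_true] at hx
    obtain ⟨⟨⟨a1, a2⟩, a3⟩, a4⟩ := hx
    by_cases hF : F (fs S)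
    · have h3 := H.h3 _ (by rw [fs_card]; exact Nat.eq_of_beq_eq_true a1) hF _ (dis_spec a3)
        (by rw [fs_card]; exact Nat.eq_of_beq_eq_true a2)
      rw [← compl_of_eqm a4] at h3
      by_cases hR : R (fs t)
      · exact ⟨4 * u + 1, by simp [clauseOf], (ls1 _ _ _).2 (h3.1 hR)⟩
      · exact ⟨4 * t + 1, by simp [clauseOf], (ls1 _ _ _).2 hR⟩
    · exact ⟨4 * S + 3, by simp [clauseOf], (ls3 _ _ _).2 hF⟩
  | c4p S a b x y z mx my mz =>
    by_cases hF : F (fs S)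
    · rcases (out4_sound H hx hF).1 with h | h | h
      · exact ⟨4 * mx, by simp [clauseOf], (ls0 _ _ _).2 h⟩
      · exact ⟨4 * my, by simp [clauseOf], (ls0 _ _ _).2 h⟩
      · exact ⟨4 * mz, by simp [clauseOf], (ls0 _ _ _).2 h⟩
    · exact ⟨4 * S + 3, by simp [clauseOf], (ls3 _ _ _).2 hF⟩
  | c4n S a b x y z mx my mz =>
    by_cases hF : F (fs S)
    · have h := (out4_sound H hx hF).2
      by_cases h1 : R (fs mx)
      · by_cases h2 : R (fs my)
        · refine ⟨4 * mz + 1, by simp [clauseOf], (ls1 _ _ _).2 ?_⟩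
          exact fun h3 => h ⟨h1, h2, h3⟩
        · exact ⟨4 * my + 1, by simp [clauseOf], (ls1 _ _ _).2 h2⟩
      · exact ⟨4 * mx + 1, by simp [clauseOf], (ls1 _ _ _).2 h1⟩
    · exact ⟨4 * S + 3, by simp [clauseOf], (ls3 _ _ _).2 hF⟩
  | c5 S t =>
    simp only [okI, Bool.and_eq_true] at hx
    obtain ⟨⟨⟨a1, a2⟩, a3⟩, a4⟩ := hx
    by_cases hF : F (fs S)
    · by_cases hR : R (fs t)
      · obtain ⟨s, hs, hFs⟩ := H.h5 _ (by rw [fs_card]; exact Nat.eq_of_beq_eq_true a1) hF _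
          (dis_spec a3) (by rw [fs_card]; exact Nat.eq_of_beq_eq_true a2) hR
        have h6 := lall_spec _ _ a4 s (mem_r10 s)
        have h7 : tb t s = false := by
          rw [mem_fs] at hs
          simpa using hs
        simp only [h7, Bool.false_or] at h6
        refine ⟨4 * (t + 2 ^ (s : ℕ)) + 2, ?_, (ls2 _ _ _).2 ?_⟩
        · simp only [clauseOf, List.mem_cons, List.mem_map, List.mem_filter]
          right; right
          exact ⟨s, ⟨mem_r10 s, by simp [h7]⟩, rfl⟩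
        · show F (fs (t + 2 ^ (s : ℕ)))
          rw [insert_of_eqm h6]; exact hFs
      · exact ⟨4 * t + 1, by simp [clauseOf], (ls1 _ _ _).2 hR⟩
    · exact ⟨4 * S + 3, by simp [clauseOf], (ls3 _ _ _).2 hF⟩
  | ns t x y mx my =>
    simp only [okI, Bool.and_eq_true, Bool.not_eq_true', Nat.blt_eq] at hx
    obtain ⟨⟨⟨⟨⟨⟨⟨a1, a2⟩, a3⟩, a4⟩, a5⟩, a6⟩, a7⟩, a8⟩ := hx
    have e1 : fs mx = insert (⟨x, a2⟩ : Fin 10) (fs t) := insert_of_eqm a7
    have e2 : fs my = insert (⟨y, a3⟩ : Fin 10) (fs t) := insert_of_eqm a8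
    rcases hkind.2 t x y mx my rfl (fs t) ⟨x, a2⟩ ⟨y, a3⟩
      (by rw [fs_card]; exact Nat.eq_of_beq_eq_true a1)
      (by rw [mem_fs]; simp [a5]) (by rw [mem_fs]; simp [a6])
      (by intro h; have := Fin.mk.inj_iff.1 h; rw [this] at a4; simp at a4) with h | h
    · refine ⟨4 * mx + 3, by simp [clauseOf], (ls3 _ _ _).2 ?_⟩
      rw [e1]; exact h
    · refine ⟨4 * my + 3, by simp [clauseOf], (ls3 _ _ _).2 ?_⟩
      rw [e2]; exact h

end Crest.Agent.S69.EndSat
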