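import Crest.Agent.S69.MajCor
import Crest.Agent.S69.EndGame

set_option autoImplicit false

/-!
# S0069: the facts on the six colours of `x^⊥` at a 4-fold point, from the plane lemma
-/
namespace Crest.Agent.S69.MC

open Crest.Agent.BU ChiA
open scoped RealInnerProductSpace

section
variable {c : E4 → Fin 10} {d ε e : ℝ} {X : Set S3} {z : Ch S3} {x : S3} {S : Finset (Fin 10)}

/-- the cycle property -/
theorem cycle_fund (hc : Col c d) {k : ℕ} (hk : 0 < k) (hz : Fund k e X z) (P : Finset (Fin 10)) :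
    ∑ m ∈ Pᶜ, ev (chi (cS c) (insert m P)) z = 0 := by
  have h := hz.stokes hk (chi (cS c) P) (chi_evenL hc P)
  rw [ev_congr_fun (cbd_chi (cS c) P), ev_sum_fun] at h
  exact h

/-- colours near `x` do not occur near `x^⊥` -/
theorem ev_chi_zero (hc : Col c d) {k : ℕ} (hz : Fund k e X z) (hx : x ∈ X)
    (hS : Near c ε x S) (he : ε + e < d) {t : Finset (Fin 10)} {m : Fin 10} (hm : m ∈ t)
    (hmS : m ∈ S) : ev (chi (cS c) t) z = 0 := by
  by_contra h
  obtain ⟨l, hl, hl'⟩ := exists_of_ev_ne (fund_avoid hc hz hx hS he) h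
  obtain ⟨v, hv, hvm⟩ := (chi_mem hl' m).1 hm
  exact hl v hv (by rw [hvm]; exact hmS)

variable (hc : Col c d) (hε : 0 < ε) (he0 : 0 < e) (he1 : e ≤ 1 / 4) (heε : 3 * e ≤ ε)
  (hεe : ε + e < d) (hz : Fund 2 e X z) (hx : x ∈ X) (hS : Near c ε x S) (hS4 : S.card = 4)
  (hplane : ∀ t ⊆ Sᶜ, t.card = 3 →
    ev (chi (cS c) t) z + ev (chi (cS c) (Sᶜ \ t)) z = 1)

include hc he0 heε hεe hz hS hS4 hplane in
/-- realised triples of the complement = odd triples -/
theorem real_iff {t : Finset (Fin 10)} (ht : t ⊆ Sᶜ) (ht3 : t.card = 3) :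
    Real c ε t ↔ ev (chi (cS c) t) z = 1 := by
  have hRS : Real c ε S := ⟨x, S3.norm x, hS⟩
  have hεd : ε < d := by linarith
  have heε' : e ≤ ε := by linarith
  have hcard : (Sᶜ \ t).card = 3 := by
    rw [Finset.card_sdiff_of_subset ht, Finset.card_compl, hS4, ht3]; simp
  constructor
  · intro hR
    by_contra h
    have h0 : ev (chi (cS c) t) z = 0 := by
      generalize ev (chi (cS c) t) z = a at h ⊢
      revert a; decide
    have h1 := hplane t ht ht3
    rw [h0, zero_add] at h1
    have h2 := fund_not_both (c := c) hc hεd heε' hz hRS (t := Sᶜ \ t)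
      (Finset.card_pos.1 (by omega)) (by rw [h1]; exact one_ne_zero)
    rw [Finset.sdiff_sdiff_eq_self ht] at h2
    exact h2 hR
  · intro h
    exact real_mono (fund_real' hz (Finset.card_pos.1 (by omega)) (by rw [h]; exact one_ne_zero))
      heε' (Finset.Subset.refl _)

include hc he0 heε hεe hz hS hS4 hplane in
/-- exactly one of two complementary triples is realised -/
theorem real_compl {t : Finset (Fin 10)} (ht : t ⊆ Sᶜ) (ht3 : t.card = 3) :
    Real c ε t ↔ ¬ Real c ε (Sᶜ \ t) := by
  have hcard : (Sᶜ \ t).card = 3 := by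
    rw [Finset.card_sdiff_of_subset ht, Finset.card_compl, hS4, ht3]; simp
  rw [real_iff hc he0 heε hεe hz hS hS4 hplane ht ht3,
    real_iff hc he0 heε hεe hz hS hS4 hplane Finset.sdiff_subset hcard]
  have h := hplane t ht ht3
  generalize ev (chi (cS c) t) z = a at h ⊢
  generalize ev (chi (cS c) (Sᶜ \ t)) z = b at h ⊢
  revert a b; decide

include hc he0 heε hεe hz hx hS hS4 hplane in
open Classical in
/-- even degrees -/
theorem real_even {a b : Fin 10} (ha : a ∈ Sᶜ) (hb : b ∈ Sᶜ) (hab : a ≠ b) :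
    Even (((Sᶜ \ {a, b}).filter (fun k => Real c ε {a, b, k})).card) := by
  have h := cycle_fund hc (by norm_num : 0 < 2) hz {a, b}
  have hins : ∀ m, insert m ({a, b} : Finset (Fin 10)) = {a, b, m} := by
    intro m; ext i; simp only [Finset.mem_insert, Finset.mem_singleton]; tauto
  have hsub : Sᶜ \ {a, b} ⊆ ({a, b} : Finset (Fin 10))ᶜ := by
    intro m hm
    rw [Finset.mem_sdiff] at hm
    exact Finset.mem_compl.2 hm.2
  rw [← Finset.sum_subset hsub (fun m hm hm' => by
    have h1 : m ∈ S := by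
      by_contra h1
      exact hm' (Finset.mem_sdiff.2 ⟨Finset.mem_compl.2 h1, Finset.mem_compl.1 hm⟩)
    exact ev_chi_zero hc hz hx hS hεe (Finset.mem_insert_self m _) h1)] at h
  have h2 : ∑ m ∈ Sᶜ \ {a, b}, ev (chi (cS c) (insert m {a, b})) z =
      ∑ m ∈ Sᶜ \ {a, b}, (if Real c ε {a, b, m} then (1 : ZMod 2) else 0) := by
    refine Finset.sum_congr rfl (fun m hm => ?_)
    rw [hins]
    rw [Finset.mem_sdiff] at hm
    have hm2 : m ≠ a ∧ m ≠ b := by
      have := hm.2
      simp only [Finset.mem_insert, Finset.mem_singleton, not_or] at this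
      exact this
    have ht : ({a, b, m} : Finset (Fin 10)) ⊆ Sᶜ := by
      intro i hi
      simp only [Finset.mem_insert, Finset.mem_singleton] at hi
      rcases hi with rfl | rfl | rfl
      · exact ha
      · exact hb
      · exact hm.1
    have ht3 : ({a, b, m} : Finset (Fin 10)).card = 3 :=
      Finset.card_eq_three.2 ⟨a, b, m, hab, hm2.1.symm, hm2.2.symm, rfl⟩
    have hiff := real_iff hc he0 heε hεe hz hS hS4 hplane ht ht3
    by_cases hR : Real c ε {a, b, m}
    · rw [if_pos hR, hiff.1 hR]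
    · rw [if_neg hR]
      have : ev (chi (cS c) {a, b, m}) z ≠ 1 := fun h => hR (hiff.2 h)
      generalize ev (chi (cS c) {a, b, m}) z = q at this ⊢
      revert q; decide
  rw [h2, Finset.sum_ite, Finset.sum_const_zero, add_zero, Finset.sum_const, nsmul_eq_mul,
    mul_one] at h
  exact (ZMod.natCast_eq_zero_iff_even).1 h

include hc hε he0 he1 heε hεe hz hx hS hS4 hplane in
/-- majority exclusion -/
theorem real_maj {t : Finset (Fin 10)} (ht : t ⊆ Sᶜ) (ht3 : t.card = 3) (hR : Real c ε t)
    {p q : Fin 10} (hp : p ∈ Sᶜ \ t) (hq : q ∈ Sᶜ \ t) (hpq : p ≠ q) :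
    ∃ a ∈ t, Real c ε {p, q, a} := by
  have h := (real_iff hc he0 heε hεe hz hS hS4 hplane ht ht3).1 hR
  obtain ⟨j, hj, hjR⟩ := maj_fund hc hε (by linarith) he1 heε hz hx hS hS4 ht3 ht
    (by rw [h]; exact one_ne_zero) hp hq hpq
  refine ⟨j, hj, ?_⟩
  have : ({p, q, j} : Finset (Fin 10)) = {j, p, q} := by
    ext i; simp only [Finset.mem_insert, Finset.mem_singleton]; tauto
  rw [this]; exact hjR

include hc hε he0 he1 heε hεe hz hx hS hS4 hplane in
open Classical in
/-- every pair of the complement lies in exactly two realised triples -/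
theorem real_deg_two {a b : Fin 10} (ha : a ∈ Sᶜ) (hb : b ∈ Sᶜ) (hab : a ≠ b) :
    ((Sᶜ \ {a, b}).filter (fun k => Real c ε {a, b, k})).card = 2 := by
  have hT : (Sᶜ).card = 6 := by rw [Finset.card_compl, hS4]; simp
  have := EndGame.deg_two hT (R := Real c ε)
    (fun t ht ht3 => real_compl hc he0 heε hεe hz hS hS4 hplane ht ht3)
    (fun a ha b hb hab => by
      have := real_even hc he0 heε hεe hz hx hS hS4 hplane ha hb hab
      convert this)
    (fun t ht ht3 hR p hp q hq hpq =>
      real_maj hc hε he0 he1 heε hεe hz hx hS hS4 hplane ht ht3 hR hp hq hpq) ha hb hab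
  convert this

end

end Crest.Agent.S69.MC
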