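import Crest.Agent.S69.Cap
import Crest.Agent.S69.Chi
import Crest.Agent.S69.Geo

set_option autoImplicit false

/-!
# S0069: the cycle property and the extension of triples to facets
-/
namespace Crest.Agent.S69

open scoped RealInnerProductSpace
open Crest.Agent.BU

theorem chi_evenL7 {c : E4 → Fin 10} (hc : ∀ x, c (-x) = c x) (t : Finset (Fin 10)) :
    EvenL (chi (fun v : S3 => c v) t) := by
  intro l
  unfold chi
  rw [List.map_map, List.length_map]
  have : ((fun v : S3 => c v) ∘ Neg.neg) = (fun v : S3 => c v) := by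
    funext v
    simp only [Function.comp_apply]
    exact hc v
  rw [this]

/-- a cochain with nonzero value is nonzero on some list of the support -/
theorem exists_of_ev_ne {V : Type*} {P : List V → Prop} {G : List V → ZMod 2} {z : Ch V}
    (hz : z ∈ supp P) (h : ev G z ≠ 0) : ∃ l, P l ∧ G l ≠ 0 := by
  by_contra hcon
  push Not at hcon
  exact h (ev_eq_zero hcon hz)

theorem chi_ne {V : Type*} {g : V → Fin 10} {t : Finset (Fin 10)} {l : List V}
    (h : chi g t l ≠ 0) : (l.map g).toFinset = t ∧ l.length = t.card := by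
  unfold chi at h
  by_contra hcon
  exact h (if_neg hcon)

/-- a list with small mutual distances and colour set `t` realises `t` -/
theorem near_of_list {c : E4 → Fin 10} {e : ℝ} {t : Finset (Fin 10)} {l : List S3}
    (hl : ∀ v ∈ l, ∀ w ∈ l, dist v w < e) (h : (l.map (fun v : S3 => c v)).toFinset = t)
    {v : S3} (hv : v ∈ l) : Near c e (v : E4) t := by
  intro k hk
  rw [← h, List.mem_toFinset, List.mem_map] at hk
  obtain ⟨w, hw, rfl⟩ := hk
  refine ⟨(w : E4), S3.norm w, ?_, rfl⟩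
  have := (hl v hv w hw).le
  rwa [Subtype.dist_eq, dist_eq_norm] at this

/-- **realisation**: if `t` is counted oddly then `t` is realised near `X^⊥` -/
theorem Fund.real {k : ℕ} {e : ℝ} {X : Set S3} {z : Ch S3} (h : Fund k e X z)
    {c : E4 → Fin 10} {t : Finset (Fin 10)}
    (ht : ev (chi (fun v : S3 => c v) t) z ≠ 0) :
    ∃ v : S3, Near c e (v : E4) t ∧ c v ∈ t ∧
      ∀ x ∈ X, |⟪(x : E4), (v : E4)⟫| < e := by
  obtain ⟨l, ⟨h1, h2, h3⟩, h4⟩ := exists_of_ev_ne h.mem ht
  obtain ⟨h5, h6⟩ := chi_ne h4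
  obtain ⟨v, hv⟩ : ∃ v, v ∈ l := List.exists_mem_of_length_pos (by omega)
  refine ⟨v, near_of_list h2 h5 hv, ?_, fun x hx => h3 x hx v hv⟩
  rw [← h5, List.mem_toFinset]
  exact List.mem_map_of_mem hv

/-- colours near a point of `X` do not occur in `z` -/
theorem Fund.zero_of_near {k : ℕ} {e : ℝ} {X : Set S3} {z : Ch S3} (h : Fund k e X z)
    {c : E4 → Fin 10} {d : ℝ} (hc : Col c d) {ε : ℝ} (hε : ε + e < d) {x : S3} (hx : x ∈ X)
    {A t : Finset (Fin 10)} (hA : Near c ε (x : E4) A) {a : Fin 10} (ha : a ∈ A) (hat : a ∈ t) :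
    ev (chi (fun v : S3 => c v) t) z = 0 := by
  by_contra hne
  obtain ⟨l, ⟨h1, h2, h3⟩, h4⟩ := exists_of_ev_ne h.mem hne
  obtain ⟨h5, h6⟩ := chi_ne h4
  rw [← h5, List.mem_toFinset, List.mem_map] at hat
  obtain ⟨w, hw, rfl⟩ := hat
  exact color_notin hc.sep hε (S3.norm w) (h3 x hx w hw).le hA ha

/-- **(K2)** the colour triples form a cycle -/
theorem Fund.k2 {k : ℕ} {e : ℝ} {X : Set S3} {z : Ch S3} (h : Fund k e X z) (hk : 0 < k)
    {c : E4 → Fin 10} (hc : ∀ x, c (-x) = c x) (P : Finset (Fin 10)) :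
    ∑ m ∈ Pᶜ, ev (chi (fun v : S3 => c v) (insert m P)) z = 0 := by
  have h1 := h.stokes hk _ (chi_evenL7 hc P)
  rw [← ChiA.ev_sum_fun, ← h1]
  exact ev_congr_fun (fun l => (cbd_chi _ P l).symm) z

/-- change of the odd function -/
theorem Fund.change {k : ℕ} {e : ℝ} {X : Set S3} {z : Ch S3} (h : Fund k e X z) (hk : 0 < k)
    {a a' : S3 → ZMod 2} (ha : Odd a) (ha' : Odd a') {G : List S3 → ZMod 2} (hG : EvenL G) :
    ev (BU.wcup a G) z + ev (BU.wcup a' G) z =
      ev (BU.acup (fun v => a v + a' v) (BU.cbd G)) z := by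
  have hb : Even0 (fun v => a v + a' v) := by
    intro v
    show a (-v) + a' (-v) = a v + a' v
    rw [ha v, ha' v]
    have := add_self2 (1 : ZMod 2)
    linear_combination this
  rw [← h.even_wcup hk hb hG, ← ev_add_fun]
  refine ev_congr_fun (fun l => ?_) z
  match l with
  | [] => simp [BU.wcup]
  | [v] => simp [BU.wcup]
  | (v :: v' :: l) => simp only [BU.wcup]; ring

/-- if no `t ∪ {m}` is realised then the count of `t` does not depend on the odd function -/
theorem Fund.exists_insert {k : ℕ} {e : ℝ} {X : Set S3} {z : Ch S3} (h : Fund k e X z)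
    (hk : 0 < k) {c : E4 → Fin 10} (hc : ∀ x, c (-x) = c x) {a a' : S3 → ZMod 2} (ha : Odd a)
    (ha' : Odd a') {t : Finset (Fin 10)}
    (hne : ev (chi (fun v : S3 => c v) t) (S69.cap a z) ≠
      ev (chi (fun v : S3 => c v) t) (S69.cap a' z)) :
    ∃ m ∉ t, ∃ v : S3, Near c e (v : E4) (insert m t) ∧ ∀ x ∈ X, |⟪(x : E4), (v : E4)⟫| < e := by
  rw [ev_cap, ev_cap] at hne
  have h1 := h.change hk ha ha' (chi_evenL7 hc t)
  have h2 : ev (BU.acup (fun v => a v + a' v) (BU.cbd (chi (fun v : S3 => c v) t))) z ≠ 0 := by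
    rw [← h1]
    intro h0
    apply hne
    have := add_self2 (ev (BU.wcup a' (chi (fun v : S3 => c v) t)) z)
    linear_combination h0 - this
  obtain ⟨l, ⟨h3, h4, h5⟩, h6⟩ := exists_of_ev_ne h.mem h2
  match l, h3, h4, h5, h6 with
  | [], h3, _, _, _ => simp at h3
  | (v :: l), h3, h4, h5, h6 =>
    simp only [BU.acup] at h6
    have h7 : BU.cbd (chi (fun v : S3 => c v) t) (v :: l) ≠ 0 := right_ne_zero_of_mul h6
    rw [cbd_chi] at h7
    obtain ⟨m, hm, hm'⟩ := Finset.exists_ne_zero_of_sum_ne_zero h7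
    obtain ⟨h8, h9⟩ := chi_ne hm'
    exact ⟨m, by simpa using hm, v, near_of_list h4 h8 (by simp), fun x hx => h5 x hx v (by simp)⟩

/-- **(5)** a triple which is counted oddly in `x^⊥` extends to a realised 4-set -/
theorem Fund.five {k : ℕ} {e : ℝ} {X : Set S3} {z : Ch S3} (h : Fund (k + 1) e X z)
    {c : E4 → Fin 10} {d : ℝ} (hc : Col c d) (hed : e < d)
    {x : S3} {t : Finset (Fin 10)}
    (hN : ev (chi (fun v : S3 => c v) t) (S69.cap (s x) z) ≠ 0) :
    ∃ m ∉ t, Real c e (insert m t) := by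
  obtain ⟨v, hv, hvt, -⟩ := (h.cap x).real hN
  have h0 : ev (chi (fun v : S3 => c v) t) (S69.cap (s v) z) = 0 :=
    (h.cap v).zero_of_near hc (ε := 0) (by linarith) (Set.mem_insert _ _)
      (near_singleton (S3.norm v) le_rfl) (Finset.mem_singleton_self _) hvt
  obtain ⟨m, hm, w, hw, -⟩ := h.exists_insert (Nat.succ_pos k) hc.even (s_odd x) (s_odd v)
    (t := t) (by rw [h0]; exact hN)
  exact ⟨m, hm, w, S3.norm w, hw⟩

end Crest.Agent.S69
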