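import Crest.Agent.S69.Main
import Crest.Agent.S69.PlaneMain
import Crest.Agent.S69.LineF

set_option autoImplicit false

/-!
# S0069: the two geometric hypotheses of `facts`
-/
namespace Crest.Agent.S69

open Crest.Agent.BU
open scoped RealInnerProductSpace

/-- the plane lemma in the form used by `facts` -/
theorem planeHyp {c : E4 → Fin 10} {d ρ e : ℝ} (hc : Col c d) (h4 : 4 * e < d)
    (he : e ≤ 1 / 40) (hρ : ρ + e < d) : PlaneHyp c ρ e := by
  intro h hh x s' hs' hN t ht ht3
  exact plane_fund hc h4 he hρ (Set.mem_insert x ∅) hs' hN (hh.cap x) ht ht3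

/-- the line lemma in the form used by `facts` -/
theorem lineHyp {c : E4 → Fin 10} {d e : ℝ} (hc : Col c d) (h4 : 4 * e < d)
    (he : e ≤ 1 / 40) : LineHyp c e := by
  intro x y hxy z hz k l m hkl hkm hlm hcol
  refine LineF.line_fund hc h4 he (x := x) (y := y) (X := {y, x})
    (Set.mem_insert_of_mem y (Set.mem_singleton x)) (Set.mem_insert y _) ?_ hz hkl hkm hlm ?_
  · exact (show |⟪(x : E4), (y : E4)⟫| ≤ 1 / 10 from hxy.le.trans (by linarith))
  · refine supp_mono (fun l' hl v hv => ?_) hz.mem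
    exact hcol v (hl.2.2 x (Set.mem_insert_of_mem y (Set.mem_singleton x)) v hv)
      (hl.2.2 y (Set.mem_insert y _) v hv)

/-- the combinatorial facts of an even ten-colouring of the 3-sphere -/
theorem facts_of_col {c : E4 → Fin 10} {d ρ e : ℝ} (hc : Col c d) (he0 : 0 < e)
    (h4 : 4 * e < d) (he : e ≤ 1 / 40) (heρ : e ≤ ρ) (hρ : ρ + e < d) :
    Facts (Real c ρ) (Real c ρ) :=
  facts hc he0 heρ hρ (planeHyp hc h4 he hρ) (lineHyp hc h4 he)

end Crest.Agent.S69
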