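import Crest.Agent.S69.TeleB

set_option autoImplicit false

/-!
# The index theorems (plane and line)
-/
namespace Crest.Agent.S69.B

open Crest.Agent.BU

universe u
variable {V : Type u}

/-- `X + Y` -/
def XY (e : V → ZMod 2) (F : DC V) : DC V := fun s t => Wc (Xg e) F s t + Wc (Yg e) F s t

theorem E0_XY (e : V → ZMod 2) (F : DC V) : E0 (XY e F) := by
  refine ⟨fun t => ?_, fun s => ?_⟩
  · simp only [XY, (E0_Wc _ _).1, add_zero]
  · simp only [XY, (E0_Wc _ _).2, add_zero]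

theorem D_XY (e : V → ZMod 2) (F : DC V) (h0 : E0 F) (hF : D F = fun _ _ => 0) :
    D (XY e F) = fun _ _ => 0 := by
  unfold XY
  rw [D_add, D_Wc _ _ h0, D_Wc _ _ h0, hF, Wc_zero, Wc_zero]
  funext s t; simp

theorem Ev_add {T : V → V} {P : V → Prop} {F G : DC V} (hF : Ev T P F) (hG : Ev T P G) :
    Ev T P (fun s t => F s t + G s t) := fun s t hs ht =>
  ⟨by simp only [(hF s t hs ht).1, (hG s t hs ht).1], by
    simp only [(hF s t hs ht).2, (hG s t hs ht).2]⟩

theorem Ev_XY {T : V → V} {P : V → Prop} {e : V → ZMod 2} (he : ∀ v, P v → e (T v) = e v + 1)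
    {F : DC V} (hF : Ev T P F) : Ev T P (XY e F) :=
  Ev_add (Ev_Wc (Bi_X he) hF) (Ev_Wc (Bi_Y he) hF)

theorem Bi_odd {T : V → V} {P : V → Prop} {g : V → V → ZMod 2}
    (hg : ∀ v u, P v → P u → g (T v) u = g v u + 1 ∧ g v (T u) = g v u + 1) : Bi T P g :=
  ⟨1, 1, hg⟩

/-- **Plane index theorem.** -/
theorem plane_index {T : V → V} {P : V → Prop} {Q : List V → Prop} {z : Ch V} (hz : Cyc T P Q z)
    {N : V → V → Prop}
    {s0 : V → V → ZMod 2} (hs0 : Loc Q N s0)
    (hs01 : ∀ v u, P v → P u → s0 (T v) u = s0 v u + 1 ∧ s0 v (T u) = s0 v u + 1)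
    (hs0s : ∀ v u, s0 v u = s0 u v)
    (e : V → ZMod 2) (he : ∀ v, P v → e (T v) = e v + 1)
    (g : Fin 3 → V → V → ZMod 2)
    (hg1 : ∀ j v u, P v → P u → g j (T v) u = g j v u + 1 ∧ g j v (T u) = g j v u + 1)
    (hg2 : ∀ j v u, P v → P u → N v u → g j v u + g j u v = 1)
    (hg3 : ∀ s t, Q s → Q t → (∀ v ∈ s, ∀ u ∈ t, N v u) →
      ∃ j, ∀ v ∈ s, ∀ v' ∈ s, ∀ u ∈ t, ∀ u' ∈ t, g j v u = g j v' u')
    (A0 A1 A2 A3 : DC V) (h0 : E0 A0) (h1 : E0 A1) (h2 : E0 A2) (h3 : E0 A3)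
    (e0 : Ev T P A0) (e1 : Ev T P A1) (e2 : Ev T P A2)
    (a0 : Eqv P N (fun s t => A0 s t + Tr A0 s t) One)
    (a1 : Eqv P N (fun s t => A1 s t + Tr A1 s t) (D A0))
    (a2 : Eqv P N (fun s t => A2 s t + Tr A2 s t) (D A1))
    (a3 : Eqv P N (fun s t => A3 s t + Tr A3 s t) (D A2))
    (hlen : ∀ l, Q l → l.length = 3) (hw : ev (wprod [e, e]) z = 1) :
    dd z (Wc s0 A3) = 1 := by
  have hs0b : Bi T P s0 := Bi_odd hs01
  have hgb : ∀ j, Good T P N (g j) := fun j => ⟨Bi_odd (hg1 j), hg2 j⟩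
  -- step 1
  have s1 := tele' hz hs0 hs0b hs0s [] (by simp) e he (g 0) (hg1 0) (hg2 0) A3 A2 (D A1)
    h3 h2 e2 a3 a2
  have s1' : dd z (Wc s0 (Wp [] (Wc (Xg e) (D A1)))) = 0 := by
    have : Wc s0 (Wp [] (Wc (Xg e) (D A1))) = D (Wp [s0, Xg e] A1) := by
      rw [← Wp_D _ _ h1]; rfl
    rw [this]
    refine dd_D hz (Ev_Wp ?_ e1)
    intro g' hg'
    simp only [List.mem_cons, List.not_mem_nil, or_false] at hg'
    rcases hg' with rfl | rfl
    · exact hs0b
    · exact Bi_X he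
  -- step 2
  have s2 := tele' hz hs0 hs0b hs0s [g 0] (by simp [hgb]) e he (g 1) (hg1 1) (hg2 1) A2 A1 (D A0)
    h2 h1 e1 a2 a1
  have s2' : dd z (Wc s0 (Wp [g 0] (Wc (Xg e) (D A0)))) = 0 := by
    have : Wc s0 (Wp [g 0] (Wc (Xg e) (D A0))) = D (Wp [s0, g 0, Xg e] A0) := by
      rw [← Wp_D _ _ h0]; rfl
    rw [this]
    refine dd_D hz (Ev_Wp ?_ e0)
    intro g' hg'
    simp only [List.mem_cons, List.not_mem_nil, or_false] at hg'
    rcases hg' with rfl | rfl | rfl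
    · exact hs0b
    · exact (hgb 0).1
    · exact Bi_X he
  -- step 3
  have s3 := tele' hz hs0 hs0b hs0s [g 0, g 1] (by simp [hgb]) e he (g 2) (hg1 2) (hg2 2) A1 A0 One
    h1 h0 e0 a1 a0
  have s3' : dd z (Wc s0 (Wp ([g 0, g 1] ++ [g 2]) A0)) = 0 := by
    unfold dd
    refine ev_eq_zero (P := Q) (fun s hs => ?_) hz.supp
    refine ev_eq_zero (P := Q) (fun t ht => ?_) hz.supp
    have ls := hlen s hs
    have lt := hlen t ht
    match s, ls, t, lt with
    | [v0, v1, v2], _, [u0, u1, u2], _ =>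
      rcases hs0 _ _ hs ht with hc | hc
      · have c1 := hc v0 (by simp) v1 (by simp) u0 (by simp) u0 (by simp)
        have c2 := hc v0 (by simp) v0 (by simp) u0 (by simp) u1 (by simp)
        simp only [Wc, Wl, Wr]
        rw [← c1, ← c2, add_self2, zero_mul, zero_mul, add_zero]
      · obtain ⟨j, hj⟩ := hg3 _ _ hs ht hc
        have hj' : ∀ v ∈ [v0, v1, v2], ∀ u ∈ [u0, u1, u2], g j v u = g j v0 u0 :=
          fun v hv u hu => hj v hv v0 (by simp) u hu u0 (by simp)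
        have k00 := hj' v0 (by simp) u0 (by simp)
        have k01 := hj' v0 (by simp) u1 (by simp)
        have k02 := hj' v0 (by simp) u2 (by simp)
        have k10 := hj' v1 (by simp) u0 (by simp)
        have k11 := hj' v1 (by simp) u1 (by simp)
        have k12 := hj' v1 (by simp) u2 (by simp)
        have k20 := hj' v2 (by simp) u0 (by simp)
        have k21 := hj' v2 (by simp) u1 (by simp)
        have k22 := hj' v2 (by simp) u2 (by simp)
        fin_cases j <;>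
          simp only [Fin.zero_eta, Fin.mk_one, Fin.reduceFinMk] at k00 k01 k02 k10 k11 k12 k20 k21 k22 <;>
          simp [Wp, Wc, Wl, Wr, k01, k02, k10, k11, k12, k20, k21, k22, add_self2]
  -- replacement by X + Y
  have hXo : E0 (Wc (Xg e) (One : DC V)) := E0_Wc _ _
  have hXe : Ev T P (Wc (Xg e) (One : DC V)) := Ev_Wc (Bi_X he) (Ev_One T P)
  have hXc : D (Wc (Xg e) (One : DC V)) = fun _ _ => 0 := by
    rw [D_Wc _ _ E0_One, D_One, Wc_zero]
  have r1 := repl hz [s0, g 0] (by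
    intro g' hg'
    simp only [List.mem_cons, List.not_mem_nil, or_false] at hg'
    rcases hg' with rfl | rfl
    · exact hs0b
    · exact (hgb 0).1) e he (g 1) (hg1 1) (Wc (Xg e) One) hXo hXe hXc
  have r2 := repl hz [s0] (by
    intro g' hg'
    simp only [List.mem_cons, List.not_mem_nil, or_false] at hg'
    rcases hg' with rfl
    exact hs0b) e he (g 0) (hg1 0) (XY e (Wc (Xg e) One)) (E0_XY _ _) (Ev_XY he hXe)
      (D_XY _ _ hXo hXc)
  have r3 := repl hz [] (by simp) e he s0 hs01 (XY e (XY e (Wc (Xg e) One))) (E0_XY _ _)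
    (Ev_XY he (Ev_XY he hXe)) (D_XY _ _ (E0_XY _ _) (D_XY _ _ hXo hXc))
  have r4 : dd z (XY e (XY e (XY e (Wc (Xg e) One)))) = 1 := by
    have e1 : dd z (XY e (XY e (XY e (Wc (Xg e) One)))) =
        dd z (fun s t => wprod [e, e] s * wprod [e, e] t) := by
      refine dd_congr hz (fun s t hs ht => ?_)
      have ls := hlen s hs
      have lt := hlen t ht
      match s, ls, t, lt with
      | [v0, v1, v2], _, [u0, u1, u2], _ =>
        simp only [XY, Wc, Wl, Wr, Xg, Yg, One, wprod, wprodq, List.foldr, wcup]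
        have h3 := add_self2 ((e v0 + e v1) * (e v1 + e v2) * ((e u0 + e u1) * (e u1 + e u2)))
        have q0 := add_self2 (e v0)
        have q1 := add_self2 (e v1)
        have q2 := add_self2 (e v2)
        have p0 := add_self2 (e u0)
        have p1 := add_self2 (e u1)
        have p2 := add_self2 (e u2)
        simp only [q0, q1, q2, p0, p1, p2, zero_mul, mul_zero, add_zero, zero_add, mul_one]
        linear_combination h3
    rw [e1]
    unfold dd
    have e2 : (fun s : List V => ev (fun t => wprod [e, e] s * wprod [e, e] t) z) =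
        fun s => wprod [e, e] s := by
      funext s
      rw [ev_const_mul, hw, mul_one]
    rw [e2, hw]
  have f0 : dd z (Wc s0 A3) = dd z (Wc s0 (Wp [] A3)) := rfl
  rw [f0, s1, s1', add_zero]
  have f1 : dd z (Wc s0 (Wp ([] ++ [g 0]) A2)) = dd z (Wc s0 (Wp [g 0] A2)) := rfl
  rw [f1, s2, s2', add_zero]
  have f2 : dd z (Wc s0 (Wp ([g 0] ++ [g 1]) A1)) = dd z (Wc s0 (Wp [g 0, g 1] A1)) := rfl
  rw [f2, s3, s3', zero_add]
  have f3 : dd z (Wc s0 (Wp [g 0, g 1] (Wc (Xg e) One))) =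
      dd z (Wp [s0, g 0] (Wc (g 1) (Wc (Xg e) One))) := rfl
  rw [f3, r1]
  have f4 : dd z (Wp [s0, g 0] (fun s t => Wc (Xg e) (Wc (Xg e) One) s t +
      Wc (Yg e) (Wc (Xg e) One) s t)) = dd z (Wp [s0] (Wc (g 0) (XY e (Wc (Xg e) One)))) := rfl
  rw [f4, r2]
  have f5 : dd z (Wp [s0] (fun s t => Wc (Xg e) (XY e (Wc (Xg e) One)) s t +
      Wc (Yg e) (XY e (Wc (Xg e) One)) s t)) =
      dd z (Wp [] (Wc s0 (XY e (XY e (Wc (Xg e) One))))) := rfl
  rw [f5, r3]
  exact r4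

end Crest.Agent.S69.B
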