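import Crest.Agent.BU.Euclid

set_option autoImplicit false

/-!
# Sorted chains and the Ky Fan parity
-/
namespace Crest.Agent.S69

open Crest.Agent.BU

universe u
variable {V : Type u}

/-- stable insertion with respect to a key -/
def insL (κ : V → ℕ) (v : V) : List V → List V
  | [] => [v]
  | (w :: l) => if κ v ≤ κ w then v :: w :: l else w :: insL κ v l

/-- stable insertion sort with respect to a key -/
def srtL (κ : V → ℕ) : List V → List V
  | [] => []
  | (v :: l) => insL κ v (srtL κ l)

/-- sorted by the key -/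
def Srt (κ : V → ℕ) (l : List V) : Prop := l.Pairwise (fun x y => κ x ≤ κ y)

theorem insL_perm (κ : V → ℕ) (v : V) (l : List V) : (insL κ v l).Perm (v :: l) := by
  induction l with
  | nil => simp [insL]
  | cons w l ih =>
    rw [insL]
    split_ifs with h
    · exact List.Perm.refl _
    · exact (List.Perm.cons w ih).trans (List.Perm.swap v w l)

theorem srtL_perm (κ : V → ℕ) (l : List V) : (srtL κ l).Perm l := by
  induction l with
  | nil => simp [srtL]
  | cons v l ih => exact (insL_perm κ v _).trans (List.Perm.cons v ih)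

theorem insL_srt (κ : V → ℕ) (v : V) (l : List V) (hl : Srt κ l) : Srt κ (insL κ v l) := by
  induction l with
  | nil => simp [insL, Srt]
  | cons w l ih =>
    unfold Srt at hl ih ⊢
    rw [insL]
    rw [List.pairwise_cons] at hl
    split_ifs with h
    · rw [List.pairwise_cons]
      refine ⟨?_, List.pairwise_cons.2 hl⟩
      intro x hx
      rcases List.mem_cons.1 hx with rfl | hx
      · exact h
      · exact h.trans (hl.1 x hx)
    · rw [List.pairwise_cons]
      refine ⟨?_, ih hl.2⟩
      intro x hx
      rcases List.mem_cons.1 ((insL_perm κ v l).mem_iff.1 hx) with rfl | hx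
      · exact (not_le.1 h).le
      · exact hl.1 x hx

theorem srtL_srt (κ : V → ℕ) (l : List V) : Srt κ (srtL κ l) := by
  induction l with
  | nil => simp [srtL, Srt]
  | cons v l ih => exact insL_srt κ v _ ih

theorem insL_map (κ : V → ℕ) (T : V → V) (hT : ∀ v, κ (T v) = κ v) (v : V) (l : List V) :
    insL κ (T v) (l.map T) = (insL κ v l).map T := by
  induction l with
  | nil => simp [insL]
  | cons w l ih =>
    simp only [List.map_cons, insL, hT]
    split_ifs with h
    · simp
    · simp [ih]

theorem srtL_map (κ : V → ℕ) (T : V → V) (hT : ∀ v, κ (T v) = κ v) (l : List V) :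
    srtL κ (l.map T) = (srtL κ l).map T := by
  induction l with
  | nil => simp [srtL]
  | cons v l ih => simp only [List.map_cons, srtL, ih, insL_map κ T hT]

/-- linear extension of the insertion -/
noncomputable def ins (κ : V → ℕ) (v : V) : Ch V →ₗ[ZMod 2] Ch V := lift (fun l => sg (insL κ v l))

/-- linear extension of the sort -/
noncomputable def srt (κ : V → ℕ) : Ch V →ₗ[ZMod 2] Ch V := lift (fun l => sg (srtL κ l))

@[simp] theorem ins_sg (κ : V → ℕ) (v : V) (l : List V) : ins κ v (sg l) = sg (insL κ v l) := by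
  simp [ins]

@[simp] theorem srt_sg (κ : V → ℕ) (l : List V) : srt κ (sg l) = sg (srtL κ l) := by
  simp [srt]

theorem srt_cons (κ : V → ℕ) (v : V) (c : Ch V) : srt κ (cons v c) = ins κ v (srt κ c) := by
  have := hom_ext (f := srt κ ∘ₗ cons v) (g := ins κ v ∘ₗ srt κ) (fun l => by
    simp [srtL]) c
  simpa using this

theorem srt_mp (κ : V → ℕ) (T : V → V) (hT : ∀ v, κ (T v) = κ v) (c : Ch V) :
    srt κ (mp T c) = mp T (srt κ c) := by
  have := hom_ext (f := srt κ ∘ₗ mp T) (g := mp T ∘ₗ srt κ) (fun l => by
    simp [srtL_map κ T hT]) c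
  simpa using this

theorem lin_congr {M : Type*} [AddCommGroup M] [Module (ZMod 2) M] {P : List V → Prop}
    {f g : Ch V →ₗ[ZMod 2] M} (h : ∀ l, P l → f (sg l) = g (sg l)) {c : Ch V} (hc : c ∈ supp P) :
    f c = g c := by
  have := lift_mem (S := (⊥ : Submodule (ZMod 2) M)) (f := f - g) (P := P) (fun l hl => by
    simp [h l hl]) hc
  rw [Submodule.mem_bot, LinearMap.sub_apply, sub_eq_zero] at this
  exact this

theorem ins_eq_cons (κ : V → ℕ) (v : V) {c : Ch V} (hc : c ∈ supp (fun l => ∀ x ∈ l, κ v ≤ κ x)) :
    ins κ v c = cons v c := by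
  refine lin_congr (fun l hl => ?_) hc
  rw [ins_sg, cons_sg]
  match l, hl with
  | [], _ => rfl
  | w :: l, hl => rw [insL, if_pos (hl w (by simp))]

theorem ins_cons_of_lt (κ : V → ℕ) (v w : V) (h : κ w < κ v) (c : Ch V) :
    ins κ v (cons w c) = cons w (ins κ v c) := by
  have := hom_ext (f := ins κ v ∘ₗ cons w) (g := cons w ∘ₗ ins κ v) (fun l => by
    simp [insL, not_le.2 h]) c
  simpa using this

theorem bdL_mem_all (P : V → Prop) (l : List V) (hl : ∀ x ∈ l, P x) :
    bdL l ∈ supp (fun l => ∀ x ∈ l, P x) := by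
  induction l with
  | nil => simp [bdL]
  | cons v l ih =>
    rw [bdL]
    refine Submodule.add_mem _ (sg_mem fun x hx => hl x (by simp [hx])) ?_
    refine lift_mem (f := cons v) (fun l' hl' => ?_) (ih fun x hx => hl x (by simp [hx]))
    rw [cons_sg]
    refine sg_mem fun x hx => ?_
    rcases List.mem_cons.1 hx with rfl | hx
    · exact hl x (by simp)
    · exact hl' x hx

theorem bdL_insL (κ : V → ℕ) (v : V) (l : List V) (hl : Srt κ l) :
    bdL (insL κ v l) = sg l + ins κ v (bdL l) := by
  induction l with
  | nil => simp [insL, bdL]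
  | cons w l ih =>
    have hl' : (w :: l).Pairwise (fun x y => κ x ≤ κ y) := hl
    rw [List.pairwise_cons] at hl'
    rw [insL]
    split_ifs with h
    · rw [bdL, ins_eq_cons]
      refine bdL_mem_all (fun x => κ v ≤ κ x) _ ?_
      intro x hx
      rcases List.mem_cons.1 hx with rfl | hx
      · exact h
      · exact h.trans (hl'.1 x hx)
    · rw [bdL, ih hl'.2, bdL, map_add, map_add, ins_sg, cons_sg,
        ins_cons_of_lt κ v w (not_le.1 h)]
      abel

theorem bdL_srtL (κ : V → ℕ) (l : List V) : bdL (srtL κ l) = srt κ (bdL l) := by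
  induction l with
  | nil => simp [srtL, bdL]
  | cons v l ih =>
    rw [srtL, bdL_insL κ v _ (srtL_srt κ l), ih, bdL, map_add, srt_sg, srt_cons]

theorem bd_srt (κ : V → ℕ) (c : Ch V) : bd (srt κ c) = srt κ (bd c) := by
  have := hom_ext (f := bd ∘ₗ srt κ) (g := srt κ ∘ₗ bd) (fun l => by
    simp [bdL_srtL]) c
  simpa using this

theorem ev_srt (q : List V → ZMod 2) (κ : V → ℕ) (c : Ch V) :
    ev q (srt κ c) = ev (fun l => q (srtL κ l)) c := by
  have := hom_ext (f := ev q ∘ₗ srt κ) (g := ev (fun l => q (srtL κ l))) (fun l => by simp) c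
  simpa using this

/-- evaluation of a permutation invariant cochain does not change under the sort -/
theorem ev_srt_symm (q : List V → ZMod 2) (hq : ∀ l l', List.Perm l l' → q l = q l') (κ : V → ℕ)
    (c : Ch V) : ev q (srt κ c) = ev q c := by
  rw [ev_srt]
  exact ev_congr_fun (fun l => hq _ _ (srtL_perm κ l)) c

/-- **Ky Fan parity, sorted cup formula.** `Q` : hereditary and permutation invariant property of
small lists.  The alternating count of the *sorted* lists of `h m` is odd. -/
theorem kyfan {T : V → V} {h : ℕ → Ch V} (Q : List V → Prop)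
    (hQ : ∀ v l, Q (v :: l) → Q l) (hQp : ∀ l l', List.Perm l l' → Q l → Q l')
    (κ : V → ℕ) (hκ : ∀ v, κ (T v) = κ v)
    (as : List (V → ZMod 2)) (p : V) (h0 : h 0 = sg [p])
    (hb : ∀ k, k < as.length → bd (h (k + 1)) = h k + mp T (h k))
    (hs : ∀ k, k ≤ as.length → h k ∈ supp (fun l => l.length = k + 1 ∧ Q l))
    (hodd : ∀ a ∈ as, ∀ l, Q l → ∀ x ∈ l, a (T x) = a x + 1) :
    ev (fun l => wprod as (srtL κ l)) (h as.length) = 1 := by
  have key := cup_formula (T := T) (h := fun k => srt κ (h k)) Q hQ as p
    (by show srt κ (h 0) = _; rw [h0]; simp [srtL, insL])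
    (fun k hk => by
      show bd (srt κ (h (k + 1))) = _
      rw [bd_srt, hb k hk, map_add, srt_mp κ T hκ])
    (fun k hk => by
      refine lift_mem (f := srt κ) (fun l hl => ?_) (hs k hk)
      rw [srt_sg]
      exact sg_mem ⟨by rw [(srtL_perm κ l).length_eq, hl.1], hQp _ _ (srtL_perm κ l).symm hl.2⟩)
    hodd
  rw [← ev_srt]
  exact key

/-- consecutive values of `a` differ -/
def Alt (a : V → ZMod 2) (l : List V) : Prop := l.IsChain (fun x y => a x ≠ a y)

theorem wprod_replicate (a : V → ZMod 2) (m : ℕ) (l : List V) (hl : l.length = m + 1) :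
    wprod (List.replicate m a) l = (open Classical in if Alt a l then 1 else 0) := by
  classical
  induction m generalizing l with
  | zero =>
    match l, hl with
    | [v], _ => simp [wprod, Alt]
  | succ m ih =>
    match l, hl with
    | (v :: v' :: l), hl =>
      have ih' := ih (v' :: l) (by simpa using hl)
      have e : wprod (List.replicate (m + 1) a) (v :: v' :: l) =
          (a v + a v') * wprod (List.replicate m a) (v' :: l) := rfl
      rw [e, ih']
      have h2 : Alt a (v :: v' :: l) ↔ a v ≠ a v' ∧ Alt a (v' :: l) := by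
        simp [Alt, List.isChain_cons_cons]
      by_cases h : a v = a v'
      · have h3 : ¬ Alt a (v :: v' :: l) := by rw [h2]; tauto
        simp only [h, h3, if_false, add_self2, zero_mul]
      · have h4 : a v + a v' = 1 := by
          have : ∀ x y : ZMod 2, x ≠ y → x + y = 1 := by decide
          exact this _ _ h
        rw [h4, one_mul]
        by_cases h5 : Alt a (v' :: l)
        · rw [if_pos h5, if_pos (h2.2 ⟨h, h5⟩)]
        · rw [if_neg h5, if_neg (fun h6 => h5 (h2.1 h6).2)]

/-- keys strictly increase and `a` alternates along the list -/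
def KF (κ : V → ℕ) (a : V → ZMod 2) (l : List V) : Prop :=
  l.Pairwise (fun x y => κ x < κ y) ∧ Alt a l

theorem pairwise_lt_of_srt_alt (κ : V → ℕ) (a : V → ZMod 2) (l : List V) (hs : Srt κ l)
    (ha : Alt a l) (hκa : ∀ x ∈ l, ∀ y ∈ l, κ x = κ y → a x = a y) :
    l.Pairwise (fun x y => κ x < κ y) := by
  induction l with
  | nil => simp
  | cons v l ih =>
    unfold Srt at hs
    rw [List.pairwise_cons] at hs
    match l, ih, hs, ha, hκa with
    | [], _, _, _, _ => simp
    | (w :: l), ih, hs, ha, hκa =>
      have ha' : a v ≠ a w ∧ Alt a (w :: l) := by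
        simpa [Alt, List.isChain_cons_cons] using ha
      have ih' := ih hs.2 ha'.2 (fun x hx y hy => hκa x (by simp only [List.mem_cons] at hx ⊢; tauto)
        y (by simp only [List.mem_cons] at hy ⊢; tauto))
      have hvw : κ v < κ w := by
        refine lt_of_le_of_ne (hs.1 w (by simp)) fun h => ha'.1 ?_
        exact hκa v (by simp) w (by simp) h
      rw [List.pairwise_cons]
      refine ⟨?_, ih'⟩
      intro x hx
      rcases List.mem_cons.1 hx with rfl | hx
      · exact hvw
      · exact hvw.trans ((List.pairwise_cons.1 ih').1 x hx)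

open Classical in
/-- **Ky Fan's theorem (parity form, any dimension).** `κ` even colour key, `a` odd sign, close
points of the same colour have the same sign.  The number of lists of `h m` whose sort by colour
has strictly increasing colours and alternating signs is odd. -/
theorem kyfan_parity {T : V → V} {h : ℕ → Ch V} (Q : List V → Prop)
    (hQ : ∀ v l, Q (v :: l) → Q l) (hQp : ∀ l l', List.Perm l l' → Q l → Q l')
    (κ : V → ℕ) (hκ : ∀ v, κ (T v) = κ v) (a : V → ZMod 2) (m : ℕ) (p : V) (h0 : h 0 = sg [p])
    (hb : ∀ k, k < m → bd (h (k + 1)) = h k + mp T (h k))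
    (hs : ∀ k, k ≤ m → h k ∈ supp (fun l => l.length = k + 1 ∧ Q l))
    (hodd : ∀ l, Q l → ∀ x ∈ l, a (T x) = a x + 1)
    (hκa : ∀ l, Q l → ∀ x ∈ l, ∀ y ∈ l, κ x = κ y → a x = a y) :
    ev (fun l => if KF κ a (srtL κ l) then (1 : ZMod 2) else 0) (h m) = 1 := by
  have key := kyfan (T := T) (h := h) Q hQ hQp κ hκ (List.replicate m a) p h0
    (by simpa using hb) (by simpa using hs)
    (fun a' ha' l hl x hx => by rw [List.eq_of_mem_replicate ha']; exact hodd l hl x hx)
  rw [List.length_replicate] at key
  refine Eq.trans ?_ key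
  refine ev_congr (fun l hl => ?_) (hs m le_rfl)
  rw [wprod_replicate a m _ (by rw [(srtL_perm κ l).length_eq, hl.1])]
  have e : KF κ a (srtL κ l) ↔ Alt a (srtL κ l) := by
    refine ⟨fun h => h.2, fun h => ⟨?_, h⟩⟩
    refine pairwise_lt_of_srt_alt κ a _ (srtL_srt κ l) h ?_
    have := hQp _ _ (srtL_perm κ l).symm hl.2
    exact hκa _ this
  simp only [e]

end Crest.Agent.S69
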