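import Crest.Agent.BU.Euclid

set_option autoImplicit false

/-!
# Lusternik-Schnirelmann with blocks of colours
-/
namespace Crest.Agent.S69

open Crest.Agent.BU
open scoped RealInnerProductSpace

variable {E : Type*} [NormedAddCommGroup E] [InnerProductSpace ℝ E]

/-- An odd function on nonzero vectors. -/
theorem exists_odd0 (E : Type*) [NormedAddCommGroup E] [InnerProductSpace ℝ E] :
    ∃ a : E → ZMod 2, ∀ x, x ≠ 0 → a (-x) = a x + 1 := by
  classical
  let S : Setoid E := ⟨fun x y => x = y ∨ x = -y, ⟨fun x => Or.inl rfl, by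
    rintro x y (h | h)
    · exact Or.inl h.symm
    · right; rw [h, neg_neg], by
    rintro x y z (h | h) (h' | h')
    · left; rw [h, h']
    · right; rw [h, h']
    · right; rw [h, h']
    · left; rw [h, h', neg_neg]⟩⟩
  let rep : E → E := fun x => (Quotient.mk S x).out
  have hrep : ∀ x, rep x = x ∨ rep x = -x := fun x => Quotient.exact (Quotient.out_eq (Quotient.mk S x))
  have hneg : ∀ x, rep (-x) = rep x := by
    intro x
    have : Quotient.mk S (-x) = Quotient.mk S x := Quotient.sound (Or.inr rfl)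
    simp only [rep, this]
  refine ⟨fun x => if rep x = x then 0 else 1, fun x hx => ?_⟩
  have hne : x ≠ -x := by
    intro h
    apply hx
    have h2 : (2 : ℝ) • x = 0 := by
      rw [two_smul]; nth_rewrite 2 [h]; exact add_neg_cancel x
    exact (smul_eq_zero.1 h2).resolve_left (by norm_num)
  simp only [hneg]
  rcases hrep x with h | h
  · rw [if_neg (by rw [h]; exact hne), if_pos h]; decide
  · rw [if_pos h, if_neg (by rw [h]; exact hne.symm)]; decide

/-- unit sphere of the span of `b` -/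
def US {m : ℕ} (b : Fin m → E) : Set E := {x | ‖x‖ = 1 ∧ x ∈ Submodule.span ℝ (Set.range b)}

theorem US_neg {m : ℕ} {b : Fin m → E} {x : E} (hx : x ∈ US b) : -x ∈ US b :=
  ⟨by rw [norm_neg]; exact hx.1, Submodule.neg_mem _ hx.2⟩

open Classical in
/-- the blocks seen within `r` of `x` -/
noncomputable def seen {m : ℕ} (b : Fin m → E) {K : Type*} [Fintype K] (B : E → K) (r : ℝ) (x : E) :
    Finset K := Finset.univ.filter (fun k => ∃ y ∈ US b, dist x y ≤ r ∧ B y = k)

theorem mem_seen {m : ℕ} {b : Fin m → E} {K : Type*} [Fintype K] {B : E → K} {r : ℝ} {x : E} {k : K} :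
    k ∈ seen b B r x ↔ ∃ y ∈ US b, dist x y ≤ r ∧ B y = k := by
  simp [seen]

theorem seen_self {m : ℕ} {b : Fin m → E} {K : Type*} [Fintype K] {B : E → K} {r : ℝ} (hr : 0 ≤ r)
    {x : E} (hx : x ∈ US b) : B x ∈ seen b B r x :=
  mem_seen.2 ⟨x, hx, by rwa [dist_self], rfl⟩

theorem seen_mono {m : ℕ} {b : Fin m → E} {K : Type*} [Fintype K] {B : E → K} {r r' d : ℝ} {x x' : E}
    (hd : dist x' x ≤ d) (hr : r + d ≤ r') : seen b B r x ⊆ seen b B r' x' := by
  intro k hk
  obtain ⟨y, hy, hxy, hB⟩ := mem_seen.1 hk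
  exact mem_seen.2 ⟨y, hy, by
    have := dist_triangle x' x y
    linarith, hB⟩

theorem seen_neg {m : ℕ} {b : Fin m → E} {K : Type*} [Fintype K] {B : E → K}
    (hB : ∀ x, B (-x) = B x) {r : ℝ} (x : E) : seen b B r (-x) = seen b B r x := by
  have key : ∀ x, seen b B r (-x) ⊆ seen b B r x := by
    intro x k hk
    obtain ⟨y, hy, hxy, hBy⟩ := mem_seen.1 hk
    refine mem_seen.2 ⟨-y, US_neg hy, ?_, by rw [hB, hBy]⟩
    rw [← dist_neg_neg, neg_neg]; exact hxy
  refine Finset.Subset.antisymm (key x) ?_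
  have := key (-x)
  rwa [neg_neg] at this

/-- **Lusternik-Schnirelmann with blocks.** -/
theorem ls {m : ℕ} (b : Fin (m + 1) → E) (hb : Orthonormal ℝ b) {K : Type*} [Fintype K]
    [LinearOrder K] (B : E → K) (hB : ∀ x, B (-x) = B x) {r ε₀ : ℝ} (hr : 0 < r) (hε₀ : 0 < ε₀)
    (s : K → E → ZMod 2) (hodd : ∀ k, ∀ x ∈ US b, s k (-x) = s k x + 1)
    (hs : ∀ k, ∀ x ∈ US b, ∀ y ∈ US b, dist x y < ε₀ → k ∈ seen b B r x → k ∈ seen b B r y →
      s k x = s k y) :
    ∃ x ∈ US b, m + 1 ≤ (seen b B r x).card := by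
  classical
  by_contra hcon
  push Not at hcon
  have hcon : ∀ x ∈ US b, (seen b B r x).card ≤ m := fun x hx => Nat.lt_succ_iff.1 (hcon x hx)
  -- the scale
  obtain ⟨ε, hε, hε1, hε2⟩ : ∃ ε : ℝ, 0 < ε ∧ ε ≤ ε₀ ∧ (2 * (m : ℝ) + 2) * ε ≤ r := by
    refine ⟨min ε₀ (r / (2 * (m : ℝ) + 2)), lt_min hε₀ (by positivity), min_le_left _ _, ?_⟩
    calc (2 * (m : ℝ) + 2) * min ε₀ (r / (2 * (m : ℝ) + 2)) ≤ (2 * (m : ℝ) + 2) * (r / (2 * (m : ℝ) + 2)) := by
          gcongr; exact min_le_right _ _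
      _ = r := by field_simp
  have hne : ∀ (i : ℕ) (x : E), x ∈ US b → (seen b B ((2 * i + 1) * ε) x).Nonempty := by
    intro i x hx
    exact ⟨B x, seen_self (by positivity) hx⟩
  -- the odd functions
  let a : ℕ → E → ZMod 2 := fun i x =>
    if h : (seen b B ((2 * i + 1) * ε) x).Nonempty then
      s ((seen b B ((2 * i + 1) * ε) x).min' h) x else 0
  have ha : ∀ i, ∀ x ∈ US b, a i (-x) = a i x + 1 := by
    intro i x hx
    have h1 := hne i x hx
    have h2 := hne i (-x) (US_neg hx)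
    have e : (seen b B ((2 * i + 1) * ε) (-x)).min' h2 = (seen b B ((2 * i + 1) * ε) x).min' h1 := by
      congr 1
      exact seen_neg hB x
    simp only [a]
    rw [dif_pos h1, dif_pos h2, e]
    exact hodd _ x hx
  -- apply the cup formula
  obtain ⟨l, hl, hfine, hw⟩ := exists_rainbow b hb hε ((List.range m).map (fun i => a (i + 1)))
    (by simp) (by
      intro a' ha' x hx1 hx2
      obtain ⟨i, _, rfl⟩ := List.mem_map.1 ha'
      exact ha (i + 1) x ⟨hx1, hx2⟩)
  apply hw
  have hmem : ∀ x ∈ l, x ∈ US b := fun x hx => hfine.1 x hx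
  have hdist : ∀ x ∈ l, ∀ y ∈ l, dist x y ≤ ε := fun x hx y hy => (hfine.2 x hx y hy).le
  -- the maximal index
  have hlne : l ≠ [] := by
    intro h; rw [h] at hl; simp at hl
  obtain ⟨v₀, hv₀⟩ := List.exists_mem_of_ne_nil l hlne
  let P : ℕ → Prop := fun i => ∃ v ∈ l, i ≤ (seen b B ((2 * i) * ε) v).card
  have hP1 : P 1 := ⟨v₀, hv₀, Finset.card_pos.2 ⟨B v₀, seen_self (by positivity) (hmem v₀ hv₀)⟩⟩
  have hPm : ∀ i, i = m + 1 → ¬ P i := by
    rintro i rfl ⟨v, hv, hc⟩
    have h1 : seen b B ((2 * ((m + 1 : ℕ) : ℝ)) * ε) v ⊆ seen b B r v := by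
      refine seen_mono (d := 0) (by rw [dist_self]) ?_
      push_cast; nlinarith
    have h2 := Finset.card_le_card h1
    have h3 := hcon v (hmem v hv)
    omega
  have hm1 : 1 ≤ m := by
    by_contra h
    have : m = 0 := by omega
    exact hPm 1 (by omega) hP1
  obtain ⟨i, hi1, him, hPi, hPi1⟩ : ∃ i, 1 ≤ i ∧ i ≤ m ∧ P i ∧ ¬ P (i + 1) := by
    by_contra hno
    push Not at hno
    have : ∀ j, j + 1 ≤ m + 1 → P (j + 1) := by
      intro j
      induction j with
      | zero => intro _; exact hP1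
      | succ j ih =>
        intro hj
        exact hno (j + 1) (by omega) (by omega) (ih (by omega))
    exact hPm (m + 1) rfl (this m le_rfl)
  obtain ⟨v, hv, hcv⟩ := hPi
  have hPi1' : ∀ x ∈ l, (seen b B ((2 * ((i + 1 : ℕ) : ℝ)) * ε) x).card ≤ i := by
    intro x hx
    by_contra h
    push Not at h
    exact hPi1 ⟨x, hx, h⟩
  -- seen sets at scale (2i+1)ε are all equal
  have hcard : ∀ x ∈ l, i ≤ (seen b B ((2 * i + 1) * ε) x).card := by
    intro x hx
    refine hcv.trans (Finset.card_le_card (seen_mono (hdist x hx v hv) ?_))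
    nlinarith
  have hEq : ∀ x ∈ l, ∀ y ∈ l, seen b B ((2 * i + 1) * ε) x = seen b B ((2 * i + 1) * ε) y := by
    have key : ∀ x ∈ l, ∀ y ∈ l, seen b B ((2 * i + 1) * ε) x =
        seen b B ((2 * ((i + 1 : ℕ) : ℝ)) * ε) y := by
      intro x hx y hy
      refine Finset.eq_of_subset_of_card_le (seen_mono (hdist y hy x hx) (by push_cast; nlinarith)) ?_
      exact (hPi1' y hy).trans (hcard x hx)
    intro x hx y hy
    rw [key x hx x hx, ← key y hy x hx]
  refine wprod_eq_zero _ l (a i) (List.mem_map.2 ⟨i - 1, List.mem_range.2 (by omega), by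
    simp only [Nat.sub_add_cancel hi1]⟩) ?_ (by simp [hl])
  intro x hx y hy
  have h1 := hne i x (hmem x hx)
  have h2 := hne i y (hmem y hy)
  have e : (seen b B ((2 * i + 1) * ε) x).min' h1 = (seen b B ((2 * i + 1) * ε) y).min' h2 := by
    congr 1
    exact hEq x hx y hy
  simp only [a]
  rw [dif_pos h1, dif_pos h2, e]
  have hle : (2 * (i : ℝ) + 1) * ε ≤ r := by
    have : (i : ℝ) ≤ m := by exact_mod_cast him
    nlinarith
  have hsub : ∀ z, seen b B ((2 * i + 1) * ε) z ⊆ seen b B r z := fun z =>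
    seen_mono (d := 0) (by rw [dist_self]) (by linarith)
  refine hs _ x (hmem x hx) y (hmem y hy) (lt_of_lt_of_le (hfine.2 x hx y hy) hε1) ?_ ?_
  · rw [← e]; exact hsub x (Finset.min'_mem _ _)
  · exact hsub y (Finset.min'_mem _ _)

/-- Version with sign functions given by inner products. -/
theorem ls_inner {m : ℕ} (b : Fin (m + 1) → E) (hb : Orthonormal ℝ b) {K : Type*} [Fintype K]
    [LinearOrder K] (B : E → K) (hB : ∀ x, B (-x) = B x) {r d : ℝ} (hr : 0 < r) (hrd : r < d)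
    (w : K → E) (hw : ∀ k, ‖w k‖ ≤ 1) (hd : ∀ z ∈ US b, d ≤ |⟪w (B z), z⟫|) :
    ∃ x ∈ US b, m + 1 ≤ (seen b B r x).card := by
  classical
  obtain ⟨a₀, ha₀⟩ := exists_odd0 E
  let s : K → E → ZMod 2 := fun k x => if 0 < ⟪w k, x⟫ then 0 else if ⟪w k, x⟫ < 0 then 1 else a₀ x
  have hlow : ∀ k x, k ∈ seen b B r x → d - r ≤ |⟪w k, x⟫| := by
    intro k x hk
    obtain ⟨z, hz, hxz, rfl⟩ := mem_seen.1 hk
    have h1 := hd z hz
    have h2 : |⟪w (B z), z⟫ - ⟪w (B z), x⟫| ≤ r := by
      rw [← inner_sub_right]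
      calc |⟪w (B z), z - x⟫| ≤ ‖w (B z)‖ * ‖z - x‖ := abs_real_inner_le_norm _ _
        _ ≤ 1 * r := by
            gcongr
            · exact hw _
            · rw [← dist_eq_norm, dist_comm]; exact hxz
        _ = r := one_mul r
    have h3 := abs_sub_abs_le_abs_sub ⟪w (B z), z⟫ ⟪w (B z), x⟫
    linarith
  refine ls b hb B hB (r := r) (ε₀ := d - r) hr (by linarith) s ?_ ?_
  · intro k x hx
    have hx0 : x ≠ 0 := by
      intro h; have := hx.1; rw [h, norm_zero] at this; norm_num at this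
    simp only [s, inner_neg_right]
    rcases lt_trichotomy ⟪w k, x⟫ 0 with h | h | h
    · rw [if_pos (by linarith), if_neg (by linarith), if_pos h]; decide
    · rw [h]; simp [ha₀ x hx0]
    · rw [if_neg (by linarith), if_pos (by linarith), if_pos h]; decide
  · intro k x _ y _ hxy hkx hky
    have h1 := hlow k x hkx
    have h2 := hlow k y hky
    have h3 : |⟪w k, x⟫ - ⟪w k, y⟫| < d - r := by
      rw [← inner_sub_right]
      calc |⟪w k, x - y⟫| ≤ ‖w k‖ * ‖x - y‖ := abs_real_inner_le_norm _ _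
        _ ≤ 1 * ‖x - y‖ := by gcongr; exact hw _
        _ < d - r := by rw [one_mul, ← dist_eq_norm]; exact hxy
    simp only [s]
    rw [abs_lt] at h3
    rcases le_or_gt 0 ⟪w k, x⟫ with hx0 | hx0
    · rw [abs_of_nonneg hx0] at h1
      have hy0 : 0 < ⟪w k, y⟫ := by linarith
      rw [if_pos (by linarith), if_pos hy0]
    · rw [abs_of_neg hx0] at h1
      have hy0 : ⟪w k, y⟫ < 0 := by linarith
      rw [if_neg (by linarith), if_pos hx0, if_neg (by linarith), if_pos hy0]

end Crest.Agent.S69
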