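import Crest.Agent.BU.Cup

set_option autoImplicit false

/-!
# The line lemma: double sums over a 1-chain
-/
namespace Crest.Agent.S69.Line

open Crest.Agent.BU

universe u
variable {V : Type u}

/-- a function of two points as a 1-cochain -/
def e2 (Φ : V → V → ZMod 2) : List V → ZMod 2
  | [a, b] => Φ a b
  | _ => 0

/-- sum over a 1-chain -/
noncomputable def S1 (z : Ch V) (Φ : V → V → ZMod 2) : ZMod 2 := ev (e2 Φ) z

/-- double sum over a 1-chain -/
noncomputable def dd (z : Ch V) (Φ : V → V → V → V → ZMod 2) : ZMod 2 :=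
  S1 z (fun a b => S1 z (fun c d => Φ a b c d))

/-- 2-lists satisfying `Q` -/
def L2 (Q : V → V → Prop) (l : List V) : Prop := ∃ a b, l = [a, b] ∧ Q a b

theorem S1_congr {Q : V → V → Prop} {z : Ch V} (hz : z ∈ supp (L2 Q)) {Φ Ψ : V → V → ZMod 2}
    (h : ∀ a b, Q a b → Φ a b = Ψ a b) : S1 z Φ = S1 z Ψ := by
  refine ev_congr ?_ hz
  rintro l ⟨a, b, rfl, hab⟩
  exact h a b hab

theorem S1_add (z : Ch V) (Φ Ψ : V → V → ZMod 2) :
    S1 z (fun a b => Φ a b + Ψ a b) = S1 z Φ + S1 z Ψ := by
  unfold S1
  rw [← ev_add_fun]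
  apply ev_congr_fun
  intro l
  match l with
  | [a, b] => rfl
  | [] => simp [e2]
  | [a] => simp [e2]
  | (a :: b :: c :: l) => simp [e2]

theorem S1_mul (z : Ch V) (k : ZMod 2) (Φ : V → V → ZMod 2) :
    S1 z (fun a b => k * Φ a b) = k * S1 z Φ := by
  unfold S1
  rw [← ev_const_mul]
  apply ev_congr_fun
  intro l
  match l with
  | [a, b] => rfl
  | [] => simp [e2]
  | [a] => simp [e2]
  | (a :: b :: c :: l) => simp [e2]

theorem S1_mul' (z : Ch V) (k : ZMod 2) (Φ : V → V → ZMod 2) :
    S1 z (fun a b => Φ a b * k) = S1 z Φ * k := by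
  rw [mul_comm, ← S1_mul]; simp only [mul_comm]

theorem S1_zero (z : Ch V) : S1 z (fun _ _ => (0 : ZMod 2)) = 0 := by
  have := S1_mul z 0 (fun _ _ => (0 : ZMod 2))
  simpa using this

theorem ev_comm (q : List V → List V → ZMod 2) (z z' : Ch V) :
    ev (fun l => ev (fun l' => q l l') z') z = ev (fun l' => ev (fun l => q l l') z) z' := by
  have hadd : ∀ (l : List V), ev (fun l' => q l l') z' =
      z'.sum (fun l' c => c * q l l') := by
    intro l
    rfl
  induction z using Finsupp.induction_linear with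
  | zero =>
    simp only [map_zero]
    rw [show (fun l' : List V => (0 : ZMod 2)) = (fun l' => 0 * q l' l') by simp,
      ev_const_mul 0 (fun l' => q l' l'), zero_mul]
  | add f g hf hg =>
    simp only [map_add]
    rw [hf, hg, ← ev_add_fun]
  | single l c =>
    have h1 : ∀ (p : List V → ZMod 2), ev p (Finsupp.single l c) = c * p l := by
      intro p
      simp [ev, lift]
    simp only [h1]
    rw [ev_const_mul c (fun l' => q l l')]

theorem S1_comm (z : Ch V) (Φ : V → V → V → V → ZMod 2) :
    S1 z (fun a b => S1 z (fun c d => Φ a b c d)) =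
    S1 z (fun c d => S1 z (fun a b => Φ a b c d)) := by
  have key : ∀ Φ : V → V → V → V → ZMod 2, S1 z (fun a b => S1 z (fun c d => Φ a b c d)) =
      ev (fun l => ev (fun l' => e2 (fun a b => e2 (fun c d => Φ a b c d) l') l) z) z := by
    intro Φ
    unfold S1
    apply ev_congr_fun
    intro l
    match l with
    | [a, b] => rfl
    | [] =>
      simp only [e2]
      exact (ev_eq_zero (P := fun _ => True) (fun _ _ => rfl) (by
        rw [supp]; simp)).symm
    | [a] =>
      simp only [e2]
      exact (ev_eq_zero (P := fun _ => True) (fun _ _ => rfl) (by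
        rw [supp]; simp)).symm
    | (a :: b :: c :: l) =>
      simp only [e2]
      exact (ev_eq_zero (P := fun _ => True) (fun _ _ => rfl) (by
        rw [supp]; simp)).symm
  rw [key, key, ev_comm]
  apply ev_congr_fun
  intro l
  apply ev_congr_fun
  intro l'
  match l, l' with
  | [a, b], [c, d] => rfl
  | [a, b], [] => rfl
  | [a, b], [c] => rfl
  | [a, b], (c :: d :: e :: l) => rfl
  | [], [] => rfl
  | [], [c] => rfl
  | [], [c, d] => rfl
  | [], (c :: d :: e :: l) => rfl
  | [a], [] => rfl
  | [a], [c] => rfl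
  | [a], [c, d] => rfl
  | [a], (c :: d :: e :: l) => rfl
  | (a :: b :: f :: l), [] => rfl
  | (a :: b :: f :: l), [c] => rfl
  | (a :: b :: f :: l), [c, d] => rfl
  | (a :: b :: f :: l), (c :: d :: e :: l') => rfl

theorem dd_swap (z : Ch V) (Φ : V → V → V → V → ZMod 2) :
    dd z Φ = dd z (fun a b c d => Φ c d a b) := S1_comm z Φ

theorem dd_congr {Q : V → V → Prop} {z : Ch V} (hz : z ∈ supp (L2 Q))
    {Φ Ψ : V → V → V → V → ZMod 2}
    (h : ∀ a b, Q a b → ∀ c d, Q c d → Φ a b c d = Ψ a b c d) : dd z Φ = dd z Ψ :=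
  S1_congr hz fun a b hab => S1_congr hz fun c d hcd => h a b hab c d hcd

theorem dd_add (z : Ch V) (Φ Ψ : V → V → V → V → ZMod 2) :
    dd z (fun a b c d => Φ a b c d + Ψ a b c d) = dd z Φ + dd z Ψ := by
  unfold dd
  rw [← S1_add]
  congr 1
  funext a b
  rw [← S1_add]

/-- **The abstract line lemma.** -/
theorem line_abs {Q : V → V → Prop} {z : Ch V} (hz : z ∈ supp (L2 Q)) (U : V → Prop) (T : V → V)
    (hQ : ∀ a b, Q a b → U a ∧ U b)
    (hst : ∀ G : V → ZMod 2, (∀ v, U v → G (T v) = G v) → S1 z (fun a b => G a + G b) = 0)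
    (hone : ∀ f : V → ZMod 2, (∀ v, U v → f (T v) = f v + 1) → S1 z (fun a b => f a + f b) = 1)
    (σ A g : V → V → ZMod 2) (e : V → ZMod 2)
    (hσs : ∀ v w, σ v w = σ w v) (hσ : ∀ v w, U v → U w → σ (T v) w = σ v w + 1)
    (hA : ∀ v w, U v → U w → A (T v) w = A v w) (hA' : ∀ v w, U v → U w → A v (T w) = A v w)
    (hg : ∀ v w, U v → U w → g (T v) w = g v w + 1) (hg' : ∀ v w, U v → U w → g v (T w) = g v w + 1)
    (he : ∀ v, U v → e (T v) = e v + 1)
    (hno : ∀ a b, Q a b → ∀ c d, Q c d → (σ a c ≠ σ b c ∨ σ a c ≠ σ a d) →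
      (∀ v w, (v = a ∨ v = b) → (w = c ∨ w = d) → A v w + A w v = 1 ∧ g v w + g w v = 1 ∧
        g v w = g a c)) :
    dd z (fun a b c d => (σ a c + σ a d) * (A a d + A b d)) = 1 := by
  have hne : ∀ x y : ZMod 2, x ≠ y → x + y = 1 := by decide
  have hd : ∀ x y : ZMod 2, x = y → x + y = 0 := by decide
  have hsq : ∀ x : ZMod 2, x + x = 0 := by decide
  -- the function `F = a * A` with `a = e v + e w + g v w`
  set F : V → V → ZMod 2 := fun v w => (e v + e w + g v w) * A v w with hF
  have hF1 : ∀ v w, U v → U w → F (T v) w = F v w := by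
    intro v w hv hw
    simp only [hF, he v hv, hg v w hv hw, hA v w hv hw]
    have := hsq 1
    linear_combination (A v w) * this
  have hF2 : ∀ v w, U v → U w → F v (T w) = F v w := by
    intro v w hv hw
    simp only [hF, he w hw, hg' v w hv hw, hA' v w hv hw]
    have := hsq 1
    linear_combination (A v w) * this
  have hσ2 : ∀ v w, U v → U w → σ v (T w) = σ v w + 1 := by
    intro v w hv hw
    rw [hσs, hσ w v hw hv, hσs]
  -- Stokes in both variables
  have st1 : ∀ G : V → V → V → ZMod 2, (∀ v c d, U v → Q c d → G (T v) c d = G v c d) →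
      dd z (fun a b c d => G a c d + G b c d) = 0 := by
    intro G hG
    rw [dd_swap]
    have : dd z (fun a b c d => G c a b + G d a b) = S1 z (fun _ _ => 0) :=
      S1_congr hz fun a b hab => hst (fun v => G v a b) fun v hv => hG v a b hv hab
    rw [this, S1_zero]
  have st2 : ∀ G : V → V → V → ZMod 2, (∀ v a b, U v → Q a b → G a b (T v) = G a b v) →
      dd z (fun a b c d => G a b c + G a b d) = 0 := by
    intro G hG
    have : dd z (fun a b c d => G a b c + G a b d) = S1 z (fun _ _ => 0) :=
      S1_congr hz fun a b hab => hst (fun v => G a b v) fun v hv => hG v a b hv hab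
    rw [this, S1_zero]
  -- (i)
  have h1 : dd z (fun a b c d => (σ a c + σ b c) * (F b c + F b d) +
      (σ a c + σ a d) * (F a d + F b d)) = 0 := by
    have e1 := st1 (fun v c d => (σ v c + σ v d) * F v d) (by
      intro v c d hv hcd
      rw [hσ v c hv (hQ _ _ hcd).1, hσ v d hv (hQ _ _ hcd).2, hF1 v d hv (hQ _ _ hcd).2]
      have := hsq 1
      linear_combination (F v d) * this)
    have e2' := st2 (fun a b w => (σ a w + σ b w) * F b w) (by
      intro w a b hw hab
      rw [hσ2 a w (hQ _ _ hab).1 hw, hσ2 b w (hQ _ _ hab).2 hw, hF2 b w (hQ _ _ hab).2 hw]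
      have := hsq 1
      linear_combination (F b w) * this)
    have e3 := dd_add z (fun a b c d => (σ a c + σ a d) * F a d + (σ b c + σ b d) * F b d)
      (fun a b c d => (σ a c + σ b c) * F b c + (σ a d + σ b d) * F b d)
    rw [e1, e2', add_zero] at e3
    rw [← e3]
    refine dd_congr hz ?_
    intro a b _ c d _
    generalize σ a c = x1; generalize σ a d = x2; generalize σ b c = x3; generalize σ b d = x4
    generalize F a d = y2; generalize F b c = y3; generalize F b d = y4
    revert x1 x2 x3 x4 y2 y3 y4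
    decide
  -- (ii) split
  have h2 : dd z (fun a b c d => (σ a c + σ b c) * ((e c + e d) * A b d) +
        (σ a c + σ a d) * ((e a + e b) * A b d)) +
      dd z (fun a b c d => (σ a c + σ b c) * ((e b + e c + g b c) * (A b c + A b d)) +
        (σ a c + σ a d) * ((e a + e d + g a d) * (A a d + A b d))) = 0 := by
    rw [← dd_add, ← h1]
    refine dd_congr hz ?_
    intro a b hab c d hcd
    by_cases hn : σ a c ≠ σ b c ∨ σ a c ≠ σ a d
    · have hh := hno a b hab c d hcd hn
      have g1 := (hh b c (Or.inr rfl) (Or.inl rfl)).2.2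
      have g2 := (hh b d (Or.inr rfl) (Or.inr rfl)).2.2
      have g3 := (hh a d (Or.inl rfl) (Or.inr rfl)).2.2
      simp only [hF, g1, g2, g3]
      generalize σ a c = x1; generalize σ a d = x2; generalize σ b c = x3
      generalize A a d = y2; generalize A b c = y3; generalize A b d = y4
      generalize g a c = gg
      generalize e a = ea; generalize e b = eb; generalize e c = ec; generalize e d = ed
      have k2 : ∀ x : ZMod 2, x * x = x := by decide
      have k3 : (2 : ZMod 2) = 0 := rfl
      ring_nf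
      simp only [k3]
      ring
    · push Not at hn
      rw [← hn.1, ← hn.2]
      simp only [hsq, zero_mul, add_zero]
  -- (iii) swap in the second sum
  have h3 : dd z (fun a b c d => (σ a c + σ b c) * ((e b + e c + g b c) * (A b c + A b d)) +
        (σ a c + σ a d) * ((e a + e d + g a d) * (A a d + A b d))) =
      dd z (fun a b c d => (σ a c + σ a d) * (A a d + A b d)) := by
    rw [dd_add, dd_swap z (fun a b c d => (σ a c + σ b c) * ((e b + e c + g b c) * (A b c + A b d))),
      ← dd_add]
    refine dd_congr hz ?_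
    intro a b hab c d hcd
    rw [hσs c a, hσs d a]
    by_cases hn : σ a c ≠ σ a d
    · have hh := hno a b hab c d hcd (Or.inr hn)
      have a1 := (hh a d (Or.inl rfl) (Or.inr rfl)).1
      have a2 := (hh b d (Or.inr rfl) (Or.inr rfl)).1
      have g1 := (hh a d (Or.inl rfl) (Or.inr rfl)).2.1
      have k2 : (2 : ZMod 2) = 0 := rfl
      linear_combination ((σ a c + σ a d) * (e d + e a + g d a)) * (a1 + a2) +
        ((σ a c + σ a d) * (A a d + A b d)) * g1 +
        ((σ a c + σ a d) * (e d + e a + g d a) - (σ a c + σ a d) * (A a d + A b d) * g d a) * k2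
    · push Not at hn
      rw [hn]
      simp only [hsq, zero_mul, add_zero]
  -- (v)
  have h4 : dd z (fun a b c d => (σ a c + σ b c) * ((e c + e d) * A b d) +
        (σ a c + σ a d) * ((e a + e b) * A b d)) =
      dd z (fun a b c d => (e a + e b) * (σ a c + σ a d)) := by
    rw [dd_add, dd_swap z (fun a b c d => (σ a c + σ b c) * ((e c + e d) * A b d)), ← dd_add]
    refine dd_congr hz ?_
    intro a b hab c d hcd
    rw [hσs c a, hσs d a]
    by_cases hn : σ a c ≠ σ a d
    · have hh := hno a b hab c d hcd (Or.inr hn)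
      have a2 := (hh b d (Or.inr rfl) (Or.inr rfl)).1
      linear_combination ((σ a c + σ a d) * (e a + e b)) * a2
    · push Not at hn
      rw [hn]
      simp only [hsq, zero_mul, add_zero, mul_zero]
  have h5 : dd z (fun a b c d => (e a + e b) * (σ a c + σ a d)) = 1 := by
    have : dd z (fun a b c d => (e a + e b) * (σ a c + σ a d)) =
        S1 z (fun a b => (e a + e b) * 1) :=
      S1_congr hz fun a b hab => by
        rw [S1_mul, hone (fun w => σ a w) (fun w hw => hσ2 a w (hQ _ _ hab).1 hw)]
    rw [this, S1_mul', hone e he, mul_one]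
  rw [h3, h4, h5] at h2
  generalize dd z (fun a b c d => (σ a c + σ a d) * (A a d + A b d)) = X at h2 ⊢
  revert X
  decide

end Crest.Agent.S69.Line
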