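import Crest.Agent.S69.OddPot
import Crest.Agent.S69.Geo
import Crest.Agent.BU.Basic

set_option autoImplicit false

/-!
# S0069: the line lemma as a corollary of the odd potential
-/
namespace Crest.Agent.S69

open scoped RealInnerProductSpace
open Crest.Agent.BU

theorem exists_oddE : ∃ o : E4 → ZMod 2, ∀ v, v ≠ 0 → o (-v) = o v + 1 := by
  classical
  refine ⟨fun v => if WellOrderingRel v (-v) then 0 else 1, fun v hv => ?_⟩
  have hne : -v ≠ v := by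
    intro h
    apply hv
    have h2 : (2 : ℝ) • v = 0 := by
      rw [two_smul]; nth_rewrite 1 [← h]; exact neg_add_cancel v
    exact (smul_eq_zero.1 h2).resolve_left (by norm_num)
  simp only [neg_neg]
  rcases trichotomous_of WellOrderingRel v (-v) with h | h | h
  · have h' : ¬ WellOrderingRel (-v) v := fun h' => asymm_of WellOrderingRel h h'
    simp [h, h']
  · exact absurd h.symm hne
  · have h' : ¬ WellOrderingRel v (-v) := fun h' => asymm_of WellOrderingRel h h'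
    simp only [h, h', if_true, if_false]
    decide

/-- projection to the orthogonal plane of two almost orthogonal unit vectors -/
theorem proj_plane {x y u v z : E4} (hx : ‖x‖ = 1) (hy : ‖y‖ = 1) (hu : ‖u‖ = 1) (hv : ‖v‖ = 1)
    (hz : ‖z‖ = 1) (hxy : |⟪x, y⟫| ≤ 1 / 8) (hxu : ⟪x, u⟫ = 0) (hyu : ⟪y, u⟫ = 0)
    (hxv : ⟪x, v⟫ = 0) (hyv : ⟪y, v⟫ = 0) (huv : ⟪u, v⟫ = 0) (hxz : |⟪x, z⟫| ≤ 1 / 8)
    (hyz : |⟪y, z⟫| ≤ 1 / 8) : (1 / 2 : ℝ) ^ 2 ≤ ⟪u, z⟫ ^ 2 + ⟪v, z⟫ ^ 2 := by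
  set r : ℝ := ⟪x, y⟫ with hr
  set y1 : E4 := y - r • x with hy1
  have hy1n : ‖y1‖ ^ 2 = 1 - r ^ 2 := by
    rw [hy1, norm_sub_sq_real, norm_smul, hx, hy, inner_smul_right, real_inner_comm, ← hr]
    simp only [Real.norm_eq_abs, mul_one, sq_abs]; ring
  have hr2 : r ^ 2 ≤ 1 / 64 := by
    have := sq_le_sq' (by have := (abs_le.1 hxy).1; linarith) (abs_le.1 hxy).2
    linarith
  have hpos : 0 < ‖y1‖ := by
    have h0 : 0 < ‖y1‖ ^ 2 := by rw [hy1n]; linarith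
    rcases (norm_nonneg y1).lt_or_eq with h | h
    · exact h
    · rw [← h] at h0; norm_num at h0
  set y2 : E4 := ‖y1‖⁻¹ • y1 with hy2
  have hy2n : ‖y2‖ = 1 := by
    rw [hy2, norm_smul, norm_inv, norm_norm, inv_mul_cancel₀ hpos.ne']
  have hxx : ⟪x, x⟫ = (1 : ℝ) := by rw [real_inner_self_eq_norm_sq, hx]; norm_num
  have hxy1 : ⟪x, y1⟫ = (0 : ℝ) := by
    rw [hy1, inner_sub_right, inner_smul_right, hxx, ← hr]; ring
  have hxy2 : ⟪x, y2⟫ = (0 : ℝ) := by rw [hy2, inner_smul_right, hxy1, mul_zero]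
  have hy2u : ⟪y2, u⟫ = (0 : ℝ) := by
    rw [hy2, hy1, inner_smul_left, inner_sub_left, inner_smul_left, hyu, hxu]; simp
  have hy2v : ⟪y2, v⟫ = (0 : ℝ) := by
    rw [hy2, hy1, inner_smul_left, inner_sub_left, inner_smul_left, hyv, hxv]; simp
  have hon : Orthonormal ℝ ![x, y2, u, v] := by
    rw [orthonormal_iff_ite]
    intro i j
    have hs : ∀ a b : E4, ⟪a, b⟫ = ⟪b, a⟫ := fun a b => real_inner_comm b a
    fin_cases i <;> fin_cases j <;>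
      simp [hx, hu, hv, hy2n, hxy2, hy2u, hy2v, hxu, hxv, huv, hs y2 x, hs u x, hs v x, hs u y2,
        hs v y2, hs v u]
  have hspan : ⊤ ≤ Submodule.span ℝ (Set.range ![x, y2, u, v]) := by
    rw [hon.linearIndependent.span_eq_top_of_card_eq_finrank' (by simp)]
  have hpars := (OrthonormalBasis.mk hon hspan).sum_sq_norm_inner_right z
  rw [hz] at hpars
  simp only [OrthonormalBasis.coe_mk, Fin.sum_univ_four, Matrix.cons_val_zero, Matrix.cons_val_one,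
    Matrix.cons_val, Real.norm_eq_abs, sq_abs] at hpars
  have hyz2 : ⟪y2, z⟫ ^ 2 ≤ 1 / 16 := by
    have e : ⟪y2, z⟫ = ‖y1‖⁻¹ * (⟪y, z⟫ - r * ⟪x, z⟫) := by
      rw [hy2, hy1, inner_smul_left, inner_sub_left, inner_smul_left]; simp
    rw [e, mul_pow, inv_pow, hy1n]
    have h1 : |⟪y, z⟫ - r * ⟪x, z⟫| ≤ 9 / 64 := by
      calc |⟪y, z⟫ - r * ⟪x, z⟫| ≤ |⟪y, z⟫| + |r * ⟪x, z⟫| := abs_sub _ _
        _ ≤ 1 / 8 + 1 / 8 * (1 / 8) := by
            rw [abs_mul]; gcongr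
        _ = 9 / 64 := by norm_num
    have h2 : (⟪y, z⟫ - r * ⟪x, z⟫) ^ 2 ≤ (9 / 64) ^ 2 := by
      rw [← sq_abs]; gcongr
    rw [inv_mul_le_iff₀ (by linarith)]
    nlinarith
  have hxz2 : ⟪x, z⟫ ^ 2 ≤ 1 / 64 := by
    rw [← sq_abs]
    calc |⟪x, z⟫| ^ 2 ≤ (1 / 8) ^ 2 := by gcongr
      _ = 1 / 64 := by norm_num
  linarith

/-- the 1-cochain counting `{k,l}`-junctions -/
def klc (c : E4 → Fin 10) (k l : Fin 10) : List E4 → ZMod 2
  | [v, w] => KL k l (c v) (c w)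
  | _ => 0

/-- **Line lemma**: on a fundamental 1-chain near the orthogonal plane of `x, y`, coloured by
three colours, the number of `k,l`-junctions is odd. -/
theorem line_cor (d : ℝ) (hd : 0 < d) : ∃ e0 : ℝ, 0 < e0 ∧ ∀ (c : E4 → Fin 10), Col c d →
    ∀ (k l m : Fin 10), k ≠ l → k ≠ m → l ≠ m →
    ∀ (x y : E4), ‖x‖ = 1 → ‖y‖ = 1 → |⟪x, y⟫| ≤ 1 / 8 →
    (∀ w : E4, ‖w‖ = 1 → ⟪x, w⟫ = 0 → ⟪y, w⟫ = 0 → c w = k ∨ c w = l ∨ c w = m) →
    (∀ z1 z2 z3 : E4, ‖z1‖ = 1 → ‖z2‖ = 1 → ‖z3‖ = 1 → ‖z1 - z2‖ ≤ d / 2 →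
      ‖z1 - z3‖ ≤ d / 2 → ‖z2 - z3‖ ≤ d / 2 → ¬ (c z1 = k ∧ c z2 = l ∧ c z3 = m)) →
    ∀ z1 : Ch E4, z1 ∈ supp (fun L : List E4 => L.length = 2 ∧
      (∀ v ∈ L, ‖v‖ = 1 ∧ |⟪x, v⟫| ≤ 1 / 8 ∧ |⟪y, v⟫| ≤ 1 / 8 ∧ (c v = k ∨ c v = l ∨ c v = m)) ∧
      ∀ v ∈ L, ∀ w ∈ L, ‖v - w‖ ≤ e0) →
    (∀ s : E4 → ZMod 2, (∀ z, z ≠ 0 → s (-z) = s z + 1) → ev (wcup s (fun _ => 1)) z1 = 1) →
    ev (klc c k l) z1 = 1 := by
  classical
  obtain ⟨e1, he1, H⟩ := odd_potential.{0} (d / 2) (d / 2) (1 / 2) (by linarith) (by linarith)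
    (by norm_num)
  refine ⟨e1, he1, ?_⟩
  intro c hc k l m hkl hkm hlm x y hx hy hxy hpl hrain z1 hz1 hfund
  obtain ⟨u, hu, hxu, hyu, -⟩ := exists_orth x y 0
  obtain ⟨v, hv, hxv, hyv, huv⟩ := exists_orth x y u
  obtain ⟨s, hs1, hs2⟩ := H c hc.even k l m hkl hkm hlm u v hu hv huv
    (fun z w hz hw hzw heq => by
      have := hc.sep z w hz hw heq
      linarith)
    (fun a b hab => by
      refine hpl _ ?_ ?_ ?_
      · have h2 : ‖a • u + b • v‖ ^ 2 = 1 := by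
          rw [norm_add_sq_real, norm_smul, norm_smul, hu, hv, inner_smul_left, inner_smul_right,
            huv]
          simp only [Real.norm_eq_abs, mul_one, sq_abs, mul_zero, add_zero]
          exact hab
        nlinarith [norm_nonneg (a • u + b • v)]
      · rw [inner_add_right, inner_smul_right, inner_smul_right, hxu, hxv]; simp
      · rw [inner_add_right, inner_smul_right, inner_smul_right, hyu, hyv]; simp)
    hrain
  obtain ⟨o, ho⟩ := exists_oddE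
  set s' : E4 → ZMod 2 := fun z => if ⟪u, z⟫ ≠ 0 ∨ ⟪v, z⟫ ≠ 0 then s z else o z with hs'
  have hs'odd : ∀ z, z ≠ 0 → s' (-z) = s' z + 1 := by
    intro z hz
    simp only [hs', inner_neg_right, neg_ne_zero]
    by_cases h : ⟪u, z⟫ ≠ 0 ∨ ⟪v, z⟫ ≠ 0
    · rw [if_pos h, if_pos h]; exact hs1 z h
    · rw [if_neg h, if_neg h]; exact ho z hz
  rw [← hfund s' hs'odd]
  refine ev_congr (fun L hL => ?_) hz1
  obtain ⟨hlen, hpt, hnear⟩ := hL
  match L, hlen, hpt, hnear with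
  | [p, q], _, hpt, hnear =>
    obtain ⟨hp1, hpx, hpy, hpc⟩ := hpt p (by simp)
    obtain ⟨hq1, hqx, hqy, hqc⟩ := hpt q (by simp)
    have hp2 := proj_plane hx hy hu hv hp1 hxy hxu hyu hxv hyv huv hpx hpy
    have hq2 := proj_plane hx hy hu hv hq1 hxy hxu hyu hxv hyv huv hqx hqy
    have key := hs2 p q hp1 hq1 hp2 hq2 (hnear p (by simp) q (by simp)) hpc hqc
    have hp3 : ⟪u, p⟫ ≠ 0 ∨ ⟪v, p⟫ ≠ 0 := by
      by_contra hcon
      push Not at hcon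
      rw [hcon.1, hcon.2] at hp2; norm_num at hp2
    have hq3 : ⟪u, q⟫ ≠ 0 ∨ ⟪v, q⟫ ≠ 0 := by
      by_contra hcon
      push Not at hcon
      rw [hcon.1, hcon.2] at hq2; norm_num at hq2
    simp only [klc, wcup, hs', if_pos hp3, if_pos hq3, mul_one]
    exact key.symm

end Crest.Agent.S69
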