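import Crest.Agent.S69.LineCor
import Crest.Agent.S69.Cap
import Crest.Agent.S69.Chi

set_option autoImplicit false

/-!
# S0069: the line lemma for fundamental chains
-/
namespace Crest.Agent.S69

open scoped RealInnerProductSpace
open Crest.Agent.BU

theorem pair_iff {a b k l : Fin 10} (hkl : k ≠ l) :
    ({a, b} : Finset (Fin 10)) = {k, l} ↔ (a = k ∧ b = l) ∨ (a = l ∧ b = k) := by
  constructor
  · intro h
    have ha : a ∈ ({k, l} : Finset (Fin 10)) := by rw [← h]; simp
    have hb : b ∈ ({k, l} : Finset (Fin 10)) := by rw [← h]; simp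
    have hk : k ∈ ({a, b} : Finset (Fin 10)) := by rw [h]; simp
    have hl : l ∈ ({a, b} : Finset (Fin 10)) := by rw [h]; simp
    simp only [Finset.mem_insert, Finset.mem_singleton] at ha hb hk hl
    rcases ha with rfl | rfl <;> rcases hb with rfl | rfl
    · rcases hl with h | h <;> exact absurd h.symm hkl
    · exact Or.inl ⟨rfl, rfl⟩
    · exact Or.inr ⟨rfl, rfl⟩
    · rcases hk with h | h <;> exact absurd h hkl
  · rintro (⟨rfl, rfl⟩ | ⟨rfl, rfl⟩)
    · rfl
    · exact Finset.pair_comm _ _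

theorem klc_eq_chi (c : E4 → Fin 10) {k l : Fin 10} (hkl : k ≠ l) (L : List S3)
    (hL : L.length = 2) :
    klc c k l (L.map (fun v : S3 => (v : E4))) = chi (fun v : S3 => c v) {k, l} L := by
  match L, hL with
  | [v, w], _ =>
    have hc : ({k, l} : Finset (Fin 10)).card = 2 := Finset.card_pair hkl
    simp only [List.map_cons, List.map_nil, klc, KL, chi, List.toFinset_cons, List.toFinset_nil,
      List.length_cons, List.length_nil, hc]
    have e : (insert (c (v : E4)) (insert (c (w : E4)) ∅) : Finset (Fin 10)) =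
      {c (v : E4), c (w : E4)} := rfl
    rw [e]
    simp only [pair_iff hkl, and_true]

/-- **Line lemma** for fundamental 1-chains. -/
theorem line_fund (d : ℝ) (hd : 0 < d) : ∃ e0 : ℝ, 0 < e0 ∧ ∀ (c : E4 → Fin 10), Col c d →
    ∀ e : ℝ, e ≤ e0 → ∀ (A t : Finset (Fin 10)) (k l m : Fin 10), k ≠ l → k ≠ m → l ≠ m →
    A ∪ t ∪ {k, l, m} = Finset.univ →
    ∀ x y : S3, |⟪(x : E4), (y : E4)⟫| ≤ 1 / 8 → Near c (d / 4) x A → Near c (d / 4) y t →
    ∀ (X : Set S3) (z : Ch S3), x ∈ X → y ∈ X → Fund 1 e X z →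
      ev (chi (fun v : S3 => c v) {k, l}) z = 1 := by
  obtain ⟨e1, he1, H⟩ := line_cor d hd
  refine ⟨min e1 (min (d / 4) (1 / 8)), by positivity, ?_⟩
  intro c hc e he A t k l m hkl hkm hlm hun x y hxy hxA hyt X z hxX hyX hz
  have he1' : e ≤ e1 := he.trans (min_le_left _ _)
  have he2 : e ≤ d / 4 := he.trans ((min_le_right _ _).trans (min_le_left _ _))
  have he3 : e ≤ 1 / 8 := he.trans ((min_le_right _ _).trans (min_le_right _ _))
  have hx1 : ‖(x : E4)‖ = 1 := S3.norm x
  have hy1 : ‖(y : E4)‖ = 1 := S3.norm y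
  have hcol : ∀ (η : ℝ), η ≤ d / 4 → ∀ w : E4, ‖w‖ = 1 → |⟪(x : E4), w⟫| ≤ η →
      |⟪(y : E4), w⟫| ≤ η → c w = k ∨ c w = l ∨ c w = m := by
    intro η hη w hw hxw hyw
    have n1 := color_notin hc.sep (by linarith : d / 4 + η < d) hw hxw hxA
    have n2 := color_notin hc.sep (by linarith : d / 4 + η < d) hw hyw hyt
    have hm : c w ∈ A ∪ t ∪ {k, l, m} := by rw [hun]; exact Finset.mem_univ _
    simp only [Finset.mem_union, Finset.mem_insert, Finset.mem_singleton] at hm
    tauto
  have key := H c hc k l m hkl hkm hlm x y hx1 hy1 hxy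
    (fun w hw h1 h2 => hcol 0 (by linarith) w hw (by rw [h1, abs_zero]) (by rw [h2, abs_zero]))
    (fun z1 z2 z3 h1 h2 h3 h12 h13 _ hcc => by
      have hn : Near c (d / 2) z1 {k, l, m} := by
        intro a ha
        simp only [Finset.mem_insert, Finset.mem_singleton] at ha
        rcases ha with rfl | rfl | rfl
        · exact ⟨z1, h1, by rw [sub_self, norm_zero]; linarith, hcc.1⟩
        · exact ⟨z2, h2, h12, hcc.2.1⟩
        · exact ⟨z3, h3, h13, hcc.2.2⟩
      exact K hc.sep (by linarith : d / 2 < d)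
        (near_mono hxA (by linarith) (Finset.Subset.refl _))
        (near_mono hyt (by linarith) (Finset.Subset.refl _)) hn hun)
    (mp (fun v : S3 => (v : E4)) z) ?_ ?_
  · rw [ev_mp] at key
    rw [← key]
    exact ev_congr (fun L hL => (klc_eq_chi c hkl L hL.1).symm) hz.mem
  · refine lift_mem (fun L hL => ?_) hz.mem
    rw [mp_sg]
    obtain ⟨h1, h2, h3⟩ := hL
    refine sg_mem ⟨by simpa using h1, ?_, ?_⟩
    · intro v hv
      obtain ⟨v', hv', rfl⟩ := List.mem_map.1 hv
      have a1 := (h3 x hxX v' hv').le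
      have a2 := (h3 y hyX v' hv').le
      exact ⟨S3.norm v', a1.trans he3, a2.trans he3, hcol e he2 _ (S3.norm v') a1 a2⟩
    · intro v hv w hw
      obtain ⟨v', hv', rfl⟩ := List.mem_map.1 hv
      obtain ⟨w', hw', rfl⟩ := List.mem_map.1 hw
      have := (h2 v' hv' w' hw').le
      rw [Subtype.dist_eq, dist_eq_norm] at this
      exact this.trans he1'
  · intro s hs
    rw [ev_mp]
    have h1 := hz.cup [fun v : S3 => s v] rfl (by
      intro a ha
      rw [List.mem_singleton] at ha
      subst ha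
      intro v
      have hv0 : (v : E4) ≠ 0 := by
        intro h0
        have := S3.norm v
        rw [h0, norm_zero] at this
        exact zero_ne_one this
      exact hs (v : E4) hv0)
    refine (ev_congr (fun L hL => ?_) hz.mem).trans h1
    match L, hL.1 with
    | [v, w], _ => simp [wprod, wprodq, wcup]

end Crest.Agent.S69
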