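import Mathlib

/-!
# The three-coloured projective line: odd potential and parity
-/

set_option autoImplicit false

namespace Crest.Agent.S69.LinePot

namespace Line

/-- indicator of the unordered pair `{k,l}` -/
def X (k l a b : Fin 10) : ZMod 2 := if (a = k ∧ b = l) ∨ (a = l ∧ b = k) then 1 else 0

/-- hexagon function: `a` is above `b` in the order `k < m < l` -/
def H (k l m a b : Fin 10) : ZMod 2 :=
  if (a = l ∧ b = m) ∨ (a = l ∧ b = k) ∨ (a = m ∧ b = k) then 1 else 0

theorem X_self {k l : Fin 10} (hkl : k ≠ l) (a : Fin 10) : X k l a a = 0 := by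
  unfold X
  rw [if_neg]
  rintro (⟨h1, h2⟩ | ⟨h1, h2⟩)
  · exact hkl (h1.symm.trans h2)
  · exact hkl (h2.symm.trans h1)

theorem X_comm (k l a b : Fin 10) : X k l a b = X k l b a := by
  unfold X
  refine if_congr ?_ rfl rfl
  tauto

theorem one_add_one : (1 : ZMod 2) + 1 = 0 := by decide

theorem X_add {k l m a b c o : Fin 10} (hkl : k ≠ l) (hkm : k ≠ m) (hlm : l ≠ m)
    (ha : a = k ∨ a = l ∨ a = m) (hb : b = k ∨ b = l ∨ b = m) (hc : c = k ∨ c = l ∨ c = m)
    (ho : o = k ∨ o = l ∨ o = m) (hao : a ≠ o) (hbo : b ≠ o) (hco : c ≠ o) :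
    X k l a b + X k l b c = X k l a c := by
  have h1 := hkl.symm
  have h2 := hkm.symm
  have h3 := hlm.symm
  unfold X
  rcases ho with rfl | rfl | rfl <;> rcases ha with rfl | rfl | rfl <;>
    rcases hb with rfl | rfl | rfl <;> rcases hc with rfl | rfl | rfl <;>
    simp_all [one_add_one]

theorem H_add {k l m a b a' b' : Fin 10} (hkl : k ≠ l) (hkm : k ≠ m) (hlm : l ≠ m)
    (ha : a = k ∨ a = l ∨ a = m) (hb : b = k ∨ b = l ∨ b = m)
    (ha' : a' = k ∨ a' = l ∨ a' = m) (hb' : b' = k ∨ b' = l ∨ b' = m)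
    (hab : a ≠ b) (hab' : a' ≠ b') (h1 : a ≠ b') (h2 : a' ≠ b) :
    X k l a a' + X k l b b' = H k l m a b + H k l m a' b' := by
  have h3 := hkl.symm
  have h4 := hkm.symm
  have h5 := hlm.symm
  unfold X H
  rcases ha with rfl | rfl | rfl <;> rcases hb with rfl | rfl | rfl <;>
    rcases ha' with rfl | rfl | rfl <;> rcases hb' with rfl | rfl | rfl <;>
    simp_all [one_add_one]

theorem H_swap {k l m a b : Fin 10} (hkl : k ≠ l) (hkm : k ≠ m) (hlm : l ≠ m)
    (ha : a = k ∨ a = l ∨ a = m) (hb : b = k ∨ b = l ∨ b = m) (hab : a ≠ b) :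
    H k l m a b + H k l m b a = 1 := by
  have h3 := hkl.symm
  have h4 := hkm.symm
  have h5 := hlm.symm
  unfold H
  rcases ha with rfl | rfl | rfl <;> rcases hb with rfl | rfl | rfl <;>
    simp_all

section angle

variable (C : ℝ → Fin 10) {k l m : Fin 10} {d : ℝ}

/-- **Potential in the angle variable** -/
theorem angle_pot (hkl : k ≠ l) (hkm : k ≠ m) (hlm : l ≠ m)
    (h3 : ∀ t, C t = k ∨ C t = l ∨ C t = m) (hper : ∀ t, C (t + Real.pi) = C t) (hd : 0 < d)
    (horth : ∀ s t, |Real.cos (s - t)| < d → C s ≠ C t) :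
    ∃ η : ℝ, 0 < η ∧ η ≤ Real.pi ∧ ∃ σ : ℝ → ZMod 2,
      ∀ α β : ℝ, 0 ≤ α → 0 ≤ β →
        (σ (α + Real.pi) = σ α + 1) ∧
        ∀ n : ℤ, |α - β - n * (2 * Real.pi)| ≤ η → σ α + σ β = X k l (C α) (C β) := by
  have hpi := Real.pi_pos
  obtain ⟨N, hN⟩ := exists_nat_gt (Real.pi / d)
  have hN0 : (0 : ℝ) < N := lt_trans (by positivity) hN
  have hN1 : (1 : ℝ) ≤ N := by
    have : 0 < N := by exact_mod_cast hN0
    exact_mod_cast this
  set η : ℝ := Real.pi / (2 * N) with hη
  have hη0 : 0 < η := by positivity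
  have hηd : η < d := by
    rw [hη, div_lt_iff₀ (by positivity)]
    rw [div_lt_iff₀ hd] at hN
    nlinarith
  have hNη : (N : ℝ) * η = Real.pi / 2 := by
    rw [hη]; field_simp
  have h2Nη : ((2 * N : ℕ) : ℝ) * η = Real.pi := by
    push_cast
    rw [mul_assoc, hNη]; ring
  have hηpi : η ≤ Real.pi := by nlinarith
  set g : ℕ → Fin 10 := fun i => C (i * η) with hg
  set S : ℕ → ZMod 2 := fun n => ∑ i ∈ Finset.range n, X k l (g i) (g (i + 1)) with hS
  set σ : ℝ → ZMod 2 := fun t => S ⌊t / η⌋₊ + X k l (g ⌊t / η⌋₊) (C t) with hσ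
  have hgper : ∀ i, g (i + 2 * N) = g i := by
    intro i
    simp only [hg]
    rw [← hper (i * η)]
    congr 1
    rw [← h2Nη]
    push_cast
    ring
  -- the orthogonal colour
  have ho : ∀ t t', |t' - t| ≤ η → C t' ≠ C (t + Real.pi / 2) := by
    intro t t' h
    apply horth
    rw [show t' - (t + Real.pi / 2) = (t' - t) - Real.pi / 2 by ring, Real.cos_sub_pi_div_two]
    calc |Real.sin (t' - t)| ≤ |t' - t| := Real.abs_sin_le_abs
      _ ≤ η := h
      _ < d := hηd
  have hS1 : S (2 * N) = 1 := by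
    have e1 : S (2 * N) = ∑ i ∈ Finset.range N,
        (X k l (g i) (g (i + 1)) + X k l (g (N + i)) (g (N + i + 1))) := by
      rw [Finset.sum_add_distrib]
      simp only [hS]
      rw [two_mul, Finset.sum_range_add]
    have e2 : ∀ i ∈ Finset.range N,
        (X k l (g i) (g (i + 1)) + X k l (g (N + i)) (g (N + i + 1)))
          = H k l m (g i) (g (N + i)) + H k l m (g (i + 1)) (g (N + (i + 1))) := by
      intro i _
      have p1 : ∀ j : ℕ, ((N + j : ℕ) : ℝ) * η = (j : ℝ) * η + Real.pi / 2 := by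
        intro j
        push_cast
        rw [add_mul, hNη]; ring
      have q1 : g i ≠ g (N + i) := by
        simp only [hg]
        rw [p1]
        exact ho _ _ (by simp [hη0.le])
      have q2 : g (i + 1) ≠ g (N + (i + 1)) := by
        simp only [hg]
        rw [p1]
        exact ho _ _ (by simp [hη0.le])
      have q3 : g i ≠ g (N + (i + 1)) := by
        simp only [hg]
        rw [p1]
        refine ho _ _ ?_
        push_cast
        rw [show (i : ℝ) * η - (i + 1) * η = -η by ring, abs_neg, abs_of_pos hη0]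
      have q4 : g (i + 1) ≠ g (N + i) := by
        simp only [hg]
        rw [p1]
        refine ho _ _ ?_
        push_cast
        rw [show ((i : ℝ) + 1) * η - i * η = η by ring, abs_of_pos hη0]
      exact H_add hkl hkm hlm (h3 _) (h3 _) (h3 _) (h3 _) q1 q2 q3 q4
    rw [e1, Finset.sum_congr rfl e2]
    have e3 : ∀ n : ℕ, ∑ i ∈ Finset.range n,
        (H k l m (g i) (g (N + i)) + H k l m (g (i + 1)) (g (N + (i + 1))))
          = H k l m (g 0) (g (N + 0)) + H k l m (g n) (g (N + n)) := by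
      intro n
      induction n with
      | zero => simp [CharTwo.add_self_eq_zero]
      | succ n ih =>
        rw [Finset.sum_range_succ, ih]
        have := CharTwo.add_self_eq_zero (H k l m (g n) (g (N + n)))
        linear_combination this
    rw [e3]
    have e4 : g (N + N) = g 0 := by
      have := hgper 0
      rw [zero_add, two_mul] at this
      exact this
    rw [e4, add_zero]
    refine H_swap hkl hkm hlm (h3 _) (h3 _) ?_
    simp only [hg]
    have := ho (0 * η) (0 * η) (by simp [hη0.le])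
    rw [show ((N : ℕ) : ℝ) * η = 0 * η + Real.pi / 2 by rw [hNη]; ring]
    simpa using this
  have hSper : ∀ n, S (n + 2 * N) = S n + 1 := by
    intro n
    induction n with
    | zero =>
      rw [zero_add, hS1]
      simp [hS]
    | succ n ih =>
      have e1 : S (n + 1 + 2 * N) = S (n + 2 * N) + X k l (g (n + 2 * N)) (g (n + 2 * N + 1)) := by
        simp only [hS]
        rw [show n + 1 + 2 * N = (n + 2 * N) + 1 by ring, Finset.sum_range_succ]
      have e2 : S (n + 1) = S n + X k l (g n) (g (n + 1)) := by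
        simp only [hS]
        rw [Finset.sum_range_succ]
      rw [e1, e2, ih, hgper n, show n + 2 * N + 1 = (n + 1) + 2 * N by ring, hgper (n + 1)]
      ring
  have hσπ : ∀ α, 0 ≤ α → σ (α + Real.pi) = σ α + 1 := by
    intro α hα
    simp only [hσ]
    have e1 : ⌊(α + Real.pi) / η⌋₊ = ⌊α / η⌋₊ + 2 * N := by
      rw [add_div]
      have : Real.pi / η = ((2 * N : ℕ) : ℝ) := by
        rw [← h2Nη]; field_simp
      rw [this, Nat.floor_add_natCast (div_nonneg hα hη0.le)]
    rw [e1, hSper, hgper, hper]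
    ring
  have hstep : ∀ α β, 0 ≤ α → α ≤ β → β ≤ α + η → σ α + σ β = X k l (C α) (C β) := by
    intro α β hα hαβ hβ
    simp only [hσ]
    set n := ⌊α / η⌋₊ with hn
    have hn1 : (n : ℝ) * η ≤ α := by
      have := Nat.floor_le (show 0 ≤ α / η by positivity)
      rw [← hn, le_div_iff₀ hη0] at this
      exact this
    have hn2 : α < (n + 1) * η := by
      have := Nat.lt_floor_add_one (α / η)
      rw [← hn, div_lt_iff₀ hη0] at this
      exact this
    have hle : n ≤ ⌊β / η⌋₊ := Nat.floor_le_floor (by gcongr)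
    have hle2 : ⌊β / η⌋₊ < n + 2 := by
      rw [Nat.floor_lt (div_nonneg (hα.trans hαβ) hη0.le), div_lt_iff₀ hη0]
      push_cast
      nlinarith
    have o1 : g n ≠ C (α + Real.pi / 2) := ho _ _ (by rw [abs_le]; constructor <;> linarith)
    have o2 : C α ≠ C (α + Real.pi / 2) := ho _ _ (by simp [hη0.le])
    have o3 : C β ≠ C (α + Real.pi / 2) := ho _ _ (by rw [abs_le]; constructor <;> linarith)
    have o4 : g (n + 1) ≠ C (α + Real.pi / 2) := ho _ _ (by
      push_cast
      rw [abs_le]; constructor <;> linarith)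
    rcases (show ⌊β / η⌋₊ = n ∨ ⌊β / η⌋₊ = n + 1 by omega) with h | h
    · rw [h]
      have e1 := X_add hkl hkm hlm (h3 α) (h3 (n * η)) (h3 β) (h3 (α + Real.pi / 2)) o2 o1 o3
      have e2 : X k l (g n) (C α) = X k l (C α) (g n) := X_comm _ _ _ _
      have e3 : X k l (C α) (g n) + X k l (g n) (C β) = X k l (C α) (C β) := e1
      rw [← e3, e2]
      have := CharTwo.add_self_eq_zero (S n)
      linear_combination this
    · rw [h]
      have e0 : S (n + 1) = S n + X k l (g n) (g (n + 1)) := by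
        simp only [hS]
        rw [Finset.sum_range_succ]
      have e1 : X k l (C α) (g n) + X k l (g n) (g (n + 1)) = X k l (C α) (g (n + 1)) :=
        X_add hkl hkm hlm (h3 α) (h3 _) (h3 _) (h3 (α + Real.pi / 2)) o2 o1 o4
      have e2 : X k l (C α) (g (n + 1)) + X k l (g (n + 1)) (C β) = X k l (C α) (C β) :=
        X_add hkl hkm hlm (h3 α) (h3 _) (h3 _) (h3 (α + Real.pi / 2)) o2 o4 o3
      have e3 : X k l (g n) (C α) = X k l (C α) (g n) := X_comm _ _ _ _
      rw [← e2, ← e1, e0, e3]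
      have := CharTwo.add_self_eq_zero (S n)
      linear_combination this
  -- periodicity
  have hσ2π : ∀ (n : ℕ) (α : ℝ), 0 ≤ α → σ (α + n * (2 * Real.pi)) = σ α := by
    intro n
    induction n with
    | zero => intro α _; simp
    | succ n ih =>
      intro α hα
      have h0 : (0 : ℝ) ≤ α + n * (2 * Real.pi) := by positivity
      rw [show α + ((n + 1 : ℕ) : ℝ) * (2 * Real.pi)
        = ((α + n * (2 * Real.pi)) + Real.pi) + Real.pi by push_cast; ring,
        hσπ _ (by positivity), hσπ _ h0, ih α hα]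
      have := one_add_one
      linear_combination this
  have hC2π : ∀ (n : ℕ) (α : ℝ), C (α + n * (2 * Real.pi)) = C α := by
    intro n
    induction n with
    | zero => intro α; simp
    | succ n ih =>
      intro α
      rw [show α + ((n + 1 : ℕ) : ℝ) * (2 * Real.pi)
        = ((α + n * (2 * Real.pi)) + Real.pi) + Real.pi by push_cast; ring, hper, hper, ih]
  have hmain : ∀ (n : ℕ) (α β : ℝ), 0 ≤ α → 0 ≤ β → |α - β - n * (2 * Real.pi)| ≤ η →
      σ α + σ β = X k l (C α) (C β) := by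
    intro n α β hα hβ h
    rw [← hσ2π n β hβ, ← hC2π n β]
    rw [abs_le] at h
    have h0 : (0 : ℝ) ≤ β + n * (2 * Real.pi) := by positivity
    rcases le_total α (β + n * (2 * Real.pi)) with h1 | h1
    · exact hstep _ _ hα h1 (by linarith [h.1])
    · rw [add_comm, X_comm]
      exact hstep _ _ h0 h1 (by linarith [h.2])
  refine ⟨η, hη0, hηpi, σ, ?_⟩
  intro α β hα hβ
  refine ⟨hσπ α hα, ?_⟩
  intro n hn
  rcases le_total 0 n with h0 | h0
  · obtain ⟨n', rfl⟩ := Int.eq_ofNat_of_zero_le h0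
    exact hmain n' α β hα hβ (by simpa using hn)
  · obtain ⟨n', hn'⟩ := Int.eq_ofNat_of_zero_le (show 0 ≤ -n by omega)
    rw [add_comm, X_comm]
    refine hmain n' β α hβ hα ?_
    have : n = -(n' : ℤ) := by omega
    rw [this] at hn
    push_cast at hn
    rw [abs_sub_comm] at hn
    rw [show β - α - (n' : ℝ) * (2 * Real.pi) = -(α - β - -(n' : ℝ) * (2 * Real.pi)) by ring,
      abs_neg]
    rw [abs_sub_comm] at hn
    exact hn

end angle

end Line

section plane

variable {E : Type*} [NormedAddCommGroup E] [InnerProductSpace ℝ E]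

open Line

/-- point of angle `t` of the circle spanned by `b0, b1` -/
noncomputable def cpt (b0 b1 : E) (t : ℝ) : E := Real.cos t • b0 + Real.sin t • b1

variable {b0 b1 : E}

theorem cpt_inner (h0 : ‖b0‖ = 1) (h1 : ‖b1‖ = 1) (h01 : inner ℝ b0 b1 = 0) (s t : ℝ) :
    inner ℝ (cpt b0 b1 s) (cpt b0 b1 t) = Real.cos (s - t) := by
  have h10 : inner ℝ b1 b0 = 0 := by rw [real_inner_comm]; exact h01
  simp only [cpt, inner_add_left, inner_add_right, real_inner_smul_left, real_inner_smul_right,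
    h01, h10, real_inner_self_eq_norm_sq, h0, h1]
  rw [Real.cos_sub]
  ring

theorem norm_cpt (h0 : ‖b0‖ = 1) (h1 : ‖b1‖ = 1) (h01 : inner ℝ b0 b1 = 0) (t : ℝ) :
    ‖cpt b0 b1 t‖ = 1 := by
  have h := cpt_inner h0 h1 h01 t t
  rw [real_inner_self_eq_norm_sq, sub_self, Real.cos_zero] at h
  exact (pow_eq_one_iff_of_nonneg (norm_nonneg _) two_ne_zero).mp h

theorem cpt_add_pi (t : ℝ) : cpt b0 b1 (t + Real.pi) = -cpt b0 b1 t := by
  simp [cpt, Real.cos_add_pi, Real.sin_add_pi]
  abel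

theorem cpt_mem (t : ℝ) : cpt b0 b1 t ∈ Submodule.span ℝ ({b0, b1} : Set E) := by
  refine Submodule.add_mem _ (Submodule.smul_mem _ _ (Submodule.subset_span (by simp)))
    (Submodule.smul_mem _ _ (Submodule.subset_span (by simp)))

theorem exists_cpt (h0 : ‖b0‖ = 1) (h1 : ‖b1‖ = 1) (h01 : inner ℝ b0 b1 = 0) {z : E}
    (hz : z ∈ Submodule.span ℝ ({b0, b1} : Set E)) (hz1 : ‖z‖ = 1) :
    ∃ t : ℝ, 0 ≤ t ∧ z = cpt b0 b1 t := by
  obtain ⟨x, y, rfl⟩ := Submodule.mem_span_pair.mp hz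
  have hxy : x ^ 2 + y ^ 2 = 1 := by
    have h := @norm_add_sq_real E _ _ (x • b0) (y • b1)
    rw [hz1, real_inner_smul_left, real_inner_smul_right, h01, norm_smul, norm_smul, h0, h1,
      Real.norm_eq_abs, Real.norm_eq_abs, mul_one, mul_one, sq_abs, sq_abs] at h
    linarith
  set w : ℂ := ⟨x, y⟩ with hw
  have hwn : ‖w‖ = 1 := by
    have : ‖w‖ ^ 2 = 1 := by
      rw [← Complex.normSq_eq_norm_sq, Complex.normSq_apply]
      simp only [hw]
      rw [← hxy]; ring
    exact (pow_eq_one_iff_of_nonneg (norm_nonneg _) two_ne_zero).mp this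
  have hw0 : w ≠ 0 := by
    intro h; rw [h, norm_zero] at hwn; exact zero_ne_one hwn
  have hc : Real.cos w.arg = x := by rw [Complex.cos_arg hw0, hwn, div_one]
  have hs : Real.sin w.arg = y := by rw [Complex.sin_arg, hwn, div_one]
  refine ⟨w.arg + 2 * Real.pi, ?_, ?_⟩
  · have := Complex.neg_pi_lt_arg w
    have := Real.pi_pos
    linarith
  · rw [cpt, Real.cos_add_two_pi, Real.sin_add_two_pi, hc, hs]

/-- **Line lemma**: an odd potential of the number of `k l`-transitions on a three-coloured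
circle. -/
theorem line_pot (h0 : ‖b0‖ = 1) (h1 : ‖b1‖ = 1) (h01 : inner ℝ b0 b1 = 0)
    (col : E → Fin 10) {k l m : Fin 10} (hkl : k ≠ l) (hkm : k ≠ m) (hlm : l ≠ m)
    (heven : ∀ z ∈ Submodule.span ℝ ({b0, b1} : Set E), ‖z‖ = 1 → col (-z) = col z)
    (h3 : ∀ z ∈ Submodule.span ℝ ({b0, b1} : Set E), ‖z‖ = 1 →
      col z = k ∨ col z = l ∨ col z = m) {d : ℝ} (hd : 0 < d)
    (horth : ∀ z ∈ Submodule.span ℝ ({b0, b1} : Set E), ∀ z' ∈ Submodule.span ℝ ({b0, b1} : Set E),
      ‖z‖ = 1 → ‖z'‖ = 1 → |inner ℝ z z'| < d → col z ≠ col z') :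
    ∃ e : ℝ, 0 < e ∧ ∃ s : E → ZMod 2,
      (∀ z ∈ Submodule.span ℝ ({b0, b1} : Set E), ‖z‖ = 1 → s (-z) = s z + 1) ∧
      (∀ z ∈ Submodule.span ℝ ({b0, b1} : Set E), ∀ z' ∈ Submodule.span ℝ ({b0, b1} : Set E),
        ‖z‖ = 1 → ‖z'‖ = 1 → dist z z' < e →
        s z + s z' = if (col z = k ∧ col z' = l) ∨ (col z = l ∧ col z' = k) then 1 else 0) := by
  classical
  obtain ⟨η, hη, hηpi, σ, hσ⟩ := angle_pot (fun t => col (cpt b0 b1 t)) hkl hkm hlm
    (fun t => h3 _ (cpt_mem t) (norm_cpt h0 h1 h01 t))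
    (fun t => by
      show col (cpt b0 b1 (t + Real.pi)) = col (cpt b0 b1 t)
      rw [cpt_add_pi]
      exact heven _ (cpt_mem t) (norm_cpt h0 h1 h01 t)) hd
    (fun s t hst => horth _ (cpt_mem s) _ (cpt_mem t) (norm_cpt h0 h1 h01 s)
      (norm_cpt h0 h1 h01 t) (by rw [cpt_inner h0 h1 h01]; exact hst))
  -- angle of a point
  let θ : E → ℝ := fun z =>
    if h : z ∈ Submodule.span ℝ ({b0, b1} : Set E) ∧ ‖z‖ = 1 then
      Classical.choose (exists_cpt h0 h1 h01 h.1 h.2) else 0
  have hθ : ∀ z ∈ Submodule.span ℝ ({b0, b1} : Set E), ‖z‖ = 1 → 0 ≤ θ z ∧ z = cpt b0 b1 (θ z) := by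
    intro z hz hz1
    have : θ z = Classical.choose (exists_cpt h0 h1 h01 hz hz1) := dif_pos ⟨hz, hz1⟩
    rw [this]
    exact Classical.choose_spec (exists_cpt h0 h1 h01 hz hz1)
  have hcosη : Real.cos η < 1 := by
    have := Real.strictAntiOn_cos (show (0 : ℝ) ∈ Set.Icc 0 Real.pi from ⟨le_refl _, Real.pi_pos.le⟩)
      (show η ∈ Set.Icc 0 Real.pi from ⟨hη.le, hηpi⟩) hη
    rwa [Real.cos_zero] at this
  -- close points have close angles
  have hclose : ∀ z ∈ Submodule.span ℝ ({b0, b1} : Set E),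
      ∀ z' ∈ Submodule.span ℝ ({b0, b1} : Set E), ‖z‖ = 1 → ‖z'‖ = 1 →
      ∀ α β : ℝ, z = cpt b0 b1 α → z' = cpt b0 b1 β →
      dist z z' < Real.sqrt (2 * (1 - Real.cos η)) →
      ∃ n : ℤ, |α - β - n * (2 * Real.pi)| ≤ η := by
    intro z _ z' _ hz1 hz1' α β hα hβ hdist
    have hin : inner ℝ z z' = Real.cos (α - β) := by
      rw [hα, hβ]; exact cpt_inner h0 h1 h01 _ _
    have hd2 : dist z z' ^ 2 = 2 * (1 - Real.cos (α - β)) := by
      rw [dist_eq_norm, @norm_sub_sq_real, hz1, hz1', hin]; ring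
    have hlt : 2 * (1 - Real.cos (α - β)) < 2 * (1 - Real.cos η) := by
      rw [← hd2]
      have h := Real.sq_sqrt (show 0 ≤ 2 * (1 - Real.cos η) by linarith)
      rw [← h]
      exact pow_lt_pow_left₀ hdist dist_nonneg (by norm_num)
    refine ⟨round ((α - β) / (2 * Real.pi)), ?_⟩
    set n := round ((α - β) / (2 * Real.pi)) with hn
    have hpi := Real.pi_pos
    have hr := abs_sub_round ((α - β) / (2 * Real.pi))
    rw [← hn] at hr
    have hle : |α - β - n * (2 * Real.pi)| ≤ Real.pi := by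
      have e : α - β - n * (2 * Real.pi) = ((α - β) / (2 * Real.pi) - n) * (2 * Real.pi) := by
        field_simp
      rw [e, abs_mul, abs_of_pos (show 0 < 2 * Real.pi by positivity)]
      nlinarith
    by_contra hcon
    push Not at hcon
    have hcos : Real.cos (|α - β - n * (2 * Real.pi)|) < Real.cos η :=
      Real.strictAntiOn_cos ⟨hη.le, hηpi⟩ ⟨abs_nonneg _, hle⟩ hcon
    rw [Real.cos_abs, Real.cos_sub_int_mul_two_pi] at hcos
    linarith
  refine ⟨Real.sqrt (2 * (1 - Real.cos η)), Real.sqrt_pos.mpr (by linarith), fun z => σ (θ z),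
    ?_, ?_⟩
  · intro z hz hz1
    obtain ⟨p1, p2⟩ := hθ z hz hz1
    have hnz : -z ∈ Submodule.span ℝ ({b0, b1} : Set E) := Submodule.neg_mem _ hz
    have hnz1 : ‖-z‖ = 1 := by rw [norm_neg]; exact hz1
    obtain ⟨q1, q2⟩ := hθ (-z) hnz hnz1
    have hpos : 0 ≤ θ z + Real.pi := by have := Real.pi_pos; linarith
    have hz' : -z = cpt b0 b1 (θ z + Real.pi) := by rw [cpt_add_pi, ← p2]
    obtain ⟨n, hn⟩ := hclose (-z) hnz (-z) hnz hnz1 hnz1 (θ (-z)) (θ z + Real.pi) q2 hz'
      (by rw [dist_self]; exact Real.sqrt_pos.mpr (by linarith))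
    have h2 := (hσ (θ (-z)) (θ z + Real.pi) q1 hpos).2 n hn
    rw [(hσ (θ z) 0 p1 le_rfl).1] at h2
    have h3' : X k l (col (cpt b0 b1 (θ (-z)))) (col (cpt b0 b1 (θ z + Real.pi))) = 0 := by
      rw [← q2, ← hz']
      exact X_self hkl _
    rw [h3'] at h2
    show σ (θ (-z)) = σ (θ z) + 1
    have h4 := CharTwo.add_self_eq_zero (σ (θ z) + 1)
    linear_combination h2 - h4
  · intro z hz z' hz' hz1 hz1' hdist
    obtain ⟨p1, p2⟩ := hθ z hz hz1
    obtain ⟨q1, q2⟩ := hθ z' hz' hz1'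
    obtain ⟨n, hn⟩ := hclose z hz z' hz' hz1 hz1' (θ z) (θ z') p2 q2 hdist
    have h2 := (hσ (θ z) (θ z') p1 q1).2 n hn
    rw [show σ (θ z) + σ (θ z') = X k l (col z) (col z') from by
      rw [h2]
      show X k l (col (cpt b0 b1 (θ z))) (col (cpt b0 b1 (θ z'))) = _
      rw [← p2, ← q2]]
    rfl

end plane

end Crest.Agent.S69.LinePot
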