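import Crest.Agent.S69.GeoCor
import Crest.Agent.S69.Chi
import Crest.Agent.S69.Cap
import Crest.Agent.S69.EndGame

set_option autoImplicit false

/-!
# Assembly of the proof of S0069
-/
namespace Crest.Agent.S69
open Crest.Agent.BU
open scoped RealInnerProductSpace

/-- the colouring on the sphere -/
def gc (c : E4 → Fin 10) (v : S3) : Fin 10 := c (v : E4)

theorem gc_neg {c : E4 → Fin 10} {d : ℝ} (hc : Col c d) (v : S3) : gc c (-v) = gc c v :=
  hc.even _

theorem chi_evenL {c : E4 → Fin 10} {d : ℝ} (hc : Col c d) (P : Finset (Fin 10)) :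
    EvenL (chi (gc c) P) := by
  intro l
  exact chi_even (T := Neg.neg) (fun v _ => gc_neg hc v) P

/-- if a cochain is nonzero on a chain then it is nonzero on some list of the support -/
theorem exists_of_ev {V : Type*} {P : List V → Prop} {q : List V → ZMod 2} {z : Ch V}
    (hz : z ∈ supp P) (h : ev q z ≠ 0) : ∃ l, P l ∧ q l ≠ 0 := by
  by_contra hc
  push Not at hc
  exact h (ev_eq_zero (fun l hl => hc l hl) hz)

/-- a fine rainbow list is a realisation -/
theorem near_of_chi {c : E4 → Fin 10} {e : ℝ} {P : Finset (Fin 10)} {l : List S3}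
    (hl : ∀ v ∈ l, ∀ w ∈ l, dist v w < e) (h : chi (gc c) P l ≠ 0) {v : S3} (hv : v ∈ l) :
    Near c e (v : E4) P := by
  intro k hk
  obtain ⟨w, hw, hwk⟩ := (chi_mem h k).1 hk
  refine ⟨(w : E4), S3.norm w, ?_, hwk⟩
  rw [← dist_eq_norm]
  exact (hl v hv w hw).le

theorem nonempty_of_chi {c : E4 → Fin 10} {P : Finset (Fin 10)} {l : List S3}
    (hP : P.Nonempty) (h : chi (gc c) P l ≠ 0) : ∃ v, v ∈ l := by
  obtain ⟨k, hk⟩ := hP
  obtain ⟨w, hw, -⟩ := (chi_mem h k).1 hk
  exact ⟨w, hw⟩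

section
variable {c : E4 → Fin 10} {d e : ℝ}

/-- the index -/
noncomputable def NN (c : E4 → Fin 10) (h : Ch S3) (x : S3) (t : Finset (Fin 10)) : ZMod 2 :=
  ev (chi (gc c) t) (cap (s x) h)

/-- the value of a colour cochain does not depend on the direction of the slice if no larger
colour set is realised -/
theorem slice_const (hc : Col c d) {k : ℕ} {X : Set S3} {z : Ch S3} (hz : Fund k e X z)
    (hk : 0 < k) (P : Finset (Fin 10)) (x x' : S3)
    (hno : ∀ m ∉ P, ∀ l : List S3, (l.length = k + 1 ∧ (∀ v ∈ l, ∀ w ∈ l, dist v w < e) ∧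
      ∀ x ∈ X, ∀ v ∈ l, |⟪(x : E4), (v : E4)⟫| < e) → chi (gc c) (insert m P) l = 0) :
    ev (chi (gc c) P) (cap (s x) z) = ev (chi (gc c) P) (cap (s x') z) := by
  have h1 : ev (chi (gc c) P) (cap (s x) z) + ev (chi (gc c) P) (cap (s x') z) =
      ev (wcup (fun v => s x v + s x' v) (chi (gc c) P)) z := by
    rw [ev_cap, ev_cap, ← ev_add_fun]
    refine ev_congr_fun (fun l => ?_) z
    match l with
    | [] => simp [wcup]
    | [v] => simp [wcup]
    | (v :: v' :: l) => simp only [wcup]; ring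
  have heven : Even0 (fun v => s x v + s x' v) := by
    intro v
    show s x (-v) + s x' (-v) = s x v + s x' v
    rw [s_odd x v, s_odd x' v]
    have := add_self2 (1 : ZMod 2)
    linear_combination this
  rw [hz.even_wcup hk heven (chi_evenL hc P)] at h1
  have h2 : ev (acup (fun v => s x v + s x' v) (BU.cbd (chi (gc c) P))) z = 0 := by
    refine ev_eq_zero (fun l hl => ?_) hz.mem
    match l with
    | [] => rfl
    | (v :: l) =>
      simp only [acup]
      rw [cbd_chi, Finset.sum_eq_zero, mul_zero]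
      intro m hm
      exact hno m (by simpa using hm) _ hl
  rw [h2] at h1
  have h3 := add_self2 (ev (chi (gc c) P) (cap (s x') z))
  linear_combination h1 - h3

/-- the slice avoids the colour of its direction -/
theorem slice_zero (hc : Col c d) (hed : e < d) {k : ℕ} {X : Set S3} {z : Ch S3}
    (hz : Fund (k + 1) e X z) (P : Finset (Fin 10)) (x : S3) (hx : gc c x ∈ P) :
    ev (chi (gc c) P) (cap (s x) z) = 0 := by
  refine ev_eq_zero (fun l hl => ?_) (hz.cap x).mem
  by_contra hne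
  obtain ⟨w, hw, hwk⟩ := (chi_mem hne _).1 hx
  have h1 := hl.2.2 x (Set.mem_insert _ _) w hw
  have h2 := hc.sep x w (S3.norm x) (S3.norm w) hwk.symm
  linarith


/-- the plane lemma, as used -/
def PlaneHyp (c : E4 → Fin 10) (ρ e : ℝ) : Prop :=
  ∀ (h : Ch S3), Fund 3 e ∅ h → ∀ (x : S3) (s' : Finset (Fin 10)), s'.card = 4 →
    Near c ρ (x : E4) s' → ∀ t ⊆ s'ᶜ, t.card = 3 →
      NN c h x t + NN c h x (s'ᶜ \ t) = 1

/-- the line lemma, as used -/
def LineHyp (c : E4 → Fin 10) (e : ℝ) : Prop :=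
  ∀ (x y : S3), |⟪(x : E4), (y : E4)⟫| < e → ∀ (z : Ch S3), Fund 1 e {y, x} z →
    ∀ k l m : Fin 10, k ≠ l → k ≠ m → l ≠ m →
    (∀ v : S3, |⟪(x : E4), (v : E4)⟫| < e → |⟪(y : E4), (v : E4)⟫| < e →
      gc c v = k ∨ gc c v = l ∨ gc c v = m) →
    ev (chi (gc c) {k, l}) z = 1

theorem NN_real {h : Ch S3} (hh : Fund 3 e ∅ h) {x : S3} {t : Finset (Fin 10)}
    (ht : t.Nonempty) (hN : NN c h x t ≠ 0) :
    ∃ v : S3, |⟪(x : E4), (v : E4)⟫| < e ∧ Near c e (v : E4) t ∧ gc c v ∈ t := by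
  obtain ⟨l, hl, hne⟩ := exists_of_ev (hh.cap x).mem hN
  obtain ⟨k, hk⟩ := ht
  obtain ⟨w, hw, hwk⟩ := (chi_mem hne k).1 hk
  exact ⟨w, hl.2.2 x (Set.mem_insert _ _) w hw, near_of_chi hl.2.1 hne hw, by rw [hwk]; exact hk⟩

/-- near the orthogonal sphere of a facet point its colours do not occur -/
theorem NN_zero_of_mem (hc : Col c d) {ρ : ℝ} (hρ : ρ + e < d) {h : Ch S3} (hh : Fund 3 e ∅ h)
    {x : S3} {s' : Finset (Fin 10)} (hx : Near c ρ (x : E4) s') {t : Finset (Fin 10)}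
    {m : Fin 10} (hm : m ∈ s') (hmt : m ∈ t) : NN c h x t = 0 := by
  refine ev_eq_zero (fun l hl => ?_) (hh.cap x).mem
  by_contra hne
  obtain ⟨w, hw, hwk⟩ := (chi_mem hne m).1 hmt
  have h1 := hl.2.2 x (Set.mem_insert _ _) w hw
  refine color_notin hc.sep hρ (S3.norm w) h1.le hx (s := s') ?_
  have : c (w : E4) = m := hwk
  rw [this]; exact hm

/-- (3), and the index detects realisation -/
theorem plane_iff (hc : Col c d) {ρ : ℝ} (heρ : e ≤ ρ) (hρd : ρ < d)
    (hplane : PlaneHyp c ρ e) {h : Ch S3} (hh : Fund 3 e ∅ h) {x : S3}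
    {s' : Finset (Fin 10)} (h4 : s'.card = 4) (hx : Near c ρ (x : E4) s')
    {t : Finset (Fin 10)} (ht : t ⊆ s'ᶜ) (h3 : t.card = 3) :
    (Real c ρ t ↔ NN c h x t = 1) ∧ (Real c ρ t ↔ ¬ Real c ρ (s'ᶜ \ t)) := by
  have hpl := hplane h hh x s' h4 hx t ht h3
  have hc6 : (s'ᶜ).card = 6 := by rw [Finset.card_compl, h4]; rfl
  have h3' : (s'ᶜ \ t).card = 3 := by rw [Finset.card_sdiff_of_subset ht, hc6, h3]
  have hF : Real c ρ s' := ⟨x, S3.norm x, hx⟩
  have hreal : ∀ t' : Finset (Fin 10), t'.card = 3 → NN c h x t' ≠ 0 → Real c ρ t' := by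
    intro t' ht' hne
    obtain ⟨v, -, hv, -⟩ := NN_real hh (Finset.card_pos.1 (by omega)) hne
    exact ⟨v, S3.norm v, near_mono hv heρ (Finset.Subset.refl _)⟩
  have hnb : Real c ρ t → Real c ρ (s'ᶜ \ t) → False := fun h1 h2 => not_both hc hρd hF h1 h2
  have h01 : ∀ a : ZMod 2, a ≠ 0 → a = 1 := by decide
  have hsum : ∀ a b : ZMod 2, a + b = 1 → b = 0 → a = 1 := by decide
  have hsum' : ∀ a b : ZMod 2, a + b = 1 → a = 0 → b ≠ 0 := by decide
  refine ⟨⟨fun hR => ?_, fun hN => ?_⟩, ⟨fun h1 h2 => hnb h1 h2, fun hn => ?_⟩⟩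
  · by_cases hb : NN c h x (s'ᶜ \ t) = 0
    · exact hsum _ _ hpl hb
    · exact absurd (hreal _ h3' hb) (fun h2 => hnb hR h2)
  · exact hreal t h3 (by rw [hN]; decide)
  · by_contra hR
    by_cases ha : NN c h x t = 0
    · exact hn (hreal _ h3' (hsum' _ _ hpl ha))
    · exact hR (hreal t h3 ha)

/-- (5) -/
theorem five (hc : Col c d) {ρ : ℝ} (heρ : e ≤ ρ) (hρd : ρ < d)
    {h : Ch S3} (hh : Fund 3 e ∅ h) {x : S3} {t : Finset (Fin 10)} (h3 : t.card = 3)
    (hN : NN c h x t = 1) : ∃ m ∉ t, Real c ρ (insert m t) := by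
  by_contra hno
  push Not at hno
  obtain ⟨v, -, -, hv⟩ := NN_real hh (Finset.card_pos.1 (by omega))
    (x := x) (t := t) (c := c) (by rw [hN]; decide)
  have h0 : NN c h v t = 0 := slice_zero hc (by linarith) hh t v hv
  have := slice_const hc hh (by norm_num) t x v (fun m hm l hl => by
    by_contra hne
    obtain ⟨w, hw⟩ := nonempty_of_chi (Finset.insert_nonempty m t) hne
    exact hno m hm ⟨w, S3.norm w, near_mono (near_of_chi hl.2.1 hne hw) heρ
      (Finset.Subset.refl _)⟩)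
  unfold NN at hN h0
  rw [hN, h0] at this
  exact one_ne_zero this

/-- parity -/
theorem even_deg (hc : Col c d) {ρ : ℝ} (he : 0 < e) (heρ : e ≤ ρ) (hρd : ρ + e < d)
    (hplane : PlaneHyp c ρ e) {h : Ch S3} (hh : Fund 3 e ∅ h) {x : S3}
    {s' : Finset (Fin 10)} (h4 : s'.card = 4) (hx : Near c ρ (x : E4) s')
    {a b : Fin 10} (ha : a ∈ s'ᶜ) (hb : b ∈ s'ᶜ) (hab : a ≠ b)
    [DecidablePred (fun k => Real c ρ {a, b, k})] :
    Even (((s'ᶜ \ {a, b}).filter (fun k => Real c ρ {a, b, k})).card) := by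
  have hst := (hh.cap x).stokes (by norm_num) (chi (gc c) {a, b}) (chi_evenL hc _)
  have h1 : ev (BU.cbd (chi (gc c) {a, b})) (cap (s x) h) =
      ∑ m ∈ ({a, b} : Finset (Fin 10))ᶜ, NN c h x (insert m {a, b}) := by
    rw [← ev_bd, cbd_chi_apply]
    rfl
  rw [h1] at hst
  have hsub : s'ᶜ \ {a, b} ⊆ ({a, b} : Finset (Fin 10))ᶜ := by
    intro k hk
    simp only [Finset.mem_sdiff, Finset.mem_compl] at hk ⊢
    exact hk.2
  rw [← Finset.sum_subset hsub (fun m hm hm' => by
    have hms : m ∈ s' := by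
      simp only [Finset.mem_sdiff, Finset.mem_compl, not_and, not_not] at hm hm'
      by_contra h
      exact hm (hm' h)
    exact NN_zero_of_mem hc hρd hh hx hms (Finset.mem_insert_self _ _))] at hst
  have h2 : ∀ m ∈ s'ᶜ \ {a, b}, NN c h x (insert m {a, b}) =
      if Real c ρ {a, b, m} then 1 else 0 := by
    intro m hm
    simp only [Finset.mem_sdiff, Finset.mem_compl, Finset.mem_insert, Finset.mem_singleton,
      not_or] at hm ha hb
    have e1 : (insert m {a, b} : Finset (Fin 10)) = {a, b, m} := by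
      ext k; simp only [Finset.mem_insert, Finset.mem_singleton]; tauto
    have hcard : ({a, b, m} : Finset (Fin 10)).card = 3 :=
      Finset.card_eq_three.2 ⟨a, b, m, hab, fun h => hm.2.1 h.symm, fun h => hm.2.2 h.symm, rfl⟩
    have hss : ({a, b, m} : Finset (Fin 10)) ⊆ s'ᶜ := by
      intro k hk
      simp only [Finset.mem_insert, Finset.mem_singleton] at hk
      rw [Finset.mem_compl]
      rcases hk with rfl | rfl | rfl
      · exact ha
      · exact hb
      · exact hm.1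
    have := (plane_iff hc heρ (by linarith) hplane hh h4 hx hss hcard).1
    rw [e1]
    by_cases hR : Real c ρ {a, b, m}
    · rw [if_pos hR]; exact this.1 hR
    · rw [if_neg hR]
      have h01 : ∀ a : ZMod 2, a ≠ 1 → a = 0 := by decide
      exact h01 _ (fun h => hR (this.2 h))
  rw [Finset.sum_congr rfl h2, Finset.sum_boole] at hst
  have := (ZMod.natCast_eq_zero_iff _ 2).1 hst
  exact (even_iff_two_dvd).2 this

/-- majority type exclusion -/
theorem maj (hc : Col c d) {ρ : ℝ} (he : 0 < e) (heρ : e ≤ ρ) (hρd : ρ + e < d)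
    (hplane : PlaneHyp c ρ e) (hline : LineHyp c e) {h : Ch S3} (hh : Fund 3 e ∅ h) {x : S3}
    {s' : Finset (Fin 10)} (h4 : s'.card = 4) (hx : Near c ρ (x : E4) s')
    {t : Finset (Fin 10)} (ht : t ⊆ s'ᶜ) (h3 : t.card = 3) (hR : Real c ρ t)
    {p q : Fin 10} (hp : p ∈ s'ᶜ \ t) (hq : q ∈ s'ᶜ \ t) (hpq : p ≠ q) :
    ∃ a ∈ t, Real c ρ {p, q, a} := by
  by_contra hno
  push Not at hno
  have hpi := plane_iff hc heρ (by linarith) hplane hh h4 hx ht h3
  have hN := hpi.1.1 hR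
  have hnR := hpi.2.1 hR
  obtain ⟨v, hxv, hv, -⟩ := NN_real hh (Finset.card_pos.1 (by omega))
    (x := x) (t := t) (c := c) (by rw [hN]; decide)
  have hc6 : (s'ᶜ).card = 6 := by rw [Finset.card_compl, h4]; rfl
  have h3' : (s'ᶜ \ t).card = 3 := by rw [Finset.card_sdiff_of_subset ht, hc6, h3]
  -- the third colour
  obtain ⟨r, hr⟩ : ((s'ᶜ \ t).erase p |>.erase q).Nonempty := by
    rw [← Finset.card_pos, Finset.card_erase_of_mem, Finset.card_erase_of_mem hp, h3']
    · norm_num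
    · exact Finset.mem_erase.2 ⟨hpq.symm, hq⟩
  simp only [Finset.mem_erase] at hr
  obtain ⟨hrq, hrp, hr⟩ := hr
  have hset : s'ᶜ \ t = {p, q, r} := by
    symm
    apply Finset.eq_of_subset_of_card_le
    · intro k hk
      simp only [Finset.mem_insert, Finset.mem_singleton] at hk
      rcases hk with rfl | rfl | rfl
      · exact hp
      · exact hq
      · exact hr
    · rw [h3', Finset.card_eq_three.2 ⟨p, q, r, hpq, fun h => hrp h.symm, fun h => hrq h.symm, rfl⟩]
  have hz2 := hh.cap x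
  have hz1 := hz2.cap v
  -- the line lemma
  have hM1 : ev (chi (gc c) {p, q}) (cap (s v) (cap (s x) h)) = 1 := by
    refine hline x v hxv _ (hz1 |> fun H => by simpa using H) p q r hpq (fun h => hrp h.symm)
      (fun h => hrq h.symm) ?_
    intro w hxw hvw
    have h1 : c (w : E4) ∉ s' := color_notin hc.sep hρd (S3.norm w) hxw.le hx
    have h2 : c (w : E4) ∉ t := color_notin hc.sep (by linarith) (S3.norm w) hvw.le
      (near_mono hv heρ (Finset.Subset.refl _))
    have h5 : c (w : E4) ∈ s'ᶜ \ t := by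
      rw [Finset.mem_sdiff, Finset.mem_compl]; exact ⟨h1, h2⟩
    rw [hset] at h5
    simpa [gc] using h5
  -- a point of colour `p`
  obtain ⟨l, hl, hne⟩ := exists_of_ev hz1.mem (q := chi (gc c) {p, q}) (by rw [hM1]; decide)
  obtain ⟨y, hy, hyp⟩ := (chi_mem hne p).1 (by simp)
  have hM0 : ev (chi (gc c) {p, q}) (cap (s y) (cap (s x) h)) = 0 :=
    slice_zero hc (by linarith) hz2 _ y (by rw [hyp]; simp)
  have := slice_const hc hz2 (by norm_num) {p, q} v y (fun m hm l hl => by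
    by_contra hne
    obtain ⟨w, hw⟩ := nonempty_of_chi (Finset.insert_nonempty m _) hne
    have hnw := near_mono (near_of_chi hl.2.1 hne hw) heρ (Finset.Subset.refl _)
    obtain ⟨w', hw', hwk'⟩ := (chi_mem hne m).1 (Finset.mem_insert_self _ _)
    have hms : m ∉ s' := by
      have := color_notin hc.sep hρd (S3.norm w') (hl.2.2 x (Set.mem_insert _ _) w' hw').le hx
      have e1 : c (w' : E4) = m := hwk'
      rwa [e1] at this
    have e2 : (insert m {p, q} : Finset (Fin 10)) = {p, q, m} := by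
      ext k; simp only [Finset.mem_insert, Finset.mem_singleton]; tauto
    rw [e2] at hnw
    have hRm : Real c ρ {p, q, m} := ⟨w, S3.norm w, hnw⟩
    by_cases hmt : m ∈ t
    · exact hno m hmt hRm
    · have h5 : m ∈ s'ᶜ \ t := by rw [Finset.mem_sdiff, Finset.mem_compl]; exact ⟨hms, hmt⟩
      rw [hset] at h5
      simp only [Finset.mem_insert, Finset.mem_singleton, not_or] at h5 hm
      rcases h5 with h5 | h5 | h5
      · exact hm.1 h5
      · exact hm.2 h5
      · apply hnR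
        rw [hset, ← h5]; exact hRm)
  rw [hM1, hM0] at this
  exact one_ne_zero this

/-- the combinatorial facts -/
structure Facts (R F : Finset (Fin 10) → Prop) : Prop where
  ex : ∃ s : Finset (Fin 10), s.card = 4 ∧ F s
  sub : ∀ s : Finset (Fin 10), s.card = 4 → F s → ∀ t ⊆ s, t.card = 3 → R t
  comp : ∀ s : Finset (Fin 10), s.card = 4 → F s → ∀ t ⊆ sᶜ, t.card = 3 → (R t ↔ ¬ R (sᶜ \ t))
  deg : ∀ s : Finset (Fin 10), s.card = 4 → F s → ∀ a ∈ sᶜ, ∀ b ∈ sᶜ, a ≠ b →
    (open scoped Classical in ((sᶜ \ {a, b}).filter (fun k => R {a, b, k})).card) = 2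
  ext : ∀ s : Finset (Fin 10), s.card = 4 → F s → ∀ t ⊆ sᶜ, t.card = 3 → R t →
    ∃ m ∉ t, F (insert m t)

theorem facts (hc : Col c d) {ρ : ℝ} (he : 0 < e) (heρ : e ≤ ρ) (hρd : ρ + e < d)
    (hplane : PlaneHyp c ρ e) (hline : LineHyp c e) : Facts (Real c ρ) (Real c ρ) := by
  classical
  obtain ⟨h, hh⟩ := exists_fund he
  have hcomp : ∀ s : Finset (Fin 10), s.card = 4 → Real c ρ s → ∀ t ⊆ sᶜ, t.card = 3 →
      (Real c ρ t ↔ ¬ Real c ρ (sᶜ \ t)) := by
    intro s' h4 hF t ht h3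
    obtain ⟨x, hx1, hx⟩ := hF
    exact (plane_iff hc heρ (by linarith) hplane hh (x := ⟨x, by simpa using hx1⟩) h4 hx ht h3).2
  refine ⟨?_, ?_, hcomp, ?_, ?_⟩
  · obtain ⟨s', h4, x, hx1, hx⟩ := exists_facet c hc.even hc.pos hc.sep (ρ := ρ) (by linarith)
    exact ⟨s', h4, x, hx1, hx⟩
  · intro s' _ hF t ht _
    exact real_mono hF le_rfl ht
  · intro s' h4 hF a ha b hb hab
    have hc6 : (s'ᶜ).card = 6 := by rw [Finset.card_compl, h4]; rfl
    have hF' := hF
    obtain ⟨x, hx1, hx⟩ := hF'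
    refine EndGame.deg_two hc6 (fun t ht h3 => hcomp s' h4 hF t ht h3) (fun a ha b hb hab =>
      even_deg hc he heρ hρd hplane hh (x := ⟨x, by simpa using hx1⟩) h4 hx ha hb hab) ?_ ha hb hab
    intro t ht h3 hR p hp q hq hpq
    exact maj hc he heρ hρd hplane hline hh (x := ⟨x, by simpa using hx1⟩) h4 hx ht h3 hR hp hq hpq
  · intro s' h4 hF t ht h3 hR
    obtain ⟨x, hx1, hx⟩ := hF
    have hN := (plane_iff hc heρ (by linarith) hplane hh (x := ⟨x, by simpa using hx1⟩) h4 hx ht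
      h3).1.1 hR
    exact five hc heρ (by linarith) hh h3 hN

end
end Crest.Agent.S69
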