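import Crest.Agent.BU.Euclid
import Crest.Agent.S69.Defs
import Crest.Agent.S69.Geo
import Crest.Agent.S69.LinePot

set_option autoImplicit false

/-!
# S0069: majority exclusion
-/
namespace Crest.Agent.S69

open scoped RealInnerProductSpace
open Crest.Agent.BU

/-- sign bit of the `p`-coloured vertex of a `p,q`-edge -/
def al (p q cu cv : Fin 10) (fu fv : ZMod 2) : ZMod 2 :=
  if cu = p ∧ cv = q then fu else if cu = q ∧ cv = p then fv else 0

theorem al_cocycle {p q : Fin 10} (hpq : p ≠ q) {cu cv cw : Fin 10} {fu fv fw : ZMod 2}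
    (h1 : cu = p → cv = p → fu = fv) (h2 : cu = p → cw = p → fu = fw)
    (h3 : cv = p → cw = p → fv = fw)
    (n1 : (cu = p ∧ cv = q ∨ cu = q ∧ cv = p) → (cw = p ∨ cw = q))
    (n2 : (cu = p ∧ cw = q ∨ cu = q ∧ cw = p) → (cv = p ∨ cv = q))
    (n3 : (cv = p ∧ cw = q ∨ cv = q ∧ cw = p) → (cu = p ∨ cu = q)) :
    al p q cv cw fv fw + (al p q cu cw fu fw + al p q cu cv fu fv) = 0 := by
  have hqp : q ≠ p := fun h => hpq h.symm
  have a2 := fun a : ZMod 2 => CharTwo.add_self_eq_zero a
  unfold al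
  by_cases u1 : cu = p
  · by_cases v1 : cv = p
    · by_cases w1 : cw = q
      · simp [u1, v1, w1, hpq, hqp, h1 u1 v1, a2]
      · simp [u1, v1, w1, hpq, hqp]
    · by_cases v2 : cv = q
      · rcases n1 (Or.inl ⟨u1, v2⟩) with w1 | w1
        · simp [u1, v2, w1, hpq, hqp, h2 u1 w1, a2]
        · simp [u1, v2, w1, hpq, hqp, a2]
      · by_cases w1 : cw = q
        · rcases n2 (Or.inl ⟨u1, w1⟩) with h | h
          · exact absurd h v1
          · exact absurd h v2
        · simp [u1, v1, v2, w1, hpq]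
  · by_cases u2 : cu = q
    · by_cases v1 : cv = p
      · rcases n1 (Or.inr ⟨u2, v1⟩) with w1 | w1
        · simp [u2, v1, w1, hpq, hqp, h3 v1 w1, a2]
        · simp [u2, v1, w1, hpq, hqp, a2]
      · by_cases v2 : cv = q
        · by_cases w1 : cw = p
          · simp [u2, v2, w1, hpq, hqp, a2]
          · simp [u2, v2, w1, hqp]
        · by_cases w1 : cw = p
          · rcases n2 (Or.inr ⟨u2, w1⟩) with h | h
            · exact absurd h v1
            · exact absurd h v2
          · simp [u2, v1, v2, w1, hqp]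
    · by_cases hvw : (cv = p ∧ cw = q ∨ cv = q ∧ cw = p)
      · rcases n3 hvw with h | h
        · exact absurd h u1
        · exact absurd h u2
      · push Not at hvw
        have e1 : ¬ (cv = p ∧ cw = q) := fun h => hvw.1 h.1 h.2
        have e2 : ¬ (cv = q ∧ cw = p) := fun h => hvw.2 h.1 h.2
        rw [if_neg e1, if_neg e2]
        simp [u1, u2]

/-- the alpha cochain -/
noncomputable def alC (c : E4 → Fin 10) (p q : Fin 10) (φ : E4 → ZMod 2) : List E4 → ZMod 2
  | [u, v] => al p q (c u) (c v) (φ u) (φ v)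
  | _ => 0

/-- indicator of `p,q`-edges -/
noncomputable def chC (c : E4 → Fin 10) (p q : Fin 10) : List E4 → ZMod 2
  | [u, v] => al p q (c u) (c v) 1 1
  | _ => 0

/-- **Majority exclusion.** -/
theorem maj_of_pot {c : E4 → Fin 10} {d : ℝ} (hc : Col c d) {ε : ℝ} (hε : 0 < ε) (hεd : ε < d)
    {x y : E4} (hx : ‖x‖ = 1) (hy : ‖y‖ = 1) (hxy : ⟪x, y⟫ = 0) {A t : Finset (Fin 10)}
    (hA : Near c ε x A) (hA4 : A.card = 4) (ht : Near c ε y t) (ht3 : t.card = 3)
    (htA : t ⊆ Aᶜ) {p q : Fin 10} (hp : p ∈ Aᶜ \ t) (hq : q ∈ Aᶜ \ t) (hpq : p ≠ q)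
    (hpot : ∀ b0 b1 : E4, ‖b0‖ = 1 → ‖b1‖ = 1 → ⟪b0, b1⟫ = 0 → ⟪x, b0⟫ = 0 → ⟪x, b1⟫ = 0 →
      ⟪y, b0⟫ = 0 → ⟪y, b1⟫ = 0 →
      ∃ e : ℝ, 0 < e ∧ ∃ s : E4 → ZMod 2,
        (∀ z ∈ Submodule.span ℝ {b0, b1}, ‖z‖ = 1 → s (-z) = s z + 1) ∧
        (∀ z ∈ Submodule.span ℝ {b0, b1}, ∀ z' ∈ Submodule.span ℝ {b0, b1}, ‖z‖ = 1 → ‖z'‖ = 1 →
          dist z z' < e → s z + s z' = al p q (c z) (c z') 1 1)) :
    ∃ j ∈ t, Real c ε {j, p, q} := by
  classical
  by_contra hcon
  push Not at hcon
  obtain ⟨b0, hb0, hxb0, hyb0, -⟩ := exists_orth x y 0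
  obtain ⟨b1, hb1, hxb1, hyb1, hb01⟩ := exists_orth x y b0
  obtain ⟨e, he, s, hs1, hs2⟩ := hpot b0 b1 hb0 hb1 hb01 hxb0 hxb1 hyb0 hyb1
  set b : Fin 3 → E4 := ![b0, b1, y] with hbdef
  have hb : Orthonormal ℝ b := by
    constructor
    · intro i; fin_cases i <;> simp [hbdef, hb0, hb1, hy]
    · intro i j hij
      fin_cases i <;> fin_cases j <;>
        simp [hbdef, hb01, hyb0, hyb1, real_inner_comm b0 b1, real_inner_comm y b0,
          real_inner_comm y b1] at hij ⊢
  have hbx : ∀ z ∈ Submodule.span ℝ (Set.range b), ⟪x, z⟫ = 0 := by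
    intro z hz
    induction hz using Submodule.span_induction with
    | mem z h =>
      obtain ⟨i, rfl⟩ := h
      fin_cases i <;> simp [hbdef, hxb0, hxb1, hxy]
    | zero => simp
    | add z z' _ _ h h' => rw [inner_add_right, h, h', add_zero]
    | smul a z _ h => rw [inner_smul_right, h, mul_zero]
  have hspan : Submodule.span ℝ (b '' {i | (i : ℕ) ≤ 1}) ≤ Submodule.span ℝ {b0, b1} := by
    apply Submodule.span_mono
    rintro _ ⟨i, hi, rfl⟩
    fin_cases i
    · simp [hbdef]
    · simp [hbdef]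
    · simp at hi
  have hby : ∀ z ∈ Submodule.span ℝ (b '' {i | (i : ℕ) ≤ 1}), ⟪y, z⟫ = 0 := by
    intro z hz
    have hz := hspan hz
    rw [Submodule.mem_span_pair] at hz
    obtain ⟨a1, a2, rfl⟩ := hz
    rw [inner_add_right, inner_smul_right, inner_smul_right, hyb0, hyb1]; simp
  have hd := hc.sep
  have hεd0 : ε + 0 < d := by linarith
  -- the sign function on colour p
  have hφex : ∃ up : E4, ‖up‖ = 1 ∧ (c up = p ∨ ∀ z : E4, ‖z‖ = 1 → c z ≠ p) := by
    by_cases h : ∃ up : E4, ‖up‖ = 1 ∧ c up = p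
    · obtain ⟨up, h1, h2⟩ := h
      exact ⟨up, h1, Or.inl h2⟩
    · push Not at h
      exact ⟨x, hx, Or.inr h⟩
  obtain ⟨up, hup, hcup⟩ := hφex
  set φ : E4 → ZMod 2 := fun z => if ⟪up, z⟫ < 0 then 1 else 0 with hφ
  have hφne : ∀ z : E4, ‖z‖ = 1 → c z = p → d ≤ |⟪up, z⟫| := by
    intro z hz hcz
    rcases hcup with h | h
    · exact hd up z hup hz (h.trans hcz.symm)
    · exact absurd hcz (h z hz)
  have hφodd : ∀ z : E4, ‖z‖ = 1 → c z = p → φ (-z) = φ z + 1 := by
    intro z hz hcz
    have h := hφne z hz hcz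
    have hd0 := hc.pos
    simp only [hφ, inner_neg_right]
    rcases lt_or_ge (⟪up, z⟫) 0 with h1 | h1
    · rw [if_pos h1, if_neg (by linarith)]; decide
    · have h2 : 0 < ⟪up, z⟫ := by
        rw [abs_of_nonneg h1] at h; linarith
      rw [if_pos (by linarith), if_neg (by linarith)]; decide
  have hφclose : ∀ z z' : E4, ‖z‖ = 1 → ‖z'‖ = 1 → dist z z' < d → c z = p → c z' = p →
      φ z = φ z' := by
    intro z z' hz hz' hdist hcz hcz'
    have h1 := hφne z hz hcz
    have h2 := hφne z' hz' hcz'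
    have h3 : |⟪up, z⟫ - ⟪up, z'⟫| < d := by
      rw [← inner_sub_right]
      calc |⟪up, z - z'⟫| ≤ ‖up‖ * ‖z - z'‖ := abs_real_inner_le_norm _ _
        _ = dist z z' := by rw [hup, one_mul, dist_eq_norm]
        _ < d := hdist
    have hd0 := hc.pos
    rw [abs_lt] at h3
    simp only [hφ]
    rcases lt_or_ge (⟪up, z⟫) 0 with h4 | h4
    · have h5 : ⟪up, z'⟫ < 0 := by
        rw [abs_of_neg h4] at h1
        by_contra h6
        push Not at h6
        rw [abs_of_nonneg h6] at h2
        linarith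
      rw [if_pos h4, if_pos h5]
    · have h5 : ¬ ⟪up, z'⟫ < 0 := by
        intro h6
        rw [abs_of_nonneg h4] at h1
        rw [abs_of_neg h6] at h2
        linarith
      rw [if_neg (not_lt.2 h4), if_neg h5]
  -- chains
  set ε' : ℝ := min ε e with hε'
  have hε'0 : 0 < ε' := lt_min hε he
  obtain ⟨p0, h, h0, hbd, hs⟩ := sphere_chains b hb (by norm_num) hε'0
  have hs0 := hs 0 (by norm_num)
  have hs1' := hs 1 (by norm_num)
  have hs2' := hs 2 (by norm_num)
  -- p0 is a unit vector of the plane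
  have hp0 : ‖p0‖ = 1 ∧ p0 ∈ Submodule.span ℝ {b0, b1} := by
    rw [h0] at hs0
    have hmem : ([p0] : List E4) ∈ {l : List E4 | l.length = 0 + 1 ∧
        (∀ x ∈ l, x ∈ Submodule.span ℝ (b '' {i | (i : ℕ) ≤ 0})) ∧ Fine b ε' l} := by
      have := (Finsupp.mem_supported (ZMod 2) _).1 hs0
      apply this
      simp [sg]
    refine ⟨(hmem.2.2.1 p0 (by simp)).1, hspan ?_⟩
    refine Submodule.span_mono ?_ (hmem.2.1 p0 (by simp))
    apply Set.image_mono
    intro i hi
    simp only [Set.mem_setOf_eq] at hi ⊢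
    omega
  -- step 1: ev chi (h 1) = 1
  have key1 : ev (chC c p q) (h 1) = 1 := by
    have e1 : ev (chC c p q) (h 1) = ev (cbd (fun l => match l with | [u] => s u | _ => 0)) (h 1) := by
      refine ev_congr (fun l hl => ?_) hs1'
      obtain ⟨hl1, hl2, hl3⟩ := hl
      match l, hl1, hl2, hl3 with
      | [u, v], _, hl2, hl3 =>
        have hu := hl3.1 u (by simp)
        have hv := hl3.1 v (by simp)
        have huv := hl3.2 u (by simp) v (by simp)
        have := hs2 u (hspan (hl2 u (by simp))) v (hspan (hl2 v (by simp))) hu.1 hv.1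
          (lt_of_lt_of_le huv (min_le_right _ _))
        simp only [chC, cbd, bdL, map_add, ev_sg, ev_cons, map_zero, add_zero]
        rw [← this, add_comm]
    rw [e1, ← ev_bd, hbd 0, h0, map_add, ev_mp]
    simp only [ev_sg, List.map_cons, List.map_nil]
    rw [hs1 p0 hp0.2 hp0.1]
    have := add_self2 (s p0)
    linear_combination this
  -- step 2: ev chi (h 1) = 0
  have key2 : ev (chC c p q) (h 1) = 0 := by
    have e1 : ev (cbd (alC c p q φ)) (h 2) = 0 := by
      refine ev_eq_zero (fun l hl => ?_) hs2'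
      obtain ⟨hl1, hl2, hl3⟩ := hl
      match l, hl1, hl2, hl3 with
      | [u, v, w], _, hl2, hl3 =>
        have hu := hl3.1 u (by simp)
        have hv := hl3.1 v (by simp)
        have hw := hl3.1 w (by simp)
        have huv := hl3.2 u (by simp) v (by simp)
        have huw := hl3.2 u (by simp) w (by simp)
        have hvw := hl3.2 v (by simp) w (by simp)
        have hvu := hl3.2 v (by simp) u (by simp)
        have hwu := hl3.2 w (by simp) u (by simp)
        have hwv := hl3.2 w (by simp) v (by simp)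
        have hlt : ε' < d := lt_of_le_of_lt (min_le_left _ _) hεd
        have hle : ε' ≤ ε := min_le_left _ _
        -- no rainbow
        have nr : ∀ u v w : E4, ‖u‖ = 1 → ‖v‖ = 1 → ‖w‖ = 1 → ⟪x, w⟫ = 0 → dist u v < ε' →
            dist u w < ε' → (c u = p ∧ c v = q ∨ c u = q ∧ c v = p) → (c w = p ∨ c w = q) := by
          intro u v w hu hv hw hxw huv huw hcuv
          by_contra hne
          push Not at hne
          have hwA : c w ∉ A := color_notin hd hεd0 hw (by rw [hxw, abs_zero]) hA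
          have hnear : Near c ε u {c w, p, q} := by
            intro k hk
            simp only [Finset.mem_insert, Finset.mem_singleton] at hk
            have hu' : ‖u - v‖ ≤ ε := by rw [← dist_eq_norm]; linarith
            have hw' : ‖u - w‖ ≤ ε := by rw [← dist_eq_norm]; linarith
            have h00 : ‖u - u‖ ≤ ε := by simp; exact hε.le
            rcases hk with rfl | rfl | rfl
            · exact ⟨w, hw, hw', rfl⟩
            · rcases hcuv with ⟨h1, h2⟩ | ⟨h1, h2⟩
              · exact ⟨u, hu, h00, h1⟩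
              · exact ⟨v, hv, hu', h2⟩
            · rcases hcuv with ⟨h1, h2⟩ | ⟨h1, h2⟩
              · exact ⟨v, hv, hu', h2⟩
              · exact ⟨u, hu, h00, h1⟩
          by_cases hwt : c w ∈ t
          · exact hcon (c w) hwt ⟨u, hu, hnear⟩
          · -- union is everything
            refine K hd hεd hA ht hnear ?_
            have hpA := Finset.mem_sdiff.1 hp
            have hqA := Finset.mem_sdiff.1 hq
            have hpA1 := Finset.mem_compl.1 hpA.1
            have hqA1 := Finset.mem_compl.1 hqA.1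
            apply Finset.eq_univ_of_card
            have hd1 : Disjoint A t := by
              rw [Finset.disjoint_right]
              intro a ha
              exact Finset.mem_compl.1 (htA ha)
            have hd2 : Disjoint (A ∪ t) {c w, p, q} := by
              rw [Finset.disjoint_right]
              intro a ha
              simp only [Finset.mem_insert, Finset.mem_singleton] at ha
              rw [Finset.mem_union]
              rintro (h1 | h1)
              · rcases ha with rfl | rfl | rfl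
                · exact hwA h1
                · exact hpA1 h1
                · exact hqA1 h1
              · rcases ha with rfl | rfl | rfl
                · exact hwt h1
                · exact hpA.2 h1
                · exact hqA.2 h1
            rw [Finset.card_union_of_disjoint hd2, Finset.card_union_of_disjoint hd1, hA4, ht3,
              Finset.card_eq_three.2 ⟨c w, p, q, hne.1, hne.2, hpq, rfl⟩]
            simp
        simp only [cbd, bdL, map_add, ev_sg, ev_cons, map_zero, add_zero, alC]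
        refine al_cocycle hpq ?_ ?_ ?_ ?_ ?_ ?_
        · intro h1 h2; exact hφclose u v hu.1 hv.1 (huv.trans hlt) h1 h2
        · intro h1 h2; exact hφclose u w hu.1 hw.1 (huw.trans hlt) h1 h2
        · intro h1 h2; exact hφclose v w hv.1 hw.1 (hvw.trans hlt) h1 h2
        · exact nr u v w hu.1 hv.1 hw.1 (hbx w hw.2) huv huw
        · exact nr u w v hu.1 hw.1 hv.1 (hbx v hv.2) huw huv
        · exact nr v w u hv.1 hw.1 hu.1 (hbx u hu.2) hvw hvu
    rw [← ev_bd, hbd 1, map_add, ev_mp, ← ev_add_fun] at e1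
    rw [← e1]
    refine ev_congr (fun l hl => ?_) hs1'
    obtain ⟨hl1, hl2, hl3⟩ := hl
    match l, hl1, hl2, hl3 with
    | [u, v], _, hl2, hl3 =>
      have hu := hl3.1 u (by simp)
      have hv := hl3.1 v (by simp)
      simp only [chC, alC, List.map_cons, List.map_nil, al, hc.even]
      by_cases h1 : c u = p ∧ c v = q
      · simp only [h1, if_true, and_self]
        rw [hφodd u hu.1 h1.1]
        have := add_self2 (φ u)
        linear_combination -this
      · by_cases h2 : c u = q ∧ c v = p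
        · simp only [if_neg h1, if_pos h2]
          rw [hφodd v hv.1 h2.2]
          have := add_self2 (φ v)
          linear_combination -this
        · simp only [if_neg h1, if_neg h2, add_zero]
  rw [key1] at key2
  exact absurd key2 (by decide)

/-- **Majority exclusion.** -/
theorem maj {c : E4 → Fin 10} {d : ℝ} (hc : Col c d) {ε : ℝ} (hε : 0 < ε) (hεd : ε < d)
    {x y : E4} (hx : ‖x‖ = 1) (hy : ‖y‖ = 1) (hxy : ⟪x, y⟫ = 0) {A t : Finset (Fin 10)}
    (hA : Near c ε x A) (hA4 : A.card = 4) (ht : Near c ε y t) (ht3 : t.card = 3)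
    (htA : t ⊆ Aᶜ) {p q : Fin 10} (hp : p ∈ Aᶜ \ t) (hq : q ∈ Aᶜ \ t) (hpq : p ≠ q) :
    ∃ j ∈ t, Real c ε {j, p, q} := by
  classical
  refine maj_of_pot hc hε hεd hx hy hxy hA hA4 ht ht3 htA hp hq hpq ?_
  intro b0 b1 hb0 hb1 hb01 hxb0 hxb1 hyb0 hyb1
  have hcard : (Aᶜ \ t).card = 3 := by
    rw [Finset.card_sdiff_of_subset htA, Finset.card_compl, hA4, ht3]; simp
  -- the third colour
  obtain ⟨r, hr, hrp, hrq, hall⟩ : ∃ r ∈ Aᶜ \ t, r ≠ p ∧ r ≠ q ∧
      ∀ k ∈ Aᶜ \ t, k = p ∨ k = q ∨ k = r := by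
    have h1 : (((Aᶜ \ t).erase p).erase q).card = 1 := by
      rw [Finset.card_erase_of_mem (Finset.mem_erase.2 ⟨hpq.symm, hq⟩),
        Finset.card_erase_of_mem hp, hcard]
    obtain ⟨r, hr⟩ := Finset.card_eq_one.1 h1
    have hr' : r ∈ ((Aᶜ \ t).erase p).erase q := by rw [hr]; simp
    rw [Finset.mem_erase, Finset.mem_erase] at hr'
    refine ⟨r, hr'.2.2, hr'.2.1, hr'.1, fun k hk => ?_⟩
    by_cases hkp : k = p
    · exact Or.inl hkp
    by_cases hkq : k = q
    · exact Or.inr (Or.inl hkq)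
    have : k ∈ ((Aᶜ \ t).erase p).erase q :=
      Finset.mem_erase.2 ⟨hkq, Finset.mem_erase.2 ⟨hkp, hk⟩⟩
    rw [hr, Finset.mem_singleton] at this
    exact Or.inr (Or.inr this)
  have hεd0 : ε + 0 < d := by linarith
  have hin : ∀ z ∈ Submodule.span ℝ ({b0, b1} : Set E4), ‖z‖ = 1 →
      c z = p ∨ c z = q ∨ c z = r := by
    intro z hz hz1
    obtain ⟨a1, a2, rfl⟩ := Submodule.mem_span_pair.1 hz
    have hx0 : ⟪x, a1 • b0 + a2 • b1⟫ = 0 := by
      rw [inner_add_right, inner_smul_right, inner_smul_right, hxb0, hxb1]; simp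
    have hy0 : ⟪y, a1 • b0 + a2 • b1⟫ = 0 := by
      rw [inner_add_right, inner_smul_right, inner_smul_right, hyb0, hyb1]; simp
    have h1 : c (a1 • b0 + a2 • b1) ∉ A := color_notin hc.sep hεd0 hz1 (by rw [hx0, abs_zero]) hA
    have h2 : c (a1 • b0 + a2 • b1) ∉ t := color_notin hc.sep hεd0 hz1 (by rw [hy0, abs_zero]) ht
    exact hall _ (Finset.mem_sdiff.2 ⟨Finset.mem_compl.2 h1, h2⟩)
  obtain ⟨e, he, s, hs1, hs2⟩ := LinePot.line_pot hb0 hb1 hb01 c hpq hrp.symm hrq.symm
    (fun z _ _ => hc.even z) hin hc.pos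
    (fun z _ z' _ hz1 hz1' h => fun hcz => absurd (hc.sep z z' hz1 hz1' hcz) (not_le.2 h))
  refine ⟨e, he, s, hs1, fun z hz z' hz' hz1 hz1' hdist => ?_⟩
  rw [hs2 z hz z' hz' hz1 hz1' hdist]
  unfold al
  by_cases h1 : c z = p ∧ c z' = q
  · rw [if_pos (Or.inl h1), if_pos h1]
  · by_cases h2 : c z = q ∧ c z' = p
    · rw [if_pos (Or.inr h2), if_neg h1, if_pos h2]
    · rw [if_neg (by tauto), if_neg h1, if_neg h2]

end Crest.Agent.S69
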