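import Crest.Agent.S69.Cap
import Crest.Agent.S69.Chi
import Crest.Agent.S69.GeoCor
import Crest.Agent.S69.Major

set_option autoImplicit false

/-!
# S0069: bridges between fundamental chains and realised colour sets
-/
namespace Crest.Agent.S69.MC

open Crest.Agent.BU
open scoped RealInnerProductSpace

/-- colour of a point of `S³` -/
abbrev cS (c : E4 → Fin 10) (v : S3) : Fin 10 := c (v : E4)

theorem cS_even {c : E4 → Fin 10} {d : ℝ} (hc : Col c d) (v : S3) : cS c (-v) = cS c v :=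
  hc.even v

theorem chi_evenL {c : E4 → Fin 10} {d : ℝ} (hc : Col c d) (t : Finset (Fin 10)) :
    EvenL (chi (cS c) t) := fun l => chi_even (fun v _ => cS_even hc v) t

/-- a nonzero value on a supported chain comes from a list of the support -/
theorem exists_of_ev_ne {V : Type*} {P : List V → Prop} {q : List V → ZMod 2} {z : Ch V}
    (hz : z ∈ supp P) (h : ev q z ≠ 0) : ∃ l, P l ∧ q l ≠ 0 := by
  by_contra hcon
  push Not at hcon
  exact h (ev_eq_zero hcon hz)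

/-- moving a point near `x^⊥` into `x^⊥` -/
theorem exists_perp_near {x v : E4} (hx : ‖x‖ = 1) (hv : ‖v‖ = 1) {e : ℝ}
    (he1 : e ≤ 1 / 4) (h : |⟪x, v⟫| < e) : ∃ y : E4, ‖y‖ = 1 ∧ ⟪x, y⟫ = 0 ∧ ‖y - v‖ ≤ 2 * e := by
  have hxx : ⟪x, x⟫ = (1 : ℝ) := by rw [real_inner_self_eq_norm_sq, hx]; norm_num
  set y0 : E4 := v - ⟪x, v⟫ • x with hy0
  have h0 : ‖y0 - v‖ = |⟪x, v⟫| := by
    rw [hy0, sub_sub_cancel_left, norm_neg, norm_smul, hx, mul_one, Real.norm_eq_abs]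
  have h1 : |‖y0‖ - 1| ≤ |⟪x, v⟫| := by
    have := abs_norm_sub_norm_le y0 v
    rw [hv, h0] at this; exact this
  have hpos : 0 < ‖y0‖ := by
    have := (abs_le.1 h1).1
    linarith
  have hxy0 : ⟪x, y0⟫ = (0 : ℝ) := by
    rw [hy0, inner_sub_right, inner_smul_right, hxx]; ring
  refine ⟨‖y0‖⁻¹ • y0, ?_, ?_, ?_⟩
  · rw [norm_smul, norm_inv, norm_norm, inv_mul_cancel₀ hpos.ne']
  · rw [inner_smul_right, hxy0, mul_zero]
  · have h2 : ‖‖y0‖⁻¹ • y0 - y0‖ = |‖y0‖ - 1| := by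
      have : ‖y0‖⁻¹ • y0 - y0 = (‖y0‖⁻¹ - 1) • y0 := by rw [sub_smul, one_smul]
      rw [this, norm_smul, Real.norm_eq_abs]
      have e2 : |‖y0‖⁻¹ - 1| * ‖y0‖ = |(‖y0‖⁻¹ - 1) * ‖y0‖| := by
        rw [abs_mul, abs_of_pos hpos]
      rw [e2, sub_mul, inv_mul_cancel₀ hpos.ne', one_mul, abs_sub_comm]
    calc ‖‖y0‖⁻¹ • y0 - v‖ = ‖(‖y0‖⁻¹ • y0 - y0) + (y0 - v)‖ := by congr 1; abel
      _ ≤ ‖‖y0‖⁻¹ • y0 - y0‖ + ‖y0 - v‖ := norm_add_le _ _
      _ ≤ e + e := by rw [h2, h0]; linarith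
      _ = 2 * e := by ring

/-- a rainbow list of a fundamental chain is realised, exactly orthogonally to `x ∈ X` -/
theorem fund_real {c : E4 → Fin 10} {k : ℕ} {e : ℝ} {X : Set S3} {z : Ch S3}
    (hz : Fund k e X z) (he1 : e ≤ 1 / 4) {x : S3} (hx : x ∈ X) {t : Finset (Fin 10)}
    (ht : t.Nonempty) (h : ev (chi (cS c) t) z ≠ 0) :
    ∃ y : E4, ‖y‖ = 1 ∧ ⟪(x : E4), y⟫ = 0 ∧ Near c (3 * e) y t := by
  obtain ⟨l, ⟨-, hl2, hl3⟩, hl4⟩ := exists_of_ev_ne hz.mem h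
  obtain ⟨k0, hk0⟩ := ht
  obtain ⟨v, hv, -⟩ := (chi_mem hl4 k0).1 hk0
  obtain ⟨y, hy1, hy2, hy3⟩ := exists_perp_near (S3.norm x) (S3.norm v) he1 (hl3 x hx v hv)
  refine ⟨y, hy1, hy2, fun k hk => ?_⟩
  obtain ⟨w, hw, hwk⟩ := (chi_mem hl4 k).1 hk
  refine ⟨w, S3.norm w, ?_, hwk⟩
  have h1 : ‖(v : E4) - w‖ ≤ e := by
    have := hl2 v hv w hw
    rw [Subtype.dist_eq, dist_eq_norm] at this
    exact this.le
  calc ‖y - w‖ = ‖(y - v) + ((v : E4) - w)‖ := by congr 1; abel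
    _ ≤ ‖y - v‖ + ‖(v : E4) - w‖ := norm_add_le _ _
    _ ≤ 2 * e + e := by linarith
    _ = 3 * e := by ring

/-- a rainbow list of a fundamental chain is realised -/
theorem fund_real' {c : E4 → Fin 10} {k : ℕ} {e : ℝ} {X : Set S3} {z : Ch S3}
    (hz : Fund k e X z) {t : Finset (Fin 10)}
    (ht : t.Nonempty) (h : ev (chi (cS c) t) z ≠ 0) : Real c e t := by
  obtain ⟨l, ⟨-, hl2, hl3⟩, hl4⟩ := exists_of_ev_ne hz.mem h
  obtain ⟨k0, hk0⟩ := ht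
  obtain ⟨v, hv, -⟩ := (chi_mem hl4 k0).1 hk0
  refine ⟨v, S3.norm v, fun k hk => ?_⟩
  obtain ⟨w, hw, hwk⟩ := (chi_mem hl4 k).1 hk
  refine ⟨w, S3.norm w, ?_, hwk⟩
  have := hl2 v hv w hw
  rw [Subtype.dist_eq, dist_eq_norm] at this
  exact this.le

/-- a list of the support of a fundamental chain with pairwise different colours realises its
colour set -/
theorem list_real {c : E4 → Fin 10} {e : ℝ} {l : List S3}
    (hl2 : ∀ v ∈ l, ∀ w ∈ l, dist v w < e) {t : Finset (Fin 10)} (ht : t.Nonempty)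
    (hl4 : chi (cS c) t l ≠ 0) : Real c e t := by
  obtain ⟨k0, hk0⟩ := ht
  obtain ⟨v, hv, -⟩ := (chi_mem hl4 k0).1 hk0
  refine ⟨v, S3.norm v, fun k hk => ?_⟩
  obtain ⟨w, hw, hwk⟩ := (chi_mem hl4 k).1 hk
  refine ⟨w, S3.norm w, ?_, hwk⟩
  have := hl2 v hv w hw
  rw [Subtype.dist_eq, dist_eq_norm] at this
  exact this.le

/-- the lists of a fundamental chain near `x^⊥` avoid the colours near `x` -/
theorem fund_avoid {c : E4 → Fin 10} {d : ℝ} (hc : Col c d) {k : ℕ} {e ε : ℝ} {X : Set S3}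
    {z : Ch S3} (hz : Fund k e X z) {x : S3} (hx : x ∈ X) {A : Finset (Fin 10)}
    (hA : Near c ε x A) (he : ε + e < d) :
    z ∈ supp (fun l : List S3 => ∀ v ∈ l, cS c v ∉ A) := by
  refine supp_mono (fun l hl v hv => ?_) hz.mem
  exact color_notin hc.sep he (S3.norm v) (hl.2.2 x hx v hv).le hA

/-- **Majority exclusion** for fundamental chains. -/
theorem maj_fund {c : E4 → Fin 10} {d : ℝ} (hc : Col c d) {ε e : ℝ} (hε : 0 < ε) (hεd : ε < d)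
    (he1 : e ≤ 1 / 4) (heε : 3 * e ≤ ε) {X : Set S3} {z : Ch S3}
    (hz : Fund 2 e X z) {x : S3} (hx : x ∈ X) {A t : Finset (Fin 10)}
    (hA : Near c ε x A) (hA4 : A.card = 4) (ht3 : t.card = 3) (htA : t ⊆ Aᶜ)
    (h : ev (chi (cS c) t) z ≠ 0) {p q : Fin 10} (hp : p ∈ Aᶜ \ t) (hq : q ∈ Aᶜ \ t)
    (hpq : p ≠ q) : ∃ j ∈ t, Real c ε {j, p, q} := by
  have htne : t.Nonempty := Finset.card_pos.1 (by omega)
  obtain ⟨y, hy1, hy2, hy3⟩ := fund_real (c := c) hz he1 hx htne h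
  exact maj hc hε hεd (S3.norm x) hy1 hy2 hA hA4 (near_mono hy3 heε (Finset.Subset.refl _)) ht3
    htA hp hq hpq

/-- if `N(t) = 1` on `x^⊥` and `A` is seen at `x`, then the complementary triple is not realised -/
theorem fund_not_both {c : E4 → Fin 10} {d : ℝ} (hc : Col c d) {ε e : ℝ} (hεd : ε < d)
    (heε : e ≤ ε) {k : ℕ} {X : Set S3} {z : Ch S3} (hz : Fund k e X z)
    {A t : Finset (Fin 10)} (hA : Real c ε A) (htne : t.Nonempty)
    (h : ev (chi (cS c) t) z ≠ 0) : ¬ Real c ε (Aᶜ \ t) := fun h' =>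
  not_both hc hεd hA (real_mono (fund_real' hz htne h) heε (Finset.Subset.refl _)) h'

end Crest.Agent.S69.MC
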