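import Mathlib

set_option autoImplicit false

/-!
# S0069: the odd potential on a non-coherent triple of colours
-/
namespace Crest.Agent.S69

open Real

/-- indicator of the unordered pair `{k,l}` -/
def KL (k l a b : Fin 10) : ZMod 2 := if (a = k ∧ b = l) ∨ (a = l ∧ b = k) then 1 else 0

theorem zadd_self (a : ZMod 2) : a + a = 0 := CharTwo.add_self_eq_zero a

theorem KL_comm (k l a b : Fin 10) : KL k l a b = KL k l b a := by
  unfold KL
  have : ((a = k ∧ b = l) ∨ (a = l ∧ b = k)) ↔ ((b = k ∧ a = l) ∨ (b = l ∧ a = k)) := by tauto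
  simp only [this]

theorem KL_cocycle {k l m a b c : Fin 10} (hkl : k ≠ l) (hkm : k ≠ m) (hlm : l ≠ m)
    (ha : a = k ∨ a = l ∨ a = m) (hb : b = k ∨ b = l ∨ b = m) (hc : c = k ∨ c = l ∨ c = m)
    (h : ¬ (a = k ∧ b = l ∧ c = m) ∧ ¬ (a = k ∧ b = m ∧ c = l) ∧ ¬ (a = l ∧ b = k ∧ c = m) ∧
      ¬ (a = l ∧ b = m ∧ c = k) ∧ ¬ (a = m ∧ b = k ∧ c = l) ∧ ¬ (a = m ∧ b = l ∧ c = k)) :
    KL k l a b + KL k l a c = KL k l b c := by
  have e2 : (1 + 1 : ZMod 2) = 0 := by decide
  rcases ha with rfl | rfl | rfl <;> rcases hb with rfl | rfl | rfl <;>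
    rcases hc with rfl | rfl | rfl <;>
    simp_all [KL, hkl.symm, hkm.symm, hlm.symm]

/-- hexagon function: `1` iff `a > b` in the order `k < m < l` -/
def hx (k l a b : Fin 10) : ZMod 2 := if a = l ∨ b = k then 1 else 0

theorem hx_left {k l m a a' b : Fin 10} (hkl : k ≠ l) (hkm : k ≠ m) (hlm : l ≠ m)
    (ha : a = k ∨ a = l ∨ a = m) (ha' : a' = k ∨ a' = l ∨ a' = m) (hb : b = k ∨ b = l ∨ b = m)
    (h1 : a ≠ b) (h2 : a' ≠ b) : hx k l a b + hx k l a' b = KL k l a a' := by
  have e2 : (1 + 1 : ZMod 2) = 0 := by decide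
  rcases ha with rfl | rfl | rfl <;> rcases ha' with rfl | rfl | rfl <;>
    rcases hb with rfl | rfl | rfl <;>
    simp_all [KL, hx, hkl.symm, hkm.symm, hlm.symm]

theorem hx_right {k l m a b b' : Fin 10} (hkl : k ≠ l) (hkm : k ≠ m) (hlm : l ≠ m)
    (ha : a = k ∨ a = l ∨ a = m) (hb : b = k ∨ b = l ∨ b = m) (hb' : b' = k ∨ b' = l ∨ b' = m)
    (h1 : a ≠ b) (h2 : a ≠ b') : hx k l a b + hx k l a b' = KL k l b b' := by
  have e2 : (1 + 1 : ZMod 2) = 0 := by decide
  rcases ha with rfl | rfl | rfl <;> rcases hb with rfl | rfl | rfl <;>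
    rcases hb' with rfl | rfl | rfl <;>
    simp_all [KL, hx, hkl.symm, hkm.symm, hlm.symm]

theorem hx_swap {k l m a b : Fin 10} (hkl : k ≠ l) (hkm : k ≠ m) (hlm : l ≠ m)
    (ha : a = k ∨ a = l ∨ a = m) (hb : b = k ∨ b = l ∨ b = m)
    (h1 : a ≠ b) : hx k l b a = hx k l a b + 1 := by
  have e2 : (1 + 1 : ZMod 2) = 0 := by decide
  rcases ha with rfl | rfl | rfl <;> rcases hb with rfl | rfl | rfl <;>
    simp_all [hx, hkl.symm, hkm.symm, hlm.symm]

/-- The potential on the line (in discretised angle units, half turn = `2 M`). -/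
theorem line_pot (k l m : Fin 10) (hkl : k ≠ l) (hkm : k ≠ m) (hlm : l ≠ m)
    (g : ℝ → Fin 10) (M : ℕ)
    (hper : ∀ t, g (t + 2 * M) = g t)
    (hk : ∀ t, g t = k ∨ g t = l ∨ g t = m)
    (horth : ∀ t t' : ℝ, |t' - t - M| ≤ 1 → g t ≠ g t')
    (hrain : ∀ t1 t2 t3 : ℝ, |t1 - t2| ≤ 3 → |t1 - t3| ≤ 3 → |t2 - t3| ≤ 3 →
      ¬ (g t1 = k ∧ g t2 = l ∧ g t3 = m)) :
    ∃ S : ℝ → ZMod 2, (∀ t, 0 ≤ t → S (t + 2 * M) = S t + 1) ∧
      (∀ t t', 0 ≤ t → 0 ≤ t' → |t - t'| ≤ 1 → S t + S t' = KL k l (g t) (g t')) := by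
  -- cocycle for near triples
  have coc : ∀ t1 t2 t3, |t1 - t2| ≤ 3 → |t1 - t3| ≤ 3 → |t2 - t3| ≤ 3 →
      KL k l (g t1) (g t2) + KL k l (g t1) (g t3) = KL k l (g t2) (g t3) := by
    intro t1 t2 t3 h12 h13 h23
    have h21 : |t2 - t1| ≤ 3 := by rw [abs_sub_comm]; exact h12
    have h31 : |t3 - t1| ≤ 3 := by rw [abs_sub_comm]; exact h13
    have h32 : |t3 - t2| ≤ 3 := by rw [abs_sub_comm]; exact h23
    refine KL_cocycle hkl hkm hlm (hk _) (hk _) (hk _) ⟨?_, ?_, ?_, ?_, ?_, ?_⟩
    · exact hrain t1 t2 t3 h12 h13 h23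
    · rintro ⟨a, b, c⟩; exact hrain t1 t3 t2 h13 h12 h32 ⟨a, c, b⟩
    · rintro ⟨a, b, c⟩; exact hrain t2 t1 t3 h21 h23 h13 ⟨b, a, c⟩
    · rintro ⟨a, b, c⟩; exact hrain t3 t1 t2 h31 h32 h12 ⟨c, a, b⟩
    · rintro ⟨a, b, c⟩; exact hrain t2 t3 t1 h23 h21 h31 ⟨b, c, a⟩
    · rintro ⟨a, b, c⟩; exact hrain t3 t2 t1 h32 h31 h21 ⟨c, b, a⟩
  set a : ℕ → ZMod 2 := fun n => KL k l (g n) (g ((n : ℝ) + 1)) with ha
  set A : ℕ → ZMod 2 := fun n => ∑ i ∈ Finset.range n, a i with hA
  have hAs : ∀ n, A (n + 1) = A n + a n := by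
    intro n; simp only [hA]; rw [Finset.sum_range_succ]
  -- total parity
  have hper' : ∀ n, a (n + 2 * M) = a n := by
    intro n
    simp only [ha]
    have e1 : g ((n + 2 * M : ℕ) : ℝ) = g n := by
      push_cast; exact hper n
    have e2 : g (((n + 2 * M : ℕ) : ℝ) + 1) = g ((n : ℝ) + 1) := by
      have : (((n + 2 * M : ℕ) : ℝ) + 1) = ((n : ℝ) + 1) + 2 * M := by push_cast; ring
      rw [this]; exact hper _
    rw [e1, e2]
  have htot : A (2 * M) = 1 := by
    have key : ∀ j, hx k l (g (j : ℕ)) (g ((j : ℝ) + M)) + hx k l (g 0) (g M) =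
        A j + ∑ i ∈ Finset.range j, a (i + M) := by
      intro j
      induction j with
      | zero => simp [hA, zadd_self]
      | succ j ih =>
        rw [hAs, Finset.sum_range_succ]
        have e1 : hx k l (g (j : ℕ)) (g ((j : ℝ) + M)) + hx k l (g ((j : ℝ) + 1)) (g ((j : ℝ) + M))
            = a j := by
          refine hx_left hkl hkm hlm (hk _) (hk _) (hk _) ?_ ?_
          · apply horth; simp
          · apply horth
            have : (j : ℝ) + M - (j + 1) - M = -1 := by ring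
            rw [this]; norm_num
        have e2 : hx k l (g ((j : ℝ) + 1)) (g ((j : ℝ) + M)) +
            hx k l (g ((j : ℝ) + 1)) (g (((j : ℝ) + 1) + M)) = a (j + M) := by
          have e3 : a (j + M) = KL k l (g ((j : ℝ) + M)) (g (((j : ℝ) + 1) + M)) := by
            simp only [ha]
            congr 2
            · push_cast; rfl
            · push_cast; ring
          rw [e3]
          refine hx_right hkl hkm hlm (hk _) (hk _) (hk _) ?_ ?_
          · apply horth
            have : (j : ℝ) + M - (j + 1) - M = -1 := by ring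
            rw [this]; norm_num
          · apply horth
            have : (j : ℝ) + 1 + M - (j + 1) - M = 0 := by ring
            rw [this]; norm_num
        have e4 := zadd_self (hx k l (g ((j : ℝ) + 1)) (g ((j : ℝ) + M)))
        have e5 := zadd_self (hx k l (g (j : ℕ)) (g ((j : ℝ) + M)))
        push_cast
        linear_combination ih + e1 + e2 - e4 - e5
    have h1 := key M
    have e6 : A (2 * M) = A M + ∑ i ∈ Finset.range M, a (i + M) := by
      simp only [hA]
      rw [two_mul, Finset.sum_range_add]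
      congr 1
      apply Finset.sum_congr rfl
      intro i _; rw [add_comm]
    rw [← e6] at h1
    rw [← h1]
    have e7 : g ((M : ℝ) + M) = g 0 := by
      have := hper 0
      rw [← this]; congr 1; ring
    rw [e7]
    have e8 := hx_swap hkl hkm hlm (hk 0) (hk M) (a := g 0) (b := g M) (by
      apply horth; simp)
    rw [e8]
    have := zadd_self (hx k l (g 0) (g M))
    linear_combination this
  have hAper : ∀ n, A (n + 2 * M) = A n + 1 := by
    intro n
    induction n with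
    | zero => rw [zero_add, htot]; simp [hA]
    | succ n ih =>
      have : n + 1 + 2 * M = (n + 2 * M) + 1 := by ring
      rw [this, hAs, hAs, ih, hper']
      ring
  refine ⟨fun t => A ⌊t⌋₊ + KL k l (g (⌊t⌋₊ : ℕ)) (g t), ?_, ?_⟩
  · intro t ht
    have e1 : ⌊t + 2 * (M : ℝ)⌋₊ = ⌊t⌋₊ + 2 * M := by
      have := Nat.floor_add_natCast ht (2 * M)
      push_cast at this
      exact this
    simp only
    rw [e1, hAper, hper t]
    have e2 : g ((⌊t⌋₊ + 2 * M : ℕ) : ℝ) = g (⌊t⌋₊ : ℕ) := by push_cast; exact hper _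
    rw [e2]; ring
  · -- wlog ⌊t⌋₊ ≤ ⌊t'⌋₊
    have main : ∀ t t', 0 ≤ t → 0 ≤ t' → |t - t'| ≤ 1 → ⌊t⌋₊ ≤ ⌊t'⌋₊ →
        (A ⌊t⌋₊ + KL k l (g (⌊t⌋₊ : ℕ)) (g t)) + (A ⌊t'⌋₊ + KL k l (g (⌊t'⌋₊ : ℕ)) (g t')) =
          KL k l (g t) (g t') := by
      intro t t' ht ht' htt hle
      have f1 := Nat.floor_le ht
      have f2 := Nat.lt_floor_add_one t
      have f3 := Nat.floor_le ht'
      have f4 := Nat.lt_floor_add_one t'
      have habs := abs_le.1 htt
      have hcase : ⌊t'⌋₊ = ⌊t⌋₊ ∨ ⌊t'⌋₊ = ⌊t⌋₊ + 1 := by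
        have : (⌊t'⌋₊ : ℝ) < ⌊t⌋₊ + 2 := by linarith
        have h3 : ⌊t'⌋₊ < ⌊t⌋₊ + 2 := by exact_mod_cast this
        omega
      rcases hcase with h | h
      · rw [h] at f3 f4 ⊢
        have c1 := coc (⌊t⌋₊ : ℕ) t t' (by rw [abs_le]; constructor <;> linarith)
          (by rw [abs_le]; constructor <;> linarith) (by rw [abs_le]; constructor <;> linarith)
        have := zadd_self (A ⌊t⌋₊)
        linear_combination c1 + this
      · rw [h] at f3 f4 ⊢
        push_cast at f3 f4 ⊢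
        rw [hAs]
        have c1 := coc (⌊t⌋₊ : ℕ) ((⌊t⌋₊ : ℝ) + 1) t
          (by rw [abs_le]; constructor <;> linarith)
          (by rw [abs_le]; constructor <;> linarith) (by rw [abs_le]; constructor <;> linarith)
        have c2 := coc ((⌊t⌋₊ : ℝ) + 1) t t'
          (by rw [abs_le]; constructor <;> linarith)
          (by rw [abs_le]; constructor <;> linarith) (by rw [abs_le]; constructor <;> linarith)
        have := zadd_self (A ⌊t⌋₊)
        simp only [ha]
        linear_combination c1 + c2 + this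
    intro t t' ht ht' htt
    simp only
    rcases le_total ⌊t⌋₊ ⌊t'⌋₊ with h | h
    · exact main t t' ht ht' htt h
    · have := main t' t ht' ht (by rw [abs_sub_comm]; exact htt) h
      rw [KL_comm k l (g t) (g t'), ← this]; ring

theorem S_shift {S : ℝ → ZMod 2} {M : ℕ} (h : ∀ t, 0 ≤ t → S (t + 2 * M) = S t + 1)
    (n : ℕ) (t : ℝ) (ht : 0 ≤ t) : S (t + 2 * M * n) = S t + n := by
  induction n with
  | zero => simp
  | succ n ih =>
    have e1 : t + 2 * M * ((n + 1 : ℕ) : ℝ) = (t + 2 * M * n) + 2 * M := by push_cast; ring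
    rw [e1, h _ (by positivity), ih]
    push_cast; ring

theorem S_shift_int {S : ℝ → ZMod 2} {M : ℕ} (h : ∀ t, 0 ≤ t → S (t + 2 * M) = S t + 1)
    (n : ℤ) (t t' : ℝ) (ht : 0 ≤ t) (ht' : 0 ≤ t') (e : t' = t + 2 * M * n) :
    S t' = S t + (n : ZMod 2) := by
  obtain ⟨k, rfl | rfl⟩ := n.eq_nat_or_neg
  · rw [e]
    have := S_shift h k t ht
    push_cast at this ⊢
    exact this
  · have e2 : t = t' + 2 * M * k := by rw [e]; push_cast; ring
    have := S_shift h k t' ht'
    rw [← e2] at this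
    rw [this]
    push_cast
    ring

section
variable {W : Type*} [NormedAddCommGroup W] [InnerProductSpace ℝ W]

/-- the circle of the line -/
noncomputable def gam (u v : W) (θ : ℝ) : W := cos θ • u + sin θ • v

theorem gam_add_pi (u v : W) (θ : ℝ) : gam u v (θ + π) = - gam u v θ := by
  simp [gam, cos_add_pi, sin_add_pi]; abel

variable {u v : W} (hu : ‖u‖ = 1) (hv : ‖v‖ = 1) (huv : inner ℝ u v = 0)
include hu hv huv

theorem inner_gam (θ θ' : ℝ) : inner ℝ (gam u v θ) (gam u v θ') = cos (θ' - θ) := by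
  have h1 : inner ℝ u u = (1 : ℝ) := by rw [real_inner_self_eq_norm_sq, hu]; norm_num
  have h2 : inner ℝ v v = (1 : ℝ) := by rw [real_inner_self_eq_norm_sq, hv]; norm_num
  have h3 : inner ℝ v u = (0 : ℝ) := by rw [real_inner_comm]; exact huv
  simp only [gam, inner_add_left, inner_add_right, inner_smul_left, inner_smul_right, h1, h2, h3,
    huv, cos_sub]
  simp

theorem norm_gam (θ : ℝ) : ‖gam u v θ‖ = 1 := by
  have h := inner_gam hu hv huv θ θ
  rw [real_inner_self_eq_norm_sq, sub_self, cos_zero] at h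
  nlinarith [norm_nonneg (gam u v θ)]

theorem dist_gam (θ θ' : ℝ) : ‖gam u v θ - gam u v θ'‖ ≤ |θ - θ'| := by
  have h : ‖gam u v θ - gam u v θ'‖ ^ 2 ≤ |θ - θ'| ^ 2 := by
    rw [norm_sub_sq_real, norm_gam hu hv huv, norm_gam hu hv huv, inner_gam hu hv huv, sq_abs]
    have := Real.one_sub_sq_div_two_le_cos (x := θ' - θ)
    nlinarith
  exact abs_le_of_sq_le_sq' h (abs_nonneg _) |>.2

end

theorem abs_arcsin_le (t : ℝ) (ht : |t| ≤ 1) : |arcsin t| ≤ π / 2 * |t| := by
  have h1 := abs_le.1 ht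
  have h2 : |arcsin t| ≤ π / 2 := abs_le.2 ⟨neg_pi_div_two_le_arcsin t, arcsin_le_pi_div_two t⟩
  have h3 := Real.mul_abs_le_abs_sin h2
  rw [sin_arcsin h1.1 h1.2] at h3
  have hpi := pi_pos
  have : |arcsin t| = π / 2 * (2 / π * |arcsin t|) := by field_simp
  rw [this]
  exact mul_le_mul_of_nonneg_left h3 (by positivity)

/-- small complex quotient has small argument -/
theorem abs_arg_le (w : ℂ) (r : ℝ) (hr : r ≤ 1 / 4) (hw : ‖w - 1‖ ≤ r) :
    |Complex.arg w| ≤ 3 * r := by
  have hre : |(w - 1).re| ≤ r := (Complex.abs_re_le_norm _).trans hw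
  have him : |(w - 1).im| ≤ r := (Complex.abs_im_le_norm _).trans hw
  simp only [Complex.sub_re, Complex.one_re, Complex.sub_im, Complex.one_im, sub_zero] at hre him
  have hr0 : 0 ≤ r := (norm_nonneg _).trans hw
  have hre' : 3 / 4 ≤ w.re := by have := (abs_le.1 hre).1; linarith
  have hn : 3 / 4 ≤ ‖w‖ := hre'.trans ((le_abs_self _).trans (Complex.abs_re_le_norm w))
  rw [Complex.arg_of_re_nonneg (by linarith)]
  have hq : |w.im / ‖w‖| ≤ 4 / 3 * r := by
    rw [abs_div, abs_of_nonneg (norm_nonneg w), div_le_iff₀ (by linarith)]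
    nlinarith
  have hq1 : |w.im / ‖w‖| ≤ 1 := by linarith
  refine (abs_arcsin_le _ hq1).trans ?_
  have hpi := pi_lt_four
  have hpi0 := pi_pos
  nlinarith [abs_nonneg (w.im / ‖w‖)]

universe uW

/-- **Odd potential on a non-coherent triple.** -/
theorem odd_potential (d e ρ : ℝ) (hd : 0 < d) (he : 0 < e) (hρ : 0 < ρ) :
    ∃ e1 : ℝ, 0 < e1 ∧ ∀ {W : Type uW} [NormedAddCommGroup W] [InnerProductSpace ℝ W]
      (col : W → Fin 10) (_ : ∀ z, col (-z) = col z)
      (k l m : Fin 10) (_ : k ≠ l) (_ : k ≠ m) (_ : l ≠ m)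
      (u v : W) (_ : ‖u‖ = 1) (_ : ‖v‖ = 1) (_ : inner ℝ u v = 0)
      (_ : ∀ z w, ‖z‖ = 1 → ‖w‖ = 1 → |inner ℝ z w| ≤ d → col z ≠ col w)
      (_ : ∀ a b : ℝ, a ^ 2 + b ^ 2 = 1 → col (a • u + b • v) = k ∨ col (a • u + b • v) = l ∨
        col (a • u + b • v) = m)
      (_ : ∀ z1 z2 z3, ‖z1‖ = 1 → ‖z2‖ = 1 → ‖z3‖ = 1 → ‖z1 - z2‖ ≤ e → ‖z1 - z3‖ ≤ e →
        ‖z2 - z3‖ ≤ e → ¬ (col z1 = k ∧ col z2 = l ∧ col z3 = m)),
      ∃ s : W → ZMod 2,
        (∀ z, (inner ℝ u z ≠ 0 ∨ inner ℝ v z ≠ 0) → s (-z) = s z + 1) ∧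
        (∀ z z', ‖z‖ = 1 → ‖z'‖ = 1 →
          ρ ^ 2 ≤ (inner ℝ u z) ^ 2 + (inner ℝ v z) ^ 2 →
          ρ ^ 2 ≤ (inner ℝ u z') ^ 2 + (inner ℝ v z') ^ 2 →
          ‖z - z'‖ ≤ e1 →
          (col z = k ∨ col z = l ∨ col z = m) → (col z' = k ∨ col z' = l ∨ col z' = m) →
          s z + s z' = KL k l (col z) (col z')) := by
  obtain ⟨M, hM⟩ := exists_nat_gt (3 * π / (2 * min d e))
  have hpi := pi_pos
  have hmin : 0 < min d e := lt_min hd he
  have hM0 : (0 : ℝ) < M := lt_of_le_of_lt (by positivity) hM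
  have hMd : π / (2 * M) ≤ d := by
    rw [div_lt_iff₀ (by positivity)] at hM
    rw [div_le_iff₀ (by positivity)]
    have := min_le_left d e
    nlinarith [mul_le_mul_of_nonneg_left this hM0.le]
  have hMe : 3 * (π / (2 * M)) ≤ e := by
    rw [div_lt_iff₀ (by positivity)] at hM
    rw [← mul_div_assoc, div_le_iff₀ (by positivity)]
    have := min_le_right d e
    nlinarith [mul_le_mul_of_nonneg_left this hM0.le]
  have hM1 : (1 : ℝ) ≤ M := by
    have : 0 < M := by exact_mod_cast hM0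
    exact_mod_cast this
  refine ⟨min d (ρ / (16 * M)), lt_min hd (by positivity), ?_⟩
  intro W _ _ col hev k l m hkl hkm hlm u v hu hv huv h1 h2 h4
  -- the line
  have hgcol : ∀ θ, col (gam u v θ) = k ∨ col (gam u v θ) = l ∨ col (gam u v θ) = m := fun θ =>
    h2 _ _ (Real.cos_sq_add_sin_sq θ)
  set g : ℝ → Fin 10 := fun t => col (gam u v (t * (π / (2 * M)))) with hg
  have hper : ∀ t, g (t + 2 * M) = g t := by
    intro t
    simp only [hg]
    have : (t + 2 * M) * (π / (2 * M)) = t * (π / (2 * M)) + π := by field_simp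
    rw [this, gam_add_pi, hev]
  have horth : ∀ t t' : ℝ, |t' - t - M| ≤ 1 → g t ≠ g t' := by
    intro t t' h
    simp only [hg]
    refine h1 _ _ (norm_gam hu hv huv _) (norm_gam hu hv huv _) ?_
    rw [inner_gam hu hv huv]
    have e1 : t' * (π / (2 * M)) - t * (π / (2 * M)) = (t' - t - M) * (π / (2 * M)) + π / 2 := by
      field_simp; ring
    rw [e1, cos_add_pi_div_two, abs_neg]
    refine (Real.abs_sin_le_abs).trans ?_
    rw [abs_mul, abs_of_pos (by positivity : 0 < π / (2 * M))]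
    calc |t' - t - M| * (π / (2 * M)) ≤ 1 * (π / (2 * M)) :=
          mul_le_mul_of_nonneg_right h (by positivity)
      _ ≤ d := by rw [one_mul]; exact hMd
  have hdist : ∀ t t' : ℝ, |t - t'| ≤ 3 → ‖gam u v (t * (π / (2 * M))) -
      gam u v (t' * (π / (2 * M)))‖ ≤ e := by
    intro t t' h
    refine (dist_gam hu hv huv _ _).trans ?_
    rw [← sub_mul, abs_mul, abs_of_pos (by positivity : 0 < π / (2 * M))]
    exact (mul_le_mul_of_nonneg_right h (by positivity)).trans hMe
  obtain ⟨S, hS1, hS2⟩ := line_pot k l m hkl hkm hlm g M hper (fun t => hgcol _) horth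
    (fun t1 t2 t3 a b c => h4 _ _ _ (norm_gam hu hv huv _) (norm_gam hu hv huv _)
      (norm_gam hu hv huv _) (hdist _ _ a) (hdist _ _ b) (hdist _ _ c))
  -- the projection
  set ζ : W → ℂ := fun z => ⟨inner ℝ u z, inner ℝ v z⟩ with hζ
  set th : W → ℝ := fun z => Complex.arg (ζ z) + π / 2 with hth
  set tt : W → ℝ := fun z => (2 * M / π) * (Complex.arg (ζ z) + π / 2 + 3 * π) with htt
  set st : W → W := fun z => gam u v (th z) with hst
  have htt0 : ∀ z, 5 * (M : ℝ) ≤ tt z := by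
    intro z
    simp only [htt]
    have := Complex.neg_pi_lt_arg (ζ z)
    rw [div_mul_eq_mul_div, le_div_iff₀ hpi]
    nlinarith
  have hgt : ∀ z, g (tt z) = col (st z) := by
    intro z
    simp only [hg, htt, hst, hth]
    have e1 : 2 * M / π * (Complex.arg (ζ z) + π / 2 + 3 * π) * (π / (2 * M)) =
        ((Complex.arg (ζ z) + π / 2 + π) + π) + π := by field_simp; ring
    rw [e1, gam_add_pi, gam_add_pi, gam_add_pi, hev, hev, hev]
  have hzst : ∀ z, inner ℝ z (st z) = (0 : ℝ) := by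
    intro z
    simp only [hst, gam, hth, cos_add_pi_div_two, sin_add_pi_div_two, inner_add_right,
      inner_smul_right]
    have e1 : inner ℝ z u = (ζ z).re := by simp [hζ, real_inner_comm]
    have e2 : inner ℝ z v = (ζ z).im := by simp [hζ, real_inner_comm]
    rw [e1, e2]
    have e3 := Complex.norm_mul_cos_arg (ζ z)
    have e4 := Complex.norm_mul_sin_arg (ζ z)
    rw [← e3, ← e4]; ring
  have hst1 : ∀ z, ‖st z‖ = 1 := fun z => norm_gam hu hv huv _
  refine ⟨fun z => S (tt z) + hx k l (col z) (col (st z)), ?_, ?_⟩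
  · intro z hz
    have hζ0 : ζ z ≠ 0 := by
      intro h0
      have a1 := congrArg Complex.re h0
      have a2 := congrArg Complex.im h0
      simp only [hζ, Complex.zero_re, Complex.zero_im] at a1 a2
      rcases hz with h | h
      · exact h a1
      · exact h a2
    have hneg : ζ (-z) = - ζ z := by
      apply Complex.ext <;> simp [hζ]
    have h3 := Complex.arg_neg_coe_angle hζ0
    rw [← hneg, ← Real.Angle.coe_add, Real.Angle.angle_eq_iff_two_pi_dvd_sub] at h3
    obtain ⟨n, hn⟩ := h3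
    have e1 : tt (-z) = tt z + 2 * M * ((1 + 2 * n : ℤ) : ℝ) := by
      simp only [htt]
      have : Complex.arg (ζ (-z)) = Complex.arg (ζ z) + π + 2 * π * n := by linarith
      rw [this]; push_cast; field_simp; ring
    have e2 := S_shift_int hS1 (1 + 2 * n) (tt z) (tt (-z)) (by have := htt0 z; linarith)
      (by have := htt0 (-z); linarith) e1
    have e3 : (((1 + 2 * n : ℤ)) : ZMod 2) = 1 := by
      push_cast
      have : (2 : ZMod 2) = 0 := by decide
      rw [this]; ring
    have e4 : col (st (-z)) = col (st z) := by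
      rw [← hgt, ← hgt, e1]
      -- periodicity by an integer number of half turns
      have hp : ∀ (j : ℕ) (t : ℝ), g (t + 2 * M * j) = g t := by
        intro j
        induction j with
        | zero => intro t; simp
        | succ j ih =>
          intro t
          have : t + 2 * M * ((j + 1 : ℕ) : ℝ) = (t + 2 * M * j) + 2 * M := by push_cast; ring
          rw [this, hper, ih]
      obtain ⟨j, hj | hj⟩ := (1 + 2 * n).eq_nat_or_neg
      · rw [hj]; push_cast; exact hp j _
      · rw [hj]; push_cast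
        have := hp j (tt z + 2 * M * (-(j : ℝ)))
        rw [← this]; congr 1; ring
    simp only
    rw [e2, e3, e4, hev]; ring
  · intro z z' hz hz' hρz hρz' hzz hcz hcz'
    have hzz1 : ‖z - z'‖ ≤ d := hzz.trans (min_le_left _ _)
    have hzz2 : ‖z - z'‖ ≤ ρ / (16 * M) := hzz.trans (min_le_right _ _)
    have hnζ : ρ ≤ ‖ζ z‖ := by
      rw [Complex.norm_def, Complex.normSq_apply]
      apply Real.le_sqrt_of_sq_le
      simp only [hζ]; nlinarith
    have hζ0 : ζ z ≠ 0 := by
      intro h0; rw [h0, norm_zero] at hnζ; linarith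
    have hnζ' : ρ ≤ ‖ζ z'‖ := by
      rw [Complex.norm_def, Complex.normSq_apply]
      apply Real.le_sqrt_of_sq_le
      simp only [hζ]; nlinarith
    have hζ0' : ζ z' ≠ 0 := by
      intro h0; rw [h0, norm_zero] at hnζ'; linarith
    have hdz : ‖ζ z' - ζ z‖ ≤ 2 * ‖z - z'‖ := by
      have a1 : |inner ℝ u (z' - z)| ≤ ‖z - z'‖ := by
        have := abs_real_inner_le_norm u (z' - z)
        rw [hu, one_mul, norm_sub_rev] at this; exact this
      have a2 : |inner ℝ v (z' - z)| ≤ ‖z - z'‖ := by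
        have := abs_real_inner_le_norm v (z' - z)
        rw [hv, one_mul, norm_sub_rev] at this; exact this
      have a3 := Complex.norm_le_abs_re_add_abs_im (ζ z' - ζ z)
      have a4 : (ζ z' - ζ z).re = inner ℝ u (z' - z) := by simp [hζ, inner_sub_right]
      have a5 : (ζ z' - ζ z).im = inner ℝ v (z' - z) := by simp [hζ, inner_sub_right]
      rw [a4, a5] at a3
      linarith
    set w : ℂ := ζ z' / ζ z with hw
    have hw1 : ‖w - 1‖ ≤ 1 / (8 * M) := by
      have : w - 1 = (ζ z' - ζ z) / ζ z := by rw [hw]; field_simp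
      rw [this, norm_div, div_le_iff₀ (by linarith)]
      have a1 : 2 * ‖z - z'‖ ≤ 2 * (ρ / (16 * M)) := by linarith
      have a2 : 2 * (ρ / (16 * M)) = 1 / (8 * M) * ρ := by field_simp; ring
      have a3 : 1 / (8 * (M : ℝ)) * ρ ≤ 1 / (8 * M) * ‖ζ z‖ :=
        mul_le_mul_of_nonneg_left hnζ (by positivity)
      linarith
    have h8 : 1 / (8 * (M : ℝ)) ≤ 1 / 4 := by
      rw [div_le_div_iff₀ (by positivity) (by norm_num)]; linarith
    set φ := Complex.arg w with hφ
    have hφ1 : |φ| ≤ 3 * (1 / (8 * M)) := abs_arg_le w _ h8 hw1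
    have h3 : (Complex.arg (ζ z') : Real.Angle) = ((Complex.arg (ζ z) + φ : ℝ) : Real.Angle) := by
      have hw0 : w ≠ 0 := div_ne_zero hζ0' hζ0
      have : ζ z' = ζ z * w := by rw [hw]; field_simp
      rw [this, Complex.arg_mul_coe_angle hζ0 hw0, Real.Angle.coe_add]
    rw [Real.Angle.angle_eq_iff_two_pi_dvd_sub] at h3
    obtain ⟨n, hn⟩ := h3
    set t2 : ℝ := tt z + 2 * M / π * φ with ht2
    have hφ2 : |2 * M / π * φ| ≤ 1 := by
      rw [abs_mul, abs_of_pos (by positivity : 0 < 2 * M / π)]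
      have a1 : 2 * M / π * |φ| ≤ 2 * M / π * (3 * (1 / (8 * M))) :=
        mul_le_mul_of_nonneg_left hφ1 (by positivity)
      have a2 : 2 * M / π * (3 * (1 / (8 * M))) = 3 / (4 * π) := by field_simp; ring
      have a3 : 3 / (4 * π) ≤ 1 := by
        rw [div_le_iff₀ (by positivity)]; nlinarith [pi_gt_three]
      linarith
    have ht20 : 0 ≤ t2 := by
      have a1 := htt0 z
      have a2 := (abs_le.1 hφ2).1
      rw [ht2]; linarith
    have e1 : tt z' = t2 + 2 * M * ((2 * n : ℤ) : ℝ) := by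
      simp only [htt, ht2]
      have : Complex.arg (ζ z') = Complex.arg (ζ z) + φ + 2 * π * n := by linarith
      rw [this]; push_cast; field_simp; ring
    have e2 := S_shift_int hS1 (2 * n) t2 (tt z') ht20 (by have := htt0 z'; linarith) e1
    have e3 : (((2 * n : ℤ)) : ZMod 2) = 0 := by
      push_cast
      have : (2 : ZMod 2) = 0 := by decide
      rw [this]; ring
    rw [e3, add_zero] at e2
    have hp : ∀ (j : ℕ) (t : ℝ), g (t + 2 * M * j) = g t := by
      intro j
      induction j with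
      | zero => intro t; simp
      | succ j ih =>
        intro t
        have : t + 2 * M * ((j + 1 : ℕ) : ℝ) = (t + 2 * M * j) + 2 * M := by push_cast; ring
        rw [this, hper, ih]
    have e4 : g (tt z') = g t2 := by
      rw [e1]
      obtain ⟨j, hj | hj⟩ := (2 * n).eq_nat_or_neg
      · rw [hj]; push_cast; exact hp j _
      · rw [hj]; push_cast
        have := hp j (t2 + 2 * M * (-(j : ℝ)))
        rw [← this]; congr 1; ring
    have e5 := hS2 (tt z) t2 (by have := htt0 z; linarith) ht20 (by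
      rw [ht2]
      have : tt z - (tt z + 2 * M / π * φ) = - (2 * M / π * φ) := by ring
      rw [this, abs_neg]; exact hφ2)
    rw [← e4, hgt, hgt] at e5
    -- hexagon part
    have n1 : col z ≠ col (st z) := h1 _ _ hz (hst1 z) (by rw [hzst, abs_zero]; exact hd.le)
    have n2 : col z' ≠ col (st z') := h1 _ _ hz' (hst1 z') (by rw [hzst, abs_zero]; exact hd.le)
    have n3 : col z' ≠ col (st z) := by
      refine h1 _ _ hz' (hst1 z) ?_
      have a1 : inner ℝ z' (st z) = inner ℝ (z' - z) (st z) := by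
        rw [inner_sub_left, hzst, sub_zero]
      rw [a1]
      have := abs_real_inner_le_norm (z' - z) (st z)
      rw [hst1, mul_one, norm_sub_rev] at this
      exact this.trans hzz1
    have f1 := hx_left hkl hkm hlm hcz hcz' (hgcol (th z)) n1 n3
    have f2 := hx_right hkl hkm hlm hcz' (hgcol (th z)) (hgcol (th z')) n3 n2
    simp only
    rw [e2]
    have f3 := zadd_self (KL k l (col (st z)) (col (st z')))
    have f4 := zadd_self (hx k l (col z') (col (st z)))
    linear_combination e5 + f1 + f2 + f3 - f4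

end Crest.Agent.S69
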