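import Mathlib

set_option autoImplicit false

/-!
# Finite rank-level facts on interleaving (S0069)
-/
namespace Crest.Agent.S69

/-- interleaving of two pairs: `min x < min y < max x < max y` -/
def a2 (x0 x1 y0 y1 : Fin 6) : ZMod 2 :=
  if min x0 x1 < min y0 y1 ∧ min y0 y1 < max x0 x1 ∧ max x0 x1 < max y0 y1 then 1 else 0

/-- coboundary of `a2` in the first list -/
def a3 (x0 x1 x2 y0 y1 : Fin 6) : ZMod 2 := a2 x1 x2 y0 y1 + a2 x0 x2 y0 y1 + a2 x0 x1 y0 y1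

theorem a2_comm_left (x0 x1 y0 y1 : Fin 6) : a2 x0 x1 y0 y1 = a2 x1 x0 y0 y1 := by
  simp only [a2, min_comm x1 x0, max_comm x1 x0]

theorem a2_comm_right (x0 x1 y0 y1 : Fin 6) : a2 x0 x1 y0 y1 = a2 x0 x1 y1 y0 := by
  simp only [a2, min_comm y1 y0, max_comm y1 y0]

theorem a2_self_left (x y0 y1 : Fin 6) : a2 x x y0 y1 = 0 := by
  simp only [a2, min_self, max_self]
  rw [if_neg]
  rintro ⟨h1, h2, _⟩
  exact absurd (h1.trans h2) (lt_irrefl _)

theorem a2_self_right (x0 x1 y : Fin 6) : a2 x0 x1 y y = 0 := by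
  simp only [a2, min_self, max_self]
  rw [if_neg]
  rintro ⟨_, h1, h2⟩
  exact absurd (h1.trans h2) (lt_irrefl _)

theorem a3_self_right (x0 x1 x2 y : Fin 6) : a3 x0 x1 x2 y y = 0 := by
  simp only [a3, a2_self_right, add_zero]

theorem a3_comm_right (x0 x1 x2 y0 y1 : Fin 6) : a3 x0 x1 x2 y0 y1 = a3 x0 x1 x2 y1 y0 := by
  simp only [a3, a2_comm_right _ _ y0 y1]

theorem a3_of_eq01 (x x2 y0 y1 : Fin 6) : a3 x x x2 y0 y1 = 0 := by
  simp only [a3, a2_self_left, add_zero]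
  exact CharTwo.add_self_eq_zero _

theorem a3_of_eq02 (x x1 y0 y1 : Fin 6) : a3 x x1 x y0 y1 = 0 := by
  simp only [a3, a2_self_left, add_zero, a2_comm_left x1 x]
  exact CharTwo.add_self_eq_zero _

theorem a3_of_eq12 (x x0 y0 y1 : Fin 6) : a3 x0 x x y0 y1 = 0 := by
  simp only [a3, a2_self_left, zero_add]
  exact CharTwo.add_self_eq_zero _

/-- `a3` vanishes on non rainbow triples -/
theorem a3_eq_zero (x0 x1 x2 y0 y1 : Fin 6) (h : x0 = x1 ∨ x0 = x2 ∨ x1 = x2) :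
    a3 x0 x1 x2 y0 y1 = 0 := by
  rcases h with rfl | rfl | rfl
  · exact a3_of_eq01 _ _ _ _
  · exact a3_of_eq02 _ _ _ _
  · exact a3_of_eq12 _ _ _ _

/-- all pairs `p < q` -/
def pairs6 : Finset (Fin 6 × Fin 6) := Finset.univ.filter (fun pq => pq.1 < pq.2)

/-- `a3 x y0 y1` as a sum over pairs -/
theorem a3_eq_sum (x0 x1 x2 y0 y1 : Fin 6) :
    a3 x0 x1 x2 y0 y1 = ∑ pq ∈ pairs6, a3 x0 x1 x2 pq.1 pq.2 *
      (if (y0 = pq.1 ∧ y1 = pq.2) ∨ (y0 = pq.2 ∧ y1 = pq.1) then 1 else 0) := by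
  rcases lt_trichotomy y0 y1 with h | h | h
  · rw [Finset.sum_eq_single (y0, y1)]
    · simp
    · rintro ⟨p, q⟩ hpq hne
      rw [pairs6, Finset.mem_filter] at hpq
      rw [if_neg, mul_zero]
      rintro (⟨rfl, rfl⟩ | ⟨rfl, rfl⟩)
      · exact hne rfl
      · exact absurd (hpq.2.trans h) (lt_irrefl _)
    · intro hn
      exact absurd (by simp [pairs6, h]) hn
  · subst h
    rw [a3_self_right, Finset.sum_eq_zero]
    rintro ⟨p, q⟩ hpq
    rw [pairs6, Finset.mem_filter] at hpq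
    rw [if_neg, mul_zero]
    rintro (⟨rfl, h2⟩ | ⟨rfl, h2⟩)
    · exact absurd (h2 ▸ hpq.2 : y0 < y0) (lt_irrefl _)
    · exact absurd (h2 ▸ hpq.2 : y0 < y0) (lt_irrefl _)
  · rw [Finset.sum_eq_single (y1, y0), a3_comm_right]
    · simp
    · rintro ⟨p, q⟩ hpq hne
      rw [pairs6, Finset.mem_filter] at hpq
      rw [if_neg, mul_zero]
      rintro (⟨rfl, rfl⟩ | ⟨rfl, rfl⟩)
      · exact absurd (hpq.2.trans h) (lt_irrefl _)
      · exact hne rfl
    · intro hn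
      exact absurd (by simp [pairs6, h]) hn

/-- the number of interleaved pairs in the complement of a rainbow triple -/
theorem a3_sum (x0 x1 x2 : Fin 6) (h01 : x0 ≠ x1) (h02 : x0 ≠ x2) (h12 : x1 ≠ x2) :
    ∑ pq ∈ pairs6, (if pq.1 ∉ ({x0, x1, x2} : Finset (Fin 6)) ∧
        pq.2 ∉ ({x0, x1, x2} : Finset (Fin 6)) then a3 x0 x1 x2 pq.1 pq.2 else 0) =
      (if ({x0, x1, x2} : Finset (Fin 6)) = {0, 2, 4} then 1 else 0) +
      (if ({x0, x1, x2} : Finset (Fin 6)) = {1, 3, 5} then 1 else 0) := by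
  revert x0 x1 x2
  decide +kernel

end Crest.Agent.S69
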