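import Crest.Agent.BU.Basic

set_option autoImplicit false

/-!
# S0069: evaluation of the plane index
-/
namespace Crest.Agent.S69

open Crest.Agent.BU

namespace PB

universe u
variable {V : Type u}

/-- interleaving pattern of two pairs of ranks -/
def B2 (a b c d : Fin 6) : ZMod 2 :=
  if min a b < min c d ∧ min c d < max a b ∧ max a b < max c d then 1 else 0

def B3 (a0 a1 a2 c d : Fin 6) : ZMod 2 := B2 a1 a2 c d + B2 a0 a2 c d + B2 a0 a1 c d

theorem B2_comm (a b c d : Fin 6) : B2 b a c d = B2 a b c d := by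
  simp [B2, min_comm b a, max_comm b a]

theorem B2_comm' (a b c d : Fin 6) : B2 a b d c = B2 a b c d := by
  simp [B2, min_comm d c, max_comm d c]

theorem B2_self (a c d : Fin 6) : B2 a a c d = 0 := by
  unfold B2
  rw [if_neg]
  rintro ⟨h1, h2, _⟩
  simp only [min_self, max_self] at h1 h2
  exact absurd (h1.trans h2) (lt_irrefl _)

theorem B2_self' (a b c : Fin 6) : B2 a b c c = 0 := by
  unfold B2
  rw [if_neg]
  rintro ⟨_, h1, h2⟩
  simp only [min_self, max_self] at h1 h2
  exact absurd (h1.trans h2) (lt_irrefl _)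

theorem B3_symm (a0 a1 a2 c d : Fin 6) : B3 a0 a1 a2 d c = B3 a0 a1 a2 c d := by
  simp only [B3, B2_comm']

theorem B3_self (a0 a1 a2 c : Fin 6) : B3 a0 a1 a2 c c = 0 := by
  simp only [B3, B2_self', add_zero]

theorem B3_deg (a0 a1 a2 c d : Fin 6) (h : a0 = a1 ∨ a0 = a2 ∨ a1 = a2) :
    B3 a0 a1 a2 c d = 0 := by
  unfold B3
  rcases h with rfl | rfl | rfl
  · rw [B2_self, add_zero]; exact CharTwo.add_self_eq_zero _
  · rw [B2_self, add_zero, B2_comm]; exact CharTwo.add_self_eq_zero _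
  · rw [B2_self, zero_add]; exact CharTwo.add_self_eq_zero _

/-- the ordered pairs of ranks -/
def prs : List (Fin 6 × Fin 6) :=
  [(0,1),(0,2),(0,3),(0,4),(0,5),(1,2),(1,3),(1,4),(1,5),(2,3),(2,4),(2,5),(3,4),(3,5),(4,5)]

/-- the finite count -/
theorem count (a0 a1 a2 : Fin 6) (h01 : a0 ≠ a1) (h02 : a0 ≠ a2) (h12 : a1 ≠ a2) :
    (prs.map (fun p => if p.1 ≠ a0 ∧ p.1 ≠ a1 ∧ p.1 ≠ a2 ∧ p.2 ≠ a0 ∧ p.2 ≠ a1 ∧ p.2 ≠ a2 then
      B3 a0 a1 a2 p.1 p.2 else 0)).sum
    = (if ([a0, a1, a2] : List (Fin 6)).toFinset = {0, 2, 4} then 1 else 0)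
      + (if ([a0, a1, a2] : List (Fin 6)).toFinset = {1, 3, 5} then 1 else 0) := by
  revert a0 a1 a2
  decide +kernel

/-- indicator of the colour set -/
noncomputable def chi {C : Type} [DecidableEq C] (g : V → C) (t : Finset C) (l : List V) : ZMod 2 :=
  if (l.map g).toFinset = t ∧ l.length = t.card then 1 else 0

/-- second cup product of double cochains -/
def Wcup (sg : V → V → ZMod 2) (F : List V → List V → ZMod 2) (s t : List V) : ZMod 2 :=
  (match s, t with
    | (v0 :: v1 :: s'), (u0 :: t') => (sg v0 u0 + sg v1 u0) * F (v1 :: s') (u0 :: t')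
    | _, _ => 0) +
  (match s, t with
    | (v0 :: s'), (u0 :: u1 :: t') => (sg v0 u0 + sg v0 u1) * F (v0 :: s') (u1 :: t')
    | _, _ => 0)

noncomputable def dd (z : Ch V) (F : List V → List V → ZMod 2) : ZMod 2 :=
  ev (fun s => ev (fun t => F s t) z) z

/-- interleaving pattern on (2,2)-cells -/
def A2 (k : V → Fin 6) (s t : List V) : ZMod 2 :=
  match s, t with
  | [v0, v1], [u0, u1] => B2 (k v0) (k v1) (k u0) (k u1)
  | _, _ => 0

noncomputable def A3 (k : V → Fin 6) (s t : List V) : ZMod 2 := cbd (fun s => A2 k s t) s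

theorem A3_two (k : V → Fin 6) (v1 v2 : V) (t : List V) : A3 k [v1, v2] t = 0 := by
  simp [A3, cbd, bdL, A2]

theorem A3_three (k : V → Fin 6) (v0 v1 v2 u1 u2 : V) :
    A3 k [v0, v1, v2] [u1, u2] = B3 (k v0) (k v1) (k v2) (k u1) (k u2) := by
  simp [A3, cbd, bdL, A2, B3, add_assoc]

theorem Wcup_three (s0 : V → V → ZMod 2) (k : V → Fin 6) (v0 v1 v2 u0 u1 u2 : V) :
    Wcup s0 (A3 k) [v0, v1, v2] [u0, u1, u2]
      = (s0 v0 u0 + s0 v0 u1) * B3 (k v0) (k v1) (k v2) (k u1) (k u2) := by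
  simp [Wcup, A3_two, A3_three]

theorem ev_sum {ι : Type*} (L : List ι) (q : ι → List V → ZMod 2) (c : Ch V) :
    ev (fun l => (L.map (fun i => q i l)).sum) c = (L.map (fun i => ev (q i) c)).sum := by
  induction L with
  | nil =>
    simp only [List.map_nil, List.sum_nil]
    exact ev_eq_zero (P := fun _ => True) (fun _ _ => rfl) (by simp [supp])
  | cons i L ih =>
    simp only [List.map_cons, List.sum_cons]
    rw [ev_add_fun, ih]

theorem chi_two (k : V → Fin 6) (p : Fin 6 × Fin 6) (hp : p.1 < p.2) (u1 u2 : V) :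
    chi k {p.1, p.2} [u1, u2] = if (k u1 = p.1 ∧ k u2 = p.2) ∨ (k u1 = p.2 ∧ k u2 = p.1) then 1 else 0 := by
  unfold chi
  congr 1
  apply propext
  have hne : p.1 ≠ p.2 := hp.ne
  simp only [List.map_cons, List.map_nil, List.toFinset_cons, List.toFinset_nil,
    List.length_cons, List.length_nil, Finset.card_pair hne, and_true]
  constructor
  · intro h
    have h1 : k u1 ∈ ({p.1, p.2} : Finset (Fin 6)) := by rw [← h]; simp
    have h2 : k u2 ∈ ({p.1, p.2} : Finset (Fin 6)) := by rw [← h]; simp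
    have h3 : p.1 ∈ (insert (k u1) (insert (k u2) ∅) : Finset (Fin 6)) := by rw [h]; simp
    have h4 : p.2 ∈ (insert (k u1) (insert (k u2) ∅) : Finset (Fin 6)) := by rw [h]; simp
    simp only [Finset.mem_insert, Finset.mem_singleton, Finset.notMem_empty, or_false] at h1 h2 h3 h4
    rcases h1 with h1 | h1 <;> rcases h2 with h2 | h2
    · exfalso; rw [h1, h2] at h4; simp at h4; exact hne h4.symm
    · exact Or.inl ⟨h1, h2⟩
    · exact Or.inr ⟨h1, h2⟩
    · exfalso; rw [h1, h2] at h3; simp at h3; exact hne h3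
  · rintro (⟨h1, h2⟩ | ⟨h1, h2⟩)
    · rw [h1, h2]; ext x; simp
    · rw [h1, h2]; ext x; simp [or_comm]

theorem prs_lt (p : Fin 6 × Fin 6) (hp : p ∈ prs) : p.1 < p.2 := by
  revert p; decide

theorem B3_expand (a0 a1 a2 : Fin 6) (k : V → Fin 6) (u1 u2 : V) :
    B3 a0 a1 a2 (k u1) (k u2)
      = (prs.map (fun p => B3 a0 a1 a2 p.1 p.2 * chi k {p.1, p.2} [u1, u2])).sum := by
  have h : (prs.map (fun p => B3 a0 a1 a2 p.1 p.2 * chi k {p.1, p.2} [u1, u2]))
      = (prs.map (fun p => B3 a0 a1 a2 p.1 p.2 *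
        (if (k u1 = p.1 ∧ k u2 = p.2) ∨ (k u1 = p.2 ∧ k u2 = p.1) then 1 else 0))) := by
    apply List.map_congr_left
    intro p hp
    rw [chi_two k p (prs_lt p hp)]
  rw [h]
  generalize k u1 = c
  generalize k u2 = d
  have hs := B3_symm a0 a1 a2
  have h0 := B3_self a0 a1 a2
  generalize B3 a0 a1 a2 = f at hs h0
  fin_cases c <;> fin_cases d <;> simp [prs, h0] <;> exact hs _ _

/-- **Evaluation of the plane index** -/
theorem eval_rank (z : Ch V) (P : List V → Prop) (hz : z ∈ supp P) (hP3 : ∀ l, P l → l.length = 3)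
    (k : V → Fin 6) (s0 : V → V → ZMod 2)
    (hdisj : ∀ v0 v1 v2 u0 u1 u2, P [v0, v1, v2] → P [u0, u1, u2] → s0 v0 u0 ≠ s0 v0 u1 →
      ∀ v ∈ [v0, v1, v2], ∀ u ∈ [u1, u2], k v ≠ k u)
    (hline : ∀ v0 v1 v2, P [v0, v1, v2] → k v0 ≠ k v1 → k v0 ≠ k v2 → k v1 ≠ k v2 →
      ∀ p ∈ prs, p.1 ≠ k v0 ∧ p.1 ≠ k v1 ∧ p.1 ≠ k v2 ∧ p.2 ≠ k v0 ∧ p.2 ≠ k v1 ∧ p.2 ≠ k v2 →
      ev (wcup (s0 v0) (chi k {p.1, p.2})) z = 1) :
    dd z (Wcup s0 (A3 k)) = ev (chi k {0, 2, 4}) z + ev (chi k {1, 3, 5}) z := by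
  rw [dd, ← ev_add_fun]
  refine ev_congr (P := P) (fun s hs => ?_) hz
  obtain ⟨v0, v1, v2, rfl⟩ : ∃ v0 v1 v2, s = [v0, v1, v2] := List.length_eq_three.1 (hP3 s hs)
  have h1 : ev (fun t => Wcup s0 (A3 k) [v0, v1, v2] t) z
      = ev (fun t => (prs.map (fun p => B3 (k v0) (k v1) (k v2) p.1 p.2 *
          wcup (s0 v0) (chi k {p.1, p.2}) t)).sum) z := by
    refine ev_congr (P := P) (fun t ht => ?_) hz
    obtain ⟨u0, u1, u2, rfl⟩ : ∃ u0 u1 u2, t = [u0, u1, u2] := List.length_eq_three.1 (hP3 t ht)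
    rw [Wcup_three, B3_expand, ← List.sum_map_mul_left]
    congr 1
    apply List.map_congr_left
    intro p _
    simp only [wcup]
    ring
  rw [h1, ev_sum]
  have h2 : ∀ p : Fin 6 × Fin 6, ev (fun t => B3 (k v0) (k v1) (k v2) p.1 p.2 *
      wcup (s0 v0) (chi k {p.1, p.2}) t) z
      = B3 (k v0) (k v1) (k v2) p.1 p.2 * ev (wcup (s0 v0) (chi k {p.1, p.2})) z := by
    intro p; exact ev_const_mul _ _ _
  simp only [h2]
  have hchi : chi k {0, 2, 4} [v0, v1, v2] + chi k {1, 3, 5} [v0, v1, v2]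
      = (if ([k v0, k v1, k v2] : List (Fin 6)).toFinset = {0, 2, 4} then 1 else 0)
      + (if ([k v0, k v1, k v2] : List (Fin 6)).toFinset = {1, 3, 5} then 1 else 0) := by
    simp only [chi, List.map_cons, List.map_nil, List.length_cons, List.length_nil]
    have e1 : ({0, 2, 4} : Finset (Fin 6)).card = 3 := by decide
    have e2 : ({1, 3, 5} : Finset (Fin 6)).card = 3 := by decide
    rw [e1, e2]
    simp
  rw [hchi]
  by_cases hr : k v0 = k v1 ∨ k v0 = k v2 ∨ k v1 = k v2
  · have h3 : ∀ p : Fin 6 × Fin 6, B3 (k v0) (k v1) (k v2) p.1 p.2 = 0 := fun p =>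
      B3_deg _ _ _ _ _ hr
    simp only [h3, zero_mul]
    have hcard : ([k v0, k v1, k v2] : List (Fin 6)).toFinset.card ≤ 2 := by
      simp only [List.toFinset_cons, List.toFinset_nil]
      rcases hr with h | h | h
      · rw [h]; simp only [Finset.mem_insert, true_or, Finset.insert_eq_of_mem]
        exact Finset.card_le_two
      · rw [h, Finset.insert_eq_of_mem (by simp)]
        exact Finset.card_le_two
      · rw [h]; simp only [Finset.mem_insert, true_or, Finset.insert_eq_of_mem]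
        exact Finset.card_le_two
    rw [if_neg, if_neg]
    · simp
    · intro h; rw [h] at hcard; revert hcard; decide
    · intro h; rw [h] at hcard; revert hcard; decide
  · push Not at hr
    rw [← count _ _ _ hr.1 hr.2.1 hr.2.2]
    congr 1
    apply List.map_congr_left
    intro p hp
    split_ifs with h
    · rw [hline v0 v1 v2 hs hr.1 hr.2.1 hr.2.2 p hp h, mul_one]
    · -- a colour of the pair is one of the colours of `s`
      have h0 : ev (wcup (s0 v0) (chi k {p.1, p.2})) z = 0 := by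
        refine ev_eq_zero (P := P) (fun t ht => ?_) hz
        obtain ⟨u0, u1, u2, rfl⟩ : ∃ u0 u1 u2, t = [u0, u1, u2] :=
          List.length_eq_three.1 (hP3 t ht)
        simp only [wcup]
        by_cases he : s0 v0 u0 = s0 v0 u1
        · rw [he]
          have : s0 v0 u1 + s0 v0 u1 = 0 := CharTwo.add_self_eq_zero _
          rw [this, zero_mul]
        · have hd := hdisj v0 v1 v2 u0 u1 u2 hs ht he
          rw [chi_two k p (prs_lt p hp), if_neg, mul_zero]
          intro hh
          apply h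
          have a1 := hd v0 (by simp) u1 (by simp)
          have a2 := hd v0 (by simp) u2 (by simp)
          have a3 := hd v1 (by simp) u1 (by simp)
          have a4 := hd v1 (by simp) u2 (by simp)
          have a5 := hd v2 (by simp) u1 (by simp)
          have a6 := hd v2 (by simp) u2 (by simp)
          rcases hh with ⟨e1, e2⟩ | ⟨e1, e2⟩
          · rw [← e1, ← e2]
            exact ⟨a1.symm, a3.symm, a5.symm, a2.symm, a4.symm, a6.symm⟩
          · rw [← e1, ← e2]
            exact ⟨a2.symm, a4.symm, a6.symm, a1.symm, a3.symm, a5.symm⟩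
      rw [h0, mul_zero]

/-- an order of the six colours with `t` at the even places -/
theorem exists_order {S t : Finset (Fin 10)} (hS : S.card = 6) (ht : t ⊆ S) (ht3 : t.card = 3) :
    ∃ o : Fin 10 → Fin 6, Set.InjOn o (S : Set (Fin 10)) ∧ t.image o = {0, 2, 4} ∧
      (S \ t).image o = {1, 3, 5} := by
  have hc : (S \ t).card = 3 := by rw [Finset.card_sdiff_of_subset ht, hS, ht3]
  set E := t.equivFinOfCardEq ht3 with hE
  set E' := (S \ t).equivFinOfCardEq hc with hE'
  set o : Fin 10 → Fin 6 := fun x => if h : x ∈ t then ![0, 2, 4] (E ⟨x, h⟩) else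
    if h' : x ∈ S \ t then ![1, 3, 5] (E' ⟨x, h'⟩) else 0 with ho
  have o1 : ∀ x (h : x ∈ t), o x = ![0, 2, 4] (E ⟨x, h⟩) := fun x h => by simp only [ho, dif_pos h]
  have o2 : ∀ x (h : x ∈ S \ t), o x = ![1, 3, 5] (E' ⟨x, h⟩) := fun x h => by
    have : x ∉ t := (Finset.mem_sdiff.1 h).2
    simp only [ho, dif_neg this, dif_pos h]
  have i1 : Function.Injective (![0, 2, 4] : Fin 3 → Fin 6) := by decide
  have i2 : Function.Injective (![1, 3, 5] : Fin 3 → Fin 6) := by decide
  have i3 : ∀ i j : Fin 3, (![0, 2, 4] : Fin 3 → Fin 6) i ≠ (![1, 3, 5] : Fin 3 → Fin 6) j := by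
    decide
  refine ⟨o, ?_, ?_, ?_⟩
  · intro x hx y hy hxy
    by_cases h1 : x ∈ t <;> by_cases h2 : y ∈ t
    · rw [o1 x h1, o1 y h2] at hxy
      have := E.injective (i1 hxy)
      simpa using this
    · have h2' : y ∈ S \ t := Finset.mem_sdiff.2 ⟨hy, h2⟩
      rw [o1 x h1, o2 y h2'] at hxy
      exact absurd hxy (i3 _ _)
    · have h1' : x ∈ S \ t := Finset.mem_sdiff.2 ⟨hx, h1⟩
      rw [o2 x h1', o1 y h2] at hxy
      exact absurd hxy.symm (i3 _ _)
    · have h1' : x ∈ S \ t := Finset.mem_sdiff.2 ⟨hx, h1⟩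
      have h2' : y ∈ S \ t := Finset.mem_sdiff.2 ⟨hy, h2⟩
      rw [o2 x h1', o2 y h2'] at hxy
      have := E'.injective (i2 hxy)
      simpa using this
  · ext r
    simp only [Finset.mem_image]
    constructor
    · rintro ⟨x, hx, rfl⟩
      rw [o1 x hx]
      generalize E ⟨x, hx⟩ = i
      fin_cases i <;> simp
    · intro hr
      obtain ⟨i, hi⟩ : ∃ i : Fin 3, (![0, 2, 4] : Fin 3 → Fin 6) i = r := by
        simp only [Finset.mem_insert, Finset.mem_singleton] at hr
        rcases hr with rfl | rfl | rfl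
        · exact ⟨0, rfl⟩
        · exact ⟨1, rfl⟩
        · exact ⟨2, rfl⟩
      refine ⟨(E.symm i).1, (E.symm i).2, ?_⟩
      rw [o1 _ (E.symm i).2]
      simpa using hi
  · ext r
    simp only [Finset.mem_image]
    constructor
    · rintro ⟨x, hx, rfl⟩
      rw [o2 x hx]
      generalize E' ⟨x, hx⟩ = i
      fin_cases i <;> simp
    · intro hr
      obtain ⟨i, hi⟩ : ∃ i : Fin 3, (![1, 3, 5] : Fin 3 → Fin 6) i = r := by
        simp only [Finset.mem_insert, Finset.mem_singleton] at hr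
        rcases hr with rfl | rfl | rfl
        · exact ⟨0, rfl⟩
        · exact ⟨1, rfl⟩
        · exact ⟨2, rfl⟩
      refine ⟨(E'.symm i).1, (E'.symm i).2, ?_⟩
      rw [o2 _ (E'.symm i).2]
      simpa using hi

theorem chi_order {S t : Finset (Fin 10)} {T : Finset (Fin 6)} {o : Fin 10 → Fin 6}
    (ho : Set.InjOn o (S : Set (Fin 10))) (ht : t ⊆ S) (hT : t.image o = T)
    (g : V → Fin 10) (l : List V) (hl : ∀ v ∈ l, g v ∈ S) :
    chi (fun v => o (g v)) T l = chi g t l := by
  unfold chi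
  have hcard : T.card = t.card := by
    rw [← hT]
    exact Finset.card_image_of_injOn (ho.mono (by exact_mod_cast ht))
  have h1 : (l.map (fun v => o (g v))).toFinset = ((l.map g).toFinset).image o := by
    ext r
    simp
  have hsub : (l.map g).toFinset ⊆ S := by
    intro x hx
    simp only [List.mem_toFinset, List.mem_map] at hx
    obtain ⟨v, hv, rfl⟩ := hx
    exact hl v hv
  rw [h1, hcard, ← hT]
  have h2 : (((l.map g).toFinset).image o = t.image o) ↔ (l.map g).toFinset = t := by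
    constructor
    · intro h
      apply Finset.coe_injective
      have hh : o '' ((l.map g).toFinset : Set (Fin 10)) = o '' (t : Set (Fin 10)) := by
        rw [← Finset.coe_image, ← Finset.coe_image, h]
      exact (ho.image_eq_image_iff (by exact_mod_cast hsub) (by exact_mod_cast ht)).1 hh
    · intro h; rw [h]
  simp only [h2]

/-- **Plane lemma**, from the index `= 1` and the line lemma: each triple of the six colours is
odd iff its complement is even. -/
theorem plane_final (z : Ch V) (P : List V → Prop) (hz : z ∈ supp P)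
    (hP3 : ∀ l, P l → l.length = 3) (g : V → Fin 10) (S : Finset (Fin 10)) (hS : S.card = 6)
    (hgS : ∀ l, P l → ∀ v ∈ l, g v ∈ S) (s0 : V → V → ZMod 2)
    (hdisj : ∀ v0 v1 v2 u0 u1 u2, P [v0, v1, v2] → P [u0, u1, u2] → s0 v0 u0 ≠ s0 v0 u1 →
      ∀ v ∈ [v0, v1, v2], ∀ u ∈ [u1, u2], g v ≠ g u)
    (hline : ∀ v0 v1 v2, P [v0, v1, v2] → g v0 ≠ g v1 → g v0 ≠ g v2 → g v1 ≠ g v2 →
      ∀ p q, p ∈ S → q ∈ S → p ≠ q → p ≠ g v0 → p ≠ g v1 → p ≠ g v2 → q ≠ g v0 → q ≠ g v1 →
        q ≠ g v2 → ev (wcup (s0 v0) (chi g {p, q})) z = 1)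
    (hidx : ∀ o : Fin 10 → Fin 6, Set.InjOn o (S : Set (Fin 10)) →
      dd z (Wcup s0 (A3 (fun v => o (g v)))) = 1)
    {t : Finset (Fin 10)} (ht : t ⊆ S) (ht3 : t.card = 3) :
    ev (chi g t) z + ev (chi g (S \ t)) z = 1 := by
  obtain ⟨o, ho, h024, h135⟩ := exists_order hS ht ht3
  have himg : S.image o = Finset.univ := by
    apply Finset.eq_univ_of_card
    rw [Finset.card_image_of_injOn ho, hS]; simp
  have key := eval_rank z P hz hP3 (fun v => o (g v)) s0
    (fun v0 v1 v2 u0 u1 u2 h1 h2 h3 v hv u hu => by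
      have hne := hdisj v0 v1 v2 u0 u1 u2 h1 h2 h3 v hv u hu
      intro heq
      exact hne (ho (hgS _ h1 v hv) (hgS _ h2 u (by simp at hu ⊢; tauto)) heq))
    (fun v0 v1 v2 h1 h01 h02 h12 p hp hpp => by
      obtain ⟨x, hx, hxp⟩ : ∃ x ∈ S, o x = p.1 := by
        have : p.1 ∈ S.image o := by rw [himg]; simp
        simpa using this
      obtain ⟨y, hy, hyp⟩ : ∃ y ∈ S, o y = p.2 := by
        have : p.2 ∈ S.image o := by rw [himg]; simp
        simpa using this
      have hxy : x ≠ y := by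
        rintro rfl
        exact (prs_lt p hp).ne (hxp.symm.trans hyp)
      obtain ⟨q1, q2, q3, q4, q5, q6⟩ := hpp
      have hl := hline v0 v1 v2 h1 (fun h => h01 (by simp only [h])) (fun h => h02 (by simp only [h]))
        (fun h => h12 (by simp only [h])) x y hx hy hxy (fun h => q1 (by rw [← hxp, h]))
        (fun h => q2 (by rw [← hxp, h])) (fun h => q3 (by rw [← hxp, h]))
        (fun h => q4 (by rw [← hyp, h])) (fun h => q5 (by rw [← hyp, h]))
        (fun h => q6 (by rw [← hyp, h]))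
      rw [← hl]
      refine ev_congr (P := P) (fun l hl' => ?_) hz
      obtain ⟨w0, w1, w2, rfl⟩ : ∃ w0 w1 w2, l = [w0, w1, w2] := List.length_eq_three.1 (hP3 l hl')
      simp only [wcup]
      rw [chi_order (S := S) (t := {x, y}) ho (by
        intro a ha; simp only [Finset.mem_insert, Finset.mem_singleton] at ha
        rcases ha with rfl | rfl <;> assumption) (by
        rw [Finset.image_insert, Finset.image_singleton, hxp, hyp]) g [w1, w2]
        (fun v hv => hgS _ hl' v (by simp at hv ⊢; tauto))])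
  have h1 := hidx o ho
  rw [key] at h1
  rw [← h1]
  congr 1
  · exact (ev_congr (P := P) (fun l hl => chi_order ho ht h024 g l (hgS l hl)) hz).symm
  · exact (ev_congr (P := P) (fun l hl => chi_order ho Finset.sdiff_subset h135 g l (hgS l hl)) hz).symm

end PB

end Crest.Agent.S69
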