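import Crest.Agent.S69.PlaneAlg
import Crest.Agent.S69.Ord
import Crest.Agent.S69.PlaneB
import Crest.Agent.BU.Cup

set_option autoImplicit false

/-!
# S0069: the plane index `dd z (Wc s0 A3) = 1`
-/
namespace Crest.Agent.S69.Plane
open Crest.Agent.BU

universe u
variable {V : Type u}

namespace Dat
variable {d : Dat V}

theorem EqQ_of_Dis {o : V → ℕ} (ho : ∀ v u, d.Or v u → o v ≠ o u) {F G : DC V}
    (h : ∀ s t, OC.Dis o s t → F s t = G s t) : d.EqQ F G :=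
  fun s t _ _ hQ => h s t (fun v hv u hu => ho v u (hQ v hv u hu))

theorem NE_A0 (o : V → ℕ) : NE (OC.A0 o) :=
  ⟨fun _ => OC.A0_eq_zero (Or.inl (by simp)), fun _ => OC.A0_eq_zero (Or.inr (by simp))⟩
theorem NE_A1 (o : V → ℕ) : NE (OC.A1 o) :=
  ⟨fun _ => OC.A1_eq_zero (Or.inl (by simp)), fun _ => OC.A1_eq_zero (Or.inr (by simp))⟩
theorem NE_A2 (o : V → ℕ) : NE (OC.A2 o) :=
  ⟨fun _ => OC.A2_eq_zero (Or.inl (by simp)), fun _ => OC.A2_eq_zero (Or.inr (by simp))⟩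
theorem NE_A3 (o : V → ℕ) : NE (OC.A3 o) :=
  ⟨fun _ => OC.A3_eq_zero (Or.inl (by simp)), fun _ => OC.A3_eq_zero (Or.inr (by simp))⟩

theorem Ev_A0 {o : V → ℕ} (h : ∀ v, o (d.T v) = o v) : d.Ev (OC.A0 o) :=
  fun s t _ _ => ⟨OC.A0_left h s t, OC.A0_right h s t⟩
theorem Ev_A1 {o : V → ℕ} (h : ∀ v, o (d.T v) = o v) : d.Ev (OC.A1 o) :=
  fun s t _ _ => ⟨OC.A1_left h s t, OC.A1_right h s t⟩
theorem Ev_A2 {o : V → ℕ} (h : ∀ v, o (d.T v) = o v) : d.Ev (OC.A2 o) :=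
  fun s t _ _ => ⟨OC.A2_left h s t, OC.A2_right h s t⟩

theorem NE_One : NE (One : DC V) := by
  constructor
  · intro t; rfl
  · intro s; rcases s with _ | ⟨v, _ | ⟨v', s⟩⟩ <;> rfl

theorem Ev_One : d.Ev (One : DC V) := by
  intro s t _ _
  rcases s with _ | ⟨v, _ | ⟨v', s⟩⟩ <;> rcases t with _ | ⟨u, _ | ⟨u', t⟩⟩ <;>
    exact ⟨rfl, rfl⟩

theorem One_eq : (One : DC V) = OC.one2 := by
  funext s t
  rcases s with _ | ⟨v, _ | ⟨v', s⟩⟩ <;> rcases t with _ | ⟨u, _ | ⟨u', t⟩⟩ <;> rfl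

theorem D_One : D (One : DC V) = 0 := by
  funext s t
  rw [One_eq]
  have h1 := OC.cbd_one2_left s t
  have h2 := OC.cbd_one2_right s t
  simp only [D, Pi.zero_apply]
  rw [h1, h2, add_zero]

/-- `F` vanishes on all pairs of lists with entries in `s`, `t` -/
def Van (F : DC V) (s t : List V) : Prop :=
  ∀ s' t', (∀ x ∈ s', x ∈ s) → (∀ x ∈ t', x ∈ t) → F s' t' = 0

theorem van_Wc (g : V → V → ZMod 2) {F : DC V} {s t : List V} (h : Van F s t) :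
    Van (Wc g F) s t := by
  intro s' t' hs ht
  rcases s' with _ | ⟨v, _ | ⟨v', s'⟩⟩ <;> rcases t' with _ | ⟨u, _ | ⟨u', t'⟩⟩ <;>
    simp only [Wc, W1, W2, add_zero]
  · rw [h [v] (u' :: t') hs (fun x hx => ht x (List.mem_cons_of_mem _ hx)), mul_zero, add_zero]
  · rw [h (v' :: s') [u] (fun x hx => hs x (List.mem_cons_of_mem _ hx)) ht, mul_zero]
  · rw [h (v' :: s') (u :: u' :: t') (fun x hx => hs x (List.mem_cons_of_mem _ hx)) ht,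
      h (v :: v' :: s') (u' :: t') hs (fun x hx => ht x (List.mem_cons_of_mem _ hx)), mul_zero,
      mul_zero, add_zero]

theorem van_const (g : V → V → ZMod 2) (F : DC V) {s t : List V}
    (h : ∀ v ∈ s, ∀ v' ∈ s, ∀ u ∈ t, ∀ u' ∈ t, g v u = g v' u') : Van (Wc g F) s t := by
  intro s' t' hs ht
  rcases s' with _ | ⟨v, _ | ⟨v', s'⟩⟩ <;> rcases t' with _ | ⟨u, _ | ⟨u', t'⟩⟩ <;>
    simp only [Wc, W1, W2, add_zero]
  · rw [h v (hs _ (by simp)) v (hs _ (by simp)) u (ht _ (by simp)) u' (ht _ (by simp)),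
      z2_double, zero_mul, add_zero]
  · rw [h v (hs _ (by simp)) v' (hs _ (by simp)) u (ht _ (by simp)) u (ht _ (by simp)),
      z2_double, zero_mul]
  · have e1 := h v (hs _ (by simp)) v' (hs _ (by simp)) u (ht _ (by simp)) u (ht _ (by simp))
    have e2 := h v (hs _ (by simp)) v (hs _ (by simp)) u (ht _ (by simp)) u' (ht _ (by simp))
    rw [← e1, ← e2, z2_double, zero_mul, zero_mul, add_zero]

theorem Phi_zero_of {F : DC V} (h : ∀ s t, d.S s → d.S t → (∀ v ∈ s, ∀ u ∈ t, d.Or v u) →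
    Van F s t) : d.Phi F = 0 := by
  have : d.Phi F = dd d.z (0 : DC V) := by
    refine dd_congr (fun s t hs ht => ?_)
    by_cases hc : ∀ v ∈ s, ∀ v' ∈ s, ∀ u ∈ t, ∀ u' ∈ t, d.s0 v u = d.s0 v' u'
    · exact van_const d.s0 F hc s t (fun _ h => h) (fun _ h => h)
    · push Not at hc
      obtain ⟨v, hv, v', hv', u, hu, u', hu', hne⟩ := hc
      exact van_Wc d.s0 (h s t hs ht (d.near s t hs ht v hv v' hv' u hu u' hu' hne)) s t
        (fun _ h => h) (fun _ h => h)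
  rw [this, dd_zero]

variable (d) in
def XY (F : DC V) : DC V := Wc d.xe F + Wc d.ye F

theorem XY_add (F G : DC V) : d.XY (F + G) = d.XY F + d.XY G := by
  simp only [XY, Wc_add]; abel

theorem D_XY {F : DC V} (hF : NE F) : D (d.XY F) = d.XY (D F) := by
  simp only [XY, D_add, D_Wc _ hF]

theorem NE_XY (F : DC V) : NE (d.XY F) := NE_add (NE_Wc _ _) (NE_Wc _ _)

theorem Ev_add {F G : DC V} (hF : d.Ev F) (hG : d.Ev G) : d.Ev (F + G) := fun s t hs ht => by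
  simp only [Pi.add_apply, (hF s t hs ht).1, (hF s t hs ht).2, (hG s t hs ht).1, (hG s t hs ht).2,
    and_self]

theorem Ev_XY {F : DC V} (hF : d.Ev F) : d.Ev (d.XY F) := Ev_add (Ev_Wc Bi_xe hF) (Ev_Wc Bi_ye hF)

theorem Wc_eq_aa (g : V → V → ZMod 2) (F : DC V) : Wc g F = Wc (d.aa g) F + d.XY F := by
  rw [Wc_aa, XY, add_comm (Wc d.xe F + Wc d.ye F) (Wc g F), add_assoc, DC_add_self, add_zero]

/-- replacing a bi-odd function by `X + Y` -/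
theorem repl (M : DC V → DC V) (Madd : ∀ F G, M (F + G) = M F + M G)
    (MD : ∀ F, NE F → D (M F) = M (D F)) (Mev : ∀ F, d.Ev F → d.Ev (M F))
    {g : V → V → ZMod 2} (hg : d.Bi 1 1 g) {R : DC V} (hR : NE R) (eR : d.Ev R) (DR : D R = 0) :
    dd d.z (M (Wc g R)) = dd d.z (M (d.XY R)) := by
  have h1 : D (Ac (d.aa g) R) = Wc (d.aa g) R := by
    rw [D_Ac _ hR, DR, Ac_zero, add_zero]
  rw [Wc_eq_aa (d := d) g R, Madd, dd_add, ← h1, ← MD _ (NE_Ac _ _),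
    dd_D (Mev _ (Ev_Ac (Bi_aa hg) eR)), zero_add]

theorem word_eval (v0 v1 v2 u0 u1 u2 : V) :
    d.XY (d.XY (d.XY (Wc d.xe One))) [v0, v1, v2] [u0, u1, u2] =
      wprod [d.se, d.se] [v0, v1, v2] * wprod [d.se, d.se] [u0, u1, u2] := by
  simp only [XY, Pi.add_apply, Wc, W1, W2, One, xe, ye, wprod, wprodq, List.foldr, wcup]
  generalize d.se v0 = a0
  generalize d.se v1 = a1
  generalize d.se v2 = a2
  generalize d.se u0 = b0
  generalize d.se u1 = b1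
  generalize d.se u2 = b2
  revert a0 a1 a2 b0 b1 b2
  decide

/-- **Index of the plane.** -/
theorem plane_index (hlen : ∀ l, d.S l → l.length = 3) {o : V → ℕ}
    (hoT : ∀ v, o (d.T v) = o v) (ho : ∀ v u, d.Or v u → o v ≠ o u)
    {g0 g1 g2 : V → V → ZMod 2} (h0 : d.Bi 1 1 g0) (h1 : d.Bi 1 1 g1) (h2 : d.Bi 1 1 g2)
    (a0 : ∀ v u, d.P v → d.P u → d.Or v u → g0 u v = g0 v u + 1)
    (a1 : ∀ v u, d.P v → d.P u → d.Or v u → g1 u v = g1 v u + 1)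
    (a2 : ∀ v u, d.P v → d.P u → d.Or v u → g2 u v = g2 v u + 1)
    (hc : ∀ s t, d.S s → d.S t → (∀ v ∈ s, ∀ u ∈ t, d.Or v u) →
      (∀ v ∈ s, ∀ v' ∈ s, ∀ u ∈ t, ∀ u' ∈ t, g0 v u = g0 v' u') ∨
      (∀ v ∈ s, ∀ v' ∈ s, ∀ u ∈ t, ∀ u' ∈ t, g1 v u = g1 v' u') ∨
      (∀ v ∈ s, ∀ v' ∈ s, ∀ u ∈ t, ∀ u' ∈ t, g2 v u = g2 v' u'))
    (hw : ev (wprod [d.se, d.se]) d.z = 1) :
    dd d.z (Wc d.s0 (OC.A3 o)) = 1 := by
  have n0 := nice_Wc h0 a0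
  have n1 := nice_Wc h1 a1
  have n01 := n0.comp n1
  have r3 : d.EqQ (OC.A3 o + Tr (OC.A3 o)) (D (OC.A2 o)) :=
    EqQ_of_Dis ho (fun s t h => OC.A3_add h)
  have r2 : d.EqQ (OC.A2 o + Tr (OC.A2 o)) (D (OC.A1 o)) :=
    EqQ_of_Dis ho (fun s t h => OC.A2_add h)
  have r1 : d.EqQ (OC.A1 o + Tr (OC.A1 o)) (D (OC.A0 o)) :=
    EqQ_of_Dis ho (fun s t h => OC.A1_add h)
  have r0 : d.EqQ (OC.A0 o + Tr (OC.A0 o)) One := by
    rw [One_eq]; exact EqQ_of_Dis ho (fun s t h => OC.A0_add h)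
  have s1 : d.Phi (OC.A3 o) = d.Phi (Wc g0 (OC.A2 o)) :=
    stepG nice_id (NE_A3 o) (NE_A2 o) (NE_A1 o) (Ev_A2 hoT) (Ev_A1 hoT) r3 r2 h0 a0
  have s2 : d.Phi (Wc g0 (OC.A2 o)) = d.Phi (Wc g0 (Wc g1 (OC.A1 o))) :=
    stepG n0 (NE_A2 o) (NE_A1 o) (NE_A0 o) (Ev_A1 hoT) (Ev_A0 hoT) r2 r1 h1 a1
  have s3 : d.Phi (Wc g0 (Wc g1 (OC.A1 o))) =
      d.Phi (Wc g0 (Wc g1 (Wc d.xe One))) + d.Phi (Wc g0 (Wc g1 (Wc g2 (OC.A0 o)))) :=
    stepLast n01 (NE_A1 o) (NE_A0 o) (Ev_A0 hoT) r1 r0 h2 a2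
  have s4 : d.Phi (Wc g0 (Wc g1 (Wc g2 (OC.A0 o)))) = 0 := by
    refine Phi_zero_of (fun s t hs ht hQ => ?_)
    rcases hc s t hs ht hQ with h | h | h
    · exact van_const _ _ h
    · exact van_Wc _ (van_const _ _ h)
    · exact van_Wc _ (van_Wc _ (van_const _ _ h))
  have e2 : d.Ev (Wc d.xe One) := Ev_Wc Bi_xe Ev_One
  have D2 : D (Wc d.xe One) = 0 := by rw [D_Wc _ NE_One, D_One, Wc_zero]
  have e1 : d.Ev (Wc g1 (Wc d.xe One)) := Ev_Wc h1 e2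
  have D1 : D (Wc g1 (Wc d.xe One)) = 0 := by rw [D_Wc _ (NE_Wc _ _), D2, Wc_zero]
  have e0 : d.Ev (Wc g0 (Wc g1 (Wc d.xe One))) := Ev_Wc h0 e1
  have D0 : D (Wc g0 (Wc g1 (Wc d.xe One))) = 0 := by rw [D_Wc _ (NE_Wc _ _), D1, Wc_zero]
  have s5 : d.Phi (Wc g0 (Wc g1 (Wc d.xe One))) =
      dd d.z (d.XY (d.XY (d.XY (Wc d.xe One)))) := by
    rw [Phi, repl (fun F => F) (fun _ _ => rfl) (fun _ _ => rfl) (fun _ h => h) Bi_s0
      (NE_Wc _ _) e0 D0,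
      repl d.XY XY_add (fun _ h => D_XY h) (fun _ h => Ev_XY h) h0 (NE_Wc _ _) e1 D1,
      repl (fun F => d.XY (d.XY F)) (fun F G => by rw [XY_add, XY_add])
        (fun F h => by rw [D_XY (NE_XY _), D_XY h]) (fun _ h => Ev_XY (Ev_XY h)) h1
        (NE_Wc _ _) e2 D2]
  have s6 : dd d.z (d.XY (d.XY (d.XY (Wc d.xe One)))) = 1 := by
    have h := dd_congr (d := d) (F := d.XY (d.XY (d.XY (Wc d.xe One))))
      (G := fun s t => wprod [d.se, d.se] s * wprod [d.se, d.se] t) (fun s t hs ht => by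
        obtain ⟨v0, v1, v2, rfl⟩ := List.length_eq_three.1 (hlen s hs)
        obtain ⟨u0, u1, u2, rfl⟩ := List.length_eq_three.1 (hlen t ht)
        exact word_eval v0 v1 v2 u0 u1 u2)
    rw [h]
    have h' : dd d.z (fun s t => wprod [d.se, d.se] s * wprod [d.se, d.se] t) =
        ev (fun s => wprod [d.se, d.se] s) d.z := by
      refine ev_congr_fun (fun s => ?_) d.z
      rw [ev_const_mul (wprod [d.se, d.se] s) (wprod [d.se, d.se]) d.z, hw, mul_one]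
    rw [h']
    exact hw
  have : dd d.z (Wc d.s0 (OC.A3 o)) = d.Phi (OC.A3 o) := rfl
  rw [this, s1, s2, s3, s4, s5, s6, add_zero]

theorem PB_A2 (k : V → Fin 6) (s t : List V) :
    PB.A2 k s t = OC.A2 (fun v => (k v : ℕ)) s t := by
  rcases s with _ | ⟨v, _ | ⟨v', _ | ⟨v'', s⟩⟩⟩ <;> rcases t with _ | ⟨u, _ | ⟨u', _ | ⟨u'', t⟩⟩⟩ <;>
    rfl

theorem PB_A3 (k : V → Fin 6) : PB.A3 k = OC.A3 (fun v => (k v : ℕ)) := by
  funext s t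
  simp only [PB.A3, OC.A3, PB_A2]

theorem PB_Wcup (g : V → V → ZMod 2) (F : DC V) : PB.Wcup g F = Wc g F := by
  funext s t
  rcases s with _ | ⟨v, _ | ⟨v', s⟩⟩ <;> rcases t with _ | ⟨u, _ | ⟨u', t⟩⟩ <;> rfl

/-- the index in the form of `PlaneB` -/
theorem plane_index_PB (hlen : ∀ l, d.S l → l.length = 3) {k : V → Fin 6}
    (hoT : ∀ v, k (d.T v) = k v) (ho : ∀ v u, d.Or v u → k v ≠ k u)
    {g0 g1 g2 : V → V → ZMod 2} (h0 : d.Bi 1 1 g0) (h1 : d.Bi 1 1 g1) (h2 : d.Bi 1 1 g2)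
    (a0 : ∀ v u, d.P v → d.P u → d.Or v u → g0 u v = g0 v u + 1)
    (a1 : ∀ v u, d.P v → d.P u → d.Or v u → g1 u v = g1 v u + 1)
    (a2 : ∀ v u, d.P v → d.P u → d.Or v u → g2 u v = g2 v u + 1)
    (hc : ∀ s t, d.S s → d.S t → (∀ v ∈ s, ∀ u ∈ t, d.Or v u) →
      (∀ v ∈ s, ∀ v' ∈ s, ∀ u ∈ t, ∀ u' ∈ t, g0 v u = g0 v' u') ∨
      (∀ v ∈ s, ∀ v' ∈ s, ∀ u ∈ t, ∀ u' ∈ t, g1 v u = g1 v' u') ∨
      (∀ v ∈ s, ∀ v' ∈ s, ∀ u ∈ t, ∀ u' ∈ t, g2 v u = g2 v' u'))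
    (hw : ev (wprod [d.se, d.se]) d.z = 1) :
    PB.dd d.z (PB.Wcup d.s0 (PB.A3 k)) = 1 := by
  rw [PB_A3, PB_Wcup]
  exact plane_index hlen (fun v => by rw [hoT]) (fun v u h hh => ho v u h (Fin.ext hh))
    h0 h1 h2 a0 a1 a2 hc hw

end Dat
end Crest.Agent.S69.Plane
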