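import Crest.Agent.BU.Cup

set_option autoImplicit false

/-!
# S0069: the abstract plane lemma (double cochains), plan of the lead (881)
-/
namespace Crest.Agent.S69.Plane
open Crest.Agent.BU

universe u
variable {V : Type u}

/-- double cochains -/
abbrev DC (V : Type u) := List V → List V → ZMod 2

theorem z2_double (a : ZMod 2) : a + a = 0 := CharTwo.add_self_eq_zero a

theorem z2_eq {a b : ZMod 2} (h : a + b = 0) : a = b := by
  have := z2_double b
  linear_combination h - this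

/-- exchange of two evaluations -/
theorem ev_swap {W : Type*} (F : List V → List W → ZMod 2) (c : Ch V) (d : Ch W) :
    ev (fun s => ev (fun t => F s t) d) c = ev (fun t => ev (fun s => F s t) c) d := by
  induction c using Finsupp.induction_linear with
  | zero =>
    simp only [map_zero]
    exact (ev_eq_zero (P := fun _ => True) (fun l _ => rfl)
      (by simp [supp])).symm
  | add f g hf hg =>
    simp only [map_add]
    rw [hf, hg, ← ev_add_fun]
  | single a b =>
    have hb : b = 0 ∨ b = 1 := by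
      fin_cases b
      · left; rfl
      · right; rfl
    rcases hb with rfl | rfl
    · simp only [Finsupp.single_zero, map_zero]
      exact (ev_eq_zero (P := fun _ => True) (fun l _ => rfl) (by simp [supp])).symm
    · have : (Finsupp.single a (1 : ZMod 2) : Ch V) = sg a := rfl
      rw [this]
      simp only [ev_sg]

noncomputable def D (F : DC V) : DC V := fun s t =>
  cbd (fun s => F s t) s + cbd (fun t => F s t) t

def Ac (g : V → V → ZMod 2) (F : DC V) : DC V
  | v :: s, u :: t => g v u * F (v :: s) (u :: t)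
  | _, _ => 0

def W1 (g : V → V → ZMod 2) (F : DC V) : DC V
  | v :: v' :: s, u :: t => (g v u + g v' u) * F (v' :: s) (u :: t)
  | _, _ => 0

def W2 (g : V → V → ZMod 2) (F : DC V) : DC V
  | v :: s, u :: u' :: t => (g v u + g v u') * F (v :: s) (u' :: t)
  | _, _ => 0

def Wc (g : V → V → ZMod 2) (F : DC V) : DC V := fun s t => W1 g F s t + W2 g F s t

def Tr (F : DC V) : DC V := fun s t => F t s

noncomputable def dd (z : Ch V) (F : DC V) : ZMod 2 := ev (fun s => ev (fun t => F s t) z) z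

/-- vanishes on empty lists -/
def NE (F : DC V) : Prop := (∀ t, F [] t = 0) ∧ ∀ s, F s [] = 0

theorem cbd_nil (q : List V → ZMod 2) : cbd q [] = 0 := by simp [cbd, bdL]

theorem cbd_cons (q : List V → ZMod 2) (v : V) (s : List V) :
    cbd q (v :: s) = q s + ev (fun l => q (v :: l)) (bdL s) := by
  simp [cbd, bdL, ev_cons]

theorem cbd_add (q q' : List V → ZMod 2) (l : List V) :
    cbd (fun l => q l + q' l) l = cbd q l + cbd q' l := by
  simp only [cbd, ev_add_fun]

theorem cbd_zero (l : List V) : cbd (fun _ => 0) l = 0 :=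
  ev_eq_zero (P := fun _ => True) (fun _ _ => rfl) (by simp [supp])

theorem cbd_cbd (q : List V → ZMod 2) (l : List V) : cbd (cbd q) l = 0 := by
  have h : cbd (cbd q) l = ev (cbd q) (bdL l) := rfl
  rw [h, ← ev_bd, bd_bdL, map_zero]

theorem D_add (F G : DC V) : D (F + G) = D F + D G := by
  funext s t
  simp only [D, Pi.add_apply]
  rw [cbd_add (fun s => F s t) (fun s => G s t), cbd_add (fun t => F s t) (fun t => G s t)]
  ring

theorem D_zero : D (0 : DC V) = 0 := by
  funext s t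
  simp only [D, Pi.zero_apply]
  rw [cbd_zero, cbd_zero, add_zero]

theorem DC_add_self (F : DC V) : F + F = 0 := by
  funext s t; simp [z2_double]

theorem NE_D {F : DC V} (h : NE F) : NE (D F) := by
  constructor
  · intro t
    have : (fun t => F [] t) = fun _ => 0 := funext h.1
    simp only [D, cbd_nil, this, cbd_zero, add_zero]
  · intro s
    have : (fun s => F s []) = fun _ => 0 := funext h.2
    simp only [D, cbd_nil, this, cbd_zero, add_zero]

theorem NE_Ac (g : V → V → ZMod 2) (F : DC V) : NE (Ac g F) := by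
  constructor
  · intro t; simp [Ac]
  · intro s; cases s <;> simp [Ac]

theorem NE_Wc (g : V → V → ZMod 2) (F : DC V) : NE (Wc g F) := by
  constructor
  · intro t; simp [Wc, W1, W2]
  · intro s
    rcases s with _ | ⟨v, _ | ⟨v', s⟩⟩ <;> simp [Wc, W1, W2]

theorem NE_add {F G : DC V} (hF : NE F) (hG : NE G) : NE (F + G) :=
  ⟨fun t => by simp [hF.1 t, hG.1 t], fun s => by simp [hF.2 s, hG.2 s]⟩

theorem NE_Tr {F : DC V} (hF : NE F) : NE (Tr F) := ⟨fun t => hF.2 t, fun s => hF.1 s⟩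

theorem DD (F : DC V) : D (D F) = 0 := by
  funext s t
  simp only [D, Pi.zero_apply]
  rw [cbd_add (fun s => cbd (fun s => F s t) s) (fun s => cbd (fun t => F s t) t),
    cbd_add (fun t => cbd (fun s => F s t) s) (fun t => cbd (fun t => F s t) t)]
  have h1 : cbd (fun s => cbd (fun s => F s t) s) s = 0 := cbd_cbd (fun s => F s t) s
  have h2 : cbd (fun t => cbd (fun t => F s t) t) t = 0 := cbd_cbd (fun t => F s t) t
  have h3 : cbd (fun s => cbd (fun t => F s t) t) s = cbd (fun t => cbd (fun s => F s t) s) t :=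
    ev_swap F (bdL s) (bdL t)
  rw [h1, h2, h3, zero_add, add_zero, z2_double]

theorem leib1 (g : V → V → ZMod 2) {F : DC V} (hF : NE F) (v : V) (s : List V) (u : V)
    (t : List V) :
    cbd (fun s => Ac g F s (u :: t)) (v :: s) =
      W1 g F (v :: s) (u :: t) + g v u * cbd (fun s => F s (u :: t)) (v :: s) := by
  rw [cbd_cons, cbd_cons]
  have e : ev (fun l => Ac g F (v :: l) (u :: t)) (bdL s) =
      g v u * ev (fun l => F (v :: l) (u :: t)) (bdL s) :=
    ev_const_mul (g v u) (fun l => F (v :: l) (u :: t)) (bdL s)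
  rw [e]
  rcases s with _ | ⟨v', s⟩
  · simp [Ac, W1, hF.1]
  · simp only [Ac, W1]
    linear_combination -z2_double (g v u * F (v' :: s) (u :: t))

theorem leib2 (g : V → V → ZMod 2) {F : DC V} (hF : NE F) (v : V) (s : List V) (u : V)
    (t : List V) :
    cbd (fun t => Ac g F (v :: s) t) (u :: t) =
      W2 g F (v :: s) (u :: t) + g v u * cbd (fun t => F (v :: s) t) (u :: t) := by
  rw [cbd_cons, cbd_cons]
  have e : ev (fun l => Ac g F (v :: s) (u :: l)) (bdL t) =
      g v u * ev (fun l => F (v :: s) (u :: l)) (bdL t) :=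
    ev_const_mul (g v u) (fun l => F (v :: s) (u :: l)) (bdL t)
  rw [e]
  rcases t with _ | ⟨u', t⟩
  · simp [Ac, W2, hF.2]
  · simp only [Ac, W2]
    linear_combination -z2_double (g v u * F (v :: s) (u' :: t))

/-- Leibniz rule -/
theorem D_Ac (g : V → V → ZMod 2) {F : DC V} (hF : NE F) : D (Ac g F) = Wc g F + Ac g (D F) := by
  funext s t
  rcases s with _ | ⟨v, s⟩
  · rw [(NE_D (NE_Ac g F)).1 t, Pi.add_apply, Pi.add_apply, (NE_Wc g F).1, (NE_Ac g _).1, add_zero]
  · rcases t with _ | ⟨u, t⟩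
    · rw [(NE_D (NE_Ac g F)).2, Pi.add_apply, Pi.add_apply, (NE_Wc g F).2, (NE_Ac g _).2, add_zero]
    · simp only [Pi.add_apply]
      have h1 := leib1 g hF v s u t
      have h2 := leib2 g hF v s u t
      simp only [D, Ac, Wc] at h1 h2 ⊢
      rw [h1, h2]
      ring

theorem Ac_zero (g : V → V → ZMod 2) : Ac g (0 : DC V) = 0 := by
  funext s t
  rcases s with _ | ⟨v, s⟩ <;> rcases t with _ | ⟨u, t⟩ <;> simp [Ac]

theorem Ac_add (g : V → V → ZMod 2) (F G : DC V) : Ac g (F + G) = Ac g F + Ac g G := by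
  funext s t
  rcases s with _ | ⟨v, s⟩ <;> rcases t with _ | ⟨u, t⟩ <;> simp [Ac, mul_add]

theorem Ac_add_left (g g' : V → V → ZMod 2) (F : DC V) :
    Ac (fun v u => g v u + g' v u) F = Ac g F + Ac g' F := by
  funext s t
  rcases s with _ | ⟨v, s⟩ <;> rcases t with _ | ⟨u, t⟩ <;> simp [Ac, add_mul]

theorem Wc_add (g : V → V → ZMod 2) (F G : DC V) : Wc g (F + G) = Wc g F + Wc g G := by
  funext s t
  rcases s with _ | ⟨v, _ | ⟨v', s⟩⟩ <;> rcases t with _ | ⟨u, _ | ⟨u', t⟩⟩ <;>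
    simp [Wc, W1, W2] <;> ring

theorem Wc_zero (g : V → V → ZMod 2) : Wc g (0 : DC V) = 0 := by
  funext s t
  rcases s with _ | ⟨v, _ | ⟨v', s⟩⟩ <;> rcases t with _ | ⟨u, _ | ⟨u', t⟩⟩ <;>
    simp [Wc, W1, W2]

theorem Wc_add_left (g g' : V → V → ZMod 2) (F : DC V) :
    Wc (fun v u => g v u + g' v u) F = Wc g F + Wc g' F := by
  funext s t
  rcases s with _ | ⟨v, _ | ⟨v', s⟩⟩ <;> rcases t with _ | ⟨u, _ | ⟨u', t⟩⟩ <;>
    simp [Wc, W1, W2] <;> ring

theorem D_Wc (g : V → V → ZMod 2) {F : DC V} (hF : NE F) : D (Wc g F) = Wc g (D F) := by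
  have h1 : Wc g F = D (Ac g F) + Ac g (D F) := by
    rw [D_Ac g hF, add_assoc, DC_add_self, add_zero]
  rw [h1, D_add, DD, zero_add, D_Ac g (NE_D hF), DD, Ac_zero, add_zero]

theorem Tr_Wc (g : V → V → ZMod 2) (F : DC V) : Tr (Wc g F) = Wc (fun v u => g u v) (Tr F) := by
  funext s t
  rcases s with _ | ⟨v, _ | ⟨v', s⟩⟩ <;> rcases t with _ | ⟨u, _ | ⟨u', t⟩⟩ <;>
    simp [Tr, Wc, W1, W2] <;> ring

theorem Tr_Ac (g : V → V → ZMod 2) (F : DC V) : Tr (Ac g F) = Ac (fun v u => g u v) (Tr F) := by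
  funext s t
  rcases s with _ | ⟨v, s⟩ <;> rcases t with _ | ⟨u, t⟩ <;> simp [Tr, Ac]

theorem Tr_add (F G : DC V) : Tr (F + G) = Tr F + Tr G := rfl

theorem dd_add (z : Ch V) (F G : DC V) : dd z (F + G) = dd z F + dd z G := by
  simp only [dd, Pi.add_apply]
  rw [← ev_add_fun]
  exact ev_congr_fun (fun s => ev_add_fun _ _ _) z

theorem dd_Tr (z : Ch V) (F : DC V) : dd z (Tr F) = dd z F := by
  simp only [dd, Tr]
  exact ev_swap (fun s t => F t s) z z

theorem dd_zero (z : Ch V) : dd z (0 : DC V) = 0 := by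
  have h : ∀ c : Ch V, ev (fun _ => (0 : ZMod 2)) c = 0 := fun c =>
    ev_eq_zero (P := fun _ => True) (fun _ _ => rfl) (by simp [supp])
  simp only [dd, Pi.zero_apply, h]


/-! ## the geometric data -/

/-- all entries satisfy `P` -/
def AP (P : V → Prop) (l : List V) : Prop := ∀ v ∈ l, P v

/-- data for the index computation -/
structure Dat (V : Type u) where
  T : V → V
  P : V → Prop
  S : List V → Prop
  z : Ch V
  s0 : V → V → ZMod 2
  se : V → ZMod 2
  Or : V → V → Prop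
  hT : ∀ v, P v → P (T v)
  hS : ∀ l, S l → AP P l
  hz : z ∈ supp S
  stokes : ∀ G : List V → ZMod 2, (∀ l, AP P l → G (l.map T) = G l) → ev (cbd G) z = 0
  s0_comm : ∀ v u, P v → P u → s0 v u = s0 u v
  s0_odd : ∀ v u, P v → P u → s0 (T v) u = s0 v u + 1
  se_odd : ∀ v, P v → se (T v) = se v + 1
  Or_symm : ∀ v u, Or v u → Or u v
  near : ∀ s t, S s → S t → ∀ v ∈ s, ∀ v' ∈ s, ∀ u ∈ t, ∀ u' ∈ t, s0 v u ≠ s0 v' u' →
    ∀ v ∈ s, ∀ u ∈ t, Or v u

namespace Dat
variable (d : Dat V)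

def Ev (F : DC V) : Prop := ∀ s t, AP d.P s → AP d.P t →
  F (s.map d.T) t = F s t ∧ F s (t.map d.T) = F s t

def EqQ (F G : DC V) : Prop := ∀ s t, AP d.P s → AP d.P t → (∀ v ∈ s, ∀ u ∈ t, d.Or v u) →
  F s t = G s t

/-- behaviour of a pair function under `T` -/
def Bi (α β : ZMod 2) (g : V → V → ZMod 2) : Prop := ∀ v u, d.P v → d.P u →
  g (d.T v) u = g v u + α ∧ g v (d.T u) = g v u + β

noncomputable def Phi (F : DC V) : ZMod 2 := dd d.z (Wc d.s0 F)

variable {d}

theorem AP.tail {P : V → Prop} {v : V} {l : List V} (h : AP P (v :: l)) : AP P l :=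
  fun w hw => h w (List.mem_cons_of_mem _ hw)

theorem AP.head {P : V → Prop} {v : V} {l : List V} (h : AP P (v :: l)) : P v :=
  h v (List.mem_cons_self)

theorem AP_map {l : List V} (h : AP d.P l) : AP d.P (l.map d.T) := by
  intro v hv
  obtain ⟨w, hw, rfl⟩ := List.mem_map.1 hv
  exact d.hT w (h w hw)

theorem EqQ.rfl' (F : DC V) : d.EqQ F F := fun _ _ _ _ _ => rfl
theorem EqQ.of_eq {F G : DC V} (h : F = G) : d.EqQ F G := h ▸ EqQ.rfl' F
theorem EqQ.symm {F G : DC V} (h : d.EqQ F G) : d.EqQ G F :=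
  fun s t h1 h2 h3 => (h s t h1 h2 h3).symm
theorem EqQ.trans {F G H : DC V} (h : d.EqQ F G) (h' : d.EqQ G H) : d.EqQ F H :=
  fun s t h1 h2 h3 => (h s t h1 h2 h3).trans (h' s t h1 h2 h3)
theorem EqQ.add {F G F' G' : DC V} (h : d.EqQ F G) (h' : d.EqQ F' G') :
    d.EqQ (F + F') (G + G') := fun s t h1 h2 h3 => by
  simp only [Pi.add_apply, h s t h1 h2 h3, h' s t h1 h2 h3]

theorem dd_congr {F G : DC V} (h : ∀ s t, d.S s → d.S t → F s t = G s t) :
    dd d.z F = dd d.z G := by
  refine ev_congr (fun s hs => ?_) d.hz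
  exact ev_congr (fun t ht => h s t hs ht) d.hz

theorem Phi_congr {F G : DC V} (h : d.EqQ F G) : d.Phi F = d.Phi G := by
  refine dd_congr (fun s t hs ht => ?_)
  have aS := d.hS s hs
  have aT := d.hS t ht
  have key : ∀ v ∈ s, ∀ v' ∈ s, ∀ u ∈ t, ∀ u' ∈ t, ∀ s' t', (∀ x ∈ s', x ∈ s) →
      (∀ x ∈ t', x ∈ t) →
      (d.s0 v u + d.s0 v' u') * F s' t' = (d.s0 v u + d.s0 v' u') * G s' t' := by
    intro v hv v' hv' u hu u' hu' s' t' hs' ht'
    by_cases hne : d.s0 v u = d.s0 v' u'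
    · rw [hne, z2_double]; simp
    · have hQ := d.near s t hs ht v hv v' hv' u hu u' hu' hne
      rw [h s' t' (fun x hx => aS x (hs' x hx)) (fun x hx => aT x (ht' x hx))
        (fun x hx y hy => hQ x (hs' x hx) y (ht' y hy))]
  have h1 : W1 d.s0 F s t = W1 d.s0 G s t := by
    rcases s with _ | ⟨v, _ | ⟨v', s⟩⟩ <;> rcases t with _ | ⟨u, t⟩ <;> simp only [W1]
    exact key v (by simp) v' (by simp) u (by simp) u (by simp) _ _
      (fun x hx => List.mem_cons_of_mem _ hx) (fun x hx => hx)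
  have h2 : W2 d.s0 F s t = W2 d.s0 G s t := by
    rcases s with _ | ⟨v, s⟩ <;> rcases t with _ | ⟨u, _ | ⟨u', t⟩⟩ <;> simp only [W2]
    exact key v (by simp) v (by simp) u (by simp) u' (by simp) _ _
      (fun x hx => hx) (fun x hx => List.mem_cons_of_mem _ hx)
  simp only [Wc, h1, h2]

theorem Phi_add (F G : DC V) : d.Phi (F + G) = d.Phi F + d.Phi G := by
  simp only [Phi, Wc_add, dd_add]

theorem Bi_s0 : d.Bi 1 1 d.s0 := by
  intro v u hv hu
  refine ⟨d.s0_odd v u hv hu, ?_⟩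
  rw [d.s0_comm v (d.T u) hv (d.hT u hu), d.s0_odd u v hu hv, d.s0_comm u v hu hv]

theorem Phi_Tr (F : DC V) : d.Phi (Tr F) = d.Phi F := by
  have h : dd d.z (Wc d.s0 (Tr F)) = dd d.z (Tr (Wc d.s0 F)) := by
    refine dd_congr (fun s t hs ht => ?_)
    rw [Tr_Wc]
    have aS := d.hS s hs
    have aT := d.hS t ht
    rcases s with _ | ⟨v, _ | ⟨v', s⟩⟩ <;> rcases t with _ | ⟨u, _ | ⟨u', t⟩⟩ <;>
      simp only [Wc, W1, W2]
    · rw [d.s0_comm v u (aS _ (by simp)) (aT _ (by simp)),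
        d.s0_comm v u' (aS _ (by simp)) (aT _ (by simp))]
    · rw [d.s0_comm v u (aS _ (by simp)) (aT _ (by simp)),
        d.s0_comm v' u (aS _ (by simp)) (aT _ (by simp))]
    · rw [d.s0_comm v u (aS _ (by simp)) (aT _ (by simp)),
        d.s0_comm v' u (aS _ (by simp)) (aT _ (by simp)),
        d.s0_comm v u' (aS _ (by simp)) (aT _ (by simp))]
  rw [Phi, h, dd_Tr, Phi]

theorem dd_D {G : DC V} (hG : d.Ev G) : dd d.z (D G) = 0 := by
  have e1 : dd d.z (D G) = ev (fun s => ev (fun t => cbd (fun s => G s t) s) d.z) d.z +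
      ev (fun s => ev (fun t => cbd (fun t => G s t) t) d.z) d.z := by
    rw [← ev_add_fun]
    exact ev_congr_fun (fun s => ev_add_fun _ _ _) _
  have e2 : ev (fun s => ev (fun t => cbd (fun t => G s t) t) d.z) d.z = 0 := by
    refine ev_eq_zero (fun s hs => ?_) d.hz
    exact d.stokes (fun t => G s t) (fun l hl => (hG s l (d.hS s hs) hl).2)
  have e3 : ev (fun s => ev (fun t => cbd (fun s => G s t) s) d.z) d.z = 0 := by
    rw [ev_swap (fun s t => cbd (fun s => G s t) s) d.z d.z]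
    refine ev_eq_zero (fun t ht => ?_) d.hz
    exact d.stokes (fun s => G s t) (fun l hl => (hG l t hl (d.hS t ht)).1)
  rw [e1, e2, e3, add_zero]

theorem Ev_Wc {α β : ZMod 2} {g : V → V → ZMod 2} (hg : d.Bi α β g) {F : DC V} (hF : d.Ev F) :
    d.Ev (Wc g F) := by
  intro s t hs ht
  have c1 := fun v u (hv : d.P v) (hu : d.P u) => (hg v u hv hu).1
  have c2 := fun v u (hv : d.P v) (hu : d.P u) => (hg v u hv hu).2
  constructor
  · rcases s with _ | ⟨v, _ | ⟨v', s⟩⟩ <;> rcases t with _ | ⟨u, _ | ⟨u', t⟩⟩ <;>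
      simp only [Wc, W1, W2, List.map_cons, List.map_nil]
    · have h := (hF [v] (u' :: t) hs (AP.tail ht)).1
      simp only [List.map_cons, List.map_nil] at h
      rw [h, c1 v u (hs _ (by simp)) (ht _ (by simp)), c1 v u' (hs _ (by simp)) (ht _ (by simp))]
      linear_combination z2_double (α * F [v] (u' :: t))
    · have h := (hF (v' :: s) [u] (AP.tail hs) ht).1
      simp only [List.map_cons, List.map_nil] at h
      rw [h, c1 v u (hs _ (by simp)) (ht _ (by simp)), c1 v' u (hs _ (by simp)) (ht _ (by simp))]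
      linear_combination z2_double (α * F (v' :: s) [u])
    · have h := (hF (v' :: s) (u :: u' :: t) (AP.tail hs) ht).1
      have h' := (hF (v :: v' :: s) (u' :: t) hs (AP.tail ht)).1
      simp only [List.map_cons, List.map_nil] at h h'
      rw [h, h', c1 v u (hs _ (by simp)) (ht _ (by simp)),
        c1 v' u (hs _ (by simp)) (ht _ (by simp)), c1 v u' (hs _ (by simp)) (ht _ (by simp))]
      linear_combination z2_double (α * F (v' :: s) (u :: u' :: t)) +
        z2_double (α * F (v :: v' :: s) (u' :: t))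
  · rcases s with _ | ⟨v, _ | ⟨v', s⟩⟩ <;> rcases t with _ | ⟨u, _ | ⟨u', t⟩⟩ <;>
      simp only [Wc, W1, W2, List.map_cons, List.map_nil]
    · have h := (hF [v] (u' :: t) hs (AP.tail ht)).2
      simp only [List.map_cons, List.map_nil] at h
      rw [h, c2 v u (hs _ (by simp)) (ht _ (by simp)), c2 v u' (hs _ (by simp)) (ht _ (by simp))]
      linear_combination z2_double (β * F [v] (u' :: t))
    · have h := (hF (v' :: s) [u] (AP.tail hs) ht).2
      simp only [List.map_cons, List.map_nil] at h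
      rw [h, c2 v u (hs _ (by simp)) (ht _ (by simp)), c2 v' u (hs _ (by simp)) (ht _ (by simp))]
      linear_combination z2_double (β * F (v' :: s) [u])
    · have h := (hF (v' :: s) (u :: u' :: t) (AP.tail hs) ht).2
      have h' := (hF (v :: v' :: s) (u' :: t) hs (AP.tail ht)).2
      simp only [List.map_cons, List.map_nil] at h h'
      rw [h, h', c2 v u (hs _ (by simp)) (ht _ (by simp)),
        c2 v' u (hs _ (by simp)) (ht _ (by simp)), c2 v u' (hs _ (by simp)) (ht _ (by simp))]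
      linear_combination z2_double (β * F (v' :: s) (u :: u' :: t)) +
        z2_double (β * F (v :: v' :: s) (u' :: t))

theorem Ev_Ac {a : V → V → ZMod 2} (ha : d.Bi 0 0 a) {F : DC V} (hF : d.Ev F) :
    d.Ev (Ac a F) := by
  intro s t hs ht
  constructor
  · rcases s with _ | ⟨v, s⟩ <;> rcases t with _ | ⟨u, t⟩ <;>
      simp only [Ac, List.map_cons, List.map_nil]
    have h := (hF (v :: s) (u :: t) hs ht).1
    simp only [List.map_cons] at h
    rw [h, (ha v u (hs _ (by simp)) (ht _ (by simp))).1, add_zero]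
  · rcases s with _ | ⟨v, s⟩ <;> rcases t with _ | ⟨u, t⟩ <;>
      simp only [Ac, List.map_cons, List.map_nil]
    have h := (hF (v :: s) (u :: t) hs ht).2
    simp only [List.map_cons] at h
    rw [h, (ha v u (hs _ (by simp)) (ht _ (by simp))).2, add_zero]

theorem Phi_D {G : DC V} (hG : d.Ev G) (hN : NE G) : d.Phi (D G) = 0 := by
  rw [Phi, ← D_Wc d.s0 hN]
  exact dd_D (Ev_Wc Bi_s0 hG)

variable (d) in
structure Nice (B : DC V → DC V) : Prop where
  add : ∀ F G, B (F + G) = B F + B G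
  congr : ∀ F G, d.EqQ F G → d.EqQ (B F) (B G)
  tr : ∀ F, d.EqQ (Tr (B F)) (B (Tr F))
  D : ∀ F, NE F → D (B F) = B (Plane.D F)
  ne : ∀ F, NE F → NE (B F)
  ev : ∀ F, d.Ev F → d.Ev (B F)

theorem nice_id : d.Nice (fun F => F) :=
  ⟨fun _ _ => rfl, fun _ _ h => h, fun F => EqQ.rfl' _, fun _ _ => rfl, fun _ h => h,
    fun _ h => h⟩

theorem Nice.comp {B B' : DC V → DC V} (h : d.Nice B) (h' : d.Nice B') :
    d.Nice (fun F => B (B' F)) where
  add F G := by rw [h'.add, h.add]
  congr F G hFG := h.congr _ _ (h'.congr _ _ hFG)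
  tr F := (h.tr (B' F)).trans (h.congr _ _ (h'.tr F))
  D F hF := by rw [h.D _ (h'.ne _ hF), h'.D _ hF]
  ne F hF := h.ne _ (h'.ne _ hF)
  ev F hF := h.ev _ (h'.ev _ hF)

theorem congr_Wc (g : V → V → ZMod 2) {F G : DC V} (h : d.EqQ F G) :
    d.EqQ (Wc g F) (Wc g G) := by
  intro s t hs ht hQ
  have key : ∀ s' t', (∀ x ∈ s', x ∈ s) → (∀ x ∈ t', x ∈ t) → F s' t' = G s' t' := by
    intro s' t' hs' ht'
    exact h s' t' (fun x hx => hs x (hs' x hx)) (fun x hx => ht x (ht' x hx))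
      (fun x hx y hy => hQ x (hs' x hx) y (ht' y hy))
  rcases s with _ | ⟨v, _ | ⟨v', s⟩⟩ <;> rcases t with _ | ⟨u, _ | ⟨u', t⟩⟩ <;>
    simp only [Wc, W1, W2]
  · rw [key [v] (u' :: t) (fun x hx => hx) (fun x hx => List.mem_cons_of_mem _ hx)]
  · rw [key (v' :: s) [u] (fun x hx => List.mem_cons_of_mem _ hx) (fun x hx => hx)]
  · rw [key (v' :: s) (u :: u' :: t) (fun x hx => List.mem_cons_of_mem _ hx) (fun x hx => hx),
      key (v :: v' :: s) (u' :: t) (fun x hx => hx) (fun x hx => List.mem_cons_of_mem _ hx)]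

theorem congr_Ac (g : V → V → ZMod 2) {F G : DC V} (h : d.EqQ F G) :
    d.EqQ (Ac g F) (Ac g G) := by
  intro s t hs ht hQ
  rcases s with _ | ⟨v, s⟩ <;> rcases t with _ | ⟨u, t⟩ <;> simp only [Ac]
  rw [h (v :: s) (u :: t) hs ht hQ]

theorem nice_Wc {g : V → V → ZMod 2} (hg : d.Bi 1 1 g)
    (ha : ∀ v u, d.P v → d.P u → d.Or v u → g u v = g v u + 1) : d.Nice (Wc g) where
  add := Wc_add g
  congr F G := congr_Wc g
  tr F := by
    rw [Tr_Wc]
    intro s t hs ht hQ
    have key : ∀ v ∈ s, ∀ u ∈ t, g u v = g v u + 1 := fun v hv u hu =>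
      ha v u (hs v hv) (ht u hu) (hQ v hv u hu)
    rcases s with _ | ⟨v, _ | ⟨v', s⟩⟩ <;> rcases t with _ | ⟨u, _ | ⟨u', t⟩⟩ <;>
      simp only [Wc, W1, W2]
    · rw [key v (by simp) u (by simp), key v (by simp) u' (by simp)]
      linear_combination z2_double (Tr F [v] (u' :: t))
    · rw [key v (by simp) u (by simp), key v' (by simp) u (by simp)]
      linear_combination z2_double (Tr F (v' :: s) [u])
    · rw [key v (by simp) u (by simp), key v' (by simp) u (by simp), key v (by simp) u' (by simp)]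
      linear_combination z2_double (Tr F (v' :: s) (u :: u' :: t)) +
        z2_double (Tr F (v :: v' :: s) (u' :: t))
  D F hF := D_Wc g hF
  ne F _ := NE_Wc g F
  ev F hF := Ev_Wc hg hF

theorem tel {B : DC V → DC V} (hB : d.Nice B) {A A' : DC V} (hA : NE A) (hA' : NE A')
    (eA' : d.Ev A') (rel : d.EqQ (A + Tr A) (D A')) {a : V → V → ZMod 2} (ae : d.Bi 0 0 a)
    (as : ∀ v u, d.P v → d.P u → d.Or v u → a v u + a u v = 1) :
    d.Phi (B A) = d.Phi (B (Wc a A')) := by
  have h1 : d.EqQ A (Ac a A + Ac (fun v u => a u v) A) := by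
    intro s t hs ht hQ
    rcases s with _ | ⟨v, s⟩
    · rw [hA.1, Pi.add_apply, Pi.add_apply, (NE_Ac _ _).1, (NE_Ac _ _).1, add_zero]
    · rcases t with _ | ⟨u, t⟩
      · rw [hA.2, Pi.add_apply, Pi.add_apply, (NE_Ac _ _).2, (NE_Ac _ _).2, add_zero]
      · have := as v u (hs v (by simp)) (ht u (by simp)) (hQ v (by simp) u (by simp))
        simp only [Pi.add_apply, Ac]
        linear_combination -(A (v :: s) (u :: t)) * this
  have h2 : d.Phi (B (Ac (fun v u => a u v) A)) = d.Phi (B (Ac a (Tr A))) := by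
    rw [← Phi_Tr (B (Ac (fun v u => a u v) A)), Phi_congr (hB.tr _), Tr_Ac]
  rw [Phi_congr (hB.congr _ _ h1), hB.add, Phi_add, h2, ← Phi_add, ← hB.add, ← Ac_add,
    Phi_congr (hB.congr _ _ (congr_Ac a rel))]
  have h3 : Ac a (D A') = D (Ac a A') + Wc a A' := by
    rw [D_Ac a hA', add_comm (Wc a A'), add_assoc, DC_add_self, add_zero]
  rw [h3, hB.add, Phi_add, ← hB.D _ (NE_Ac _ _),
    Phi_D (hB.ev _ (Ev_Ac ae eA')) (hB.ne _ (NE_Ac _ _)), zero_add]

variable (d) in
def xe : V → V → ZMod 2 := fun v _ => d.se v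
variable (d) in
def ye : V → V → ZMod 2 := fun _ u => d.se u

theorem Bi_xe : d.Bi 1 0 d.xe := fun v u hv _ => ⟨d.se_odd v hv, by simp [xe]⟩
theorem Bi_ye : d.Bi 0 1 d.ye := fun v u _ hu => ⟨by simp [ye], d.se_odd u hu⟩

variable (d) in
def aa (g : V → V → ZMod 2) : V → V → ZMod 2 := fun v u => d.se v + d.se u + g v u

theorem Bi_aa {g : V → V → ZMod 2} (hg : d.Bi 1 1 g) : d.Bi 0 0 (d.aa g) := by
  intro v u hv hu
  constructor
  · simp only [aa, d.se_odd v hv, (hg v u hv hu).1]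
    linear_combination z2_double 1
  · simp only [aa, d.se_odd u hu, (hg v u hv hu).2]
    linear_combination z2_double 1

theorem Wc_aa (g : V → V → ZMod 2) (F : DC V) :
    Wc (d.aa g) F = Wc d.xe F + Wc d.ye F + Wc g F := by
  rw [← Wc_add_left, ← Wc_add_left]
  rfl

theorem split_XY {B : DC V → DC V} (hB : d.Nice B) (A' : DC V) :
    d.Phi (B (Wc d.xe A')) + d.Phi (B (Wc d.ye A')) = d.Phi (B (Wc d.xe (A' + Tr A'))) := by
  have h : d.Phi (B (Wc d.ye A')) = d.Phi (B (Wc d.xe (Tr A'))) := by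
    rw [← Phi_Tr (B (Wc d.ye A')), Phi_congr (hB.tr _), Tr_Wc]
    rfl
  rw [h, ← Phi_add, ← hB.add, ← Wc_add]

theorem stepG {B : DC V → DC V} (hB : d.Nice B) {A A' A'' : DC V} (hA : NE A) (hA' : NE A')
    (hA'' : NE A'') (eA' : d.Ev A') (eA'' : d.Ev A'') (rel : d.EqQ (A + Tr A) (D A'))
    (rel' : d.EqQ (A' + Tr A') (D A'')) {g : V → V → ZMod 2} (hg : d.Bi 1 1 g)
    (ga : ∀ v u, d.P v → d.P u → d.Or v u → g u v = g v u + 1) :
    d.Phi (B A) = d.Phi (B (Wc g A')) := by
  rw [tel hB hA hA' eA' rel (Bi_aa hg) (fun v u hv hu ho => by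
    simp only [aa]; rw [ga v u hv hu ho]
    linear_combination z2_double (d.se v) + z2_double (d.se u) + z2_double (g v u)),
    Wc_aa, hB.add, hB.add, Phi_add, Phi_add, split_XY hB,
    Phi_congr (hB.congr _ _ (congr_Wc _ rel')), ← D_Wc d.xe hA'', ← hB.D _ (NE_Wc _ _),
    Phi_D (hB.ev _ (Ev_Wc Bi_xe eA'')) (hB.ne _ (NE_Wc _ _)), zero_add]

/-- the unit double cochain -/
def One : DC V
  | [_], [_] => 1
  | _, _ => 0

theorem stepLast {B : DC V → DC V} (hB : d.Nice B) {A A' : DC V} (hA : NE A) (hA' : NE A')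
    (eA' : d.Ev A') (rel : d.EqQ (A + Tr A) (D A'))
    (rel' : d.EqQ (A' + Tr A') One) {g : V → V → ZMod 2} (hg : d.Bi 1 1 g)
    (ga : ∀ v u, d.P v → d.P u → d.Or v u → g u v = g v u + 1) :
    d.Phi (B A) = d.Phi (B (Wc d.xe One)) + d.Phi (B (Wc g A')) := by
  rw [tel hB hA hA' eA' rel (Bi_aa hg) (fun v u hv hu ho => by
    simp only [aa]; rw [ga v u hv hu ho]
    linear_combination z2_double (d.se v) + z2_double (d.se u) + z2_double (g v u)),
    Wc_aa, hB.add, hB.add, Phi_add, Phi_add, split_XY hB,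
    Phi_congr (hB.congr _ _ (congr_Wc _ rel'))]

end Dat

end Crest.Agent.S69.Plane
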