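import Crest.Agent.S69.Defs
import Crest.Agent.S69.Geo
import Crest.Agent.S69.Cap
import Crest.Agent.S69.PlaneB

set_option autoImplicit false

/-!
# S0069: the plane lemma on `S³`, geometric instantiation
-/
namespace Crest.Agent.S69

open Crest.Agent.BU
open scoped RealInnerProductSpace

/-- capping with an odd function whose sign changes only near `x^⊥` -/
theorem Fund.cap_gen {k : ℕ} {e : ℝ} {X : Set S3} {z : Ch S3} (h : Fund (k + 1) e X z) (x : S3)
    {a : S3 → ZMod 2} (ha : Odd a)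
    (hn : ∀ v v' w : S3, a v ≠ a v' → dist v w < e → dist v' w < e → |⟪(x : E4), (w : E4)⟫| < e) :
    Fund k e (insert x X) (S69.cap a z) := by
  refine ⟨fun hk G hG => ?_, fun as has hodd => ?_, ?_⟩
  · rw [ev_cap]
    have h1 : ev (BU.wcup a (BU.cbd G)) z = ev (BU.cbd (BU.wcup a G)) z := by
      refine ev_congr (fun l hl => ?_) h.mem
      obtain ⟨hl, -, -⟩ := hl
      match l, hl with
      | (v :: v' :: v'' :: l), _ => rw [cbd_wcup]
      | [v, v'], hl => simp at hl; omega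
      | [v], hl => simp at hl
      | [], hl => simp at hl
    rw [h1]
    exact h.stokes (Nat.succ_pos k) _ (hG.wcup (Or.inl ha))
  · rw [ev_cap]
    exact h.cup (a :: as) (by simp [has]) (by
      intro b hb
      rcases List.mem_cons.1 hb with rfl | hb
      · exact ha
      · exact hodd b hb)
  · refine cap_mem a (fun v v' l hl hne => ?_) h.mem
    obtain ⟨h1, h2, h3⟩ := hl
    refine ⟨by simpa using h1, fun b hb w hw => h2 b (by
      simp only [List.mem_cons] at hb ⊢; tauto) w (by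
      simp only [List.mem_cons] at hw ⊢; tauto), ?_⟩
    intro y hy w hw
    rcases Set.mem_insert_iff.1 hy with rfl | hy
    · exact hn v v' w hne (h2 v (by simp) w (by
        simp only [List.mem_cons] at hw ⊢; tauto)) (h2 v' (by simp) w (by
        simp only [List.mem_cons] at hw ⊢; tauto))
    · exact h3 y hy w (by simp only [List.mem_cons] at hw ⊢; tauto)

/-- the properties of the symmetric tie-broken sign of the inner product -/
structure Sym0 (s0 : S3 → S3 → ZMod 2) : Prop where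
  odd : ∀ v, Odd (s0 v)
  comm : ∀ v u, s0 v u = s0 u v
  pos : ∀ v u : S3, (0 : ℝ) < ⟪(v : E4), (u : E4)⟫ → s0 v u = 1
  neg : ∀ v u : S3, ⟪(v : E4), (u : E4)⟫ < (0 : ℝ) → s0 v u = 0

theorem coe_neg_S3 (v : S3) : ((-v : S3) : E4) = -(v : E4) := rfl

open Classical in
/-- symmetric tie-broken sign -/
noncomputable def sS (v u : S3) : ZMod 2 :=
  if (0 : ℝ) < ⟪(v : E4), (u : E4)⟫ then 1
  else if ⟪(v : E4), (u : E4)⟫ < (0 : ℝ) then 0
  else tie v + tie u

theorem sS_sym0 : Sym0 sS := by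
  have hpos : ∀ v u : S3, (0 : ℝ) < ⟪(v : E4), (u : E4)⟫ → sS v u = 1 := fun v u h => by
    rw [sS, if_pos h]
  have hneg : ∀ v u : S3, ⟪(v : E4), (u : E4)⟫ < (0 : ℝ) → sS v u = 0 := fun v u h => by
    rw [sS, if_neg h.not_gt, if_pos h]
  refine ⟨fun v u => ?_, fun v u => ?_, hpos, hneg⟩
  · have e : ⟪(v : E4), ((-u : S3) : E4)⟫ = -⟪(v : E4), (u : E4)⟫ := by
      rw [coe_neg_S3, inner_neg_right]
    rcases lt_trichotomy (0 : ℝ) ⟪(v : E4), (u : E4)⟫ with h | h | h
    · rw [hpos v u h, hneg v (-u) (by rw [e]; linarith)]; decide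
    · unfold sS
      rw [e, ← h]
      simp only [neg_zero, lt_self_iff_false, if_false, tie_odd u, add_assoc]
    · rw [hneg v u h, hpos v (-u) (by rw [e]; linarith)]; decide
  · unfold sS
    rw [real_inner_comm, add_comm (tie v)]

theorem Sym0.near {s0 : S3 → S3 → ZMod 2} (h0 : Sym0 s0) {x v v' w : S3} {e : ℝ}
    (h : s0 x v ≠ s0 x v') (h1 : dist v w < e) (h2 : dist v' w < e) :
    |⟪(x : E4), (w : E4)⟫| < e := by
  have key : ∀ v : S3, dist v w < e →
      |⟪(x : E4), (v : E4)⟫ - ⟪(x : E4), (w : E4)⟫| < e := by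
    intro v hv
    rw [← inner_sub_right]
    have := abs_real_inner_le_norm (x : E4) ((v : E4) - (w : E4))
    rw [S3.norm x, one_mul, ← dist_eq_norm] at this
    exact lt_of_le_of_lt this hv
  have k1 := abs_lt.1 (key v h1)
  have k2 := abs_lt.1 (key v' h2)
  set A := ⟪(x : E4), (v : E4)⟫ with hA
  set B := ⟪(x : E4), (v' : E4)⟫ with hB
  rw [abs_lt]
  rcases lt_or_ge 0 A with hA0 | hA0
  · have hB0 : B ≤ 0 := by
      by_contra hc
      push Not at hc
      exact h (by rw [h0.pos x v hA0, h0.pos x v' hc])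
    constructor <;> linarith
  · rcases lt_or_ge 0 B with hB0 | hB0
    · constructor <;> linarith
    · have : A = 0 ∨ B = 0 := by
        by_contra hc
        push Not at hc
        exact h (by rw [h0.neg x v (lt_of_le_of_ne hA0 hc.1), h0.neg x v' (lt_of_le_of_ne hB0 hc.2)])
      rcases this with h0 | h0
      · constructor <;> linarith
      · constructor <;> linarith

theorem inner_move (v v' u : S3) : |⟪(v' : E4), (u : E4)⟫| ≤ |⟪(v : E4), (u : E4)⟫| + dist v v' := by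
  have h1 : ⟪(v' : E4), (u : E4)⟫ = ⟪(v : E4), (u : E4)⟫ - ⟪(v : E4) - (v' : E4), (u : E4)⟫ := by
    rw [inner_sub_left]; ring
  have h2 := abs_real_inner_le_norm ((v : E4) - (v' : E4)) (u : E4)
  rw [S3.norm u, mul_one, ← dist_eq_norm] at h2
  rw [h1]
  exact (abs_sub _ _).trans (by
    have : dist (v : E4) (v' : E4) = dist v v' := rfl
    linarith)

/-- the shape of the lists of a fundamental chain -/
def FP (k : ℕ) (e : ℝ) (X : Set S3) (l : List S3) : Prop :=
  l.length = k + 1 ∧ (∀ v ∈ l, ∀ w ∈ l, dist v w < e) ∧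
    ∀ x ∈ X, ∀ v ∈ l, |⟪(x : E4), (v : E4)⟫| < e

/-- **Plane lemma on `S³`**, given the line lemma and the index -/
theorem plane_geo {c : E4 → Fin 10} {d : ℝ} (hc : Col c d) {e δ : ℝ} (hδ : δ + e < d)
    (he2 : 2 * e < d) {X : Set S3} {x : S3} (hx : x ∈ X) {A : Finset (Fin 10)} (hA4 : A.card = 4)
    (hA : Near c δ x A) {s0 : S3 → S3 → ZMod 2} (h0 : Sym0 s0) {z : Ch S3} (hz : Fund 2 e X z)
    (HL : ∀ (y : S3) (z1 : Ch S3), |⟪(x : E4), (y : E4)⟫| < e → Fund 1 e (insert y X) z1 →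
      ∀ k l m : Fin 10, k ≠ l → k ≠ m → l ≠ m →
      z1 ∈ supp (fun L : List S3 => FP 1 e (insert y X) L ∧ ∀ v ∈ L, c v = k ∨ c v = l ∨ c v = m) →
      ev (PB.chi (fun v : S3 => c v) {k, l}) z1 = 1)
    (hidx : ∀ o : Fin 10 → Fin 6, Set.InjOn o ((Aᶜ : Finset (Fin 10)) : Set (Fin 10)) →
      PB.dd z (PB.Wcup s0 (PB.A3 (fun v : S3 => o (c v)))) = 1)
    {t : Finset (Fin 10)} (ht : t ⊆ Aᶜ) (ht3 : t.card = 3) :
    ev (PB.chi (fun v : S3 => c v) t) z + ev (PB.chi (fun v : S3 => c v) (Aᶜ \ t)) z = 1 := by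
  have hS : (Aᶜ : Finset (Fin 10)).card = 6 := by
    rw [Finset.card_compl, hA4]; rfl
  have hcA : ∀ v : S3, |⟪(x : E4), (v : E4)⟫| < e → c v ∉ A := fun v hv =>
    color_notin hc.sep hδ (S3.norm v) hv.le hA
  -- nearly orthogonal to the head of a fine list: colours differ
  have hne : ∀ v0 v u : S3, dist v0 v < e → |⟪(v0 : E4), (u : E4)⟫| < e → c v ≠ c u := by
    intro v0 v u hv hu heq
    have h1 := hc.sep v u (S3.norm v) (S3.norm u) heq
    have h2 := inner_move v0 v u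
    linarith
  refine PB.plane_final z (FP 2 e X) hz.mem (fun l hl => hl.1) (fun v : S3 => c v) Aᶜ hS
    (fun l hl v hv => by
      rw [Finset.mem_compl]
      exact hcA v (hl.2.2 x hx v hv)) s0 ?_ ?_ hidx ht ht3
  · intro v0 v1 v2 u0 u1 u2 hs hu hdiff v hv u hu'
    have hun : |⟪(v0 : E4), (u : E4)⟫| < e := by
      refine h0.near hdiff (hu.2.1 u0 (by simp) u (by simp at hu' ⊢; tauto))
        (hu.2.1 u1 (by simp) u (by simp at hu' ⊢; tauto))
    exact hne v0 v u (hs.2.1 v0 (by simp) v hv) hun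
  · intro v0 v1 v2 hs h01 h02 h12 p q hp hq hpq p0 p1 p2 q0 q1 q2
    rw [← ev_cap]
    have hF : Fund 1 e (insert v0 X) (S69.cap (s0 v0) z) :=
      hz.cap_gen v0 (h0.odd v0) (fun v v' w h h1 h2 => h0.near h h1 h2)
    -- the third colour
    set ρ : Finset (Fin 10) := {c v0, c v1, c v2} with hρ
    have hρ3 : ρ.card = 3 := by
      rw [hρ, Finset.card_eq_three]
      exact ⟨_, _, _, h01, h02, h12, rfl⟩
    have hρA : ∀ a ∈ ρ, a ∉ A := by
      intro a ha
      simp only [hρ, Finset.mem_insert, Finset.mem_singleton] at ha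
      rcases ha with rfl | rfl | rfl
      · exact hcA v0 (hs.2.2 x hx v0 (by simp))
      · exact hcA v1 (hs.2.2 x hx v1 (by simp))
      · exact hcA v2 (hs.2.2 x hx v2 (by simp))
    have hU : (A ∪ ρ).card = 7 := by
      rw [Finset.card_union_of_disjoint, hA4, hρ3]
      rw [Finset.disjoint_right]; exact hρA
    have hC : ((A ∪ ρ)ᶜ).card = 3 := by rw [Finset.card_compl, hU]; rfl
    have hpC : p ∈ (A ∪ ρ)ᶜ := by
      simp only [hρ, Finset.mem_compl, Finset.mem_union, Finset.mem_insert, Finset.mem_singleton,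
        not_or]
      exact ⟨Finset.mem_compl.1 hp, p0, p1, p2⟩
    have hqC : q ∈ (A ∪ ρ)ᶜ := by
      simp only [hρ, Finset.mem_compl, Finset.mem_union, Finset.mem_insert, Finset.mem_singleton,
        not_or]
      exact ⟨Finset.mem_compl.1 hq, q0, q1, q2⟩
    obtain ⟨r, hr⟩ : ∃ r, (A ∪ ρ)ᶜ = {p, q, r} ∧ p ≠ r ∧ q ≠ r := by
      have h2 : (((A ∪ ρ)ᶜ).erase p).erase q = (((A ∪ ρ)ᶜ).erase p).erase q := rfl
      have h3 : ((((A ∪ ρ)ᶜ).erase p).erase q).card = 1 := by
        rw [Finset.card_erase_of_mem, Finset.card_erase_of_mem hpC, hC]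
        exact Finset.mem_erase.2 ⟨hpq.symm, hqC⟩
      obtain ⟨r, hr⟩ := Finset.card_eq_one.1 h3
      have hrm : r ∈ (((A ∪ ρ)ᶜ).erase p).erase q := by rw [hr]; simp
      have hr1 := (Finset.mem_erase.1 hrm).1
      have hr2 := (Finset.mem_erase.1 (Finset.mem_erase.1 hrm).2).1
      refine ⟨r, ?_, hr2.symm, hr1.symm⟩
      rw [← Finset.insert_erase hpC, ← Finset.insert_erase
        (Finset.mem_erase.2 ⟨hpq.symm, hqC⟩ : q ∈ ((A ∪ ρ)ᶜ).erase p), hr]
    obtain ⟨hr, hpr, hqr⟩ := hr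
    refine HL v0 _ (hs.2.2 x hx v0 (by simp)) hF p q r hpq hpr hqr ?_
    have hcol : ∀ L : List S3, FP 1 e (insert v0 X) L → ∀ v ∈ L, c v = p ∨ c v = q ∨ c v = r := by
      intro L hL v hv
      have h1 : c v ∉ A := hcA v (hL.2.2 x (Set.mem_insert_of_mem _ hx) v hv)
      have h2 : |⟪(v0 : E4), (v : E4)⟫| < e := hL.2.2 v0 (Set.mem_insert _ _) v hv
      have h3 : c v ∉ ρ := by
        simp only [hρ, Finset.mem_insert, Finset.mem_singleton, not_or]
        exact ⟨fun h => hne v0 v0 v (hs.2.1 v0 (by simp) v0 (by simp)) h2 h.symm,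
          fun h => hne v0 v1 v (hs.2.1 v0 (by simp) v1 (by simp)) h2 h.symm,
          fun h => hne v0 v2 v (hs.2.1 v0 (by simp) v2 (by simp)) h2 h.symm⟩
      have h4 : c v ∈ (A ∪ ρ)ᶜ := by
        rw [Finset.mem_compl, Finset.mem_union, not_or]; exact ⟨h1, h3⟩
      rw [hr] at h4
      simpa using h4
    exact supp_mono (fun L hL => ⟨hL, hcol L hL⟩) hF.mem

end Crest.Agent.S69
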