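import Crest.Agent.S69.Dbl
import Crest.Agent.S69.Cap
import Crest.Agent.S69.DetS
import Crest.Agent.S69.Ord
import Crest.Agent.S69.PlaneGeo

set_option autoImplicit false

/-!
# S0069: the index of a plane (instantiation of `Dbl.plane_alg` on `S³`)
-/
namespace Crest.Agent.S69.PlaneIdx

open Crest.Agent.BU Crest.Agent.S69.Dbl
open scoped RealInnerProductSpace

theorem one2_eq {V : Type*} (s t : List V) : OC.one2 s t = Dbl.One s t := by
  match s, t with
  | [], t => simp [OC.one2, Dbl.One, len1]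
  | [v], [] => simp [OC.one2, Dbl.One, len1]
  | [v], [u] => simp [OC.one2, Dbl.One, len1]
  | [v], u :: u' :: t => simp [OC.one2, Dbl.One, len1]
  | v :: v' :: s, t => simp [OC.one2, Dbl.One, len1]

theorem Wcup_const {V : Type*} (g : V → V → ZMod 2) (F : DC V) (s t : List V)
    (h : ∀ v ∈ s, ∀ v' ∈ s, ∀ u ∈ t, ∀ u' ∈ t, g v u = g v' u') : Wcup g F s t = 0 := by
  have e1 : W1 g F s t = 0 := by
    match s, t, h with
    | [], t, _ => simp [W1]
    | [v], t, _ => cases t <;> simp [W1]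
    | v :: v' :: s, [], _ => simp [W1]
    | v :: v' :: s, u :: t, h =>
      simp only [W1]
      rw [h v (by simp) v' (by simp) u (by simp) u (by simp), add_self2, zero_mul]
  have e2 : W2 g F s t = 0 := by
    match s, t, h with
    | [], t, _ => simp [W2]
    | v :: s, [], _ => simp [W2]
    | v :: s, [u], _ => simp [W2]
    | v :: s, u :: u' :: t, h =>
      simp only [W2]
      rw [h v (by simp) v (by simp) u (by simp) u' (by simp), add_self2, zero_mul]
  simp only [Wcup, e1, e2, add_zero]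

/-- near-orthogonal pairs of fine lists near `x^⊥` -/
def NO (e : ℝ) (x : S3) (s t : List S3) : Prop :=
  (∀ v ∈ s, ∀ w ∈ s, dist v w < e) ∧ (∀ v ∈ t, ∀ w ∈ t, dist v w < e) ∧
    (∀ v ∈ s, |⟪(x : E4), (v : E4)⟫| < e) ∧ (∀ v ∈ t, |⟪(x : E4), (v : E4)⟫| < e) ∧
    ∀ v ∈ s, ∀ u ∈ t, |⟪(v : E4), (u : E4)⟫| ≤ 2 * e

theorem NO.tail1 {e : ℝ} {x : S3} (v v' : S3) (s t : List S3) (h : NO e x (v :: v' :: s) t) :
    NO e x (v' :: s) t := by
  obtain ⟨h1, h2, h3, h4, h5⟩ := h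
  exact ⟨fun a ha b hb => h1 a (List.mem_cons_of_mem _ ha) b (List.mem_cons_of_mem _ hb), h2,
    fun a ha => h3 a (List.mem_cons_of_mem _ ha), h4,
    fun a ha b hb => h5 a (List.mem_cons_of_mem _ ha) b hb⟩

theorem NO.tail2 {e : ℝ} {x : S3} (s : List S3) (v v' : S3) (t : List S3)
    (h : NO e x s (v :: v' :: t)) : NO e x s (v' :: t) := by
  obtain ⟨h1, h2, h3, h4, h5⟩ := h
  exact ⟨h1, fun a ha b hb => h2 a (List.mem_cons_of_mem _ ha) b (List.mem_cons_of_mem _ hb),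
    h3, fun a ha => h4 a (List.mem_cons_of_mem _ ha),
    fun a ha b hb => h5 a ha b (List.mem_cons_of_mem _ hb)⟩

theorem ne_of_add_ne {a b : ZMod 2} (h : a + b ≠ 0) : a ≠ b := by
  intro h'
  rw [h'] at h
  exact h (add_self2 b)

/-- **the index of the plane `x^⊥`** -/
theorem plane_idx {e : ℝ} (he : e ≤ 1 / 20) {X : Set S3} {x : S3} (hx : x ∈ X) {z : Ch S3}
    (hz : Fund 2 e X z) {σ : S3 → S3 → ZMod 2} (hσ : Sym0 σ) (o : S3 → ℕ)
    (heven : ∀ v, o (-v) = o v)
    (hne : ∀ v u : S3, |⟪(x : E4), (v : E4)⟫| < e → |⟪(x : E4), (u : E4)⟫| < e →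
      |⟪(v : E4), (u : E4)⟫| ≤ 2 * e → o v ≠ o u) :
    dd z (Wcup σ (OC.A3 o)) = 1 := by
  obtain ⟨g, g1, g2, g3, g4⟩ := exists_planeS x
  have hst : St (Neg.neg : S3 → S3) z := fun G hG => hz.stokes (by norm_num) G hG
  have hpar : ∀ j, Par (Neg.neg : S3 → S3) (g j) 1 1 := fun j => ⟨g1 j, g2 j⟩
  have hparσ : Par (Neg.neg : S3 → S3) σ 1 1 := by
    refine ⟨fun v u => ?_, fun v u => hσ.odd v u⟩
    rw [hσ.comm (-v) u, hσ.odd u v, hσ.comm u v]
  have hanti : ∀ j, ∀ s t, NO e x s t → ∀ v ∈ s, ∀ u ∈ t, g j v u + g j u v = 1 := by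
    intro j s t h v hv u hu
    have h1 := h.2.2.2.2 v hv u hu
    rw [g3 j v u (by linarith)]
    have := add_self2 (g j v u)
    linear_combination this
  have hdis : ∀ s t, NO e x s t → OC.Dis o s t := fun s t h v hv u hu =>
    hne v u (h.2.2.1 v hv) (h.2.2.2.1 u hu) (h.2.2.2.2 v hv u hu)
  have hW1 : ∀ (v v' : S3) (s : List S3) (u : S3) (t : List S3), FP 2 e X (v :: v' :: s) →
      FP 2 e X (u :: t) → σ v u + σ v' u ≠ 0 → NO e x (v' :: s) (u :: t) := by
    intro v v' s u t hs ht hc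
    have hc' : σ u v ≠ σ u v' := by
      rw [hσ.comm u v, hσ.comm u v']
      exact ne_of_add_ne hc
    refine ⟨fun a ha b hb => hs.2.1 a (List.mem_cons_of_mem _ ha) b (List.mem_cons_of_mem _ hb),
      ht.2.1, fun a ha => hs.2.2 x hx a (List.mem_cons_of_mem _ ha), fun a ha => ht.2.2 x hx a ha,
      fun w hw u' hu' => ?_⟩
    have h1 : |⟪(u : E4), (w : E4)⟫| < e := hσ.near hc'
      (hs.2.1 v (by simp) w (List.mem_cons_of_mem _ hw))
      (hs.2.1 v' (by simp) w (List.mem_cons_of_mem _ hw))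
    have h2 := inner_move u u' w
    have h3 := ht.2.1 u (by simp) u' hu'
    rw [real_inner_comm]
    linarith
  have hW2 : ∀ (v : S3) (s : List S3) (u u' : S3) (t : List S3), FP 2 e X (v :: s) →
      FP 2 e X (u :: u' :: t) → σ v u + σ v u' ≠ 0 → NO e x (v :: s) (u' :: t) := by
    intro v s u u' t hs ht hc
    have hc' : σ v u ≠ σ v u' := ne_of_add_ne hc
    refine ⟨hs.2.1,
      fun a ha b hb => ht.2.1 a (List.mem_cons_of_mem _ ha) b (List.mem_cons_of_mem _ hb),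
      fun a ha => hs.2.2 x hx a ha, fun a ha => ht.2.2 x hx a (List.mem_cons_of_mem _ ha),
      fun w hw w' hw' => ?_⟩
    have h1 : |⟪(v : E4), (w' : E4)⟫| < e := hσ.near hc'
      (ht.2.1 u (by simp) w' (List.mem_cons_of_mem _ hw'))
      (ht.2.1 u' (by simp) w' (List.mem_cons_of_mem _ hw'))
    have h2 := inner_move v w w'
    have h3 := hs.2.1 v (by simp) w hw
    linarith
  have hWpre := pre_W (P := FP 2 e X) (NO := NO e x) hparσ hσ.comm hW1 hW2
  refine plane_alg (nu := (Neg.neg : S3 → S3)) (P := FP 2 e X) (NO := NO e x)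
    NO.tail1 NO.tail2 (fun l hl => hl.1) hz.mem hst (e := tie) tie_odd ?_ hparσ hσ.comm
    hW1 hW2 (hpar 0) (hpar 1) (hpar 2) (hanti 0) (hanti 1) (hanti 2)
    (A0 := OC.A0 o) (A1 := OC.A1 o) (A2 := OC.A2 o) (A3 := OC.A3 o)
    ⟨fun t => OC.A0_eq_zero (Or.inl (by simp)), fun s => OC.A0_eq_zero (Or.inr (by simp))⟩
    ⟨fun t => OC.A1_eq_zero (Or.inl (by simp)), fun s => OC.A1_eq_zero (Or.inr (by simp))⟩
    ⟨fun t => OC.A2_eq_zero (Or.inl (by simp)), fun s => OC.A2_eq_zero (Or.inr (by simp))⟩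
    ⟨fun t => OC.A3_eq_zero (Or.inl (by simp)), fun s => OC.A3_eq_zero (Or.inr (by simp))⟩
    ⟨OC.A0_left heven, OC.A0_right heven⟩ ⟨OC.A1_left heven, OC.A1_right heven⟩
    ⟨OC.A2_left heven, OC.A2_right heven⟩
    (fun s t h => by rw [OC.A0_add (hdis s t h), one2_eq])
    (fun s t h => OC.A1_add (hdis s t h))
    (fun s t h => OC.A2_add (hdis s t h))
    (fun s t h => OC.A3_add (hdis s t h)) ?_
  · have h1 := hz.cup [tie, tie] rfl (by
      intro a ha
      simp only [List.mem_cons, List.not_mem_nil, or_false, or_self] at ha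
      rw [ha]; exact tie_odd)
    rw [← h1]
    refine ev_congr (fun l hl => ?_) hz.mem
    obtain ⟨hl, -, -⟩ := hl
    match l, hl with
    | [a, b, c], _ => simp [mw, wprod, wcup, len1]
  · intro s t hs ht
    have key : ∀ s t, NO e x s t →
        Wcup (g 0) (Wcup (g 1) (Wcup (g 2) (OC.A0 o))) s t = (0 : DC S3) s t := by
      intro s t h
      obtain ⟨j, hj⟩ := g4 s t (fun v hv => by linarith [h.2.2.1 v hv])
        (fun v hv => by linarith [h.2.2.2.1 v hv])
        (fun v hv w hw => by linarith [h.1 v hv w hw])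
        (fun v hv w hw => by linarith [h.2.1 v hv w hw])
        (fun v hv w hw => by linarith [h.2.2.2.2 v hv w hw])
      -- the hereditary predicate "g j is constant on s × t"
      set Q : List S3 → List S3 → Prop := fun s t =>
        ∀ v ∈ s, ∀ v' ∈ s, ∀ u ∈ t, ∀ u' ∈ t, g j v u = g j v' u' with hQ
      have q1 : ∀ (v v' : S3) (s t : List S3), Q (v :: v' :: s) t → Q (v' :: s) t :=
        fun v v' s t h a ha b hb => h a (List.mem_cons_of_mem _ ha) b (List.mem_cons_of_mem _ hb)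
      have q2 : ∀ (s : List S3) (v v' : S3) (t : List S3), Q s (v :: v' :: t) → Q s (v' :: t) :=
        fun s v v' t h a ha b hb u hu u' hu' =>
          h a ha b hb u (List.mem_cons_of_mem _ hu) u' (List.mem_cons_of_mem _ hu')
      have push : ∀ (g' : S3 → S3 → ZMod 2) (F : DC S3), (∀ s t, Q s t → F s t = 0) →
          ∀ s t, Q s t → Wcup g' F s t = 0 := by
        intro g' F hF s t hst
        rw [Wcup_loc (NO := Q) q1 q2 g' F 0 hF s t hst, Wcup_zero]
        rfl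
      have base : ∀ (F : DC S3) s t, Q s t → Wcup (g j) F s t = 0 := fun F s t hst =>
        Wcup_const (g j) F s t hst
      show Wcup (g 0) (Wcup (g 1) (Wcup (g 2) (OC.A0 o))) s t = 0
      fin_cases j
      · exact base _ s t hj
      · exact push _ _ (base _) s t hj
      · exact push _ _ (push _ _ (base _)) s t hj
    rw [hWpre.loc _ 0 key s t hs ht, Wcup_zero]
    rfl

theorem PB_Wcup_eq {V : Type} (σ : V → V → ZMod 2) (F : List V → List V → ZMod 2) :
    PB.Wcup σ F = Wcup σ F := by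
  funext s t
  match s, t with
  | [], t => cases t <;> simp [PB.Wcup, Wcup, W1, W2]
  | [v], [] => simp [PB.Wcup, Wcup, W1, W2]
  | [v], [u] => simp [PB.Wcup, Wcup, W1, W2]
  | [v], u :: u' :: t => simp [PB.Wcup, Wcup, W1, W2]
  | v :: v' :: s, [] => simp [PB.Wcup, Wcup, W1, W2]
  | v :: v' :: s, [u] => simp [PB.Wcup, Wcup, W1, W2]
  | v :: v' :: s, u :: u' :: t => simp [PB.Wcup, Wcup, W1, W2]

theorem B2_eq_a2 (a b p q : Fin 6) : PB.B2 a b p q = OC.a2 a b p q := by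
  revert a b p q
  decide +kernel

theorem PB_A3_eq {V : Type} (k : V → Fin 6) (s t : List V) :
    PB.A3 k s t = OC.A3 (fun v => (k v : ℕ)) s t := by
  unfold PB.A3 OC.A3
  refine OC.cbd_congr (fun s' _ _ => ?_)
  unfold PB.A2 OC.A2
  split <;> simp [B2_eq_a2]

/-- the form needed in `plane_geo` -/
theorem plane_idx_PB {e : ℝ} (he : e ≤ 1 / 20) {X : Set S3} {x : S3} (hx : x ∈ X) {z : Ch S3}
    (hz : Fund 2 e X z) {σ : S3 → S3 → ZMod 2} (hσ : Sym0 σ) (k : S3 → Fin 6)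
    (heven : ∀ v, k (-v) = k v)
    (hne : ∀ v u : S3, |⟪(x : E4), (v : E4)⟫| < e → |⟪(x : E4), (u : E4)⟫| < e →
      |⟪(v : E4), (u : E4)⟫| ≤ 2 * e → k v ≠ k u) :
    PB.dd z (PB.Wcup σ (PB.A3 k)) = 1 := by
  have h1 := plane_idx he hx hz hσ (fun v => (k v : ℕ)) (fun v => by simp only [heven v])
    (fun v u h1 h2 h3 h4 => hne v u h1 h2 h3 (Fin.val_injective h4))
  have e3 : PB.A3 k = OC.A3 (fun v => (k v : ℕ)) := by
    funext s t; exact PB_A3_eq k s t
  rw [PB_Wcup_eq, e3]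
  exact h1

/-- **the plane lemma on `S³`**, given the line lemma -/
theorem plane_of_line {c : E4 → Fin 10} {d : ℝ} (hc : Col c d) {e δ : ℝ} (hδ : δ + e < d)
    (he2 : 2 * e < d) (he : e ≤ 1 / 20) {X : Set S3} {x : S3} (hx : x ∈ X)
    {A : Finset (Fin 10)} (hA4 : A.card = 4)
    (hA : Near c δ x A) {s0 : S3 → S3 → ZMod 2} (h0 : Sym0 s0) {z : Ch S3} (hz : Fund 2 e X z)
    (HL : ∀ (y : S3) (z1 : Ch S3), |⟪(x : E4), (y : E4)⟫| < e → Fund 1 e (insert y X) z1 →
      ∀ k l m : Fin 10, k ≠ l → k ≠ m → l ≠ m →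
      z1 ∈ supp (fun L : List S3 => FP 1 e (insert y X) L ∧ ∀ v ∈ L, c v = k ∨ c v = l ∨ c v = m) →
      ev (PB.chi (fun v : S3 => c v) {k, l}) z1 = 1)
    {t : Finset (Fin 10)} (ht : t ⊆ Aᶜ) (ht3 : t.card = 3) :
    ev (PB.chi (fun v : S3 => c v) t) z + ev (PB.chi (fun v : S3 => c v) (Aᶜ \ t)) z = 1 := by
  refine plane_geo hc hδ he2 hx hA4 hA h0 hz HL (fun o ho => ?_) ht ht3
  have hcA : ∀ v : S3, |⟪(x : E4), (v : E4)⟫| < e → c v ∉ A := fun v hv =>
    color_notin hc.sep hδ (S3.norm v) hv.le hA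
  refine plane_idx_PB he hx hz h0 (fun v : S3 => o (c v)) (fun v => ?_) (fun v u hv hu hvu heq => ?_)
  · show o (c ((-v : S3) : E4)) = o (c v)
    rw [coe_neg_S3, hc.even]
  · have h1 : c (v : E4) = c (u : E4) := ho (by simpa using hcA v hv) (by simpa using hcA u hu) heq
    have h2 := hc.sep v u (S3.norm v) (S3.norm u) h1
    linarith

end Crest.Agent.S69.PlaneIdx
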