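import Crest.Agent.S69.Defs
import Crest.Agent.S69.Frame
import Crest.Agent.S69.Geo

set_option autoImplicit false

/-!
# S0069: labels on the sphere of traceless symmetric matrices (plumbing)
-/
namespace Crest.Agent.S69

open scoped RealInnerProductSpace

abbrev U5 := Fin 5 → ℝ

/-- What we need from the eigenvector labels: `e u` = unit top eigenvector, `a` = which end of the
spectrum dominates. -/
structure Lab (e : U5 → E3) (a : U5 → ZMod 2) (η ε : ℝ) : Prop where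
  unit : ∀ u : U5, ∑ i, |u i| = 1 → ‖e u‖ = 1
  odd : ∀ u : U5, ∑ i, |u i| = 1 → a (-u) = a u + 1
  same : ∀ u u' : U5, ∑ i, |u i| = 1 → ∑ i, |u' i| = 1 → ‖u - u'‖ < ε → a u = 0 → a u' = 0 →
    ‖e u' - e u‖ ≤ η ∨ ‖e u' + e u‖ ≤ η
  orth : ∀ u u' : U5, ∑ i, |u i| = 1 → ∑ i, |u' i| = 1 → ‖u - u'‖ < ε → a u = 0 → a u' = 1 →
    |⟪e u, e (-u')⟫| ≤ η

/-- the eigenvector attached to `u` -/
noncomputable def EE (e : U5 → E3) (a : U5 → ZMod 2) (u : U5) : E3 := if a u = 0 then e u else e (-u)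

theorem zmod2_cases (z : ZMod 2) : z = 0 ∨ z = 1 := by
  fin_cases z
  · exact Or.inl rfl
  · exact Or.inr rfl

theorem l1_neg {u : U5} (h : ∑ i, |u i| = 1) : ∑ i, |(-u) i| = 1 := by
  simpa using h

variable {e : U5 → E3} {a : U5 → ZMod 2} {η ε : ℝ}

theorem Lab.EE_unit (L : Lab e a η ε) {u : U5} (hu : ∑ i, |u i| = 1) : ‖EE e a u‖ = 1 := by
  unfold EE
  split_ifs
  · exact L.unit u hu
  · exact L.unit _ (l1_neg hu)

theorem Lab.EE_neg (L : Lab e a η ε) {u : U5} (hu : ∑ i, |u i| = 1) : EE e a (-u) = EE e a u := by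
  unfold EE
  rw [L.odd u hu]
  rcases zmod2_cases (a u) with h | h
  · rw [h]; simp
  · rw [h]
    have : (1 : ZMod 2) + 1 = 0 := by decide
    rw [this]; simp

theorem Lab.EE_same (L : Lab e a η ε) {u u' : U5} (hu : ∑ i, |u i| = 1) (hu' : ∑ i, |u' i| = 1)
    (h : ‖u - u'‖ < ε) (ha : a u = a u') :
    ‖EE e a u' - EE e a u‖ ≤ η ∨ ‖EE e a u' + EE e a u‖ ≤ η := by
  rcases zmod2_cases (a u) with h0 | h0
  · have h1 : a u' = 0 := by rw [← ha, h0]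
    have := L.same u u' hu hu' h h0 h1
    simpa [EE, h0, h1] using this
  · have h1 : a u' = 1 := by rw [← ha, h0]
    have e1 : (1 : ZMod 2) + 1 = 0 := by decide
    have := L.same (-u) (-u') (l1_neg hu) (l1_neg hu') (by
      rw [← neg_sub', norm_neg]; exact h) (by rw [L.odd u hu, h0, e1])
      (by rw [L.odd u' hu', h1, e1])
    simpa [EE, h0, h1] using this

theorem Lab.EE_orth (L : Lab e a η ε) {u u' : U5} (hu : ∑ i, |u i| = 1) (hu' : ∑ i, |u' i| = 1)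
    (h : ‖u - u'‖ < ε) (ha : a u ≠ a u') : |⟪EE e a u, EE e a u'⟫| ≤ η := by
  rcases zmod2_cases (a u) with h0 | h0 <;> rcases zmod2_cases (a u') with h1 | h1
  · exact absurd (h0.trans h1.symm) ha
  · have := L.orth u u' hu hu' h h0 h1
    simpa [EE, h0, h1] using this
  · have := L.orth u' u hu' hu (by rw [norm_sub_rev]; exact h) h1 h0
    rw [real_inner_comm] at this
    simpa [EE, h0, h1] using this
  · exact absurd (h0.trans h1.symm) ha

/-- the colour attached to the pair `(x, u)` -/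
noncomputable def gp (c : E4 → Fin 10) (e : U5 → E3) (a : U5 → ZMod 2) (p : E4 × U5) : Fin 10 :=
  c (fr p.1 (EE e a p.2))

/-- fine lists of pairs -/
def FineP (ρ ε : ℝ) (l : List (E4 × U5)) : Prop :=
  (∀ p ∈ l, ‖p.1‖ = 1 ∧ ∑ i, |p.2 i| = 1) ∧
    ∀ p ∈ l, ∀ q ∈ l, ‖p.1 - q.1‖ ≤ ρ ∧ ‖p.2 - q.2‖ < ε

theorem norm_frEE (L : Lab e a η ε) {p : E4 × U5} (h : ‖p.1‖ = 1 ∧ ∑ i, |p.2 i| = 1) :
    ‖fr p.1 (EE e a p.2)‖ = 1 := by
  rw [norm_fr, h.1, L.EE_unit h.2, one_mul]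

theorem frEE_orth (L : Lab e a η ε) {ρ : ℝ} {p q : E4 × U5} (hp : ‖p.1‖ = 1 ∧ ∑ i, |p.2 i| = 1)
    (hq : ‖q.1‖ = 1 ∧ ∑ i, |q.2 i| = 1) (h : ‖p.1 - q.1‖ ≤ ρ ∧ ‖p.2 - q.2‖ < ε)
    (ha : a p.2 ≠ a q.2) : |⟪fr p.1 (EE e a p.2), fr q.1 (EE e a q.2)⟫| ≤ η + ρ := by
  have h1 := L.EE_orth hp.2 hq.2 h.2 ha
  have h2 : ⟪fr p.1 (EE e a p.2), fr q.1 (EE e a q.2)⟫
      = ⟪EE e a p.2, EE e a q.2⟫ - ⟪fr p.1 (EE e a p.2), fr (p.1 - q.1) (EE e a q.2)⟫ := by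
    rw [fr_sub_left, inner_sub_right, fr_inner, hp.1]; ring
  have h3 : |⟪fr p.1 (EE e a p.2), fr (p.1 - q.1) (EE e a q.2)⟫| ≤ ρ := by
    refine (abs_real_inner_le_norm _ _).trans ?_
    rw [norm_frEE L hp, norm_fr, L.EE_unit hq.2, one_mul, mul_one]
    exact h.1
  rw [h2]
  exact (abs_sub _ _).trans (by linarith)

/-- opposite sides have different colours -/
theorem gp_ne {c : E4 → Fin 10} {d : ℝ} (hc : Col c d) (L : Lab e a η ε) {ρ : ℝ}
    (hρ : η + ρ < d) {p q : E4 × U5} (hp : ‖p.1‖ = 1 ∧ ∑ i, |p.2 i| = 1)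
    (hq : ‖q.1‖ = 1 ∧ ∑ i, |q.2 i| = 1) (h : ‖p.1 - q.1‖ ≤ ρ ∧ ‖p.2 - q.2‖ < ε)
    (ha : a p.2 ≠ a q.2) : gp c e a p ≠ gp c e a q := by
  intro heq
  have h1 := hc.sep _ _ (norm_frEE L hp) (norm_frEE L hq) heq
  have h2 := frEE_orth L hp hq h ha
  linarith

theorem frEE_close (L : Lab e a η ε) {ρ : ℝ} {p q : E4 × U5} (hp : ‖p.1‖ = 1 ∧ ∑ i, |p.2 i| = 1)
    (hq : ‖q.1‖ = 1 ∧ ∑ i, |q.2 i| = 1) (h : ‖p.1 - q.1‖ ≤ ρ ∧ ‖p.2 - q.2‖ < ε)
    (ha : a p.2 = a q.2) : ‖fr p.1 (EE e a p.2) - fr q.1 (EE e a q.2)‖ ≤ η + ρ ∨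
      ‖fr p.1 (EE e a p.2) + fr q.1 (EE e a q.2)‖ ≤ η + ρ := by
  rcases L.EE_same hp.2 hq.2 h.2 ha with h1 | h1
  · left
    refine (fr_sub_norm _ _ _ _).trans ?_
    rw [L.EE_unit hp.2, hq.1, mul_one, one_mul, ← norm_neg (EE e a p.2 - EE e a q.2), neg_sub]
    linarith [h.1]
  · right
    have e1 : fr p.1 (EE e a p.2) + fr q.1 (EE e a q.2)
        = fr p.1 (EE e a p.2) - fr q.1 (-(EE e a q.2)) := by rw [fr_neg_right]; abel
    rw [e1]
    refine (fr_sub_norm _ _ _ _).trans ?_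
    rw [L.EE_unit hp.2, hq.1, mul_one, one_mul, sub_neg_eq_add, add_comm (EE e a p.2)]
    linarith [h.1]

/-- all colours on the side of `p` are near `fr p.1 (EE p.2)` -/
theorem near_of_side {c : E4 → Fin 10} {d : ℝ} (hc : Col c d) (L : Lab e a η ε) {ρ : ℝ}
    {l : List (E4 × U5)} (hl : FineP ρ ε l) {p : E4 × U5} (hp : p ∈ l) {s : Finset (Fin 10)}
    (hs : ∀ k ∈ s, ∃ q ∈ l, a q.2 = a p.2 ∧ gp c e a q = k) :
    Near c (η + ρ) (fr p.1 (EE e a p.2)) s := by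
  intro k hk
  obtain ⟨q, hq, haq, rfl⟩ := hs k hk
  have hp1 := hl.1 p hp
  have hq1 := hl.1 q hq
  rcases frEE_close L hp1 hq1 (hl.2 p hp q hq) haq.symm with h | h
  · exact ⟨fr q.1 (EE e a q.2), norm_frEE L hq1, h, rfl⟩
  · refine ⟨-fr q.1 (EE e a q.2), by rw [norm_neg]; exact norm_frEE L hq1, ?_, ?_⟩
    · rw [sub_neg_eq_add]; exact h
    · rw [hc.even]; rfl

/-- colours of a whole fine list avoid the colours near `x`, if the list lies over points close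
to `x` -/
theorem gp_notin {c : E4 → Fin 10} {d : ℝ} (hc : Col c d) (L : Lab e a η ε) {δ ρ : ℝ}
    (hρ : δ + ρ < d) {x : E4} {A : Finset (Fin 10)} (hA : Near c δ x A)
    {p : E4 × U5} (hp : ‖p.1‖ = 1 ∧ ∑ i, |p.2 i| = 1) (hx : ‖x - p.1‖ ≤ ρ) :
    gp c e a p ∉ A := by
  refine color_notin hc.sep hρ (norm_frEE L hp) ?_ hA
  have h1 : ⟪x, fr p.1 (EE e a p.2)⟫ = ⟪x - p.1, fr p.1 (EE e a p.2)⟫ := by
    rw [inner_sub_left, real_inner_comm (fr p.1 (EE e a p.2)) p.1, fr_inner_base, sub_zero]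
  rw [h1]
  refine (abs_real_inner_le_norm _ _).trans ?_
  rw [norm_frEE L hp, mul_one]
  exact hx

/-- at most three colours on each side, over a 4-fold point -/
theorem side_card_le {c : E4 → Fin 10} {d : ℝ} (hc : Col c d) (L : Lab e a η ε) {δ ρ : ℝ}
    (hδ : 0 < δ) (hδd : δ + ρ < d) (h1 : η + ρ ≤ δ) {x : E4} {A : Finset (Fin 10)}
    (hA4 : A.card = 4) (hA : Near c δ x A)
    {l : List (E4 × U5)} (hl : FineP ρ ε l) (hx : ∀ p ∈ l, ‖x - p.1‖ ≤ ρ) (hρ0 : 0 ≤ ρ)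
    (σ : ZMod 2) {s : Finset (Fin 10)} (hs : ∀ k ∈ s, ∃ q ∈ l, a q.2 = σ ∧ gp c e a q = k) :
    s.card ≤ 3 := by
  rcases s.eq_empty_or_nonempty with rfl | ⟨k0, hk0⟩
  · simp
  obtain ⟨p, hp, hap, hgp⟩ := hs k0 hk0
  have hn : Near c (η + ρ) (fr p.1 (EE e a p.2)) s :=
    near_of_side hc L hl hp (fun k hk => by
      obtain ⟨q, hq, hq1, hq2⟩ := hs k hk
      exact ⟨q, hq, by rw [hq1, hap], hq2⟩)
  have hn' : near c δ (fr p.1 (EE e a p.2)) s := near_mono hn h1 (Finset.Subset.refl _)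
  have hcard := circle hc.sep hδ (by linarith : δ < d) hA hn'
  have hdisj : Disjoint A s := by
    rw [Finset.disjoint_right]
    intro k hk
    obtain ⟨q, hq, -, rfl⟩ := hs k hk
    exact gp_notin hc L hδd hA (hl.1 q hq) (hx q hq)
  rw [Finset.card_union_of_disjoint hdisj, hA4] at hcard
  omega

/-! ## The sign cochain -/

/-- sign change between two entries -/
noncomputable def w0 (e : U5 → E3) (a : U5 → ZMod 2) (u u' : U5) : ZMod 2 :=
  if ⟪EE e a u, EE e a u'⟫ < 0 then 1 else 0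

theorem w0_comm (u u' : U5) : w0 e a u u' = w0 e a u' u := by
  simp only [w0, real_inner_comm]

theorem inner_of_close {E : Type*} [NormedAddCommGroup E] [InnerProductSpace ℝ E] {v w : E}
    (hv : ‖v‖ = 1) (hw : ‖w‖ = 1) {η : ℝ} (h : ‖w - v‖ ≤ η) :
    1 - η ≤ ⟪v, w⟫ := by
  have h1 : ⟪v, w⟫ = 1 + ⟪v, w - v⟫ := by
    rw [inner_sub_right, real_inner_self_eq_norm_sq, hv]; ring
  have h2 := abs_real_inner_le_norm v (w - v)
  rw [hv, one_mul] at h2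
  have := neg_abs_le ⟪v, w - v⟫
  linarith

theorem three_signs {E : Type*} [NormedAddCommGroup E] [InnerProductSpace ℝ E] {v0 v1 v2 : E}
    (h0 : ‖v0‖ = 1) (h1 : ‖v1‖ = 1) (h2 : ‖v2‖ = 1) {η : ℝ} (hη : η ≤ 1 / 4)
    (h01 : ‖v1 - v0‖ ≤ η ∨ ‖v1 + v0‖ ≤ η) (h02 : ‖v2 - v0‖ ≤ η ∨ ‖v2 + v0‖ ≤ η) :
    ((if ⟪v0, v1⟫ < 0 then 1 else 0) + (if ⟪v1, v2⟫ < 0 then 1 else 0)
      + (if ⟪v0, v2⟫ < 0 then 1 else 0) : ZMod 2) = 0 := by
  have e1 : (1 : ZMod 2) + 1 = 0 := by decide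
  rcases h01 with h01 | h01 <;> rcases h02 with h02 | h02
  · have a1 := inner_of_close h0 h1 h01
    have a2 := inner_of_close h0 h2 h02
    have a3 : 1 - (η + η) ≤ ⟪v1, v2⟫ := inner_of_close h1 h2 (by
      have : v2 - v1 = (v2 - v0) - (v1 - v0) := by abel
      rw [this]; exact (norm_sub_le _ _).trans (by linarith))
    rw [if_neg (by linarith), if_neg (by linarith), if_neg (by linarith)]; simp
  · have a1 := inner_of_close h0 h1 h01
    have a2 : 1 - η ≤ ⟪v0, -v2⟫ := inner_of_close h0 (by rw [norm_neg]; exact h2) (by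
      rw [← norm_neg]; simpa [add_comm] using h02)
    have a3 : 1 - (η + η) ≤ ⟪v1, -v2⟫ := inner_of_close h1 (by rw [norm_neg]; exact h2) (by
      have : -v2 - v1 = -(v2 + v0) - (v1 - v0) := by abel
      rw [this]; exact (norm_sub_le _ _).trans (by rw [norm_neg]; linarith))
    rw [inner_neg_right] at a2 a3
    rw [if_neg (by linarith), if_pos (by linarith), if_pos (by linarith)]; simpa using e1
  · have a1 : 1 - η ≤ ⟪v0, -v1⟫ := inner_of_close h0 (by rw [norm_neg]; exact h1) (by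
      rw [← norm_neg]; simpa [add_comm] using h01)
    have a2 := inner_of_close h0 h2 h02
    have a3 : 1 - (η + η) ≤ ⟪-v1, v2⟫ := inner_of_close (by rw [norm_neg]; exact h1) h2 (by
      have : v2 - -v1 = (v2 - v0) + (v1 + v0) := by abel
      rw [this]; exact (norm_add_le _ _).trans (by linarith))
    rw [inner_neg_right] at a1
    rw [inner_neg_left] at a3
    rw [if_pos (by linarith), if_pos (by linarith), if_neg (by linarith)]; simpa using e1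
  · have a1 : 1 - η ≤ ⟪v0, -v1⟫ := inner_of_close h0 (by rw [norm_neg]; exact h1) (by
      rw [← norm_neg]; simpa [add_comm] using h01)
    have a2 : 1 - η ≤ ⟪v0, -v2⟫ := inner_of_close h0 (by rw [norm_neg]; exact h2) (by
      rw [← norm_neg]; simpa [add_comm] using h02)
    have a3 : 1 - (η + η) ≤ ⟪v1, v2⟫ := inner_of_close h1 h2 (by
      have : v2 - v1 = (v2 + v0) - (v1 + v0) := by abel
      rw [this]; exact (norm_sub_le _ _).trans (by linarith))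
    rw [inner_neg_right] at a1 a2
    rw [if_pos (by linarith), if_neg (by linarith), if_pos (by linarith)]; simpa using e1

/-- `w0` is a cocycle on fine triples of the same side -/
theorem w0_cocycle (L : Lab e a η ε) (hη : η ≤ 1 / 4) {u0 u1 u2 : U5} (h0 : ∑ i, |u0 i| = 1)
    (h1 : ∑ i, |u1 i| = 1) (h2 : ∑ i, |u2 i| = 1) (h01 : ‖u0 - u1‖ < ε) (h02 : ‖u0 - u2‖ < ε)
    (a01 : a u0 = a u1) (a02 : a u0 = a u2) :
    w0 e a u0 u1 + w0 e a u1 u2 + w0 e a u0 u2 = 0 :=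
  three_signs (L.EE_unit h0) (L.EE_unit h1) (L.EE_unit h2) hη (L.EE_same h0 h1 h01 a01)
    (L.EE_same h0 h2 h02 a02)

end Crest.Agent.S69
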