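import Crest.Agent.S69.AlgB

set_option autoImplicit false

/-!
# Telescope for the index of the near-orthogonality locus
-/
namespace Crest.Agent.S69.B

open Crest.Agent.BU

universe u
variable {V : Type u}

/-- double evaluation -/
noncomputable def dd (z : Ch V) (F : DC V) : ZMod 2 := ev (fun s => ev (F s) z) z

theorem dd_Tr (z : Ch V) (F : DC V) : dd z (Tr F) = dd z F := by
  unfold dd Tr
  rw [fub]

theorem dd_add (z : Ch V) (F G : DC V) :
    dd z (fun s t => F s t + G s t) = dd z F + dd z G := by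
  unfold dd
  rw [← ev_add_fun]
  congr 2
  funext s
  exact ev_add_fun _ _ _

/-- relative cycles: supported on `Q`-lists (whose entries satisfy `P`) and killed by coboundaries
of even cochains -/
structure Cyc (T : V → V) (P : V → Prop) (Q : List V → Prop) (z : Ch V) : Prop where
  supp : z ∈ BU.supp Q
  ent : ∀ l, Q l → ∀ v ∈ l, P v
  stokes : ∀ G : List V → ZMod 2, (∀ l, (∀ v ∈ l, P v) → G (l.map T) = G l) → ev (cbd G) z = 0

theorem dd_congr {T : V → V} {P : V → Prop} {Q : List V → Prop} {z : Ch V} (hz : Cyc T P Q z)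
    {F F' : DC V} (h : ∀ s t, Q s → Q t → F s t = F' s t) : dd z F = dd z F' := by
  unfold dd
  refine ev_congr (P := Q) (fun s hs => ?_) hz.supp
  exact ev_congr (P := Q) (fun t ht => h s t hs ht) hz.supp

theorem dd_D {T : V → V} {P : V → Prop} {Q : List V → Prop} {z : Ch V} (hz : Cyc T P Q z)
    {F : DC V} (hF : Ev T P F) : dd z (D F) = 0 := by
  have e : D F = fun s t => (fun s t => cbd (fun s' => F s' t) s) s t +
      (fun s t => cbd (F s) t) s t := rfl
  rw [e, dd_add]
  have h2 : dd z (fun s t => cbd (F s) t) = 0 := by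
    unfold dd
    refine ev_eq_zero (P := Q) (fun s hs => ?_) hz.supp
    exact hz.stokes (F s) (fun l hl => (hF s l (hz.ent s hs) hl).2)
  have h1 : dd z (fun s t => cbd (fun s' => F s' t) s) = 0 := by
    rw [← dd_Tr]
    unfold dd Tr
    refine ev_eq_zero (P := Q) (fun t ht => ?_) hz.supp
    exact hz.stokes (fun s => F s t) (fun l hl => (hF l t hl (hz.ent t ht)).1)
  rw [h1, h2, add_zero]

/-- `s₀` locates near-orthogonal cells -/
def Loc (Q : List V → Prop) (N : V → V → Prop) (s0 : V → V → ZMod 2) : Prop :=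
  ∀ s t, Q s → Q t → (∀ v ∈ s, ∀ v' ∈ s, ∀ u ∈ t, ∀ u' ∈ t, s0 v u = s0 v' u') ∨
    (∀ v ∈ s, ∀ u ∈ t, N v u)

theorem dd_loc {T : V → V} {P : V → Prop} {Q : List V → Prop} {z : Ch V} (hz : Cyc T P Q z)
    {N : V → V → Prop} {s0 : V → V → ZMod 2} (hs0 : Loc Q N s0) {F F' : DC V}
    (h : Eqv P N F F') : dd z (Wc s0 F) = dd z (Wc s0 F') := by
  refine dd_congr hz (fun s t hs ht => ?_)
  rcases hs0 s t hs ht with h1 | h1
  · have key : ∀ G : DC V, Wc s0 G s t = 0 := by
      intro G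
      rcases s with _ | ⟨v, s⟩
      · exact (E0_Wc s0 G).1 t
      rcases t with _ | ⟨u, t⟩
      · exact (E0_Wc s0 G).2 _
      have l1 : Wl s0 G (v :: s) (u :: t) = 0 := by
        rcases s with _ | ⟨v', s⟩
        · rfl
        · simp only [Wl]
          rw [h1 v (by simp) v' (by simp) u (by simp) u (by simp), add_self2, zero_mul]
      have r1 : Wr s0 G (v :: s) (u :: t) = 0 := by
        rcases t with _ | ⟨u', t⟩
        · rfl
        · simp only [Wr]
          rw [h1 v (by simp) v (by simp) u (by simp) u' (by simp), add_self2, zero_mul]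
      simp only [Wc]; rw [l1, r1, add_zero]
    rw [key F, key F']
  · exact Eqv_Wc s0 h s t (hz.ent s hs) (hz.ent t ht) h1

/-- the list of transverse functions: bi-odd, antisymmetric near orthogonal pairs -/
def Good (T : V → V) (P : V → Prop) (N : V → V → Prop) (g : V → V → ZMod 2) : Prop :=
  Bi T P g ∧ ∀ v u, P v → P u → N v u → g v u + g u v = 1

theorem Tr_Wp {T : V → V} {P : V → Prop} {N : V → V → Prop}
    (gs : List (V → V → ZMod 2)) (hgs : ∀ g ∈ gs, Good T P N g) (F : DC V) :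
    Eqv P N (Tr (Wp gs F)) (Wp gs (Tr F)) := by
  induction gs with
  | nil => intro s t _ _ _; rfl
  | cons g gs ih =>
    rw [Wp_cons, Tr_Wc, Wp_cons]
    have ih' := ih (fun g' hg' => hgs g' (by simp [hg']))
    have h1 : Eqv P N (Wc (fun v u => g u v) (Tr (Wp gs F))) (Wc g (Tr (Wp gs F))) := by
      have hg := (hgs g (by simp)).2
      have hg' : ∀ v u, P v → P u → N v u → g u v = g v u + 1 := by
        intro v u hv hu hn
        have := hg v u hv hu hn
        have h2 := add_self2 (g v u)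
        linear_combination this - h2
      intro s t hs ht hN
      rcases s with _ | ⟨v, s⟩
      · rw [(E0_Wc _ _).1, (E0_Wc _ _).1]
      rcases t with _ | ⟨u, t⟩
      · rw [(E0_Wc _ _).2, (E0_Wc _ _).2]
      have hv : P v := hs v (by simp)
      have hu : P u := ht u (by simp)
      have l1 : Wl (fun v u => g u v) (Tr (Wp gs F)) (v :: s) (u :: t) =
          Wl g (Tr (Wp gs F)) (v :: s) (u :: t) := by
        rcases s with _ | ⟨v', s⟩
        · rfl
        · simp only [Wl]
          rw [hg' v u hv hu (hN v (by simp) u (by simp)),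
            hg' v' u (hs v' (by simp)) hu (hN v' (by simp) u (by simp))]
          have := add_self2 (1 : ZMod 2)
          linear_combination (Tr (Wp gs F) (v' :: s) (u :: t)) * this
      have r1 : Wr (fun v u => g u v) (Tr (Wp gs F)) (v :: s) (u :: t) =
          Wr g (Tr (Wp gs F)) (v :: s) (u :: t) := by
        rcases t with _ | ⟨u', t⟩
        · rfl
        · simp only [Wr]
          rw [hg' v u hv hu (hN v (by simp) u (by simp)),
            hg' v u' hv (ht u' (by simp)) (hN v (by simp) u' (by simp))]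
          have := add_self2 (1 : ZMod 2)
          linear_combination (Tr (Wp gs F) (v :: s) (u' :: t)) * this
      simp only [Wc]; rw [l1, r1]
    intro s t hs ht hN
    rw [h1 s t hs ht hN]
    exact Eqv_Wc g ih' s t hs ht hN

/-- one step of the telescope -/
theorem tele {T : V → V} {P : V → Prop} {Q : List V → Prop} {z : Ch V} (hz : Cyc T P Q z)
    {N : V → V → Prop}
    {s0 : V → V → ZMod 2} (hs0 : Loc Q N s0) (hs0b : Bi T P s0) (hs0s : ∀ v u, s0 v u = s0 u v)
    (gs : List (V → V → ZMod 2)) (hgs : ∀ g ∈ gs, Good T P N g)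
    (a : V → V → ZMod 2) (ha : ∀ v u, P v → P u → a (T v) u = a v u ∧ a v (T u) = a v u)
    (haT : ∀ v u, P v → P u → N v u → a v u + a u v = 1)
    (A A' : DC V) (hA : E0 A) (hA' : E0 A') (hA'e : Ev T P A')
    (hAA : Eqv P N (fun s t => A s t + Tr A s t) (D A')) :
    dd z (Wc s0 (Wp gs A)) = dd z (Wc s0 (Wp gs (Wc a A'))) := by
  have h1 : Eqv P N A (fun s t => Acup a A s t + Acup (fun v u => a u v) A s t) := by
    intro s t hs ht hN
    rcases s with _ | ⟨v, s⟩
    · simp only [hA.1, (E0_Acup _ _).1, add_zero]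
    rcases t with _ | ⟨u, t⟩
    · simp only [hA.2, (E0_Acup _ _).2, add_zero]
    simp only [Acup]
    have := haT v u (hs v (by simp)) (ht u (by simp)) (hN v (by simp) u (by simp))
    linear_combination (- A (v :: s) (u :: t)) * this
  have h2 : dd z (Wc s0 (Wp gs (Acup (fun v u => a u v) A))) =
      dd z (Wc s0 (Wp gs (Acup a (Tr A)))) := by
    rw [← dd_Tr, Tr_Wc]
    have e : (fun v u => s0 u v) = s0 := by funext v u; exact hs0s u v
    rw [e]
    refine dd_loc hz hs0 ?_
    have := Tr_Wp gs hgs (Acup (fun v u => a u v) A)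
    rw [Tr_Acup] at this
    exact this
  have h3 : dd z (Wc s0 (Wp gs A)) =
      dd z (Wc s0 (Wp gs (Acup a (fun s t => A s t + Tr A s t)))) := by
    rw [dd_loc hz hs0 (Eqv_Wp gs h1), Wp_add, Wc_add, dd_add, h2, Acup_add, Wp_add, Wc_add, dd_add]
  have h4 : Eqv P N (Acup a (fun s t => A s t + Tr A s t)) (Acup a (D A')) := by
    intro s t hs ht hN
    rcases s with _ | ⟨v, s⟩
    · simp only [(E0_Acup _ _).1]
    rcases t with _ | ⟨u, t⟩
    · simp only [(E0_Acup _ _).2]
    simp only [Acup]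
    have h := hAA (v :: s) (u :: t) hs ht hN
    simp only at h
    rw [h]
  have h5 : Acup a (D A') = fun s t => D (Acup a A') s t + Wc a A' s t := by
    rw [leibniz a A' hA']
    funext s t
    have := add_self2 (Wc a A' s t)
    simp only
    linear_combination -this
  have h6 : dd z (Wc s0 (Wp gs (D (Acup a A')))) = 0 := by
    have e : Wc s0 (Wp gs (D (Acup a A'))) = D (Wp (s0 :: gs) (Acup a A')) := by
      rw [← Wp_cons, Wp_D _ _ (E0_Acup a A')]
    rw [e]
    refine dd_D hz (Ev_Wp ?_ (Ev_Acup ha hA'e))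
    intro g hg
    rcases List.mem_cons.1 hg with rfl | hg
    · exact hs0b
    · exact (hgs g hg).1
  rw [h3, dd_loc hz hs0 (Eqv_Wp gs h4), h5, Wp_add, Wc_add, dd_add, h6, zero_add]

/-- `X` and `Y` -/
def Xg (e : V → ZMod 2) : V → V → ZMod 2 := fun v _ => e v
def Yg (e : V → ZMod 2) : V → V → ZMod 2 := fun _ u => e u

theorem Bi_X {T : V → V} {P : V → Prop} {e : V → ZMod 2} (he : ∀ v, P v → e (T v) = e v + 1) :
    Bi T P (Xg e) := ⟨1, 0, fun v u hv _ => ⟨he v hv, by simp [Xg]⟩⟩

theorem Bi_Y {T : V → V} {P : V → Prop} {e : V → ZMod 2} (he : ∀ v, P v → e (T v) = e v + 1) :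
    Bi T P (Yg e) := ⟨0, 1, fun v u _ hu => ⟨by simp [Yg], he u hu⟩⟩

/-- the two `e`-terms together -/
theorem XYsum {T : V → V} {P : V → Prop} {Q : List V → Prop} {z : Ch V} (hz : Cyc T P Q z)
    {N : V → V → Prop}
    {s0 : V → V → ZMod 2} (hs0 : Loc Q N s0) (hs0s : ∀ v u, s0 v u = s0 u v)
    (gs : List (V → V → ZMod 2)) (hgs : ∀ g ∈ gs, Good T P N g)
    (e : V → ZMod 2) (A B : DC V) (hAB : Eqv P N (fun s t => A s t + Tr A s t) B) :
    dd z (Wc s0 (Wp gs (Wc (Xg e) A))) + dd z (Wc s0 (Wp gs (Wc (Yg e) A))) =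
      dd z (Wc s0 (Wp gs (Wc (Xg e) B))) := by
  have h2 : dd z (Wc s0 (Wp gs (Wc (Yg e) A))) = dd z (Wc s0 (Wp gs (Wc (Xg e) (Tr A)))) := by
    rw [← dd_Tr, Tr_Wc]
    have e1 : (fun v u => s0 u v) = s0 := by funext v u; exact hs0s u v
    rw [e1]
    refine dd_loc hz hs0 ?_
    have := Tr_Wp gs hgs (Wc (Yg e) A)
    rw [Tr_Wc] at this
    exact this
  rw [h2, ← dd_add, ← Wc_add, ← Wp_add, ← Wc_add]
  exact dd_loc hz hs0 (Eqv_Wp gs (Eqv_Wc _ hAB))

/-- telescope step with `a = e(v) + e(u) + g(v,u)` -/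
theorem tele' {T : V → V} {P : V → Prop} {Q : List V → Prop} {z : Ch V} (hz : Cyc T P Q z)
    {N : V → V → Prop}
    {s0 : V → V → ZMod 2} (hs0 : Loc Q N s0) (hs0b : Bi T P s0) (hs0s : ∀ v u, s0 v u = s0 u v)
    (gs : List (V → V → ZMod 2)) (hgs : ∀ g ∈ gs, Good T P N g)
    (e : V → ZMod 2) (he : ∀ v, P v → e (T v) = e v + 1)
    (g : V → V → ZMod 2) (hg1 : ∀ v u, P v → P u → g (T v) u = g v u + 1 ∧ g v (T u) = g v u + 1)
    (hg2 : ∀ v u, P v → P u → N v u → g v u + g u v = 1)
    (A A' B : DC V) (hA : E0 A) (hA' : E0 A') (hA'e : Ev T P A')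
    (hAA : Eqv P N (fun s t => A s t + Tr A s t) (D A'))
    (hAB : Eqv P N (fun s t => A' s t + Tr A' s t) B) :
    dd z (Wc s0 (Wp gs A)) = dd z (Wc s0 (Wp (gs ++ [g]) A')) +
      dd z (Wc s0 (Wp gs (Wc (Xg e) B))) := by
  have h1 := tele hz hs0 hs0b hs0s gs hgs (fun v u => (Xg e v u + Yg e v u) + g v u)
    (fun v u hv hu => by
      simp only [Xg, Yg, he v hv, he u hu, (hg1 v u hv hu).1, (hg1 v u hv hu).2]
      have := add_self2 (1 : ZMod 2)
      constructor <;> linear_combination this)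
    (fun v u hv hu hN => by
      simp only [Xg, Yg]
      have h1 := hg2 v u hv hu hN
      have h2 := add_self2 (e v)
      have h3 := add_self2 (e u)
      linear_combination h1 + h2 + h3) A A' hA hA' hA'e hAA
  rw [h1, Wc_add_left (fun v u => Xg e v u + Yg e v u) g, Wc_add_left (Xg e) (Yg e),
    Wp_add, Wp_add, Wc_add, Wc_add, dd_add, dd_add,
    XYsum hz hs0 hs0s gs hgs e A' B hAB, Wp_append, Wp_cons, Wp_nil]
  ring

/-- replacing a bi-odd function by `X + Y` in front of a closed cochain -/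
theorem repl {T : V → V} {P : V → Prop} {Q : List V → Prop} {z : Ch V} (hz : Cyc T P Q z)
    (gs : List (V → V → ZMod 2)) (hgs : ∀ g ∈ gs, Bi T P g)
    (e : V → ZMod 2) (he : ∀ v, P v → e (T v) = e v + 1)
    (g : V → V → ZMod 2) (hg1 : ∀ v u, P v → P u → g (T v) u = g v u + 1 ∧ g v (T u) = g v u + 1)
    (F : DC V) (hF : E0 F) (hFe : Ev T P F) (hFc : D F = fun _ _ => 0) :
    dd z (Wp gs (Wc g F)) = dd z (Wp gs (fun s t => Wc (Xg e) F s t + Wc (Yg e) F s t)) := by
  have h1 : dd z (Wp gs (Wc (fun v u => (Xg e v u + Yg e v u) + g v u) F)) = 0 := by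
    have h2 := leibniz (fun v u => (Xg e v u + Yg e v u) + g v u) F hF
    rw [hFc, Acup_zero] at h2
    simp only [add_zero] at h2
    have h3 : Wc (fun v u => (Xg e v u + Yg e v u) + g v u) F =
        D (Acup (fun v u => (Xg e v u + Yg e v u) + g v u) F) := h2.symm
    rw [h3, Wp_D _ _ (E0_Acup _ _)]
    refine dd_D hz (Ev_Wp hgs (Ev_Acup (fun v u hv hu => ?_) hFe))
    simp only [Xg, Yg, he v hv, he u hu, (hg1 v u hv hu).1, (hg1 v u hv hu).2]
    have := add_self2 (1 : ZMod 2)
    constructor <;> linear_combination this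
  rw [Wc_add_left (fun v u => Xg e v u + Yg e v u) g, Wc_add_left (Xg e) (Yg e),
    Wp_add, dd_add] at h1
  have h4 := add_self2 (dd z (Wp gs (Wc g F)))
  linear_combination h4 - h1

/-- the constant (0,0)-cochain -/
def One : DC V
  | [_], [_] => 1
  | _, _ => 0

theorem E0_One : E0 (One : DC V) := ⟨fun t => by rcases t with _ | ⟨u, _ | ⟨u', t⟩⟩ <;> rfl,
  fun s => by rcases s with _ | ⟨u, _ | ⟨u', t⟩⟩ <;> rfl⟩

theorem D_One : D (One : DC V) = fun _ _ => 0 := by
  funext s t
  rcases s with _ | ⟨v, _ | ⟨v', _ | ⟨v'', s⟩⟩⟩ <;>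
    rcases t with _ | ⟨u, _ | ⟨u', _ | ⟨u'', t⟩⟩⟩ <;>
    simp [D, cbd_cons, One, add_self2]

theorem Ev_One (T : V → V) (P : V → Prop) : Ev T P (One : DC V) := by
  intro s t _ _
  rcases s with _ | ⟨v, _ | ⟨v', s⟩⟩ <;> rcases t with _ | ⟨u, _ | ⟨u', t⟩⟩ <;>
    simp [One]

end Crest.Agent.S69.B
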