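import Crest.Agent.S69.Relabel

/-!
# S0069: finite end game by a small kernel-checked case tree
-/

set_option autoImplicit false

namespace Crest.Agent.S69.Tree

/-- `i`-th hexadecimal digit -/
def dg (p i : ℕ) : ℕ := (p >>> (4 * i)) &&& 15

/-- the ten digits are a permutation of `0..9` -/
def isPerm (p : ℕ) : Bool := ((List.range 10).foldl (fun m i => m ||| 2 ^ (dg p i)) 0) == 1023

/-- clause schemata: (negated?, positions); three positions: `R`, four positions: `F` -/
def sch : ℕ → List (Bool × List ℕ)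
  | 0 => [(true, [0, 1, 2, 3]), (false, [0, 1, 2])]
  | 1 => [(true, [0, 1, 2, 3]), (false, [4, 5, 6]), (false, [7, 8, 9])]
  | 2 => [(true, [0, 1, 2, 3]), (true, [4, 5, 6]), (true, [7, 8, 9])]
  | 3 => [(true, [0, 1, 2, 3]), (false, [4, 5, 6]), (false, [4, 5, 7]), (false, [4, 5, 8])]
  | 4 => [(true, [0, 1, 2, 3]), (true, [4, 5, 6]), (true, [4, 5, 7]), (true, [4, 5, 8])]
  | 5 => [(true, [0, 1, 2, 3]), (true, [4, 5, 6]), (false, [4, 5, 6, 0]), (false, [4, 5, 6, 1]),
      (false, [4, 5, 6, 2]), (false, [4, 5, 6, 3]), (false, [4, 5, 6, 7]), (false, [4, 5, 6, 8]),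
      (false, [4, 5, 6, 9])]
  | _ => [(true, [0, 1, 2, 3]), (false, [0, 1, 2, 3])]

/-- variable number of a list of positions -/
def vr (p : ℕ) (pos : List ℕ) : ℕ :=
  pos.foldl (fun m i => m ||| 2 ^ (dg p i)) (if pos.length = 4 then 1024 else 0)

def lit (p : ℕ) (x : Bool × List ℕ) : ℕ := 2 * vr p x.2 + (if x.1 then 1 else 0)

def clause (k p : ℕ) : List ℕ := (sch k).map (lit p)

inductive Cert
  | u (k p : ℕ) (c : Cert)
  | c (k p : ℕ)
  | s (v : ℕ) (a b : Cert)

def run : ℕ → Cert → Bool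
  | M, .u k p c => isPerm p && (match (clause k p).filter (fun l => !M.testBit l) with
      | [l] => run (M ||| 2 ^ (l ^^^ 1)) c
      | _ => false)
  | M, .c k p => isPerm p && (clause k p).all (fun l => M.testBit l)
  | M, .s v a b => run (M ||| 2 ^ (2 * v + 1)) a && run (M ||| 2 ^ (2 * v)) b

/-- truth of a literal -/
def Tr (β : ℕ → Prop) (l : ℕ) : Prop := if l % 2 = 0 then β (l / 2) else ¬ β (l / 2)

theorem Tr_neg (β : ℕ → Prop) (l : ℕ) : Tr β (l ^^^ 1) ↔ ¬ Tr β l := by
  unfold Tr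
  rcases Nat.even_or_odd' l with ⟨m, rfl | rfl⟩
  · have h1 : (2 * m) ^^^ 1 = 2 * m + 1 := by
      rw [Nat.xor_one_of_even (by exact even_two_mul m)]
    rw [h1]
    have h2 : (2 * m + 1) % 2 ≠ 0 := by omega
    have h3 : (2 * m) % 2 = 0 := by omega
    have h4 : (2 * m + 1) / 2 = m := by omega
    have h5 : (2 * m) / 2 = m := by omega
    simp [h2, h3, h4, h5]
  · have h1 : (2 * m + 1) ^^^ 1 = 2 * m := by
      rw [Nat.xor_one_of_odd (odd_two_mul_add_one m)]; omega
    rw [h1]
    have h2 : (2 * m + 1) % 2 ≠ 0 := by omega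
    have h3 : (2 * m) % 2 = 0 := by omega
    have h4 : (2 * m + 1) / 2 = m := by omega
    have h5 : (2 * m) / 2 = m := by omega
    simp [h2, h3, h4, h5]

def Inv (β : ℕ → Prop) (M : ℕ) : Prop := ∀ l, M.testBit l = true → ¬ Tr β l

theorem Inv.or {β : ℕ → Prop} {M l : ℕ} (h : Inv β M) (hl : ¬ Tr β l) : Inv β (M ||| 2 ^ l) := by
  intro l' hl'
  rw [Nat.testBit_or, Bool.or_eq_true, Nat.testBit_two_pow] at hl'
  rcases hl' with h1 | h1
  · exact h l' h1
  · have : l = l' := by simpa using h1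
    rw [← this]; exact hl

theorem sound (β : ℕ → Prop) (hc : ∀ k p, isPerm p = true → ∃ l ∈ clause k p, Tr β l) :
    ∀ (c : Cert) (M : ℕ), run M c = true → Inv β M → False := by
  intro c
  induction c with
  | u k p c ih =>
    intro M hr hI
    simp only [run, Bool.and_eq_true] at hr
    obtain ⟨hp, hr⟩ := hr
    obtain ⟨l, hl, hT⟩ := hc k p hp
    have hlM : M.testBit l = false := by
      by_contra h
      exact hI l (by simpa using h) hT
    have hlf : l ∈ (clause k p).filter (fun l => !M.testBit l) := by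
      rw [List.mem_filter]; exact ⟨hl, by simp [hlM]⟩
    generalize hF : (clause k p).filter (fun l => !M.testBit l) = L at hr hlf
    match L, hr, hlf with
    | [l'], hr, hlf =>
      have : l = l' := by simpa using hlf
      subst this
      exact ih _ hr (hI.or (by rw [Tr_neg]; exact fun h => h hT))
  | c k p =>
    intro M hr hI
    simp only [run, Bool.and_eq_true, List.all_eq_true] at hr
    obtain ⟨hp, hr⟩ := hr
    obtain ⟨l, hl, hT⟩ := hc k p hp
    exact hI l (hr l hl) hT
  | s v a b iha ihb =>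
    intro M hr hI
    simp only [run, Bool.and_eq_true] at hr
    by_cases hv : β v
    · refine iha _ hr.1 (hI.or ?_)
      unfold Tr
      have h2 : (2 * v + 1) % 2 ≠ 0 := by omega
      have h4 : (2 * v + 1) / 2 = v := by omega
      simp [h2, h4, hv]
    · refine ihb _ hr.2 (hI.or ?_)
      unfold Tr
      have h3 : (2 * v) % 2 = 0 := by omega
      have h5 : (2 * v) / 2 = v := by omega
      simp [h3, h5, hv]

/-- set of colours of a mask -/
def toS (m : ℕ) : Finset (Fin 10) := Finset.univ.filter (fun i => m.testBit i = true)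

theorem toS_or (m d : ℕ) (hd : d < 10) : toS (m ||| 2 ^ d) = insert ⟨d, hd⟩ (toS m) := by
  ext i
  simp only [toS, Finset.mem_filter, Finset.mem_univ, true_and, Finset.mem_insert,
    Nat.testBit_or, Nat.testBit_two_pow, Bool.or_eq_true, decide_eq_true_eq, Fin.ext_iff]
  tauto

theorem tb10 (m d : ℕ) (hd : d < 10) : (m ||| 2 ^ d).testBit 10 = m.testBit 10 := by
  rw [Nat.testBit_or, Nat.testBit_two_pow]
  have : ¬ d = 10 := by omega
  simp [this]

theorem toS_zero : toS 0 = ∅ := by
  ext i; simp [toS]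

theorem toS_1024 : toS 1024 = ∅ := by decide

theorem foldl_testBit (p : ℕ) (L : List ℕ) (m j : ℕ) :
    (L.foldl (fun m i => m ||| 2 ^ (dg p i)) m).testBit j = true ↔
      m.testBit j = true ∨ ∃ i ∈ L, dg p i = j := by
  induction L generalizing m with
  | nil => simp
  | cons a L ih =>
    rw [List.foldl_cons, ih, Nat.testBit_or, Bool.or_eq_true, Nat.testBit_two_pow]
    simp only [decide_eq_true_eq, List.mem_cons, exists_eq_or_imp]
    tauto

theorem perm_lt {p : ℕ} (h : isPerm p = true) {i : ℕ} (hi : i < 10) : dg p i < 10 := by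
  unfold isPerm at h
  rw [beq_iff_eq] at h
  by_contra hcon
  have h1 : (1023 : ℕ).testBit (dg p i) = true := by
    rw [← h, foldl_testBit]
    exact Or.inr ⟨i, List.mem_range.mpr hi, rfl⟩
  have h2 : (1023 : ℕ).testBit (dg p i) = false := by
    apply Nat.testBit_lt_two_pow
    calc (1023 : ℕ) < 2 ^ 10 := by norm_num
      _ ≤ 2 ^ (dg p i) := Nat.pow_le_pow_right (by norm_num) (by omega)
  rw [h1] at h2
  exact absurd h2 (by decide)

/-- the permutation of a code -/
def pf (p : ℕ) (h : isPerm p = true) : Fin 10 → Fin 10 := fun i => ⟨dg p i, perm_lt h i.2⟩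

theorem pf_surj (p : ℕ) (h : isPerm p = true) : Function.Surjective (pf p h) := by
  intro j
  have h0 := h
  unfold isPerm at h
  rw [beq_iff_eq] at h
  have h1 : (1023 : ℕ).testBit (j : ℕ) = true := by
    fin_cases j <;> decide
  rw [← h, foldl_testBit] at h1
  rcases h1 with h1 | ⟨i, hi, h1⟩
  · simp at h1
  · exact ⟨⟨i, List.mem_range.mp hi⟩, Fin.ext h1⟩

/-- structure of the facts -/
structure TFacts (R F : Finset (Fin 10) → Prop) : Prop where
  k0 : ∀ g : Fin 10 → Fin 10, Function.Bijective g → F {g 0, g 1, g 2, g 3} → R {g 0, g 1, g 2}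
  k1 : ∀ g : Fin 10 → Fin 10, Function.Bijective g → F {g 0, g 1, g 2, g 3} →
    R {g 4, g 5, g 6} ∨ R {g 7, g 8, g 9}
  k2 : ∀ g : Fin 10 → Fin 10, Function.Bijective g → F {g 0, g 1, g 2, g 3} →
    ¬ (R {g 4, g 5, g 6} ∧ R {g 7, g 8, g 9})
  k3 : ∀ g : Fin 10 → Fin 10, Function.Bijective g → F {g 0, g 1, g 2, g 3} →
    R {g 4, g 5, g 6} ∨ R {g 4, g 5, g 7} ∨ R {g 4, g 5, g 8}
  k4 : ∀ g : Fin 10 → Fin 10, Function.Bijective g → F {g 0, g 1, g 2, g 3} →
    ¬ (R {g 4, g 5, g 6} ∧ R {g 4, g 5, g 7} ∧ R {g 4, g 5, g 8})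
  k5 : ∀ g : Fin 10 → Fin 10, Function.Bijective g → F {g 0, g 1, g 2, g 3} →
    R {g 4, g 5, g 6} → ∃ m, m ∉ ({g 4, g 5, g 6} : Finset (Fin 10)) ∧ F (insert m {g 4, g 5, g 6})

/-- valuation -/
def val (R F : Finset (Fin 10) → Prop) (e : Equiv.Perm (Fin 10)) (m : ℕ) : Prop :=
  if m.testBit 10 = true then F ((toS m).image e) else R ((toS m).image e)

variable {R F : Finset (Fin 10) → Prop} {e : Equiv.Perm (Fin 10)}

theorem Tr_lit (p : ℕ) (x : Bool × List ℕ) :
    Tr (val R F e) (lit p x) ↔ (if x.1 = true then ¬ val R F e (vr p x.2) else val R F e (vr p x.2)) := by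
  unfold Tr lit
  cases x.1
  · have h3 : (2 * vr p x.2 + 0) % 2 = 0 := by omega
    have h5 : (2 * vr p x.2 + 0) / 2 = vr p x.2 := by omega
    simp
  · have h2 : (2 * vr p x.2 + 1) % 2 ≠ 0 := by omega
    have h4 : (2 * vr p x.2 + 1) / 2 = vr p x.2 := by omega
    simp [h4]

theorem val3 (p : ℕ) (h : isPerm p = true) (a b c : Fin 10) :
    val R F e (vr p [a, b, c]) ↔ R {e (pf p h a), e (pf p h b), e (pf p h c)} := by
  have ha := perm_lt h a.2
  have hb := perm_lt h b.2
  have hc := perm_lt h c.2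
  have hv : vr p [a, b, c] = 0 ||| 2 ^ (dg p a) ||| 2 ^ (dg p b) ||| 2 ^ (dg p c) := rfl
  have e1 : (vr p [a, b, c]).testBit 10 = false := by
    rw [hv, tb10 _ _ hc, tb10 _ _ hb, tb10 _ _ ha]
    decide
  have e2 : toS (vr p [a, b, c]) = {pf p h a, pf p h b, pf p h c} := by
    rw [hv, toS_or _ _ hc, toS_or _ _ hb, toS_or _ _ ha, toS_zero]
    ext i
    simp only [Finset.mem_insert, Finset.mem_singleton, Finset.notMem_empty, or_false]
    simp only [pf]
    tauto
  unfold val
  rw [if_neg (by rw [e1]; decide), e2]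
  simp only [Finset.image_insert, Finset.image_singleton]

theorem val4 (p : ℕ) (h : isPerm p = true) (a b c d : Fin 10) :
    val R F e (vr p [a, b, c, d]) ↔
      F {e (pf p h a), e (pf p h b), e (pf p h c), e (pf p h d)} := by
  have ha := perm_lt h a.2
  have hb := perm_lt h b.2
  have hc := perm_lt h c.2
  have hd := perm_lt h d.2
  have hv : vr p [a, b, c, d]
      = 1024 ||| 2 ^ (dg p a) ||| 2 ^ (dg p b) ||| 2 ^ (dg p c) ||| 2 ^ (dg p d) := rfl
  have e1 : (vr p [a, b, c, d]).testBit 10 = true := by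
    rw [hv, tb10 _ _ hd, tb10 _ _ hc, tb10 _ _ hb, tb10 _ _ ha]
    decide
  have e2 : toS (vr p [a, b, c, d]) = {pf p h a, pf p h b, pf p h c, pf p h d} := by
    rw [hv, toS_or _ _ hd, toS_or _ _ hc, toS_or _ _ hb, toS_or _ _ ha, toS_1024]
    ext i
    simp only [Finset.mem_insert, Finset.mem_singleton, Finset.notMem_empty, or_false]
    simp only [pf]
    tauto
  unfold val
  rw [if_pos e1, e2]
  simp only [Finset.image_insert, Finset.image_singleton]

theorem clause_sat (H : TFacts R F) (k p : ℕ)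
    (hp : isPerm p = true) : ∃ l ∈ clause k p, Tr (val R F e) l := by
  set g : Fin 10 → Fin 10 := fun i => e (pf p hp i) with hg
  have hbij : Function.Bijective g := by
    have h1 : Function.Bijective (pf p hp) := Finite.surjective_iff_bijective.mp (pf_surj p hp)
    exact e.bijective.comp h1
  have q3 : ∀ a b c : Fin 10, val R F e (vr p [a, b, c]) ↔ R {g a, g b, g c} :=
    fun a b c => val3 p hp a b c
  have q4 : ∀ a b c d : Fin 10, val R F e (vr p [a, b, c, d]) ↔ F {g a, g b, g c, g d} :=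
    fun a b c d => val4 p hp a b c d
  have hex : (∃ x ∈ sch k, Tr (val R F e) (lit p x)) → ∃ l ∈ clause k p, Tr (val R F e) l := by
    rintro ⟨x, hx, h⟩
    exact ⟨lit p x, List.mem_map.mpr ⟨x, hx, rfl⟩, h⟩
  apply hex
  have c0123 : ∀ {x : List (Bool × List ℕ)}, ¬ F {g 0, g 1, g 2, g 3} →
      ((true, [0, 1, 2, 3]) : Bool × List ℕ) ∈ x → ∃ y ∈ x, Tr (val R F e) (lit p y) := by
    intro x hF hx
    refine ⟨_, hx, ?_⟩
    rw [Tr_lit, if_pos rfl]
    exact fun h => hF ((q4 0 1 2 3).mp h)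
  have cR : ∀ (a b c : Fin 10) {x : List (Bool × List ℕ)}, R {g a, g b, g c} →
      ((false, [(a : ℕ), (b : ℕ), (c : ℕ)]) : Bool × List ℕ) ∈ x →
      ∃ y ∈ x, Tr (val R F e) (lit p y) := by
    intro a b c x hR hx
    refine ⟨_, hx, ?_⟩
    rw [Tr_lit, if_neg (by simp)]
    exact (q3 a b c).mpr hR
  have cNR : ∀ (a b c : Fin 10) {x : List (Bool × List ℕ)}, ¬ R {g a, g b, g c} →
      ((true, [(a : ℕ), (b : ℕ), (c : ℕ)]) : Bool × List ℕ) ∈ x →
      ∃ y ∈ x, Tr (val R F e) (lit p y) := by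
    intro a b c x hR hx
    refine ⟨_, hx, ?_⟩
    rw [Tr_lit, if_pos rfl]
    exact fun h => hR ((q3 a b c).mp h)
  have cF : ∀ (a b c d : Fin 10) {x : List (Bool × List ℕ)}, F {g a, g b, g c, g d} →
      ((false, [(a : ℕ), (b : ℕ), (c : ℕ), (d : ℕ)]) : Bool × List ℕ) ∈ x →
      ∃ y ∈ x, Tr (val R F e) (lit p y) := by
    intro a b c d x hR hx
    refine ⟨_, hx, ?_⟩
    rw [Tr_lit, if_neg (by simp)]
    exact (q4 a b c d).mpr hR
  by_cases hF : F {g 0, g 1, g 2, g 3}
  · match k with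
    | 0 => exact cR 0 1 2 (H.k0 g hbij hF) (by simp [sch])
    | 1 =>
      rcases H.k1 g hbij hF with h | h
      · exact cR 4 5 6 h (by simp [sch])
      · exact cR 7 8 9 h (by simp [sch])
    | 2 =>
      by_cases h : R {g 4, g 5, g 6}
      · exact cNR 7 8 9 (fun h' => H.k2 g hbij hF ⟨h, h'⟩) (by simp [sch])
      · exact cNR 4 5 6 h (by simp [sch])
    | 3 =>
      rcases H.k3 g hbij hF with h | h | h
      · exact cR 4 5 6 h (by simp [sch])
      · exact cR 4 5 7 h (by simp [sch])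
      · exact cR 4 5 8 h (by simp [sch])
    | 4 =>
      by_cases h : R {g 4, g 5, g 6}
      · by_cases h2 : R {g 4, g 5, g 7}
        · exact cNR 4 5 8 (fun h' => H.k4 g hbij hF ⟨h, h2, h'⟩) (by simp [sch])
        · exact cNR 4 5 7 h2 (by simp [sch])
      · exact cNR 4 5 6 h (by simp [sch])
    | 5 =>
      by_cases h : R {g 4, g 5, g 6}
      · obtain ⟨m, hm, hFm⟩ := H.k5 g hbij hF h
        obtain ⟨j, rfl⟩ := hbij.2 m
        have hset : insert (g j) ({g 4, g 5, g 6} : Finset (Fin 10)) = {g 4, g 5, g 6, g j} := by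
          ext i
          simp only [Finset.mem_insert, Finset.mem_singleton]
          tauto
        rw [hset] at hFm
        simp only [Finset.mem_insert, Finset.mem_singleton, not_or] at hm
        fin_cases j
        · exact cF 4 5 6 0 hFm (by simp [sch])
        · exact cF 4 5 6 1 hFm (by simp [sch])
        · exact cF 4 5 6 2 hFm (by simp [sch])
        · exact cF 4 5 6 3 hFm (by simp [sch])
        · exact absurd rfl hm.1
        · exact absurd rfl hm.2.1
        · exact absurd rfl hm.2.2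
        · exact cF 4 5 6 7 hFm (by simp [sch])
        · exact cF 4 5 6 8 hFm (by simp [sch])
        · exact cF 4 5 6 9 hFm (by simp [sch])
      · exact cNR 4 5 6 h (by simp [sch])
    | (n + 6) => exact cF 0 1 2 3 hF (by simp [sch])
  · match k with
    | 0 => exact c0123 hF (by simp [sch])
    | 1 => exact c0123 hF (by simp [sch])
    | 2 => exact c0123 hF (by simp [sch])
    | 3 => exact c0123 hF (by simp [sch])
    | 4 => exact c0123 hF (by simp [sch])
    | 5 => exact c0123 hF (by simp [sch])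
    | (n + 6) => exact c0123 hF (by simp [sch])

def cert1 : Cert :=
  .u 0 654820246305 <|
  .u 0 654820250400 <|
  .u 0 654820254480 <|
  .u 0 654820258320 <|
  .u 2 654820258320 <|
  .u 2 650290410000 <|
  .u 2 581587710480 <|
  .u 2 645729104400 <|
  .u 2 508307976720 <|
  .u 3 654820258320 <|
  .u 3 650243224080 <|
  .u 4 448649245200 <|
  .u 4 517100286480 <|
  .u 3 654787818000 <|
  .u 4 517083574800 <|
  .u 4 581508084240 <|
  .u 3 654252061200 <|
  .u 4 521109123600 <|
  .u 3 645663240720 <|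
  .u 2 641076397920 <|
  .u 2 641076332385 <|
  .u 2 641075283810 <|
  .u 2 641058506595 <|
  .u 2 645639800640 <|
  .u 2 645639735105 <|
  .u 2 645638686530 <|
  .u 2 645621909315 <|
  .u 2 650203202880 <|
  .u 2 650203137345 <|
  .u 2 650185311555 <|
  .u 2 654766597440 <|
  .u 2 654766531905 <|
  .u 2 654765483330 <|
  .u 2 653961295440 <|
  .u 2 653961229905 <|
  .u 2 653960181330 <|
  .u 2 653943404115 <|
  .u 0 581519477025 <|
  .u 0 581519481120 <|
  .u 0 581519485200 <|
  .u 1 581519512080 <|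
  .u 2 581267853840 <|
  .u 2 576989663760 <|
  .u 1 508286964240 <|
  .u 1 581000466960 <|
  .u 2 576722276880 <|
  .u 2 508019577360 <|
  .u 1 572428358160 <|
  .u 2 503725658640 <|
  .u 1 435007230480 <|
  .u 4 589218018900 <|
  .u 4 520498546260 <|
  .u 4 451779069780 <|
  .u 4 383059593060 <|
  .u 4 314340116325 <|
  .u 2 581215295040 <|
  .u 2 576920328000 <|
  .u 2 576651892560 <|
  .u 2 507932416080 <|
  .u 2 503637448800 <|
  .u 2 507932350545 <|
  .u 2 503637383265 <|
  .u 2 581214180930 <|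
  .u 2 503636334690 <|
  .u 2 581197403715 <|
  .u 2 580660532820 <|
  .u 2 576902436675 <|
  .u 2 576634001235 <|
  .u 2 567775631205 <|
  .u 2 507914524755 <|
  .u 2 507646089300 <|
  .u 2 503619557475 <|
  .u 2 434631645300 <|
  .u 2 361617201270 <|
  .u 3 589809611280 <|
  .u 3 521090138640 <|
  .u 3 177492756240 <|
  .u 3 108773279520 <|
  .u 3 40053802785 <|
  .u 3 520823857680 <|
  .u 3 177226479120 <|
  .u 3 108507002400 <|
  .u 3 39787525665 <|
  .u 3 384190267920 <|
  .u 3 315470795280 <|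
  .u 3 178031842320 <|
  .u 3 109312365600 <|
  .u 3 40592888865 <|
  .u 3 178299102480 <|
  .u 3 109579625760 <|
  .u 3 40860149025 <|
  .u 3 177762305040 <|
  .u 3 109042828320 <|
  .u 3 40323351585 <|
  .u 4 178028578320 <|
  .u 4 109309101600 <|
  .u 4 40589624865 <|
  .u 2 503738107440 <|
  .u 2 503738041905 <|
  .u 2 503736993330 <|
  .u 4 177763284240 <|
  .u 4 109043807520 <|
  .u 4 40324330785 <|
  .u 2 576752547120 <|
  .u 0 576365549940 <|
  .u 0 572070586740 <|
  .u 0 503351118180 <|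
  .u 4 178298123280 <|
  .u 4 109578646560 <|
  .u 4 40859169825 <|
  .u 2 577020982320 <|
  .u 0 499056142725 <|
  .u 4 177225499920 <|
  .u 4 108506023200 <|
  .u 4 39786546465 <|
  .u 2 508033074480 <|
  .u 4 177495041040 <|
  .u 4 108775564320 <|
  .u 4 40056087585 <|
  .u 2 581315945520 <|
  .u 2 581314831410 <|
  .u 0 654211839555 <|
  .u 0 649916876355 <|
  .u 0 654480267075 <|
  .u 0 645353473875 <|
  .u 0 649648433235 <|
  .s 1609
  (.u 0 581232048480 <|
  .u 0 581232072240 <|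
  .u 3 168871368240 <|
  .u 4 104194217520 <|
  .u 4 168855766065 <|
  .u 4 168852428865 <|
  .u 5 503186560560 <|
  .c 3 39501268545)
  (.s 1673
  (.u 0 576937081200 <|
  .u 0 576937105200 <|
  .u 3 173431625520 <|
  .u 4 91310430000 <|
  .u 4 173419222065 <|
  .u 4 173416879425 <|
  .u 5 576150673200 <|
  .c 3 39502378305)
  (.s 1610
  (.u 0 581231982945 <|
  .u 0 581232006705 <|
  .u 3 168854591025 <|
  .u 4 35474740785 <|
  .u 4 168872543280 <|
  .u 4 168869206080 <|
  .u 5 503186495025 <|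
  .c 3 108220745280)
  (.s 1674
  (.u 0 576937015665 <|
  .u 0 576937039665 <|
  .u 3 173414848305 <|
  .u 4 22590953265 <|
  .u 4 173435999280 <|
  .u 4 173433656640 <|
  .u 5 576150607665 <|
  .c 3 108221855040)
  (.s 1612
  (.u 0 581230934370 <|
  .u 0 581230958130 <|
  .u 3 100135114290 <|
  .u 4 35457963570 <|
  .u 4 100169843760 <|
  .u 4 100166506560 <|
  .u 5 502918059570 <|
  .c 3 176923444800)
  (.s 1676
  (.u 0 576935967090 <|
  .u 0 576935991090 <|
  .u 3 104695371570 <|
  .u 4 22574176050 <|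
  .u 4 104733299760 <|
  .u 4 104730957120 <|
  .u 5 575882172210 <|
  .c 3 176924554560)
  (.s 1561
  (.u 0 581517261120 <|
  .u 0 581517284400 <|
  .u 4 169139868720 <|
  .u 3 104462718000 <|
  .u 4 104431121970 <|
  .u 4 104425822050 <|
  .u 3 39485535810 <|
  .c 5 571622986800)
  (.s 1562
  (.u 0 581517195585 <|
  .u 0 581517218865 <|
  .u 4 169123091505 <|
  .u 3 35743241265 <|
  .u 4 35728422450 <|
  .u 4 35723122530 <|
  .u 3 108188235330 <|
  .c 5 571354551345)
  (.s 1564
  (.u 0 581516147010 <|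
  .u 0 581516170290 <|
  .u 4 100403614770 <|
  .u 3 35726464050 <|
  .u 4 35745199665 <|
  .u 4 35739899745 <|
  .u 3 176907712065 <|
  .c 5 571354485810)
  (.s 1577
  (.u 0 581500483920 <|
  .u 0 581500507440 <|
  .u 4 173701109040 <|
  .u 3 95605462320 <|
  .u 4 95572821810 <|
  .u 4 95568500850 <|
  .u 3 39483377490 <|
  .c 5 429906892080)
  (.s 1578
  (.u 0 581500418385 <|
  .u 0 581500441905 <|
  .u 4 173684331825 <|
  .u 3 26885985585 <|
  .u 4 26870122290 <|
  .u 4 26865801330 <|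
  .u 3 108186077010 <|
  .c 5 429638456625)
  (.s 1580
  (.u 0 581499369810 <|
  .u 0 581499393330 <|
  .u 4 104964855090 <|
  .u 3 26869208370 <|
  .u 4 26886899505 <|
  .u 4 26882578545 <|
  .u 3 176905553745 <|
  .c 5 429638391090)
  (.s 1801
  (.u 0 508217604480 <|
  .u 0 508217628720 <|
  .u 4 164575352880 <|
  .u 3 99898202160 <|
  .u 4 99867977010 <|
  .u 4 99866613330 <|
  .u 3 39484425810 <|
  .c 5 498590718000)
  (.s 1802
  (.u 0 508217538945 <|
  .u 0 508217563185 <|
  .u 4 164558575665 <|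
  .u 3 31178725425 <|
  .u 4 31165277490 <|
  .u 4 31163913810 <|
  .u 3 108187125330 <|
  .c 5 498322282545)
  (.s 1804
  (.u 0 508216490370 <|
  .u 0 508216514610 <|
  .u 4 95839098930 <|
  .u 3 31161948210 <|
  .u 4 31182054705 <|
  .u 4 31180691025 <|
  .u 3 176906602065 <|
  .c 5 498322217010)
  (.s 1547
  (.u 2 581267788560 <|
  .u 2 508019512080 <|
  .u 0 654228616770 <|
  .u 3 108221789760 <|
  .u 3 39502313025 <|
  .c 5 654301213200)
  (.s 1549
  (.u 2 581267723040 <|
  .u 2 508019446560 <|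
  .u 0 654229665345 <|
  .u 3 176924489280 <|
  .u 3 39485535810 <|
  .c 5 654301213200)
  (.s 521
  (.u 5 576216659265 <|
  .u 5 575948223810 <|
  .u 5 503202219585 <|
  .u 5 502933784130 <|
  .u 5 498907252305 <|
  .u 5 498638816850 <|
  .u 5 654568600080 <|
  .u 5 632037668160 <|
  .u 5 631769298240 <|
  .u 1 576216724800 <|
  .u 4 590073656640 <|
  .u 4 590057928000 <|
  .c 3 653680276800)
  (.s 1550
  (.u 2 581267657505 <|
  .u 2 508019381025 <|
  .u 0 654229730880 <|
  .u 3 176907712065 <|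
  .u 3 108188235330 <|
  .c 5 654301213200)
  (.s 522
  (.u 5 576216724800 <|
  .u 5 575679853890 <|
  .u 5 502665414210 <|
  .u 5 498370446930 <|
  .u 5 654568600080 <|
  .u 5 631500862785 <|
  .c 1 576216659265)
  (.s 524
  (.u 5 575948354880 <|
  .u 5 575679919425 <|
  .u 5 502665479745 <|
  .u 5 498370512465 <|
  .u 5 654568600080 <|
  .u 5 631500797250 <|
  .c 1 575948223810)
  (.s 536
  (.s 552
  (.s 584
  (.s 648
  (.s 776
  (.s 1305
  (.u 0 650236741680 <|
  .u 0 650236757040 <|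
  .u 2 650236757040 <|
  .u 1 649985098800 <|
  .u 2 503722317345 <|
  .u 4 379067602785 <|
  .u 4 379050825570 <|
  .u 2 653743191360 <|
  .u 5 649985098800 <|
  .u 2 636563326800 <|
  .u 1 654298866465 <|
  .u 5 654298866465 <|
  .u 1 649753289505 <|
  .u 5 649753289505 <|
  .u 2 640891844160 <|
  .u 1 571921757760 <|
  .u 1 632036619840 <|
  .u 4 283745032035 <|
  .u 2 649414674000 <|
  .u 3 241929656160 <|
  .c 5 572463133200)
  (.s 1633
  (.u 0 580946844000 <|
  .u 0 580946848080 <|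
  .u 2 580695201360 <|
  .u 1 499157931600 <|
  .u 2 503742235425 <|
  .u 4 508191343665 <|
  .u 4 508174566450 <|
  .u 1 654246508080 <|
  .u 1 572105267040 <|
  .u 2 640891844160 <|
  .u 5 499157931600 <|
  .u 5 508286964240 <|
  .u 5 361706330145 <|
  .u 1 503421376545 <|
  .u 5 503421376545 <|
  .u 1 352579524675 <|
  .c 2 649431451200)
  (.s 1417
  (.u 0 645656574000 <|
  .u 0 645656577840 <|
  .u 1 645404919600 <|
  .u 2 508017284385 <|
  .u 4 311153432145 <|
  .u 4 311136654930 <|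
  .u 2 649431451200 <|
  .u 5 645404919600 <|
  .u 2 507697535040 <|
  .u 5 581051953680 <|
  .u 5 650289107745 <|
  .u 1 649754333985 <|
  .u 5 649754333985 <|
  .u 1 490033157715 <|
  .c 2 636580103760)
  (.s 1585
  (.u 0 581483710800 <|
  .u 0 581483714880 <|
  .u 1 576450565440 <|
  .u 2 576755626785 <|
  .u 4 434908464945 <|
  .u 4 434891687730 <|
  .u 2 654028399920 <|
  .u 2 636580103760 <|
  .u 5 576450565440 <|
  .u 5 435007230480 <|
  .u 5 567846934305 <|
  .u 1 430441535265 <|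
  .u 5 430441535265 <|
  .u 1 283842222195 <|
  .c 2 645119706960)
  (.s 1225
  (.u 0 654246504240 <|
  .u 0 654246508080 <|
  .u 1 654246508080 <|
  .u 2 576988419105 <|
  .u 4 581467936065 <|
  .u 4 581451158850 <|
  .u 5 654246508080 <|
  .u 2 645119706960 <|
  .u 5 581587710480 <|
  .u 1 654568342305 <|
  .u 5 654568342305 <|
  .u 2 645728846625 <|
  .u 1 421316826435 <|
  .c 2 653743191360)
  (.s 1809
  (.u 0 508200831360 <|
  .u 0 508200847680 <|
  .u 1 503419344960 <|
  .u 2 503744324385 <|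
  .u 4 379073885745 <|
  .u 4 379057108530 <|
  .u 2 654816924720 <|
  .u 2 653743191360 <|
  .u 5 503419344960 <|
  .u 5 572428358160 <|
  .u 5 580714010145 <|
  .u 1 572157629985 <|
  .u 5 572157629985 <|
  .u 1 558702303075 <|
  .c 2 640891844160)
  (.s 145
  (.u 2 645708940065 <|
  .u 2 434718677025 <|
  .s 1129
  (.u 1 649750209840 <|
  .c 5 649750209840)
  (.s 262
  (.u 2 645186811200 <|
  .u 2 640891844160 <|
  .u 2 558735857235 <|
  .u 5 563299259985 <|
  .u 5 563030824530 <|
  .c 5 581051953680)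
  (.s 161
  (.s 70
  (.u 2 653743191360 <|
  .u 2 636563326800 <|
  .u 2 421297952835 <|
  .u 5 425861355585 <|
  .u 5 425592920130 <|
  .c 5 508307976720)
  (.s 49
  (.s 322
  (.u 2 641164473120 <|
  .u 2 361723172640 <|
  .s 1586
  (.u 1 576450499905 <|
  .c 5 576450499905)
  (.s 1588
  (.u 0 581482596690 <|
  .u 0 581482616130 <|
  .u 1 576449451330 <|
  .u 2 507746751810 <|
  .u 2 575914677570 <|
  .u 2 576755757840 <|
  .u 2 507699697680 <|
  .u 4 425744177265 <|
  .u 2 654027285810 <|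
  .u 2 640873956930 <|
  .u 2 636578989650 <|
  .u 5 576449451330 <|
  .u 2 567859517010 <|
  .u 5 567847065360 <|
  .u 5 361723238160 <|
  .u 0 576938183025 <|
  .u 1 572140984080 <|
  .u 5 572140984080 <|
  .u 1 434449193025 <|
  .u 1 649754465040 <|
  .u 3 109295588400 <|
  .u 2 576757781280 <|
  .u 5 653190526530 <|
  .u 5 356641764930 <|
  .u 3 109608728130 <|
  .u 3 383065880130 <|
  .c 4 382529140290)
  (.u 5 581587710480 <|
  .u 2 575913628995 <|
  .u 1 558737954115 <|
  .u 1 421316826435 <|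
  .u 4 173433460035 <|
  .u 3 36341650755 <|
  .u 4 654536885025 <|
  .u 2 654032524065 <|
  .u 4 242220045345 <|
  .u 2 567864759585 <|
  .u 2 640875071040 <|
  .u 2 490035254595 <|
  .u 1 632037602625 <|
  .u 1 631769167170 <|
  .u 5 654568600080 <|
  .s 1640
  (.u 1 567591081555 <|
  .u 1 567323694675 <|
  .u 2 490033157715 <|
  .u 2 283877873235 <|
  .u 4 357044623200 <|
  .u 5 558737954115 <|
  .u 2 653726414400 <|
  .u 1 352594204515 <|
  .u 3 27181291635 <|
  .u 5 352345884225 <|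
  .u 5 348050916930 <|
  .c 5 650023023120)
  (.u 5 558771696960 <|
  .u 5 571299960675 <|
  .u 5 567021770595 <|
  .c 3 35771225955))))
  (.u 3 177998287920 <|
  .u 1 632037668160 <|
  .u 5 653460010545 <|
  .u 5 653191575090 <|
  .u 5 558702303075 <|
  .c 5 572428358160))
  (.u 1 558702303075 <|
  .u 1 421263349875 <|
  .u 5 352614319680 <|
  .u 5 352345884225 <|
  .u 5 348050916930 <|
  .c 5 650023023120)))
  (.u 0 654498154320 <|
  .u 3 177711973425 <|
  .u 3 108992496690 <|
  .u 5 508286964240 <|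
  .u 1 421297952835 <|
  .u 4 375274969155 <|
  .u 4 508150519875 <|
  .u 1 490000652355 <|
  .u 5 490000652355 <|
  .u 2 649414674000 <|
  .u 3 36308096595 <|
  .u 3 35771225955 <|
  .u 5 558503261505 <|
  .u 5 554208294210 <|
  .c 5 654568600080))))
  (.u 0 654498158400 <|
  .u 1 632018732625 <|
  .u 1 631750297170 <|
  .u 3 172611638865 <|
  .u 3 103892162130 <|
  .u 5 649754653200 <|
  .u 5 581051953680 <|
  .u 2 649414674000 <|
  .u 2 636580103760 <|
  .u 1 490033157715 <|
  .u 5 490033157715 <|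
  .u 1 283877873235 <|
  .u 2 649431451200 <|
  .u 1 503202285120 <|
  .u 1 632019846720 <|
  .u 1 430388123760 <|
  .u 5 283877873235 <|
  .u 0 645371365200 <|
  .u 2 636563326800 <|
  .u 4 421182937155 <|
  .u 3 27181291635 <|
  .u 5 421066405185 <|
  .u 5 416771437890 <|
  .c 5 654568600080))))))))
  (.u 3 447239910720 <|
  .u 3 447223133505 <|
  .u 3 446954698050 <|
  .c 5 654568600080))
  (.u 3 374225471040 <|
  .u 3 374208693825 <|
  .u 3 373940258370 <|
  .c 5 650023023120))
  (.u 3 576088929600 <|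
  .u 3 576072152385 <|
  .u 3 575803716930 <|
  .c 5 654568600080))
  (.u 3 571793962560 <|
  .u 3 571777185345 <|
  .u 3 571508749890 <|
  .c 5 654301213200))
  (.u 3 498779522640 <|
  .u 3 498762745425 <|
  .u 3 498494309970 <|
  .c 5 649754653200))))))))))))))))))))))

/-- literals assumed false at the root (their negations hold) -/
def roots : List ℕ := [1039, 560, 608, 704, 896, 784, 1543]

def M0 : ℕ := roots.foldl (fun m v => m ||| 2 ^ (2 * v + 1)) 0

theorem run_cert1 : run M0 cert1 = true := by decide +kernel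

theorem Inv_foldl {β : ℕ → Prop} (L : List ℕ) (M : ℕ) (h : Inv β M) (hL : ∀ v ∈ L, β v) :
    Inv β (L.foldl (fun m v => m ||| 2 ^ (2 * v + 1)) M) := by
  induction L generalizing M with
  | nil => exact h
  | cons a L ih =>
    rw [List.foldl_cons]
    refine ih _ (h.or ?_) (fun v hv => hL v (List.mem_cons_of_mem _ hv))
    unfold Tr
    have h4 : (2 * a + 1) / 2 = a := by omega
    have := hL a List.mem_cons_self
    simp [h4, this]

theorem core (H : TFacts R F) (e : Equiv.Perm (Fin 10))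
    (h0 : F {e 0, e 1, e 2, e 3}) (h1 : R {e 9, e 4, e 5}) (h2 : R {e 9, e 5, e 6})
    (h3 : R {e 9, e 6, e 7}) (h4 : R {e 9, e 7, e 8}) (h5 : R {e 9, e 8, e 4})
    (h6 : F {e 0, e 1, e 2, e 9}) : False := by
  refine sound (val R F e) (fun k p hp => clause_sat H k p hp) cert1 M0 run_cert1 ?_
  refine Inv_foldl roots 0 ?_ ?_
  · intro l hl
    simp at hl
  · have s1 : toS 1039 = {0, 1, 2, 3} := by decide
    have s2 : toS 560 = {9, 4, 5} := by decide
    have s3 : toS 608 = {9, 5, 6} := by decide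
    have s4 : toS 704 = {9, 6, 7} := by decide
    have s5 : toS 896 = {9, 7, 8} := by decide
    have s6 : toS 784 = {9, 8, 4} := by decide
    have s7 : toS 1543 = {0, 1, 2, 9} := by decide
    intro v hv
    simp only [roots, List.mem_cons, List.not_mem_nil, or_false] at hv
    unfold val
    rcases hv with rfl | rfl | rfl | rfl | rfl | rfl | rfl
    · rw [if_pos (by decide), s1]; simpa only [Finset.image_insert, Finset.image_singleton] using h0
    · rw [if_neg (by decide), s2]; simpa only [Finset.image_insert, Finset.image_singleton] using h1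
    · rw [if_neg (by decide), s3]; simpa only [Finset.image_insert, Finset.image_singleton] using h2
    · rw [if_neg (by decide), s4]; simpa only [Finset.image_insert, Finset.image_singleton] using h3
    · rw [if_neg (by decide), s5]; simpa only [Finset.image_insert, Finset.image_singleton] using h4
    · rw [if_neg (by decide), s6]; simpa only [Finset.image_insert, Finset.image_singleton] using h5
    · rw [if_pos (by decide), s7]; simpa only [Finset.image_insert, Finset.image_singleton] using h6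

open Finset

open scoped Classical in
theorem deg_h4 {R : Finset (Fin 10) → Prop} {S : Finset (Fin 10)} (hS : S.card = 4)
    (hdeg : ∀ a ∈ Sᶜ, ∀ b ∈ Sᶜ, a ≠ b → ((Sᶜ \ {a, b}).filter (fun k => R {a, b, k})).card = 2) :
    ∀ a ∈ Sᶜ, ∀ b ∈ Sᶜ, a ≠ b → ∀ x ∈ Sᶜ \ {a, b}, ∀ y ∈ Sᶜ \ {a, b}, ∀ z ∈ Sᶜ \ {a, b},
      x ≠ y → x ≠ z → y ≠ z →
      (R {a, b, x} ∨ R {a, b, y} ∨ R {a, b, z}) ∧
        ¬ (R {a, b, x} ∧ R {a, b, y} ∧ R {a, b, z}) := by
  intro a ha b hb hab x hx y hy z hz hxy hxz hyz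
  have h2 := hdeg a ha b hb hab
  have hsub : ({a, b} : Finset (Fin 10)) ⊆ Sᶜ := by
    intro v hv
    simp only [mem_insert, mem_singleton] at hv
    rcases hv with rfl | rfl <;> assumption
  have hc4 : (Sᶜ \ {a, b}).card = 4 := by
    rw [card_sdiff_of_subset hsub, card_compl, Fintype.card_fin, hS, card_pair hab]
  have h3 : ({x, y, z} : Finset (Fin 10)).card = 3 :=
    card_eq_three.mpr ⟨x, y, z, hxy, hxz, hyz, rfl⟩
  have h3s : ({x, y, z} : Finset (Fin 10)) ⊆ Sᶜ \ {a, b} := by
    intro v hv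
    simp only [mem_insert, mem_singleton] at hv
    rcases hv with rfl | rfl | rfl <;> assumption
  constructor
  · by_contra hno
    push Not at hno
    have hs : (Sᶜ \ {a, b}).filter (fun k => R {a, b, k}) ⊆ (Sᶜ \ {a, b}) \ {x, y, z} := by
      intro v hv
      rw [mem_filter] at hv
      rw [mem_sdiff]
      refine ⟨hv.1, ?_⟩
      intro hv'
      simp only [mem_insert, mem_singleton] at hv'
      rcases hv' with rfl | rfl | rfl
      · exact hno.1 hv.2
      · exact hno.2.1 hv.2
      · exact hno.2.2 hv.2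
    have := card_le_card hs
    rw [h2, card_sdiff_of_subset h3s, hc4, h3] at this
    omega
  · rintro ⟨p1, p2, p3⟩
    have hs : ({x, y, z} : Finset (Fin 10)) ⊆ (Sᶜ \ {a, b}).filter (fun k => R {a, b, k}) := by
      intro v hv
      rw [mem_filter]
      refine ⟨h3s hv, ?_⟩
      simp only [mem_insert, mem_singleton] at hv
      rcases hv with rfl | rfl | rfl <;> assumption
    have := card_le_card hs
    rw [h2, h3] at this
    omega

open scoped Classical in
theorem tfacts {R F : Finset (Fin 10) → Prop}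
    (sub : ∀ s : Finset (Fin 10), s.card = 4 → F s → ∀ t ⊆ s, t.card = 3 → R t)
    (comp : ∀ s : Finset (Fin 10), s.card = 4 → F s → ∀ t ⊆ sᶜ, t.card = 3 →
      (R t ↔ ¬ R (sᶜ \ t)))
    (deg : ∀ s : Finset (Fin 10), s.card = 4 → F s → ∀ a ∈ sᶜ, ∀ b ∈ sᶜ, a ≠ b →
      ((sᶜ \ {a, b}).filter (fun k => R {a, b, k})).card = 2)
    (ext : ∀ s : Finset (Fin 10), s.card = 4 → F s → ∀ t ⊆ sᶜ, t.card = 3 → R t →
      ∃ m ∉ t, F (insert m t)) : TFacts R F := by
  have key : ∀ g : Fin 10 → Fin 10, Function.Bijective g →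
      ({g 0, g 1, g 2, g 3} : Finset (Fin 10)).card = 4 ∧
      ({g 0, g 1, g 2} : Finset (Fin 10)).card = 3 ∧
      ({g 4, g 5, g 6} : Finset (Fin 10)).card = 3 ∧
      ({g 0, g 1, g 2, g 3} : Finset (Fin 10))ᶜ = ({4, 5, 6, 7, 8, 9} : Finset (Fin 10)).image g ∧
      ({g 4, g 5, g 6} : Finset (Fin 10)) ⊆ ({g 0, g 1, g 2, g 3} : Finset (Fin 10))ᶜ ∧
      ({g 0, g 1, g 2, g 3} : Finset (Fin 10))ᶜ \ {g 4, g 5, g 6} = {g 7, g 8, g 9} := by
    intro g hg
    have e4 : ({g 0, g 1, g 2, g 3} : Finset (Fin 10)) = ({0, 1, 2, 3} : Finset (Fin 10)).image g := by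
      simp only [image_insert, image_singleton]
    have e3 : ({g 0, g 1, g 2} : Finset (Fin 10)) = ({0, 1, 2} : Finset (Fin 10)).image g := by
      simp only [image_insert, image_singleton]
    have e3' : ({g 4, g 5, g 6} : Finset (Fin 10)) = ({4, 5, 6} : Finset (Fin 10)).image g := by
      simp only [image_insert, image_singleton]
    have e3'' : ({g 7, g 8, g 9} : Finset (Fin 10)) = ({7, 8, 9} : Finset (Fin 10)).image g := by
      simp only [image_insert, image_singleton]
    have hc : ({g 0, g 1, g 2, g 3} : Finset (Fin 10))ᶜ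
        = ({4, 5, 6, 7, 8, 9} : Finset (Fin 10)).image g := by
      rw [e4]
      ext x
      obtain ⟨j, rfl⟩ := hg.2 x
      rw [mem_compl, hg.1.mem_finset_image, hg.1.mem_finset_image]
      revert j; decide
    refine ⟨?_, ?_, ?_, hc, ?_, ?_⟩
    · rw [e4, card_image_of_injective _ hg.1]; decide
    · rw [e3, card_image_of_injective _ hg.1]; decide
    · rw [e3', card_image_of_injective _ hg.1]; decide
    · rw [hc, e3']
      exact image_subset_image (by decide)
    · rw [hc, e3', e3'']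
      ext x
      obtain ⟨j, rfl⟩ := hg.2 x
      rw [mem_sdiff, hg.1.mem_finset_image, hg.1.mem_finset_image, hg.1.mem_finset_image]
      revert j; decide
  have mem : ∀ g : Fin 10 → Fin 10, Function.Bijective g → ∀ j : Fin 10, (4 : Fin 10) ≤ j →
      g j ∈ ({g 0, g 1, g 2, g 3} : Finset (Fin 10))ᶜ := by
    intro g hg j hj
    rw [(key g hg).2.2.2.1, hg.1.mem_finset_image]
    revert j; decide
  have mem2 : ∀ g : Fin 10 → Fin 10, Function.Bijective g → ∀ j : Fin 10, (6 : Fin 10) ≤ j →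
      g j ∈ ({g 0, g 1, g 2, g 3} : Finset (Fin 10))ᶜ \ {g 4, g 5} := by
    intro g hg j hj
    have e2 : ({g 4, g 5} : Finset (Fin 10)) = ({4, 5} : Finset (Fin 10)).image g := by
      simp only [image_insert, image_singleton]
    rw [mem_sdiff, (key g hg).2.2.2.1, e2, hg.1.mem_finset_image, hg.1.mem_finset_image]
    revert j; decide
  have ne : ∀ g : Fin 10 → Fin 10, Function.Bijective g → ∀ i j : Fin 10, i ≠ j → g i ≠ g j :=
    fun g hg i j hij h => hij (hg.1 h)
  constructor
  · intro g hg hF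
    obtain ⟨c1, c2, -⟩ := key g hg
    refine sub _ c1 hF _ ?_ c2
    intro x hx
    simp only [mem_insert, mem_singleton] at hx ⊢
    rcases hx with h | h | h
    · exact Or.inl h
    · exact Or.inr (Or.inl h)
    · exact Or.inr (Or.inr (Or.inl h))
  · intro g hg hF
    obtain ⟨c1, -, c3, -, c5, c6⟩ := key g hg
    have := comp _ c1 hF _ c5 c3
    rw [c6] at this
    by_cases h : R {g 7, g 8, g 9}
    · exact Or.inr h
    · exact Or.inl (this.mpr h)
  · intro g hg hF
    obtain ⟨c1, -, c3, -, c5, c6⟩ := key g hg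
    have := comp _ c1 hF _ c5 c3
    rw [c6] at this
    exact fun h => this.mp h.1 h.2
  · intro g hg hF
    obtain ⟨c1, -⟩ := key g hg
    exact (deg_h4 c1 (deg _ c1 hF) (g 4) (mem g hg 4 (by decide)) (g 5) (mem g hg 5 (by decide))
      (ne g hg 4 5 (by decide)) (g 6) (mem2 g hg 6 (by decide)) (g 7) (mem2 g hg 7 (by decide))
      (g 8) (mem2 g hg 8 (by decide)) (ne g hg 6 7 (by decide)) (ne g hg 6 8 (by decide))
      (ne g hg 7 8 (by decide))).1
  · intro g hg hF
    obtain ⟨c1, -⟩ := key g hg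
    exact (deg_h4 c1 (deg _ c1 hF) (g 4) (mem g hg 4 (by decide)) (g 5) (mem g hg 5 (by decide))
      (ne g hg 4 5 (by decide)) (g 6) (mem2 g hg 6 (by decide)) (g 7) (mem2 g hg 7 (by decide))
      (g 8) (mem2 g hg 8 (by decide)) (ne g hg 6 7 (by decide)) (ne g hg 6 8 (by decide))
      (ne g hg 7 8 (by decide))).2
  · intro g hg hF hR
    obtain ⟨c1, -, c3, -, c5, -⟩ := key g hg
    obtain ⟨m, hm, hFm⟩ := ext _ c1 hF _ c5 c3 hR
    exact ⟨m, hm, hFm⟩

open scoped Classical in
/-- **Finite end game**, certificate form. -/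
theorem END (R F : Finset (Fin 10) → Prop)
    (sub : ∀ s : Finset (Fin 10), s.card = 4 → F s → ∀ t ⊆ s, t.card = 3 → R t)
    (comp : ∀ s : Finset (Fin 10), s.card = 4 → F s → ∀ t ⊆ sᶜ, t.card = 3 →
      (R t ↔ ¬ R (sᶜ \ t)))
    (deg : ∀ s : Finset (Fin 10), s.card = 4 → F s → ∀ a ∈ sᶜ, ∀ b ∈ sᶜ, a ≠ b →
      ((sᶜ \ {a, b}).filter (fun k => R {a, b, k})).card = 2)
    (ext : ∀ s : Finset (Fin 10), s.card = 4 → F s → ∀ t ⊆ sᶜ, t.card = 3 → R t →
      ∃ m ∉ t, F (insert m t))
    (adj : ∃ (u : Finset (Fin 10)) (k l : Fin 10), u.card = 3 ∧ k ∉ u ∧ l ∉ u ∧ k ≠ l ∧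
      F (insert k u) ∧ F (insert l u)) : False := by
  obtain ⟨u, k, l, hu, hk, hl, hkl, hFk, hFl⟩ := adj
  have hS : (insert k u).card = 4 := by rw [card_insert_of_notMem hk, hu]
  have hlS : l ∈ (insert k u)ᶜ := by
    simp only [mem_compl, mem_insert, not_or]; exact ⟨Ne.symm hkl, hl⟩
  obtain ⟨e, e3, e9, hSe, r1, r2, r3, r4, r5⟩ := relabel R (insert k u) hS
    (mem_insert_self k u) hlS (deg_h4 hS (deg _ hS hFk))
  have hu' : u = {e 0, e 1, e 2} := by
    have h1 : u = (insert k u).erase k := by rw [erase_insert hk]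
    rw [h1, hSe, ← e3]
    have i : Function.Injective e := e.injective
    ext x
    obtain ⟨j, rfl⟩ := e.surjective x
    simp only [mem_erase, mem_insert, mem_singleton, i.eq_iff, ne_eq]
    revert j; decide
  refine core (tfacts sub comp deg ext) e (by rw [← hSe]; exact hFk) r1 r2 r3 r4 r5 ?_
  rw [hu', ← e9] at hFl
  have : ({e 0, e 1, e 2, e 9} : Finset (Fin 10)) = insert (e 9) {e 0, e 1, e 2} := by
    ext x
    simp only [mem_insert, mem_singleton]
    tauto
  rw [this]; exact hFl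

end Crest.Agent.S69.Tree
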